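import Mathlib

-- ▼ part R097/TEl
section

/-!
# Row 97: elimination of the third derivatives (one direction `k`)
-/

set_option autoImplicit false
open Finset

namespace Crest.Agent.R097.TEl

variable {n : ℕ}

/-- the block form of direction `k`: `t_k² + 3 ∑_{i≠k} t_i²` -/
noncomputable def G3 (k : Fin n) (t : Fin n → ℝ) : ℝ := 3 * ∑ i, t i ^ 2 - 2 * t k ^ 2

/-- power sums -/
noncomputable def ps (l : Fin n → ℝ) (j : ℕ) : ℝ := ∑ i, l i ^ j

/-- entries of the Gram matrix, `x = λ_k`, `a = P₂`, `c = P₃`, `p4 = P₄` -/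
noncomputable def K11 (n : ℕ) (x a : ℝ) : ℝ := (a + 2 * n * x ^ 2 / (n + 2)) / 3
noncomputable def K12 (n : ℕ) (x a c : ℝ) : ℝ := (c - 2 * a * x / (n + 2) + 2 * n * x ^ 3 / (n + 2)) / 3
noncomputable def K22 (n : ℕ) (x a p4 : ℝ) : ℝ :=
  (p4 - 2 * x ^ 2 * a + n * x ^ 4 - (a - n * x ^ 2) ^ 2 / (n + 2)) / 3

/-- completion of the square -/
theorem G3_ge (k : Fin n) (t v : Fin n → ℝ) (ht : ∑ i, t i = 0) :
    2 * ∑ i, v i * t i - (∑ i, (v i - v k) ^ 2 - (∑ i, (v i - v k)) ^ 2 / (n + 2)) / 3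
      ≤ G3 k t := by
  have hn : (0:ℝ) < (n:ℝ) + 2 := by positivity
  set U : ℝ := ∑ i, (v i - v k) with hU
  set S2 : ℝ := ∑ i, (v i - v k) ^ 2 with hS2
  set V : ℝ := ∑ i, v i * t i with hV
  set T2 : ℝ := ∑ i, t i ^ 2 with hT2
  have h1 : ∑ i, (v i - v k) * t i = V := by
    have : ∑ i, (v i - v k) * t i = V - v k * ∑ i, t i := by
      rw [hV, mul_sum, ← sum_sub_distrib]
      exact sum_congr rfl fun i _ => by ring
    rw [this, ht]; ring
  -- the minimiser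
  set r : Fin n → ℝ := fun i => ((v i - v k) - U / (n + 2)) / 3 with hr
  have h2 : 0 ≤ ∑ i ∈ univ.erase k, (t i - r i) ^ 2 := sum_nonneg fun i _ => sq_nonneg _
  have h3 : ∑ i ∈ univ.erase k, (t i - r i) ^ 2 = ∑ i, (t i - r i) ^ 2 - (t k - r k) ^ 2 := by
    rw [← add_sum_erase univ (fun i => (t i - r i) ^ 2) (mem_univ k)]; ring
  have hcard : ∑ _i : Fin n, (1:ℝ) = n := by simp
  have hrk : r k = -(U / (n + 2)) / 3 := by rw [hr]; ring
  have h4 : ∑ i, (t i - r i) ^ 2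
      = T2 - (2 / 3) * V + (S2 - 2 * (U / (n + 2)) * U + n * (U / (n + 2)) ^ 2) / 9 := by
    have e : ∀ i, (t i - r i) ^ 2 = t i ^ 2 - (2 / 3) * ((v i - v k) * t i)
        + (2 / 3) * (U / (n + 2)) * t i
        + ((v i - v k) ^ 2 - 2 * (U / (n + 2)) * (v i - v k) + (U / (n + 2)) ^ 2 * 1) / 9 := by
      intro i; rw [hr]; ring
    rw [sum_congr rfl fun i _ => e i]
    rw [sum_add_distrib, sum_add_distrib, sum_sub_distrib, ← mul_sum, ← mul_sum, ← sum_div,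
      sum_add_distrib, sum_sub_distrib, ← mul_sum, ← mul_sum, h1, ht, hcard]
    ring
  have hsr : ∑ i ∈ univ.erase k, t i = - t k := by
    have := add_sum_erase univ t (mem_univ k)
    linarith
  -- expand
  have key : G3 k t - (2 * V - (S2 - U ^ 2 / (n + 2)) / 3)
      = 3 * (∑ i, (t i - r i) ^ 2 - (t k - r k) ^ 2) + (-(t k) - U / (n + 2)) ^ 2 := by
    rw [h4, hrk, G3]
    field_simp
    ring
  have h5 : 0 ≤ (-(t k) - U / (n + 2)) ^ 2 := sq_nonneg _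
  rw [h3] at h2
  linarith

/-- elimination: lower bound of the block form through `τ₁ = ∑ λᵢ tᵢ`, `τ₂ = ∑ λᵢ² tᵢ` -/
theorem G3_ge' (k : Fin n) (t l : Fin n → ℝ) (ht : ∑ i, t i = 0) (hl : ∑ i, l i = 0) (α β : ℝ) :
    2 * (α * ∑ i, l i * t i + β * ∑ i, l i ^ 2 * t i)
      - (α ^ 2 * K11 n (l k) (ps l 2) + 2 * α * β * K12 n (l k) (ps l 2) (ps l 3)
          + β ^ 2 * K22 n (l k) (ps l 2) (ps l 4)) ≤ G3 k t := by
  have hn : (0:ℝ) < (n:ℝ) + 2 := by positivity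
  have h := G3_ge k t (fun i => α * l i + β * l i ^ 2) ht
  have hcard : ∑ _i : Fin n, (1:ℝ) = n := by simp
  have e1 : ∑ i, (α * l i + β * l i ^ 2) * t i
      = α * ∑ i, l i * t i + β * ∑ i, l i ^ 2 * t i := by
    rw [mul_sum, mul_sum, ← sum_add_distrib]
    exact sum_congr rfl fun i _ => by ring
  have e2 : ∑ i, (α * l i + β * l i ^ 2 - (α * l k + β * l k ^ 2))
      = β * ps l 2 - n * (α * l k + β * l k ^ 2) := by
    have : ∀ i, (α * l i + β * l i ^ 2 - (α * l k + β * l k ^ 2))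
        = α * l i + β * l i ^ 2 - (α * l k + β * l k ^ 2) * 1 := fun i => by ring
    rw [sum_congr rfl fun i _ => this i, sum_sub_distrib, sum_add_distrib, ← mul_sum, ← mul_sum,
      ← mul_sum, hl, hcard, ps]
    ring
  have e3 : ∑ i, (α * l i + β * l i ^ 2 - (α * l k + β * l k ^ 2)) ^ 2
      = α ^ 2 * ps l 2 + 2 * α * β * ps l 3 + β ^ 2 * ps l 4
        - 2 * (α * l k + β * l k ^ 2) * (β * ps l 2) + n * (α * l k + β * l k ^ 2) ^ 2 := by
    have : ∀ i, (α * l i + β * l i ^ 2 - (α * l k + β * l k ^ 2)) ^ 2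
        = α ^ 2 * l i ^ 2 + 2 * α * β * l i ^ 3 + β ^ 2 * l i ^ 4
          - 2 * (α * l k + β * l k ^ 2) * α * l i - 2 * (α * l k + β * l k ^ 2) * β * l i ^ 2
          + (α * l k + β * l k ^ 2) ^ 2 * 1 := fun i => by ring
    rw [sum_congr rfl fun i _ => this i]
    simp only [sum_add_distrib, sum_sub_distrib, ← mul_sum]
    rw [hl, hcard]
    simp only [ps]
    ring
  simp only [e1, e2, e3] at h
  refine le_trans (le_of_eq ?_) h
  rw [K11, K12, K22]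
  field_simp
  ring

end Crest.Agent.R097.TEl
end

-- ▼ part R097/TEl2

/-!
# Row 97: one block of the certificate inequality from diagonal dominance

Everything is at the level of real numbers.  `Base` are the base quantities of one block
(values of polynomials at a state), `r = √q`.
-/

set_option autoImplicit false
open Finset

namespace Crest.Agent.R097.TEl

/-- values of the 14 base polynomials at a state -/
structure Base where
  /-- `γ` -/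
  g : ℝ
  /-- `γ K₁₁` -/
  k11 : ℝ
  /-- `γ K₁₂` -/
  k12 : ℝ
  /-- `γ K₂₂` -/
  k22 : ℝ
  /-- zero order term -/
  C0 : ℝ
  /-- zero order term with factor `q` -/
  Ck : ℝ
  /-- coefficient of `√q s₀ τ₁` -/
  L1 : ℝ
  /-- coefficient of `√q s₀ τ₂` -/
  L2 : ℝ
  /-- coefficient of `√q s₀ w` -/
  Lw : ℝ
  /-- coefficient of `τ₁²` -/
  A11 : ℝ
  /-- coefficient of `τ₁ τ₂` -/
  A12 : ℝ
  /-- coefficient of `w τ₁` -/
  W1 : ℝ
  /-- coefficient of `w τ₂` -/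
  W2 : ℝ
  /-- `ψ` -/
  psi : ℝ

/-- constants stored in a leaf: multiplier `S` (`2 × 4`), shift `b`, congruence `P`, weight `m` -/
structure Leaf where
  /-- first row of the multiplier -/
  (a0 a1 a2 a3 : ℝ)
  /-- second row of the multiplier -/
  (b0 b1 b2 b3 : ℝ)
  /-- shift -/
  (h1 h2 h3 : ℝ)
  /-- rows of the congruence matrix -/
  (p11 p12 p13 p21 p22 p23 p31 p32 p33 : ℝ)
  /-- weight -/
  m : ℝ

namespace Leaf

variable (c : Leaf) (B : Base)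

/-- `2 (S_i)ᵀ (γK) S_j` from the columns -/
def SKS (B : Base) (x y x' y' : ℝ) : ℝ := 2 * (x * x' * B.k11 + (x * y' + y * x') * B.k12 + y * y' * B.k22)

/-- doubled entries of the form after the multiplier: coefficient `2D` of `q s₀²` -/
def D : ℝ := 2 * B.Ck - SKS B c.a0 c.b0 c.a0 c.b0
/-- `2ℓ₁` -/
def e1 : ℝ := B.L1 + 2 * B.g * c.a0 - SKS B c.a0 c.b0 c.a1 c.b1
/-- `2ℓ₂` -/
def e2 : ℝ := B.L2 + 2 * B.g * c.b0 - SKS B c.a0 c.b0 c.a2 c.b2
/-- `2ℓ₃` -/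
def e3 : ℝ := B.Lw - SKS B c.a0 c.b0 c.a3 c.b3
/-- `2R₁₁` -/
def r11 : ℝ := 2 * B.A11 + 4 * B.g * c.a1 - SKS B c.a1 c.b1 c.a1 c.b1
/-- `2R₂₂` -/
def r22 : ℝ := 4 * B.g * c.b2 - SKS B c.a2 c.b2 c.a2 c.b2
/-- `2R₃₃` -/
def r33 : ℝ := 2 * B.psi - SKS B c.a3 c.b3 c.a3 c.b3
/-- `2R₁₂` -/
def r12 : ℝ := B.A12 + 2 * B.g * (c.a2 + c.b1) - SKS B c.a1 c.b1 c.a2 c.b2
/-- `2R₁₃` -/
def r13 : ℝ := B.W1 + 2 * B.g * c.a3 - SKS B c.a1 c.b1 c.a3 c.b3
/-- `2R₂₃` -/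
def r23 : ℝ := B.W2 + 2 * B.g * c.b3 - SKS B c.a2 c.b2 c.a3 c.b3

/-- `2 (R h)_i` -/
def Rh1 : ℝ := c.r11 B * c.h1 + c.r12 B * c.h2 + c.r13 B * c.h3
/-- second component -/
def Rh2 : ℝ := c.r12 B * c.h1 + c.r22 B * c.h2 + c.r23 B * c.h3
/-- third component -/
def Rh3 : ℝ := c.r13 B * c.h1 + c.r23 B * c.h2 + c.r33 B * c.h3

/-- `2 (ℓ + R h)` -/
def f1 : ℝ := c.e1 B + c.Rh1 B
/-- second component -/
def f2 : ℝ := c.e2 B + c.Rh2 B
/-- third component -/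
def f3 : ℝ := c.e3 B + c.Rh3 B

/-- the doubled coefficient of `q s₀²` after the shift -/
def D' : ℝ := c.D B + (c.h1 * (c.e1 B + c.f1 B) + c.h2 * (c.e2 B + c.f2 B) + c.h3 * (c.e3 B + c.f3 B))

/-- `2 l'` -/
def l1 : ℝ := c.p11 * c.f1 B + c.p21 * c.f2 B + c.p31 * c.f3 B
/-- second component -/
def l2 : ℝ := c.p12 * c.f1 B + c.p22 * c.f2 B + c.p32 * c.f3 B
/-- third component -/
def l3 : ℝ := c.p13 * c.f1 B + c.p23 * c.f2 B + c.p33 * c.f3 B

/-- the doubled bilinear form `2 xᵀ R y` -/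
def bil (x1 x2 x3 y1 y2 y3 : ℝ) : ℝ :=
  x1 * (c.r11 B * y1 + c.r12 B * y2 + c.r13 B * y3)
    + x2 * (c.r12 B * y1 + c.r22 B * y2 + c.r23 B * y3)
    + x3 * (c.r13 B * y1 + c.r23 B * y2 + c.r33 B * y3)

/-- entries of `2 Pᵀ R P` -/
def q11 : ℝ := c.bil B c.p11 c.p21 c.p31 c.p11 c.p21 c.p31
/-- entry -/
def q22 : ℝ := c.bil B c.p12 c.p22 c.p32 c.p12 c.p22 c.p32
/-- entry -/
def q33 : ℝ := c.bil B c.p13 c.p23 c.p33 c.p13 c.p23 c.p33
/-- entry -/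
def q12 : ℝ := c.bil B c.p11 c.p21 c.p31 c.p12 c.p22 c.p32
/-- entry -/
def q13 : ℝ := c.bil B c.p11 c.p21 c.p31 c.p13 c.p23 c.p33
/-- entry -/
def q23 : ℝ := c.bil B c.p12 c.p22 c.p32 c.p13 c.p23 c.p33

/-- determinant of the congruence matrix -/
def det : ℝ := c.p11 * (c.p22 * c.p33 - c.p23 * c.p32) - c.p12 * (c.p21 * c.p33 - c.p23 * c.p31)
  + c.p13 * (c.p21 * c.p32 - c.p22 * c.p31)

/-- the dominance conditions -/
structure OK (q : ℝ) : Prop where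
  /-- positivity of the weight -/
  hm : 0 < c.m
  /-- the matrix is invertible -/
  hdet : c.det ≠ 0
  /-- condition (a) -/
  ha : |c.l1 B| + |c.l2 B| + |c.l3 B| ≤ c.m * (2 * B.C0 + q * c.D' B)
  /-- condition (b), row 1 -/
  hb1 : q * c.m * |c.l1 B| + |c.q12 B| + |c.q13 B| ≤ c.q11 B
  /-- condition (b), row 2 -/
  hb2 : q * c.m * |c.l2 B| + |c.q12 B| + |c.q23 B| ≤ c.q22 B
  /-- condition (b), row 3 -/
  hb3 : q * c.m * |c.l3 B| + |c.q13 B| + |c.q23 B| ≤ c.q33 B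

end Leaf

/-- the block form in the variables `(s₀, τ₁, τ₂, w)` plus the `T`-form value `Gt` -/
def Fb (B : Base) (r s0 x y w Gt : ℝ) : ℝ :=
  B.C0 * s0 ^ 2 + r ^ 2 * B.Ck * s0 ^ 2 + r * s0 * (B.L1 * x + B.L2 * y + B.Lw * w)
    + Gt + B.A11 * x ^ 2 + B.A12 * x * y + w * (B.W1 * x + B.W2 * y) + B.psi * w ^ 2

/-- a dominance lemma for three variables -/
theorem dom3 {c0 l1 l2 l3 r11 r22 r33 r12 r13 r23 m r : ℝ} (hm : 0 < m)
    (ha : |l1| + |l2| + |l3| ≤ m * c0)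
    (hb1 : r ^ 2 * m * |l1| + |r12| + |r13| ≤ r11)
    (hb2 : r ^ 2 * m * |l2| + |r12| + |r23| ≤ r22)
    (hb3 : r ^ 2 * m * |l3| + |r13| + |r23| ≤ r33) (s x y z : ℝ) :
    0 ≤ c0 * s ^ 2 + 2 * (r * s) * (l1 * x + l2 * y + l3 * z)
      + (r11 * x ^ 2 + r22 * y ^ 2 + r33 * z ^ 2 + 2 * r12 * x * y + 2 * r13 * x * z
        + 2 * r23 * y * z) := by
  have cross : ∀ l u : ℝ, -(|l| * (s ^ 2 / m + r ^ 2 * m * u ^ 2)) ≤ 2 * (r * s) * (l * u) := by
    intro l u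
    have h1 : -(s ^ 2 / m + r ^ 2 * m * u ^ 2) ≤ 2 * (r * s) * u ∧
        2 * (r * s) * u ≤ s ^ 2 / m + r ^ 2 * m * u ^ 2 := by
      have h2 : 0 ≤ (s + m * (r * u)) ^ 2 / m := by positivity
      have h3 : 0 ≤ (s - m * (r * u)) ^ 2 / m := by positivity
      have e2 : (s + m * (r * u)) ^ 2 / m = s ^ 2 / m + 2 * (r * s) * u + r ^ 2 * m * u ^ 2 := by
        field_simp; ring
      have e3 : (s - m * (r * u)) ^ 2 / m = s ^ 2 / m - 2 * (r * s) * u + r ^ 2 * m * u ^ 2 := by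
        field_simp; ring
      rw [e2] at h2; rw [e3] at h3
      constructor <;> linarith
    have h4 : |2 * (r * s) * u| ≤ s ^ 2 / m + r ^ 2 * m * u ^ 2 := abs_le.2 h1
    have h5 : |2 * (r * s) * (l * u)| = |l| * |2 * (r * s) * u| := by
      rw [← abs_mul]; congr 1; ring
    have h6 := neg_abs_le (2 * (r * s) * (l * u))
    rw [h5] at h6
    have h7 := mul_le_mul_of_nonneg_left h4 (abs_nonneg l)
    linarith
  have prod : ∀ c u v : ℝ, -(|c| * (u ^ 2 + v ^ 2)) ≤ 2 * c * u * v := by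
    intro c u v
    have h4 : |2 * u * v| ≤ u ^ 2 + v ^ 2 := by
      rw [abs_le]; constructor <;> nlinarith [sq_nonneg (u + v), sq_nonneg (u - v)]
    have h5 : |2 * c * u * v| = |c| * |2 * u * v| := by
      rw [← abs_mul]; congr 1; ring
    have h6 := neg_abs_le (2 * c * u * v)
    rw [h5] at h6
    have h7 := mul_le_mul_of_nonneg_left h4 (abs_nonneg c)
    linarith
  have g1 := cross l1 x
  have g2 := cross l2 y
  have g3 := cross l3 z
  have k1 := prod r12 x y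
  have k2 := prod r13 x z
  have k3 := prod r23 y z
  have hs : (|l1| + |l2| + |l3|) * (s ^ 2 / m) ≤ c0 * s ^ 2 := by
    have : (|l1| + |l2| + |l3|) * (s ^ 2 / m) ≤ (m * c0) * (s ^ 2 / m) :=
      mul_le_mul_of_nonneg_right ha (by positivity)
    have e : (m * c0) * (s ^ 2 / m) = c0 * s ^ 2 := by field_simp
    linarith
  have m1 := mul_le_mul_of_nonneg_right hb1 (sq_nonneg x)
  have m2 := mul_le_mul_of_nonneg_right hb2 (sq_nonneg y)
  have m3 := mul_le_mul_of_nonneg_right hb3 (sq_nonneg z)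
  nlinarith

/-- the block form is non-negative as soon as the dominance conditions hold -/
theorem Fb_nonneg {B : Base} {c : Leaf} {r Gt : ℝ} (hOK : c.OK B (r ^ 2)) {s0 x y w : ℝ}
    (hG : ∀ α β : ℝ, 2 * B.g * (α * x + β * y) - (α ^ 2 * B.k11 + 2 * α * β * B.k12 + β ^ 2 * B.k22)
      ≤ Gt) : 0 ≤ Fb B r s0 x y w Gt := by
  -- coordinates
  have hd := hOK.hdet
  set u1 : ℝ := x - r * s0 * c.h1 with hu1
  set u2 : ℝ := y - r * s0 * c.h2 with hu2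
  set u3 : ℝ := w - r * s0 * c.h3 with hu3
  obtain ⟨y1, y2, y3, e1, e2, e3⟩ : ∃ y1 y2 y3 : ℝ,
      u1 = c.p11 * y1 + c.p12 * y2 + c.p13 * y3 ∧
      u2 = c.p21 * y1 + c.p22 * y2 + c.p23 * y3 ∧
      u3 = c.p31 * y1 + c.p32 * y2 + c.p33 * y3 := by
    refine ⟨((c.p22 * c.p33 - c.p23 * c.p32) * u1 + (c.p13 * c.p32 - c.p12 * c.p33) * u2
        + (c.p12 * c.p23 - c.p13 * c.p22) * u3) / c.det,
      ((c.p23 * c.p31 - c.p21 * c.p33) * u1 + (c.p11 * c.p33 - c.p13 * c.p31) * u2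
        + (c.p13 * c.p21 - c.p11 * c.p23) * u3) / c.det,
      ((c.p21 * c.p32 - c.p22 * c.p31) * u1 + (c.p12 * c.p31 - c.p11 * c.p32) * u2
        + (c.p11 * c.p22 - c.p12 * c.p21) * u3) / c.det, ?_, ?_, ?_⟩
    all_goals
      field_simp
      simp only [Leaf.det]
      ring
  have ex : x = c.p11 * y1 + c.p12 * y2 + c.p13 * y3 + r * s0 * c.h1 := by linarith
  have ey : y = c.p21 * y1 + c.p22 * y2 + c.p23 * y3 + r * s0 * c.h2 := by linarith
  have ew : w = c.p31 * y1 + c.p32 * y2 + c.p33 * y3 + r * s0 * c.h3 := by linarith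
  have h := hG (c.a0 * (r * s0) + c.a1 * x + c.a2 * y + c.a3 * w)
    (c.b0 * (r * s0) + c.b1 * x + c.b2 * y + c.b3 * w)
  have hdom := dom3 (r := r) hOK.hm hOK.ha hOK.hb1 hOK.hb2 hOK.hb3 s0 y1 y2 y3
  -- the form with the multiplier
  have step1 : 2 * Fb B r s0 x y w (2 * B.g * ((c.a0 * (r * s0) + c.a1 * x + c.a2 * y + c.a3 * w) * x
        + (c.b0 * (r * s0) + c.b1 * x + c.b2 * y + c.b3 * w) * y)
      - ((c.a0 * (r * s0) + c.a1 * x + c.a2 * y + c.a3 * w) ^ 2 * B.k11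
        + 2 * (c.a0 * (r * s0) + c.a1 * x + c.a2 * y + c.a3 * w)
          * (c.b0 * (r * s0) + c.b1 * x + c.b2 * y + c.b3 * w) * B.k12
        + (c.b0 * (r * s0) + c.b1 * x + c.b2 * y + c.b3 * w) ^ 2 * B.k22))
      = 2 * B.C0 * s0 ^ 2 + c.D B * (r * s0) ^ 2
        + 2 * (r * s0) * (c.e1 B * x + c.e2 B * y + c.e3 B * w)
        + (c.r11 B * x ^ 2 + c.r22 B * y ^ 2 + c.r33 B * w ^ 2 + 2 * c.r12 B * x * y
          + 2 * c.r13 B * x * w + 2 * c.r23 B * y * w) := by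
    simp only [Fb, Leaf.D, Leaf.e1, Leaf.e2, Leaf.e3, Leaf.r11, Leaf.r22, Leaf.r33, Leaf.r12,
      Leaf.r13, Leaf.r23, Leaf.SKS]
    ring
  have step2 : 2 * B.C0 * s0 ^ 2 + c.D B * (r * s0) ^ 2
        + 2 * (r * s0) * (c.e1 B * x + c.e2 B * y + c.e3 B * w)
        + (c.r11 B * x ^ 2 + c.r22 B * y ^ 2 + c.r33 B * w ^ 2 + 2 * c.r12 B * x * y
          + 2 * c.r13 B * x * w + 2 * c.r23 B * y * w)
      = (2 * B.C0 + r ^ 2 * c.D' B) * s0 ^ 2
        + 2 * (r * s0) * (c.l1 B * y1 + c.l2 B * y2 + c.l3 B * y3)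
        + (c.q11 B * y1 ^ 2 + c.q22 B * y2 ^ 2 + c.q33 B * y3 ^ 2 + 2 * c.q12 B * y1 * y2
          + 2 * c.q13 B * y1 * y3 + 2 * c.q23 B * y2 * y3) := by
    simp only [Leaf.D', Leaf.l1, Leaf.l2, Leaf.l3, Leaf.f1, Leaf.f2, Leaf.f3, Leaf.Rh1, Leaf.Rh2,
      Leaf.Rh3, Leaf.q11, Leaf.q22, Leaf.q33, Leaf.q12, Leaf.q13, Leaf.q23, Leaf.bil]
    generalize c.r11 B = R11
    generalize c.r22 B = R22
    generalize c.r33 B = R33
    generalize c.r12 B = R12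
    generalize c.r13 B = R13
    generalize c.r23 B = R23
    generalize c.e1 B = E1
    generalize c.e2 B = E2
    generalize c.e3 B = E3
    generalize c.D B = DD
    rw [ex, ey, ew]
    ring
  have step3 : Fb B r s0 x y w Gt = Fb B r s0 x y w (2 * B.g * ((c.a0 * (r * s0) + c.a1 * x + c.a2 * y + c.a3 * w) * x
        + (c.b0 * (r * s0) + c.b1 * x + c.b2 * y + c.b3 * w) * y)
      - ((c.a0 * (r * s0) + c.a1 * x + c.a2 * y + c.a3 * w) ^ 2 * B.k11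
        + 2 * (c.a0 * (r * s0) + c.a1 * x + c.a2 * y + c.a3 * w)
          * (c.b0 * (r * s0) + c.b1 * x + c.b2 * y + c.b3 * w) * B.k12
        + (c.b0 * (r * s0) + c.b1 * x + c.b2 * y + c.b3 * w) ^ 2 * B.k22))
      + (Gt - (2 * B.g * ((c.a0 * (r * s0) + c.a1 * x + c.a2 * y + c.a3 * w) * x
        + (c.b0 * (r * s0) + c.b1 * x + c.b2 * y + c.b3 * w) * y)
      - ((c.a0 * (r * s0) + c.a1 * x + c.a2 * y + c.a3 * w) ^ 2 * B.k11
        + 2 * (c.a0 * (r * s0) + c.a1 * x + c.a2 * y + c.a3 * w)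
          * (c.b0 * (r * s0) + c.b1 * x + c.b2 * y + c.b3 * w) * B.k12
        + (c.b0 * (r * s0) + c.b1 * x + c.b2 * y + c.b3 * w) ^ 2 * B.k22))) := by
    simp only [Fb]; ring
  rw [step3]
  rw [step2] at step1
  linarith

/-- `K₂₂` is monotone in `p₄` -/
theorem K22_mono {n : ℕ} {x a p p' : ℝ} (h : p ≤ p') : K22 n x a p ≤ K22 n x a p' := by
  unfold K22
  linarith

/-- BLOCK THEOREM: the dominance conditions at a state (with `p₄` replaced by any upper bound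
`p4' ≥ ∑ λᵢ⁴`) imply that the block form is non-negative for all `t` with `∑ tᵢ = 0`. -/
theorem block_nonneg {n : ℕ} (k : Fin n) (t l : Fin n → ℝ) (ht : ∑ i, t i = 0) (hl : ∑ i, l i = 0)
    {B : Base} {c : Leaf} {r p4' : ℝ} (hOK : c.OK B (r ^ 2)) (hg : 0 ≤ B.g)
    (hp : ps l 4 ≤ p4')
    (h11 : B.k11 = B.g * K11 n (l k) (ps l 2))
    (h12 : B.k12 = B.g * K12 n (l k) (ps l 2) (ps l 3))
    (h22 : B.k22 = B.g * K22 n (l k) (ps l 2) p4') (s0 w : ℝ) :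
    0 ≤ Fb B r s0 (∑ i, l i * t i) (∑ i, l i ^ 2 * t i) w (B.g * G3 k t) := by
  refine Fb_nonneg hOK fun α β => ?_
  have h := mul_le_mul_of_nonneg_left (G3_ge' k t l ht hl α β) hg
  have h' : B.g * (β ^ 2 * K22 n (l k) (ps l 2) (ps l 4))
      ≤ B.g * (β ^ 2 * K22 n (l k) (ps l 2) p4') :=
    mul_le_mul_of_nonneg_left (mul_le_mul_of_nonneg_left (K22_mono hp) (sq_nonneg β)) hg
  rw [h11, h12, h22]
  nlinarith





end Crest.Agent.R097.TEl
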