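import Crest.Agent.R097.RCert
import Crest.Agent.R097.TEl2

/-!
# Row 97: (PJ) of the certificate from the blocks

Everything is algebra: the state is `(lam, g, s)`, the third derivatives are `τ`.  Direction `k`
gives the block form `Fb (base …) √q s₀ τ₁ τ₂ w (γ G₃)`.
-/

set_option autoImplicit false
open Finset

namespace Crest.Agent.R097.TEl

variable {n : ℕ}

/-- the base quantities of direction `k`; `p4` is any upper bound of `∑ lam⁴` (it enters only
through `K₂₂`; the exact `∑ lam⁴` enters `C0` with the factor `y₃`) -/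
noncomputable def base (C : CertData) (Lam : ℝ) (lam g : Fin n → ℝ) (s : ℝ) (k : Fin n) (p4 : ℝ) :
    Base where
  g := C.ga.f (zv lam g s)
  k11 := C.ga.f (zv lam g s) * K11 n (lam k) (ps lam 2)
  k12 := C.ga.f (zv lam g s) * K12 n (lam k) (ps lam 2) (ps lam 3)
  k22 := C.ga.f (zv lam g s) * K22 n (lam k) (ps lam 2) p4
  C0 := C.ga.f (zv lam g s) * (n * ps lam 2) - n * s * C.y0.f (zv lam g s)
    + C.y1.f (zv lam g s) * ps lam 2 + C.y2.f (zv lam g s) * (ps lam 3 - s * ps lam 2)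
    + C.y3.f (zv lam g s) * (ps lam 4 - s * ps lam 3)
    - Lam * C.Z.f (zv lam g s)
  Ck := (2 * C.y0.d 2 (zv lam g s) * (lam k - s) + C.y0.d 3 (zv lam g s))
    + lam k * (2 * C.y1.d 2 (zv lam g s) * (lam k - s) + C.y1.d 3 (zv lam g s))
    + lam k ^ 2 * (2 * C.y2.d 2 (zv lam g s) * (lam k - s) + C.y2.d 3 (zv lam g s))
    + lam k ^ 3 * (2 * C.y3.d 2 (zv lam g s) * (lam k - s) + C.y3.d 3 (zv lam g s))
  L1 := 2 * C.ga.d 2 (zv lam g s) * (lam k - s) + C.ga.d 3 (zv lam g s)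
    + 2 * (C.y0.d 0 (zv lam g s) + lam k * C.y1.d 0 (zv lam g s)
      + lam k ^ 2 * C.y2.d 0 (zv lam g s) + lam k ^ 3 * C.y3.d 0 (zv lam g s))
    + C.y2.f (zv lam g s) + lam k * C.y3.f (zv lam g s)
  L2 := 3 * (C.y0.d 1 (zv lam g s) + lam k * C.y1.d 1 (zv lam g s)
      + lam k ^ 2 * C.y2.d 1 (zv lam g s) + lam k ^ 3 * C.y3.d 1 (zv lam g s))
    + C.y3.f (zv lam g s)
  Lw := 2 * C.Z.d 2 (zv lam g s) * (lam k - s) + C.Z.d 3 (zv lam g s)
  A11 := 2 * C.ga.d 0 (zv lam g s)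
  A12 := 3 * C.ga.d 1 (zv lam g s)
  W1 := 2 * C.Z.d 0 (zv lam g s)
  W2 := 3 * C.Z.d 1 (zv lam g s)
  psi := C.Z.f (zv lam g s)

/-- the full square dominates the three diagonals -/
theorem sum_sq_ge {τ : Fin n → Fin n → Fin n → ℝ} (h : STF τ) :
    ∑ k, G3 k (fun i => τ i i k) ≤ ∑ a, ∑ b, ∑ c, τ a b c ^ 2 := by
  have pt : ∀ a b c, ((if a = b then τ a b c ^ 2 else 0) + (if b = c then τ a b c ^ 2 else 0)
      + (if a = c then τ a b c ^ 2 else 0)
      - 2 * (if a = b then (if b = c then τ a b c ^ 2 else 0) else 0)) ≤ τ a b c ^ 2 := by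
    intro a b c
    have h0 := sq_nonneg (τ a b c)
    by_cases hab : a = b
    · subst hab
      by_cases hac : a = c
      · subst hac
        simp only [if_true]; linarith
      · simp only [if_true, if_neg hac]; linarith
    · by_cases hbc : b = c
      · subst hbc
        simp only [if_true, if_neg hab]; linarith
      · simp only [if_neg hab, if_neg hbc]
        by_cases hac : a = c
        · simp only [if_pos hac]; linarith
        · simp only [if_neg hac]; linarith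
  have hsum := sum_le_sum fun a (_ : a ∈ univ) => sum_le_sum fun b (_ : b ∈ univ) =>
    sum_le_sum fun c (_ : c ∈ univ) => pt a b c
  refine le_trans (le_of_eq ?_) hsum
  simp only [sum_sub_distrib, sum_add_distrib, ← mul_sum]
  have e1 : ∑ a, ∑ b, ∑ c, (if a = b then τ a b c ^ 2 else 0) = ∑ k, ∑ i, τ i i k ^ 2 := by
    rw [sum_comm]
    have : ∀ b, ∑ a, ∑ c, (if a = b then τ a b c ^ 2 else 0) = ∑ c, τ b b c ^ 2 := by
      intro b
      rw [sum_comm]
      refine sum_congr rfl fun c _ => ?_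
      simp
    rw [sum_congr rfl fun b _ => this b, sum_comm]
  have e2 : ∑ a, ∑ b, ∑ c, (if b = c then τ a b c ^ 2 else 0) = ∑ k, ∑ i, τ i i k ^ 2 := by
    refine sum_congr rfl fun a _ => ?_
    refine sum_congr rfl fun b _ => ?_
    rw [Finset.sum_ite_eq univ b (fun c => τ a b c ^ 2), if_pos (mem_univ _)]
    rw [h.s12 a b b, h.s23 b a b]
  have e3 : ∑ a, ∑ b, ∑ c, (if a = c then τ a b c ^ 2 else 0) = ∑ k, ∑ i, τ i i k ^ 2 := by
    rw [sum_comm]
    refine sum_congr rfl fun b _ => ?_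
    refine sum_congr rfl fun a _ => ?_
    rw [Finset.sum_ite_eq univ a (fun c => τ a b c ^ 2), if_pos (mem_univ _)]
    rw [h.s23 a b a]
  have e4 : ∑ a, ∑ b, ∑ c, (if a = b then (if b = c then τ a b c ^ 2 else 0) else 0)
      = ∑ k, τ k k k ^ 2 := by
    refine sum_congr rfl fun a _ => ?_
    rw [sum_eq_single a]
    · simp only [if_true]
      rw [Finset.sum_ite_eq univ a (fun c => τ a a c ^ 2), if_pos (mem_univ _)]
    · intro b _ hb
      simp [Ne.symm hb]
    · intro hh; exact absurd (mem_univ a) hh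
  rw [e1, e2, e3, e4]
  simp only [G3, sum_sub_distrib, ← mul_sum]
  ring

/-- the derivative in direction `k` through `τ₁, τ₂, g_k` -/
theorem D_eq (F : Coef) (lam g : Fin n → ℝ) (s : ℝ) (τ : Fin n → Fin n → Fin n → ℝ) (k : Fin n) :
    F.D lam g s τ k = 2 * F.d 0 (zv lam g s) * (∑ a, lam a * τ a a k)
      + 3 * F.d 1 (zv lam g s) * (∑ a, lam a ^ 2 * τ a a k)
      + (2 * F.d 2 (zv lam g s) * (lam k - s) + F.d 3 (zv lam g s)) * g k := by
  unfold Coef.D
  ring

/-- the key pointwise identity -/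
theorem block_eq (C : CertData) (Lam : ℝ) (lam g : Fin n → ℝ) (s : ℝ)
    (τ : Fin n → Fin n → Fin n → ℝ) (k : Fin n) (p4 r s0 : ℝ) (hr : r * s0 = g k)
    (hZ : 0 < C.Z.f (zv lam g s)) :
    Fb (base C Lam lam g s k p4) r s0 (∑ a, lam a * τ a a k) (∑ a, lam a ^ 2 * τ a a k)
      (-(C.Z.D lam g s τ k) / (2 * C.Z.f (zv lam g s)))
      (C.ga.f (zv lam g s) * G3 k (fun i => τ i i k))
    = (base C Lam lam g s k p4).C0 * s0 ^ 2
      + C.ga.f (zv lam g s) * G3 k (fun i => τ i i k)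
      + C.ga.D lam g s τ k * (∑ a, lam a * τ a a k)
      + C.y0.D lam g s τ k * g k + C.y1.D lam g s τ k * (lam k * g k)
      + C.y2.D lam g s τ k * (lam k ^ 2 * g k)
      + C.y3.D lam g s τ k * (lam k ^ 3 * g k)
      + C.y2.f (zv lam g s) * (g k * ∑ a, lam a * τ a a k)
      + C.y3.f (zv lam g s) * (g k * (∑ a, lam a ^ 2 * τ a a k + lam k * ∑ a, lam a * τ a a k))
      - (C.Z.D lam g s τ k) ^ 2 / (4 * C.Z.f (zv lam g s)) := by
  have hw : ∀ w : ℝ, w = -(C.Z.D lam g s τ k) / (2 * C.Z.f (zv lam g s)) →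
      w * C.Z.D lam g s τ k + C.Z.f (zv lam g s) * w ^ 2
        = - ((C.Z.D lam g s τ k) ^ 2 / (4 * C.Z.f (zv lam g s))) := by
    rintro w rfl
    field_simp
    ring
  have hw' := hw _ rfl
  set w : ℝ := -(C.Z.D lam g s τ k) / (2 * C.Z.f (zv lam g s)) with hwdef
  rw [sub_eq_add_neg, ← hw']
  clear hw' hwdef hw
  simp only [D_eq, Fb, base]
  rw [← hr]
  ring

/-- **(PJ) from the blocks** -/
theorem PJ_of_blocks (C : CertData) (Lam : ℝ) (lam g : Fin n → ℝ) (s : ℝ)
    (τ : Fin n → Fin n → Fin n → ℝ) (hτ : STF τ) (hZ : 0 < C.Z.f (zv lam g s))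
    (hga : 0 ≤ C.ga.f (zv lam g s)) (p4 : Fin n → ℝ) (hn : 0 < n)
    (hF : ∀ (k : Fin n) (s0 w : ℝ) (t : Fin n → ℝ), ∑ i, t i = 0 →
      0 ≤ Fb (base C Lam lam g s k (p4 k)) (Real.sqrt (∑ i, g i ^ 2)) s0
        (∑ i, lam i * t i) (∑ i, lam i ^ 2 * t i) w (C.ga.f (zv lam g s) * G3 k t)) :
    (∑ k, C.Z.D lam g s τ k ^ 2) / (4 * C.Z.f (zv lam g s)) + Lam * C.Z.f (zv lam g s) ≤
      C.divE lam g s τ := by
  set q : ℝ := ∑ i, g i ^ 2 with hq
  have hq0 : 0 ≤ q := sum_nonneg fun i _ => sq_nonneg _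
  -- the zero order term
  set C0 : ℝ := C.ga.f (zv lam g s) * (n * ps lam 2) - n * s * C.y0.f (zv lam g s)
    + C.y1.f (zv lam g s) * ps lam 2 + C.y2.f (zv lam g s) * (ps lam 3 - s * ps lam 2)
    + C.y3.f (zv lam g s) * (ps lam 4 - s * ps lam 3)
    - Lam * C.Z.f (zv lam g s) with hC0
  have hbase : ∀ k, (base C Lam lam g s k (p4 k)).C0 = C0 := fun k => rfl
  -- the sum of the blocks
  set R : Fin n → ℝ := fun k => C.ga.f (zv lam g s) * G3 k (fun i => τ i i k)
      + C.ga.D lam g s τ k * (∑ a, lam a * τ a a k)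
      + C.y0.D lam g s τ k * g k + C.y1.D lam g s τ k * (lam k * g k)
      + C.y2.D lam g s τ k * (lam k ^ 2 * g k)
      + C.y3.D lam g s τ k * (lam k ^ 3 * g k)
      + C.y2.f (zv lam g s) * (g k * ∑ a, lam a * τ a a k)
      + C.y3.f (zv lam g s) * (g k * (∑ a, lam a ^ 2 * τ a a k + lam k * ∑ a, lam a * τ a a k))
      - (C.Z.D lam g s τ k) ^ 2 / (4 * C.Z.f (zv lam g s)) with hR
  have hmain : 0 ≤ C0 + ∑ k, R k := by
    have hblk : ∀ (k : Fin n) (s0 : ℝ), Real.sqrt q * s0 = g k → 0 ≤ C0 * s0 ^ 2 + R k := by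
      intro k s0 hs0
      have h1 := hF k s0 (-(C.Z.D lam g s τ k) / (2 * C.Z.f (zv lam g s))) (fun i => τ i i k)
        (hτ.tr k)
      rw [block_eq C Lam lam g s τ k (p4 k) (Real.sqrt q) s0 hs0 hZ, hbase k] at h1
      rw [hR]
      linarith
    rcases hq0.eq_or_lt with h0 | hpos
    · -- `q = 0`
      have hg : ∀ k, g k = 0 := by
        intro k
        have h1 : g k ^ 2 ≤ q := single_le_sum (f := fun i => g i ^ 2) (fun i _ => sq_nonneg _)
          (mem_univ k)
        have h2 : g k ^ 2 = 0 := le_antisymm (by linarith) (sq_nonneg _)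
        exact pow_eq_zero_iff (two_ne_zero) |>.1 h2
      have hRk : ∀ k, 0 ≤ R k := by
        intro k
        have h1 := hblk k 0 (by rw [hg k]; simp)
        simpa using h1
      have hC : 0 ≤ C0 := by
        have h1 := hF ⟨0, hn⟩ 1 0 (fun _ => 0) (by simp)
        have e : Real.sqrt q = 0 := by rw [← h0]; simp
        rw [e] at h1
        simp only [Fb, hbase, G3] at h1
        simpa using h1
      have := sum_nonneg fun k (_ : k ∈ univ) => hRk k
      linarith
    · have hsq : 0 < Real.sqrt q := Real.sqrt_pos.2 hpos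
      have h1 : ∀ k, 0 ≤ C0 * (g k / Real.sqrt q) ^ 2 + R k := fun k =>
        hblk k _ (by field_simp)
      have h2 := sum_nonneg fun k (_ : k ∈ univ) => h1 k
      rw [sum_add_distrib, ← mul_sum] at h2
      have h3 : ∑ k, (g k / Real.sqrt q) ^ 2 = 1 := by
        have : ∀ k, (g k / Real.sqrt q) ^ 2 = g k ^ 2 / q := by
          intro k; rw [div_pow, Real.sq_sqrt hq0]
        rw [sum_congr rfl fun k _ => this k, ← sum_div, ← hq, div_self hpos.ne']
      rw [h3] at h2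
      linarith
  have hS := mul_le_mul_of_nonneg_left (sum_sq_ge hτ) hga
  have hRsum : ∑ k, R k = C.ga.f (zv lam g s) * ∑ k, G3 k (fun i => τ i i k)
      + (∑ k, C.ga.D lam g s τ k * ∑ a, lam a * τ a a k)
      + (∑ k, C.y0.D lam g s τ k * g k) + (∑ k, C.y1.D lam g s τ k * (lam k * g k))
      + (∑ k, C.y2.D lam g s τ k * (lam k ^ 2 * g k))
      + (∑ k, C.y3.D lam g s τ k * (lam k ^ 3 * g k))
      + C.y2.f (zv lam g s) * (∑ k, g k * ∑ a, lam a * τ a a k)
      + C.y3.f (zv lam g s) * (∑ k, g k * (∑ a, lam a ^ 2 * τ a a k + lam k * ∑ a, lam a * τ a a k))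
      - (∑ k, C.Z.D lam g s τ k ^ 2) / (4 * C.Z.f (zv lam g s)) := by
    rw [hR]
    simp only [sum_sub_distrib, sum_add_distrib, ← mul_sum, ← sum_div]
  have hy3 : ∑ k, g k * ∑ a, (lam a ^ 2 + lam a * lam k) * τ a a k
      = ∑ k, g k * (∑ a, lam a ^ 2 * τ a a k + lam k * ∑ a, lam a * τ a a k) := by
    refine sum_congr rfl fun k _ => ?_
    congr 1
    rw [mul_sum, ← sum_add_distrib]
    exact sum_congr rfl fun a _ => by ring
  rw [hRsum] at hmain
  unfold CertData.divE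
  rw [hy3]
  simp only [ps] at hC0
  rw [hC0] at hmain
  linarith





end Crest.Agent.R097.TEl
namespace Crest.Agent.R097.TEl.Base
end Crest.Agent.R097.TEl.Base
namespace Crest.Agent.R097.TEl.Leaf
end Crest.Agent.R097.TEl.Leaf
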