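import Crest.Agent.R097.CP0
import Crest.Agent.R097.RCert
import Crest.Agent.R097.PJBlk

-- ▼ part R097/CP1
section

/-!
# Row 97: coefficient functions `ρ^e p(ζ, c, Q, v)` (helper351)

`ρ² = A₀ + P₂`, `ζ = A₀/ρ²`, `c = P₃/ρ³`, `Q = q + s²`, `v = s ρ`.
-/

set_option autoImplicit false
open scoped BigOperators

namespace Crest.Agent.R097.CP

/-- `ρ` -/
noncomputable def rh (A0 : ℝ) (z : Fin 4 → ℝ) : ℝ := Real.sqrt (A0 + z 0)

/-- the normalised arguments `(ζ, c, Q, v)` -/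
noncomputable def nz (A0 : ℝ) (z : Fin 4 → ℝ) : Fin 4 → ℝ :=
  ![A0 / rh A0 z ^ 2, z 1 / rh A0 z ^ 3, z 2 + z 3 ^ 2, z 3 * rh A0 z]

/-- the Euler type derivative `e p - 2 ζ p_ζ - 3 c p_c + v p_v` -/
noncomputable def eul (e : ℤ) (p : Pol) (y : Fin 4 → ℝ) : ℝ :=
  e * p.ev y - 2 * y 0 * (p.D 0).ev y - 3 * y 1 * (p.D 1).ev y + y 3 * (p.D 3).ev y

/-- the coefficient function -/
noncomputable def coef (A0 : ℝ) (e : ℤ) (p : Pol) : Coef where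
  f z := rh A0 z ^ e * p.ev (nz A0 z)
  d i z := rh A0 z ^ e * (![eul e p (nz A0 z) / (2 * rh A0 z ^ 2),
    (p.D 1).ev (nz A0 z) / rh A0 z ^ 3,
    (p.D 2).ev (nz A0 z),
    2 * z 3 * (p.D 2).ev (nz A0 z) + rh A0 z * (p.D 3).ev (nz A0 z)] i)

lemma rh_pos {A0 : ℝ} (hA : 0 < A0) {z : Fin 4 → ℝ} (hz : 0 < z 0) : 0 < rh A0 z :=
  Real.sqrt_pos.2 (by linarith)

lemma rh_sq {A0 : ℝ} (hA : 0 < A0) {z : Fin 4 → ℝ} (hz : 0 < z 0) : rh A0 z ^ 2 = A0 + z 0 :=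
  Real.sq_sqrt (by linarith)

lemma hasFDerivAt_rh {A0 : ℝ} (hA : 0 < A0) {z : Fin 4 → ℝ} (hz : 0 < z 0) :
    HasFDerivAt (rh A0) ((1 / (2 * rh A0 z)) • (ContinuousLinearMap.proj 0 : (Fin 4 → ℝ) →L[ℝ] ℝ)) z := by
  have h0 : HasFDerivAt (fun z : Fin 4 → ℝ => A0 + z 0)
      (ContinuousLinearMap.proj 0 : (Fin 4 → ℝ) →L[ℝ] ℝ) z :=
    ((ContinuousLinearMap.proj 0 : (Fin 4 → ℝ) →L[ℝ] ℝ).hasFDerivAt).const_add A0
  exact h0.sqrt (by linarith)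

/-- the derivative of `nz` -/
lemma hasFDerivAt_nz {A0 : ℝ} (hA : 0 < A0) {z : Fin 4 → ℝ} (hz : 0 < z 0) :
    HasFDerivAt (nz A0) (ContinuousLinearMap.pi fun i : Fin 4 =>
      (![(-(2 * A0) / rh A0 z ^ 3 * (1 / (2 * rh A0 z))) •
            (ContinuousLinearMap.proj 0 : (Fin 4 → ℝ) →L[ℝ] ℝ),
        (-(3 * z 1) / rh A0 z ^ 4 * (1 / (2 * rh A0 z))) •
            (ContinuousLinearMap.proj 0 : (Fin 4 → ℝ) →L[ℝ] ℝ)
          + (1 / rh A0 z ^ 3) • (ContinuousLinearMap.proj 1 : (Fin 4 → ℝ) →L[ℝ] ℝ),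
        (ContinuousLinearMap.proj 2 : (Fin 4 → ℝ) →L[ℝ] ℝ)
          + (2 * z 3) • (ContinuousLinearMap.proj 3 : (Fin 4 → ℝ) →L[ℝ] ℝ),
        (z 3 * (1 / (2 * rh A0 z))) • (ContinuousLinearMap.proj 0 : (Fin 4 → ℝ) →L[ℝ] ℝ)
          + rh A0 z • (ContinuousLinearMap.proj 3 : (Fin 4 → ℝ) →L[ℝ] ℝ)] i)) z := by
  have hρ := rh_pos hA hz
  have hρ' := hρ.ne'
  have hr := hasFDerivAt_rh hA hz
  have hp : ∀ r : Fin 4, HasFDerivAt (fun z : Fin 4 → ℝ => z r)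
      (ContinuousLinearMap.proj r : (Fin 4 → ℝ) →L[ℝ] ℝ) z := fun r =>
    (ContinuousLinearMap.proj r : (Fin 4 → ℝ) →L[ℝ] ℝ).hasFDerivAt
  have hinv : ∀ k : ℕ, HasFDerivAt (fun z => (rh A0 z ^ k)⁻¹)
      (-(((rh A0 z ^ k) ^ 2)⁻¹ * (k * rh A0 z ^ (k - 1) * (1 / (2 * rh A0 z)))) •
        (ContinuousLinearMap.proj 0 : (Fin 4 → ℝ) →L[ℝ] ℝ)) z := by
    intro k
    have h1 := hr.pow k
    have h2 := (hasDerivAt_inv (pow_ne_zero k hρ')).comp_hasFDerivAt z h1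
    refine h2.congr_fderiv ?_
    ext v
    simp only [smul_apply, smul_eq_mul, ContinuousLinearMap.proj_apply, nsmul_eq_mul]
    ring
  rw [hasFDerivAt_pi]
  intro i
  fin_cases i
  · have h1 := (hinv 2).const_mul A0
    have e1 : (fun z : Fin 4 → ℝ => nz A0 z ((fun i => i) ⟨0, by norm_num⟩)) =
        fun z => A0 * (rh A0 z ^ 2)⁻¹ := by
      ext z; simp [nz, div_eq_mul_inv]
    rw [e1]
    refine h1.congr_fderiv ?_
    ext v
    simp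
    field_simp
  · have h1 := (hp 1).mul (hinv 3)
    have e1 : (fun z : Fin 4 → ℝ => nz A0 z ((fun i => i) ⟨1, by norm_num⟩)) =
        (fun z : Fin 4 → ℝ => z 1) * fun z => (rh A0 z ^ 3)⁻¹ := by
      ext z; simp [nz, div_eq_mul_inv]
    rw [e1]
    refine h1.congr_fderiv ?_
    ext v
    simp
    field_simp
  · have h1 := (hp 2).add ((hp 3).pow 2)
    refine h1.congr_fderiv ?_
    ext v
    simp
  · have h1 := (hp 3).mul hr
    refine h1.congr_fderiv ?_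
    ext v
    simp
    ring

lemma continuousOn_rh (A0 : ℝ) : Continuous (rh A0) := by
  unfold rh; fun_prop

lemma continuousOn_nz {A0 : ℝ} (hA : 0 < A0) : ContinuousOn (nz A0) {z | 0 < z 0} := fun z hz =>
  (hasFDerivAt_nz hA hz).continuousAt.continuousWithinAt

lemma continuousOn_ev {A0 : ℝ} (hA : 0 < A0) (p : Pol) :
    ContinuousOn (fun z => p.ev (nz A0 z)) {z | 0 < z 0} :=
  p.continuous_ev.comp_continuousOn (continuousOn_nz hA)

lemma continuousOn_zpow {A0 : ℝ} (hA : 0 < A0) (e : ℤ) :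
    ContinuousOn (fun z => rh A0 z ^ e) {z | 0 < z 0} :=
  (continuousOn_rh A0).continuousOn.zpow₀ e fun _ hz => Or.inl (rh_pos hA hz).ne'

/-- the coefficient functions are `C¹` with the given partial derivatives -/
theorem coef_ok {A0 : ℝ} (hA : 0 < A0) (e : ℤ) (p : Pol) : (coef A0 e p).Ok := by
  constructor
  · intro z hz
    have hρ := rh_pos hA hz
    have hρ' := hρ.ne'
    have h1 := (p.hasFDerivAt (nz A0 z)).comp z (hasFDerivAt_nz hA hz)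
    have h2 : HasFDerivAt (fun z => rh A0 z ^ e)
        ((e * rh A0 z ^ (e - 1) * (1 / (2 * rh A0 z))) •
          (ContinuousLinearMap.proj 0 : (Fin 4 → ℝ) →L[ℝ] ℝ)) z := by
      have h3 := (hasDerivAt_zpow e (rh A0 z) (Or.inl hρ')).comp_hasFDerivAt z (hasFDerivAt_rh hA hz)
      refine h3.congr_fderiv ?_
      ext v
      simp only [smul_apply, smul_eq_mul, ContinuousLinearMap.proj_apply]
      ring
    have h4 := h2.mul h1
    refine h4.congr_fderiv ?_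
    ext v
    have e1 : rh A0 z ^ (e - 1) = rh A0 z ^ e / rh A0 z := zpow_sub_one₀ hρ' e
    have e0 : nz A0 z 0 = A0 / rh A0 z ^ 2 := rfl
    have ec : nz A0 z 1 = z 1 / rh A0 z ^ 3 := rfl
    have ev' : nz A0 z 3 = z 3 * rh A0 z := rfl
    simp only [add_apply, smul_apply, sum_apply, smul_eq_mul, ContinuousLinearMap.proj_apply,
      ContinuousLinearMap.comp_apply, Fin.sum_univ_four, ContinuousLinearMap.pi_apply, coef, eul,
      Function.comp_apply, e1, e0, ec, ev']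
    simp
    field_simp
    ring
  · intro i
    have hc : ContinuousOn (rh A0) {z | 0 < z 0} := (continuousOn_rh A0).continuousOn
    have hne : ∀ z ∈ {z : Fin 4 → ℝ | 0 < z 0}, rh A0 z ≠ 0 := fun z hz => (rh_pos hA hz).ne'
    have hz : ∀ r : Fin 4, ContinuousOn (fun z : Fin 4 → ℝ => z r) {z | 0 < z 0} := fun r =>
      (continuous_apply r).continuousOn
    have hn : ∀ r : Fin 4, ContinuousOn (fun z : Fin 4 → ℝ => nz A0 z r) {z | 0 < z 0} := fun r =>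
      (continuous_apply r).comp_continuousOn (continuousOn_nz hA)
    refine (continuousOn_zpow hA e).mul ?_
    fin_cases i
    · show ContinuousOn (fun z => eul e p (nz A0 z) / (2 * rh A0 z ^ 2)) _
      refine ContinuousOn.div ?_ (continuousOn_const.mul (hc.pow 2)) fun z hz => ?_
      · unfold eul
        exact (((continuousOn_const.mul (continuousOn_ev hA p)).sub
          ((continuousOn_const.mul (hn 0)).mul (continuousOn_ev hA _))).sub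
          ((continuousOn_const.mul (hn 1)).mul (continuousOn_ev hA _))).add
          ((hn 3).mul (continuousOn_ev hA _))
      · have := hne z hz
        positivity
    · show ContinuousOn (fun z => (p.D 1).ev (nz A0 z) / rh A0 z ^ 3) _
      refine ContinuousOn.div (continuousOn_ev hA _) (hc.pow 3) fun z hz => ?_
      have := hne z hz
      positivity
    · exact continuousOn_ev hA _
    · show ContinuousOn (fun z => 2 * z 3 * (p.D 2).ev (nz A0 z) + rh A0 z * (p.D 3).ev (nz A0 z)) _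
      exact ((continuousOn_const.mul (hz 3)).mul (continuousOn_ev hA _)).add
        (hc.mul (continuousOn_ev hA _))

end Crest.Agent.R097.CP
end

-- ▼ part R097/CP2
section

/-!
# Row 97: normalised form of the certificate (helper351)

Data: six polynomials in `y = (ζ, c, Q, v)`; `γ = ρ⁻¹ pg`, `y₀ = ρ² p0`, `y₁ = ρ p1`, `y₂ = p2`,
`y₃ = ρ⁻¹ p3`, `Z = ρ pZ`.  Everything in (PJ), (BJ) is `ρ³` resp. `ρ²` times a polynomial in the normalised state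
`ξ = λ_k/ρ, ζ, c, Q, v, p₄` (`p₄` an upper bound of `∑ l⁴` in `K₂₂`, `P4 = ∑ l⁴` in `C₀`).
-/

set_option autoImplicit false
open scoped BigOperators

namespace Crest.Agent.R097.CP

/-- the six polynomials -/
structure Dat where
  g : Pol
  p0 : Pol
  p1 : Pol
  p2 : Pol
  p3 : Pol
  Z : Pol

/-- the certificate data -/
noncomputable def Dat.cert (A0 : ℝ) (D : Dat) : CertData where
  ga := coef A0 (-1) D.g
  y0 := coef A0 2 D.p0
  y1 := coef A0 1 D.p1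
  y2 := coef A0 0 D.p2
  y3 := coef A0 (-1) D.p3
  Z := coef A0 1 D.Z

/-- the normalised base quantities -/
noncomputable def Dat.nb (n : ℕ) (A0 Lam : ℝ) (D : Dat) (ξ p4 P4 : ℝ) (y : Fin 4 → ℝ) :
    TEl.Base where
  g := D.g.ev y
  k11 := D.g.ev y * TEl.K11 n ξ (1 - y 0)
  k12 := D.g.ev y * TEl.K12 n ξ (1 - y 0) (y 1)
  k22 := D.g.ev y * TEl.K22 n ξ (1 - y 0) p4
  C0 := n * D.g.ev y * (1 - y 0) * (y 0 / A0) - n * (y 3 * (y 0 / A0)) * D.p0.ev y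
    + D.p1.ev y * (1 - y 0) + D.p2.ev y * (y 1 - y 3 * (y 0 / A0) * (1 - y 0))
    + D.p3.ev y * (P4 - y 3 * (y 0 / A0) * y 1)
    - Lam * D.Z.ev y * (y 0 / A0)
  Ck := (2 * ξ * (D.p0.D 2).ev y + (D.p0.D 3).ev y)
    + ξ * (2 * ξ * (D.p1.D 2).ev y + (D.p1.D 3).ev y)
    + ξ ^ 2 * (2 * ξ * (D.p2.D 2).ev y + (D.p2.D 3).ev y)
    + ξ ^ 3 * (2 * ξ * (D.p3.D 2).ev y + (D.p3.D 3).ev y)
  L1 := 2 * ξ * (D.g.D 2).ev y + (D.g.D 3).ev y
    + (eul 2 D.p0 y + ξ * eul 1 D.p1 y + ξ ^ 2 * eul 0 D.p2 y + ξ ^ 3 * eul (-1) D.p3 y)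
    + D.p2.ev y + ξ * D.p3.ev y
  L2 := 3 * ((D.p0.D 1).ev y + ξ * (D.p1.D 1).ev y + ξ ^ 2 * (D.p2.D 1).ev y
      + ξ ^ 3 * (D.p3.D 1).ev y) + D.p3.ev y
  Lw := 2 * ξ * (D.Z.D 2).ev y + (D.Z.D 3).ev y
  A11 := eul (-1) D.g y
  A12 := 3 * (D.g.D 1).ev y
  W1 := eul 1 D.Z y
  W2 := 3 * (D.Z.D 1).ev y
  psi := D.Z.ev y

/-- normalised states -/
structure NAdm {n : ℕ} (A0 : ℝ) (l : Fin n → ℝ) (y : Fin 4 → ℝ) : Prop where
  tr : ∑ i, l i = 0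
  sq : ∑ i, l i ^ 2 = 1 - y 0
  cu : ∑ i, l i ^ 3 = y 1
  z0 : 0 < y 0
  z1 : y 0 < 1
  v0 : 0 ≤ y 3
  q0 : 0 ≤ y 2 - y 3 ^ 2 * (y 0 / A0)
  q1 : y 2 ≤ 1
  ap : y 3 ^ 2 * (1 - y 0) ≤ (n : ℝ) / (2 * (n + 2)) * (1 - y 2 ^ 2)

/-- `q = |g|²` of a normalised state -/
noncomputable def qn (A0 : ℝ) (y : Fin 4 → ℝ) : ℝ := y 2 - y 3 ^ 2 * (y 0 / A0)

section
variable {n : ℕ} {A0 : ℝ} {lam g : Fin n → ℝ} {s : ℝ}

/-- the normalisation of an admissible state -/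
lemma nadm_of_adm (hA : 0 < A0) (h : Adm lam g s) :
    NAdm A0 (fun i => lam i / rh A0 (zv lam g s)) (nz A0 (zv lam g s)) ∧
      qn A0 (nz A0 (zv lam g s)) = ∑ i, g i ^ 2 := by
  have hz : 0 < (zv lam g s) 0 := h.pos
  have hz0 : (zv lam g s) 0 = ∑ i, lam i ^ 2 := rfl
  have hz1 : (zv lam g s) 1 = ∑ i, lam i ^ 3 := rfl
  have hz2 : (zv lam g s) 2 = ∑ i, g i ^ 2 := rfl
  have hz3 : (zv lam g s) 3 = s := rfl
  set ρ := rh A0 (zv lam g s) with hρdef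
  have hρ : 0 < ρ := rh_pos hA hz
  have hρ2 : ρ ^ 2 = A0 + ∑ i, lam i ^ 2 := rh_sq hA hz
  have hP : 0 < ∑ i, lam i ^ 2 := h.pos
  have n0 : nz A0 (zv lam g s) 0 = A0 / ρ ^ 2 := rfl
  have n1 : nz A0 (zv lam g s) 1 = (∑ i, lam i ^ 3) / ρ ^ 3 := rfl
  have n2 : nz A0 (zv lam g s) 2 = ∑ i, g i ^ 2 + s ^ 2 := rfl
  have n3 : nz A0 (zv lam g s) 3 = s * ρ := rfl
  have hqn : qn A0 (nz A0 (zv lam g s)) = ∑ i, g i ^ 2 := by
    unfold qn
    rw [n0, n2, n3]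
    field_simp
    ring
  refine ⟨⟨?_, ?_, ?_, ?_, ?_, ?_, ?_, ?_, ?_⟩, hqn⟩
  · rw [← Finset.sum_div, h.tr, zero_div]
  · simp_rw [div_pow]
    rw [← Finset.sum_div, n0, hρ2]
    field_simp
    ring
  · simp_rw [div_pow]
    rw [← Finset.sum_div, n1]
  · rw [n0]; positivity
  · rw [n0, hρ2, div_lt_one (by linarith)]; linarith
  · rw [n3]; exact mul_nonneg h.s0 hρ.le
  · have : nz A0 (zv lam g s) 2 - nz A0 (zv lam g s) 3 ^ 2 * (nz A0 (zv lam g s) 0 / A0)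
      = qn A0 (nz A0 (zv lam g s)) := rfl
    rw [this, hqn]
    exact Finset.sum_nonneg fun i _ => sq_nonneg _
  · rw [n2]; exact h.q1
  · have h1 : nz A0 (zv lam g s) 3 ^ 2 * (1 - nz A0 (zv lam g s) 0) = s ^ 2 * ∑ i, lam i ^ 2 := by
      rw [n0, n3]
      have : ρ ^ 2 - A0 = ∑ i, lam i ^ 2 := by linarith
      rw [← this]
      field_simp
    rw [h1, n2]
    exact h.ap

/-- scaling of the block form -/
lemma Fb_scale (hA : 0 < A0) (h : Adm lam g s) (D : Dat) (Lam : ℝ) (k : Fin n) (p4 r s0 X Y W Gt : ℝ) :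
    TEl.Fb (TEl.base (D.cert A0) Lam lam g s k p4) r s0 X Y W Gt
      = rh A0 (zv lam g s) ^ 3 * TEl.Fb (D.nb n A0 Lam (lam k / rh A0 (zv lam g s))
          (p4 / rh A0 (zv lam g s) ^ 4) ((∑ i, lam i ^ 4) / rh A0 (zv lam g s) ^ 4)
          (nz A0 (zv lam g s))) r s0
          (X / rh A0 (zv lam g s) ^ 3) (Y / rh A0 (zv lam g s) ^ 4) (W / rh A0 (zv lam g s))
          (Gt / rh A0 (zv lam g s) ^ 3) := by
  have hz : 0 < (zv lam g s) 0 := h.pos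
  have hz3 : (zv lam g s) 3 = s := rfl
  have n0 : nz A0 (zv lam g s) 0 = A0 / rh A0 (zv lam g s) ^ 2 := rfl
  have n1 : nz A0 (zv lam g s) 1 = (∑ i, lam i ^ 3) / rh A0 (zv lam g s) ^ 3 := rfl
  have n3 : nz A0 (zv lam g s) 3 = s * rh A0 (zv lam g s) := rfl
  have hρ : 0 < rh A0 (zv lam g s) := rh_pos hA hz
  have hρ2 : ∑ i, lam i ^ 2 = rh A0 (zv lam g s) ^ 2 - A0 := by
    have : rh A0 (zv lam g s) ^ 2 = A0 + ∑ i, lam i ^ 2 := rh_sq hA hz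
    linarith
  simp only [TEl.Fb, TEl.base, Dat.nb, Dat.cert, coef, eul, TEl.ps, hρ2, n0, n1, n3, hz3,
    zpow_neg_one, zpow_one, zpow_zero, Matrix.cons_val_zero, Matrix.cons_val_one,
    Matrix.cons_val]
  generalize rh A0 (zv lam g s) = ρ at *
  generalize nz A0 (zv lam g s) = y at *
  have hz2 : ρ ^ (2 : ℤ) = ρ ^ 2 := by norm_cast
  rw [hz2]
  field_simp
  push_cast
  ring

end

end Crest.Agent.R097.CP
end

-- ▼ part R097/CP3

/-!
# Row 97: `Cert` from the normalised conditions (helper351)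
-/

set_option autoImplicit false
open scoped BigOperators

namespace Crest.Agent.R097.CP

/-- the normalised certificate: all conditions are polynomial (in)equalities in the normalised state -/
structure NCert (n : ℕ) (A0 Lam : ℝ) (D : Dat) : Prop where
  Apos : 0 < A0
  lam_gt : (((n : ℝ) - 1) / 2) ^ 2 < Lam
  Zpos : ∀ (l : Fin n → ℝ) (y : Fin 4 → ℝ), NAdm A0 l y → 0 < D.Z.ev y
  gnn : ∀ (l : Fin n → ℝ) (y : Fin 4 → ℝ), NAdm A0 l y → 0 ≤ D.g.ev y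
  PJ : ∀ (l : Fin n → ℝ) (y : Fin 4 → ℝ), NAdm A0 l y → ∀ (k : Fin n) (s0 w : ℝ) (t : Fin n → ℝ),
    ∑ i, t i = 0 → 0 ≤ TEl.Fb (D.nb n A0 Lam (l k) 0 (∑ i, l i ^ 4) y) (Real.sqrt (qn A0 y)) s0
      (∑ i, l i * t i) (∑ i, l i ^ 2 * t i) w (D.g.ev y * TEl.G3 k t)
  BJ : ∀ (l : Fin n → ℝ) (y : Fin 4 → ℝ), NAdm A0 l y → y 2 = 1 → y 3 = 0 → ∀ (k : Fin n) (h : ℝ),
    0 ≤ h → l k = -h → 0 ≤ h * D.Z.ev y + D.p0.ev y - h * D.p1.ev y + h ^ 2 * D.p2.ev y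
      - h ^ 3 * D.p3.ev y - D.g.ev y * (2 * h * (1 - y 0) + y 1)
  Zvan : ∀ Q v : ℝ, D.Z.ev ![1, 0, Q, v] = 0
  p0van : ∀ Q v : ℝ, D.p0.ev ![1, 0, Q, v] = 0

section
variable {n : ℕ} {A0 Lam : ℝ} {D : Dat}


/-- (PJ) -/
lemma pj_of_ncert (H : NCert n A0 Lam D) (hn : 0 < n) (lam g : Fin n → ℝ) (s : ℝ)
    (τ : Fin n → Fin n → Fin n → ℝ) (h : Adm lam g s) (hτ : STF τ) :
    (∑ k, (D.cert A0).Z.D lam g s τ k ^ 2) / (4 * (D.cert A0).Z.f (zv lam g s))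
      + Lam * (D.cert A0).Z.f (zv lam g s) ≤ (D.cert A0).divE lam g s τ := by
  have hρ : 0 < rh A0 (zv lam g s) := rh_pos H.Apos h.pos
  obtain ⟨hN, hq⟩ := nadm_of_adm H.Apos h
  refine TEl.PJ_of_blocks (D.cert A0) Lam lam g s τ hτ ?_ ?_ (fun _ => 0) hn ?_
  · have := H.Zpos _ _ hN
    show 0 < rh A0 (zv lam g s) ^ (1 : ℤ) * D.Z.ev (nz A0 (zv lam g s))
    positivity
  · have := H.gnn _ _ hN
    show 0 ≤ rh A0 (zv lam g s) ^ (-1 : ℤ) * D.g.ev (nz A0 (zv lam g s))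
    positivity
  · intro k s0 w t ht
    rw [Fb_scale H.Apos h D Lam k]
    refine mul_nonneg (by positivity) ?_
    have h1 := H.PJ _ _ hN k s0 (w / rh A0 (zv lam g s)) (fun i => t i / rh A0 (zv lam g s) ^ 2)
      (by rw [← Finset.sum_div, ht, zero_div])
    rw [hq] at h1
    have e1 : ∑ i, lam i / rh A0 (zv lam g s) * (t i / rh A0 (zv lam g s) ^ 2)
        = (∑ i, lam i * t i) / rh A0 (zv lam g s) ^ 3 := by
      rw [Finset.sum_div]
      refine Finset.sum_congr rfl fun i _ => ?_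
      field_simp
    have e2 : ∑ i, (lam i / rh A0 (zv lam g s)) ^ 2 * (t i / rh A0 (zv lam g s) ^ 2)
        = (∑ i, lam i ^ 2 * t i) / rh A0 (zv lam g s) ^ 4 := by
      rw [Finset.sum_div]
      refine Finset.sum_congr rfl fun i _ => ?_
      field_simp
    have e3 : D.g.ev (nz A0 (zv lam g s)) * TEl.G3 k (fun i => t i / rh A0 (zv lam g s) ^ 2)
        = (D.cert A0).ga.f (zv lam g s) * TEl.G3 k t / rh A0 (zv lam g s) ^ 3 := by
      have : (D.cert A0).ga.f (zv lam g s)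
        = rh A0 (zv lam g s) ^ (-1 : ℤ) * D.g.ev (nz A0 (zv lam g s)) := rfl
      rw [this, zpow_neg_one]
      have e4 : TEl.G3 k (fun i => t i / rh A0 (zv lam g s) ^ 2)
        = TEl.G3 k t / rh A0 (zv lam g s) ^ 4 := by
        unfold TEl.G3
        simp_rw [div_pow]
        rw [← Finset.sum_div]
        field_simp
      rw [e4]
      field_simp
    rw [e1, e2, e3] at h1
    have e5 : (0 : ℝ) / rh A0 (zv lam g s) ^ 4 = 0 := zero_div _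
    have e6 : ∑ i, (lam i / rh A0 (zv lam g s)) ^ 4 = (∑ i, lam i ^ 4) / rh A0 (zv lam g s) ^ 4 := by
      rw [Finset.sum_div]
      exact Finset.sum_congr rfl fun i _ => div_pow _ _ _
    rw [e6] at h1
    rw [e5]
    exact h1

/-- (BJ) -/
lemma bj_of_ncert (H : NCert n A0 Lam D) (lam : Fin n → ℝ) (k0 : Fin n) (Hc : ℝ)
    (h1 : ∑ i, lam i = 0) (h2 : 0 < ∑ i, lam i ^ 2) (h3 : 0 ≤ Hc) (h4 : lam k0 = -Hc) :
    0 ≤ Hc * (D.cert A0).Z.f ![∑ i, lam i ^ 2, ∑ i, lam i ^ 3, 1, 0] +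
      (D.cert A0).y0.f ![∑ i, lam i ^ 2, ∑ i, lam i ^ 3, 1, 0] -
      Hc * (D.cert A0).y1.f ![∑ i, lam i ^ 2, ∑ i, lam i ^ 3, 1, 0] +
      Hc ^ 2 * (D.cert A0).y2.f ![∑ i, lam i ^ 2, ∑ i, lam i ^ 3, 1, 0] -
      Hc ^ 3 * (D.cert A0).y3.f ![∑ i, lam i ^ 2, ∑ i, lam i ^ 3, 1, 0] -
      (D.cert A0).ga.f ![∑ i, lam i ^ 2, ∑ i, lam i ^ 3, 1, 0] *
        (2 * Hc * (∑ i, lam i ^ 2) + ∑ i, lam i ^ 3) := by
  set z : Fin 4 → ℝ := ![∑ i, lam i ^ 2, ∑ i, lam i ^ 3, 1, 0] with hz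
  have hz0 : z 0 = ∑ i, lam i ^ 2 := rfl
  have hz1 : z 1 = ∑ i, lam i ^ 3 := rfl
  have hz2 : z 2 = 1 := rfl
  have hz3 : z 3 = 0 := rfl
  have hpos : 0 < z 0 := h2
  have hρ : 0 < rh A0 z := rh_pos H.Apos hpos
  have hρ2 : rh A0 z ^ 2 = A0 + ∑ i, lam i ^ 2 := rh_sq H.Apos hpos
  have hA := H.Apos
  have n0 : nz A0 z 0 = A0 / rh A0 z ^ 2 := rfl
  have n1 : nz A0 z 1 = (∑ i, lam i ^ 3) / rh A0 z ^ 3 := rfl
  have n2 : nz A0 z 2 = 1 := by show z 2 + z 3 ^ 2 = 1; rw [hz2, hz3]; norm_num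
  have n3 : nz A0 z 3 = 0 := by show z 3 * rh A0 z = 0; rw [hz3]; ring
  have hN : NAdm A0 (fun i => lam i / rh A0 z) (nz A0 z) := by
    refine ⟨?_, ?_, ?_, ?_, ?_, ?_, ?_, ?_, ?_⟩
    · rw [← Finset.sum_div, h1, zero_div]
    · simp_rw [div_pow]
      rw [← Finset.sum_div, n0, hρ2]
      field_simp
      ring
    · simp_rw [div_pow]
      rw [← Finset.sum_div, n1]
    · rw [n0]; positivity
    · rw [n0, hρ2, div_lt_one (by linarith)]; linarith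
    · rw [n3]
    · rw [n2, n3]; norm_num
    · rw [n2]
    · rw [n2, n3]; norm_num
  have key := H.BJ _ _ hN n2 n3 k0 (Hc / rh A0 z) (by positivity) (by
    show lam k0 / rh A0 z = _
    rw [h4, neg_div])
  have e1 : (D.cert A0).Z.f z = rh A0 z * D.Z.ev (nz A0 z) := by
    show rh A0 z ^ (1 : ℤ) * _ = _; rw [zpow_one]
  have e2 : (D.cert A0).y0.f z = rh A0 z ^ 2 * D.p0.ev (nz A0 z) := by
    show rh A0 z ^ (2 : ℤ) * _ = _; norm_cast
  have e3 : (D.cert A0).y1.f z = rh A0 z * D.p1.ev (nz A0 z) := by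
    show rh A0 z ^ (1 : ℤ) * _ = _; rw [zpow_one]
  have e4 : (D.cert A0).y2.f z = D.p2.ev (nz A0 z) := by
    show rh A0 z ^ (0 : ℤ) * _ = _; rw [zpow_zero, one_mul]
  have e5 : (D.cert A0).ga.f z = (rh A0 z)⁻¹ * D.g.ev (nz A0 z) := by
    show rh A0 z ^ (-1 : ℤ) * _ = _; rw [zpow_neg_one]
  have e6 : (D.cert A0).y3.f z = (rh A0 z)⁻¹ * D.p3.ev (nz A0 z) := by
    show rh A0 z ^ (-1 : ℤ) * _ = _; rw [zpow_neg_one]
  rw [e1, e2, e3, e4, e5, e6]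
  have hP2 : ∑ i, lam i ^ 2 = rh A0 z ^ 2 * (1 - nz A0 z 0) := by
    rw [n0, hρ2]; field_simp; ring
  have hP3 : ∑ i, lam i ^ 3 = rh A0 z ^ 3 * nz A0 z 1 := by
    rw [n1]; field_simp
  rw [hP2, hP3]
  have := mul_nonneg (pow_nonneg hρ.le 2) key
  refine le_of_le_of_eq this ?_
  field_simp

end

end Crest.Agent.R097.CP
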