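import Crest.Agent.R097.CQ2
import Crest.Agent.R097.SC1
import Crest.Agent.R097.CP3

-- ▼ part R097/CQ3
section

/-!
# Row 97: charts, states, and (PJ) from covers by leaves (helper351)

Chart U: `(ξ, c, ζ, Q, v)`; chart S: `(x, p, s, Q, v)` with `ξ = s x`, `c = s³ p`, `ζ = 1 - s²`.
-/

set_option autoImplicit false
open scoped BigOperators

namespace Crest.Agent.R097.CQ

open Crest.Agent.R097.CP

/-- `R² = ∑_{i≠k} ν_i²` -/
noncomputable def rr (n : ℕ) (x a : ℝ) : ℝ := a - n / (n - 1) * x ^ 2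

/-- `∑_{i≠k} ν_i³` -/
noncomputable def k3 (n : ℕ) (x a c : ℝ) : ℝ :=
  c - x ^ 3 + 3 * x / (n - 1) * (a - x ^ 2) - 2 * x ^ 3 / (n - 1) ^ 2

/-- constant of `∑ ν⁴ ≤ c_n R⁴` -/
noncomputable def cn (n : ℕ) : ℝ := if n = 5 then 7 / 12 else 1 / 2

/-- upper bound of `∑ l⁴` -/
noncomputable def p4up (n : ℕ) (x a c : ℝ) : ℝ :=
  (1 + 1 / ((n : ℝ) - 1) ^ 3) * x ^ 4 + 6 * x ^ 2 * rr n x a / (n - 1) ^ 2 - 4 * x * k3 n x a c / (n - 1)
    + cn n * rr n x a ^ 2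

lemma rr_scale (n : ℕ) (s x a : ℝ) : rr n (s * x) (s ^ 2 * a) = s ^ 2 * rr n x a := by
  unfold rr; ring

lemma k3_scale (n : ℕ) (s x a c : ℝ) : k3 n (s * x) (s ^ 2 * a) (s ^ 3 * c) = s ^ 3 * k3 n x a c := by
  unfold k3; ring

lemma p4up_scale (n : ℕ) (s x a c : ℝ) :
    p4up n (s * x) (s ^ 2 * a) (s ^ 3 * c) = s ^ 4 * p4up n x a c := by
  unfold p4up; rw [rr_scale, k3_scale]; ring

lemma p4_le3 (l : Fin 3 → ℝ) (k : Fin 3) (h : ∑ i, l i = 0) :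
    ∑ i, l i ^ 4 ≤ p4up 3 (l k) (∑ i, l i ^ 2) (∑ i, l i ^ 3) := by
  rw [Fin.sum_univ_succAbove _ k, Fin.sum_univ_two] at h
  rw [Fin.sum_univ_succAbove _ k, Fin.sum_univ_succAbove _ k, Fin.sum_univ_succAbove _ k,
    Fin.sum_univ_two, Fin.sum_univ_two, Fin.sum_univ_two]
  generalize l (k.succAbove 0) = a at *
  generalize l (k.succAbove 1) = b at *
  have hx : l k = -(a + b) := by linarith
  rw [hx]
  unfold p4up rr k3 cn
  norm_num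
  apply le_of_eq
  ring

lemma p4_le4 (l : Fin 4 → ℝ) (k : Fin 4) (h : ∑ i, l i = 0) :
    ∑ i, l i ^ 4 ≤ p4up 4 (l k) (∑ i, l i ^ 2) (∑ i, l i ^ 3) := by
  rw [Fin.sum_univ_succAbove _ k, Fin.sum_univ_three] at h
  rw [Fin.sum_univ_succAbove _ k, Fin.sum_univ_succAbove _ k, Fin.sum_univ_succAbove _ k,
    Fin.sum_univ_three, Fin.sum_univ_three, Fin.sum_univ_three]
  generalize l (k.succAbove 0) = a at *
  generalize l (k.succAbove 1) = b at *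
  generalize l (k.succAbove 2) = d at *
  have hx : l k = -(a + b + d) := by linarith
  rw [hx]
  unfold p4up rr k3 cn
  norm_num
  apply le_of_eq
  ring

lemma p4_le5 (l : Fin 5 → ℝ) (k : Fin 5) (h : ∑ i, l i = 0) :
    ∑ i, l i ^ 4 ≤ p4up 5 (l k) (∑ i, l i ^ 2) (∑ i, l i ^ 3) := by
  rw [Fin.sum_univ_succAbove _ k, Fin.sum_univ_four] at h
  rw [Fin.sum_univ_succAbove _ k, Fin.sum_univ_succAbove _ k, Fin.sum_univ_succAbove _ k,
    Fin.sum_univ_four, Fin.sum_univ_four, Fin.sum_univ_four]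
  generalize l (k.succAbove 0) = a at *
  generalize l (k.succAbove 1) = b at *
  generalize l (k.succAbove 2) = d at *
  generalize l (k.succAbove 3) = e at *
  have hx : l k = -(a + b + d + e) := by linarith
  rw [hx]
  have key : p4up 5 (-(a + b + d + e)) ((-(a + b + d + e)) ^ 2 + (a ^ 2 + b ^ 2 + d ^ 2 + e ^ 2))
      ((-(a + b + d + e)) ^ 3 + (a ^ 3 + b ^ 3 + d ^ 3 + e ^ 3))
      - ((-(a + b + d + e)) ^ 4 + (a ^ 4 + b ^ 4 + d ^ 4 + e ^ 4))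
      = 1 / 6 * (((((a + b) - (d + e)) / 2) ^ 2 - (((b + d) - (a + e)) / 2) ^ 2) ^ 2
        + ((((b + d) - (a + e)) / 2) ^ 2 - (((a + d) - (b + e)) / 2) ^ 2) ^ 2
        + ((((a + d) - (b + e)) / 2) ^ 2 - (((a + b) - (d + e)) / 2) ^ 2) ^ 2) := by
    unfold p4up rr k3 cn
    norm_num
    ring
  nlinarith [sq_nonneg ((((a + b) - (d + e)) / 2) ^ 2 - (((b + d) - (a + e)) / 2) ^ 2),
    sq_nonneg ((((b + d) - (a + e)) / 2) ^ 2 - (((a + d) - (b + e)) / 2) ^ 2),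
    sq_nonneg ((((a + d) - (b + e)) / 2) ^ 2 - (((a + b) - (d + e)) / 2) ^ 2)]

/-- the admissible values of `n` -/
def nOK (n : ℕ) : Prop := n = 3 ∨ n = 4 ∨ n = 5

lemma p4_le {n : ℕ} (hn : nOK n) (l : Fin n → ℝ) (k : Fin n) (h : ∑ i, l i = 0) :
    ∑ i, l i ^ 4 ≤ p4up n (l k) (∑ i, l i ^ 2) (∑ i, l i ^ 3) := by
  rcases hn with rfl | rfl | rfl
  · exact p4_le3 l k h
  · exact p4_le4 l k h
  · exact p4_le5 l k h

/-- domain of chart U -/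
structure DomU (n : ℕ) (A0 ξ c ζ Q v : ℝ) : Prop where
  z0 : 0 < ζ
  z1 : ζ < 1
  v0 : 0 ≤ v
  q0 : 0 ≤ Q - v ^ 2 * (ζ / A0)
  q1 : Q ≤ 1
  ap : v ^ 2 * (1 - ζ) ≤ (n : ℝ) / (2 * (n + 2)) * (1 - Q ^ 2)
  rn : 0 ≤ rr n ξ (1 - ζ)
  reg : ((n : ℝ) - 1) * ((n : ℝ) - 2) * k3 n ξ (1 - ζ) c ^ 2 ≤ ((n : ℝ) - 3) ^ 2 * rr n ξ (1 - ζ) ^ 3

/-- domain of chart S -/
structure DomS (n : ℕ) (A0 x p s Q v : ℝ) : Prop where
  s0 : 0 < s
  s1 : s < 1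
  v0 : 0 ≤ v
  q0 : 0 ≤ Q - v ^ 2 * ((1 - s ^ 2) / A0)
  q1 : Q ≤ 1
  ap : v ^ 2 * s ^ 2 ≤ (n : ℝ) / (2 * (n + 2)) * (1 - Q ^ 2)
  rn : 0 ≤ rr n x 1
  reg : ((n : ℝ) - 1) * ((n : ℝ) - 2) * k3 n x 1 p ^ 2 ≤ ((n : ℝ) - 3) ^ 2 * rr n x 1 ^ 3

lemma domU_of_nadm {n : ℕ} (hn : nOK n) {A0 : ℝ} {l : Fin n → ℝ} {y : Fin 4 → ℝ} (h : NAdm A0 l y)
    (k : Fin n) : DomU n A0 (l k) (y 1) (y 0) (y 2) (y 3) := by
  have hn3 : 3 ≤ n := by rcases hn with h | h | h <;> omega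
  have hc : (0 : ℝ) < (n : ℝ) - 1 := by
    have : (3 : ℝ) ≤ n := by exact_mod_cast hn3
    linarith
  refine ⟨h.z0, h.z1, h.v0, h.q0, h.q1, h.ap, ?_, ?_⟩
  · have h1 := SC.sq_le_of_sum_zero Finset.univ l (by simpa using h.tr) (Finset.mem_univ k)
    simp only [Finset.card_univ, Fintype.card_fin] at h1
    rw [h.sq] at h1
    unfold rr
    rw [sub_nonneg, div_mul_eq_mul_div, div_le_iff₀ hc]
    linarith
  · have h1 := SC.cube_sq_le_erase hn3 l h.tr k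
    rw [h.sq, h.cu] at h1
    exact h1

lemma domS_of_nadm {n : ℕ} (hn : nOK n) {A0 : ℝ} {l : Fin n → ℝ} {y : Fin 4 → ℝ} (h : NAdm A0 l y)
    (k : Fin n) {s : ℝ} (hs : 0 < s) (hs2 : s ^ 2 = 1 - y 0) :
    DomS n A0 (l k / s) (y 1 / s ^ 3) s (y 2) (y 3) := by
  have h1 := domU_of_nadm hn h k
  have e0 : y 0 = 1 - s ^ 2 := by linarith
  have ex : s * (l k / s) = l k := by field_simp
  have ep : s ^ 3 * (y 1 / s ^ 3) = y 1 := by field_simp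
  have ea : s ^ 2 * 1 = 1 - y 0 := by rw [mul_one, hs2]
  have hr : rr n (l k) (1 - y 0) = s ^ 2 * rr n (l k / s) 1 := by
    rw [← rr_scale, ex, ea]
  have hk : k3 n (l k) (1 - y 0) (y 1) = s ^ 3 * k3 n (l k / s) 1 (y 1 / s ^ 3) := by
    rw [← k3_scale, ex, ep, ea]
  refine ⟨hs, ?_, h1.v0, ?_, h1.q1, ?_, ?_, ?_⟩
  · have : s ^ 2 < 1 := by linarith [h1.z0]
    nlinarith
  · rw [← e0]; exact h1.q0
  · rw [hs2]; exact h1.ap
  · have := h1.rn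
    rw [hr] at this
    exact nonneg_of_mul_nonneg_right this (by positivity)
  · have := h1.reg
    rw [hr, hk] at this
    have hs6 : 0 < s ^ 6 := by positivity
    refine le_of_mul_le_mul_left ?_ hs6
    calc s ^ 6 * (((n : ℝ) - 1) * ((n : ℝ) - 2) * k3 n (l k / s) 1 (y 1 / s ^ 3) ^ 2)
        = ((n : ℝ) - 1) * ((n : ℝ) - 2) * (s ^ 3 * k3 n (l k / s) 1 (y 1 / s ^ 3)) ^ 2 := by ring
      _ ≤ _ := this
      _ = _ := by ring

/-! ### scaling of the base -/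

/-- `B'` is the `s`-scaled form of `B` -/
structure SRel (s : ℝ) (B B' : TEl.Base) : Prop where
  g : B'.g = B.g
  k11 : B.k11 = s ^ 2 * B'.k11
  k12 : B.k12 = s ^ 3 * B'.k12
  k22 : B.k22 = s ^ 4 * B'.k22
  C0 : B.C0 = s ^ 2 * B'.C0
  Ck : B.Ck = s ^ 2 * B'.Ck
  L1 : B'.L1 = B.L1
  L2 : B'.L2 = s * B.L2
  Lw : B.Lw = s ^ 2 * B'.Lw
  A11 : B'.A11 = s ^ 2 * B.A11
  A12 : B'.A12 = s ^ 3 * B.A12
  W1 : B'.W1 = B.W1
  W2 : B'.W2 = s * B.W2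
  psi : B.psi = s ^ 2 * B'.psi

lemma Fb_srel {s : ℝ} (hs : 0 < s) {B B' : TEl.Base} (h : SRel s B B') (r s0 X Y W Gt : ℝ) :
    TEl.Fb B r s0 X Y W Gt = TEl.Fb B' r (s * s0) (X / s) (Y / s ^ 2) (s * W) Gt := by
  unfold TEl.Fb
  rw [h.C0, h.Ck, h.L1, h.L2, h.Lw, h.A11, h.A12, h.W1, h.W2, h.psi]
  field_simp

/-- multiplication by `s^k` (`s` = variable 2) -/
def mulS (k : ℕ) (p : SP) : SP := mmul (1, unitE 2 k) p

lemma ev_mulS (t : ℕ → ℝ) (k : ℕ) (p : SP) : ev t (mulS k p) = t 2 ^ k * ev t p := by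
  rw [mulS, ev_mmul, unitE, mon_replicate]
  simp [mon]

/-- the `s`-scaled base polynomials -/
def BaseP.scaleS (B : BaseP) : Option BaseP :=
  match divV 2 2 B.k11, divV 2 3 B.k12, divV 2 4 B.k22, divV 2 2 B.C0, divV 2 2 B.Ck, divV 2 2 B.Lw,
    divV 2 2 B.psi with
  | some a1, some a2, some a3, some a4, some a5, some a6, some a7 => some
    { g := B.g, k11 := a1, k12 := a2, k22 := a3, C0 := a4, Ck := a5, L1 := B.L1, L2 := mulS 1 B.L2,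
      Lw := a6, A11 := mulS 2 B.A11, A12 := mulS 3 B.A12, W1 := B.W1, W2 := mulS 1 B.W2, psi := a7 }
  | _, _, _, _, _, _, _ => none

lemma srel_of_scaleS {B B' : BaseP} (h : B.scaleS = some B') (t : ℕ → ℝ) :
    SRel (t 2) (B.ev t) (B'.ev t) := by
  unfold BaseP.scaleS at h
  cases h1 : divV 2 2 B.k11 with
  | none => simp [h1] at h
  | some a1 =>
  cases h2 : divV 2 3 B.k12 with
  | none => simp [h1, h2] at h
  | some a2 =>
  cases h3 : divV 2 4 B.k22 with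
  | none => simp [h1, h2, h3] at h
  | some a3 =>
  cases h4 : divV 2 2 B.C0 with
  | none => simp [h1, h2, h3, h4] at h
  | some a4 =>
  cases h5 : divV 2 2 B.Ck with
  | none => simp [h1, h2, h3, h4, h5] at h
  | some a5 =>
  cases h6 : divV 2 2 B.Lw with
  | none => simp [h1, h2, h3, h4, h5, h6] at h
  | some a6 =>
  cases h7 : divV 2 2 B.psi with
  | none => simp [h1, h2, h3, h4, h5, h6, h7] at h
  | some a7 =>
  simp only [h1, h2, h3, h4, h5, h6, h7, Option.some.injEq] at h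
  subst h
  have d1 := ev_divV t _ _ _ _ h1
  have d2 := ev_divV t _ _ _ _ h2
  have d3 := ev_divV t _ _ _ _ h3
  have d4 := ev_divV t _ _ _ _ h4
  have d5 := ev_divV t _ _ _ _ h5
  have d6 := ev_divV t _ _ _ _ h6
  have d7 := ev_divV t _ _ _ _ h7
  refine ⟨rfl, d1, d2, d3, d4, d5, rfl, ?_, d6, ?_, ?_, rfl, ?_, d7⟩
  · show ev t (mulS 1 B.L2) = _; rw [ev_mulS, pow_one]; rfl
  · show ev t (mulS 2 B.A11) = _; rw [ev_mulS]; rfl
  · show ev t (mulS 3 B.A12) = _; rw [ev_mulS]; rfl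
  · show ev t (mulS 1 B.W2) = _; rw [ev_mulS, pow_one]; rfl

end Crest.Agent.R097.CQ
end

-- ▼ part R097/CP4
section

/-!
# Row 97: growth conditions and the final `Cert` (helper351)
-/

set_option autoImplicit false
open scoped BigOperators

namespace Crest.Agent.R097.CP

/-- the box of normalised arguments -/
def Bx (V : ℝ) : Set (Fin 4 → ℝ) := Set.Icc ![0, -1, 0, 0] ![1, 1, 1, V]

lemma isCompact_Bx (V : ℝ) : IsCompact (Bx V) := isCompact_Icc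

lemma convex_Bx (V : ℝ) : Convex ℝ (Bx V) := convex_Icc _ _

lemma mem_Bx {V : ℝ} {y : Fin 4 → ℝ} : y ∈ Bx V ↔ (0 ≤ y 0 ∧ y 0 ≤ 1) ∧ (-1 ≤ y 1 ∧ y 1 ≤ 1) ∧
    (0 ≤ y 2 ∧ y 2 ≤ 1) ∧ (0 ≤ y 3 ∧ y 3 ≤ V) := by
  unfold Bx
  rw [Set.mem_Icc, Pi.le_def, Pi.le_def]
  constructor
  · rintro ⟨h1, h2⟩
    exact ⟨⟨h1 0, h2 0⟩, ⟨h1 1, h2 1⟩, ⟨h1 2, h2 2⟩, ⟨h1 3, h2 3⟩⟩
  · rintro ⟨⟨a1, a2⟩, ⟨b1, b2⟩, ⟨c1, c2⟩, ⟨d1, d2⟩⟩
    constructor <;> intro i <;> fin_cases i <;> assumption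

/-- polynomials are bounded on the box -/
lemma ev_bdd (V : ℝ) (p : Pol) : ∃ M : ℝ, 0 ≤ M ∧ ∀ y ∈ Bx V, |p.ev y| ≤ M := by
  obtain ⟨M, hM⟩ := (isCompact_Bx V).exists_bound_of_continuousOn p.continuous_ev.continuousOn
  refine ⟨max M 0, le_max_right _ _, fun y hy => ?_⟩
  have := hM y hy
  rw [Real.norm_eq_abs] at this
  exact this.trans (le_max_left _ _)

/-- polynomials vanishing on `ζ = 1, c = 0` -/
lemma ev_small (V : ℝ) (p : Pol) (hp : ∀ Q v : ℝ, p.ev ![1, 0, Q, v] = 0) :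
    ∃ M : ℝ, 0 ≤ M ∧ ∀ y ∈ Bx V, |p.ev y| ≤ M * max |1 - y 0| |y 1| := by
  obtain ⟨M0, hM0, h0⟩ := ev_bdd V (p.D 0)
  obtain ⟨M1, hM1, h1⟩ := ev_bdd V (p.D 1)
  obtain ⟨M2, hM2, h2⟩ := ev_bdd V (p.D 2)
  obtain ⟨M3, hM3, h3⟩ := ev_bdd V (p.D 3)
  refine ⟨M0 + M1 + M2 + M3, by positivity, fun y hy => ?_⟩
  have hy' := mem_Bx.1 hy
  set y' : Fin 4 → ℝ := ![1, 0, y 2, y 3] with hy'def
  have hmem : y' ∈ Bx V := by
    rw [mem_Bx]
    refine ⟨⟨?_, ?_⟩, ⟨?_, ?_⟩, ?_, ?_⟩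
    · show (0 : ℝ) ≤ 1; norm_num
    · show (1 : ℝ) ≤ 1; norm_num
    · show (-1 : ℝ) ≤ 0; norm_num
    · show (0 : ℝ) ≤ 1; norm_num
    · exact hy'.2.2.1
    · exact hy'.2.2.2
  have hb : ∀ z ∈ Bx V, ‖∑ r, (p.D r).ev z • (ContinuousLinearMap.proj r : (Fin 4 → ℝ) →L[ℝ] ℝ)‖
      ≤ M0 + M1 + M2 + M3 := by
    intro z hz
    refine ContinuousLinearMap.opNorm_le_bound _ (by positivity) fun v => ?_
    have hv : ∀ r : Fin 4, |v r| ≤ ‖v‖ := fun r => norm_le_pi_norm v r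
    have e : ∀ (r : Fin 4) (M : ℝ), 0 ≤ M → |(p.D r).ev z| ≤ M → |(p.D r).ev z * v r| ≤ M * ‖v‖ := by
      intro r M hM hh
      rw [abs_mul]
      exact mul_le_mul hh (hv r) (abs_nonneg _) hM
    have a0 := e 0 M0 hM0 (h0 z hz)
    have a1 := e 1 M1 hM1 (h1 z hz)
    have a2 := e 2 M2 hM2 (h2 z hz)
    have a3 := e 3 M3 hM3 (h3 z hz)
    rw [Real.norm_eq_abs]
    simp only [Fin.sum_univ_four, add_apply, smul_apply, smul_eq_mul, ContinuousLinearMap.proj_apply]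
    have b1 := abs_add_le ((p.D 0).ev z * v 0 + (p.D 1).ev z * v 1 + (p.D 2).ev z * v 2) ((p.D 3).ev z * v 3)
    have b2 := abs_add_le ((p.D 0).ev z * v 0 + (p.D 1).ev z * v 1) ((p.D 2).ev z * v 2)
    have b3 := abs_add_le ((p.D 0).ev z * v 0) ((p.D 1).ev z * v 1)
    linarith
  have key := (convex_Bx V).norm_image_sub_le_of_norm_hasFDerivWithin_le
    (f := p.ev) (f' := fun z => ∑ r, (p.D r).ev z • (ContinuousLinearMap.proj r : (Fin 4 → ℝ) →L[ℝ] ℝ))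
    (fun z _ => (p.hasFDerivAt z).hasFDerivWithinAt) hb hmem hy
  rw [hp, sub_zero, Real.norm_eq_abs] at key
  refine key.trans (mul_le_mul_of_nonneg_left ?_ (by positivity))
  refine (pi_norm_le_iff_of_nonneg (le_max_of_le_left (abs_nonneg _))).2 fun i => ?_
  fin_cases i
  · refine le_trans (le_of_eq ?_) (le_max_left _ _)
    show |y 0 - 1| = _
    rw [abs_sub_comm]
  · refine le_trans (le_of_eq ?_) (le_max_right _ _)
    show |y 1 - 0| = _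
    rw [sub_zero]
  · have : |y 2 - y 2| = 0 := by rw [sub_self, abs_zero]
    show |y 2 - y 2| ≤ _
    rw [this]; exact le_max_of_le_left (abs_nonneg _)
  · have : |y 3 - y 3| = 0 := by rw [sub_self, abs_zero]
    show |y 3 - y 3| ≤ _
    rw [this]; exact le_max_of_le_left (abs_nonneg _)

/-- the derivative in the direction `Q` of a polynomial vanishing on `ζ = 1, c = 0` vanishes there -/
lemma van_D2 {p : Pol} (hp : ∀ Q v : ℝ, p.ev ![1, 0, Q, v] = 0) (Q v : ℝ) :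
    (p.D 2).ev ![1, 0, Q, v] = 0 := by
  have h1 := p.hasFDerivAt ![1, 0, Q, v]
  have h2 : HasDerivAt (fun t : ℝ => (![1, 0, t, v] : Fin 4 → ℝ)) ![0, 0, 1, 0] Q := by
    rw [hasDerivAt_pi]
    intro i
    fin_cases i
    · exact hasDerivAt_const _ _
    · exact hasDerivAt_const _ _
    · exact hasDerivAt_id _
    · exact hasDerivAt_const _ _
  have h3 := h1.comp_hasDerivAt Q h2
  have h4 : (p.ev ∘ fun t : ℝ => (![1, 0, t, v] : Fin 4 → ℝ)) = fun _ => 0 := by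
    ext t; exact hp t v
  rw [h4] at h3
  have h5 := h3.unique (hasDerivAt_const Q (0 : ℝ))
  simpa [Fin.sum_univ_four] using h5

lemma van_D3 {p : Pol} (hp : ∀ Q v : ℝ, p.ev ![1, 0, Q, v] = 0) (Q v : ℝ) :
    (p.D 3).ev ![1, 0, Q, v] = 0 := by
  have h1 := p.hasFDerivAt ![1, 0, Q, v]
  have h2 : HasDerivAt (fun t : ℝ => (![1, 0, Q, t] : Fin 4 → ℝ)) ![0, 0, 0, 1] v := by
    rw [hasDerivAt_pi]
    intro i
    fin_cases i
    · exact hasDerivAt_const _ _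
    · exact hasDerivAt_const _ _
    · exact hasDerivAt_const _ _
    · exact hasDerivAt_id _
  have h3 := h1.comp_hasDerivAt v h2
  have h4 : (p.ev ∘ fun t : ℝ => (![1, 0, Q, t] : Fin 4 → ℝ)) = fun _ => 0 := by
    ext t; exact hp Q t
  rw [h4] at h3
  have h5 := h3.unique (hasDerivAt_const v (0 : ℝ))
  simpa [Fin.sum_univ_four] using h5

/-- `|P₃| ≤ P₂^{3/2}` -/
lemma cube_le {n : ℕ} (lam : Fin n → ℝ) :
    |∑ i, lam i ^ 3| ≤ Real.sqrt (∑ i, lam i ^ 2) * ∑ i, lam i ^ 2 := by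
  refine (Finset.abs_sum_le_sum_abs _ _).trans ?_
  rw [Finset.mul_sum]
  refine Finset.sum_le_sum fun i _ => ?_
  have h1 : |lam i| ≤ Real.sqrt (∑ i, lam i ^ 2) := by
    rw [← Real.sqrt_sq_eq_abs]
    exact Real.sqrt_le_sqrt (Finset.single_le_sum (f := fun i => lam i ^ 2)
      (fun i _ => sq_nonneg _) (Finset.mem_univ i))
  have h2 : |lam i ^ 3| = |lam i| * lam i ^ 2 := by
    rw [abs_pow, ← sq_abs (lam i)]; ring
  rw [h2]
  exact mul_le_mul_of_nonneg_right h1 (sq_nonneg _)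

/-- basic bounds at an admissible state -/
structure SB {n : ℕ} (A0 R : ℝ) (lam g : Fin n → ℝ) (s : ℝ) : Prop where
  rpos : 0 < rh A0 (zv lam g s)
  rV : rh A0 (zv lam g s) ≤ Real.sqrt (A0 + |R|)
  ra : Real.sqrt A0 ≤ rh A0 (zv lam g s)
  s0 : 0 ≤ s
  s1 : s ≤ 1
  box : nz A0 (zv lam g s) ∈ Bx (Real.sqrt (A0 + |R|))
  mx : max |1 - nz A0 (zv lam g s) 0| |nz A0 (zv lam g s) 1| ≤ (∑ i, lam i ^ 2) / A0
  mx' : (∑ i, lam i ^ 2) / A0 ≤ Real.sqrt |R| / A0 * Real.sqrt (∑ i, lam i ^ 2)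

lemma sb_of_adm {n : ℕ} {A0 R : ℝ} (hA : 0 < A0) {lam g : Fin n → ℝ} {s : ℝ} (h : Adm lam g s)
    (hR : ∑ i, lam i ^ 2 ≤ R) : SB A0 R lam g s := by
  have hP0 : 0 < ∑ i, lam i ^ 2 := h.pos
  have hRR : ∑ i, lam i ^ 2 ≤ |R| := hR.trans (le_abs_self R)
  have hρ : 0 < rh A0 (zv lam g s) := rh_pos hA h.pos
  have hρ2 : rh A0 (zv lam g s) ^ 2 = A0 + ∑ i, lam i ^ 2 := rh_sq hA h.pos
  have hρV : rh A0 (zv lam g s) ≤ Real.sqrt (A0 + |R|) :=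
    Real.sqrt_le_sqrt (by show A0 + ∑ i, lam i ^ 2 ≤ A0 + |R|; linarith)
  have haρ : Real.sqrt A0 ≤ rh A0 (zv lam g s) :=
    Real.sqrt_le_sqrt (by show A0 ≤ A0 + ∑ i, lam i ^ 2; linarith)
  have hg2 : 0 ≤ ∑ i, g i ^ 2 := Finset.sum_nonneg fun i _ => sq_nonneg _
  have hs1 : s ≤ 1 := by
    have h1 : s ^ 2 ≤ 1 := by
      have := h.q1
      linarith
    nlinarith [h.s0]
  have hspρ : Real.sqrt (∑ i, lam i ^ 2) ≤ rh A0 (zv lam g s) := Real.sqrt_le_sqrt (by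
    show ∑ i, lam i ^ 2 ≤ A0 + ∑ i, lam i ^ 2; linarith)
  have n0 : nz A0 (zv lam g s) 0 = A0 / rh A0 (zv lam g s) ^ 2 := rfl
  have n1 : nz A0 (zv lam g s) 1 = (∑ i, lam i ^ 3) / rh A0 (zv lam g s) ^ 3 := rfl
  have n2 : nz A0 (zv lam g s) 2 = ∑ i, g i ^ 2 + s ^ 2 := rfl
  have n3 : nz A0 (zv lam g s) 3 = s * rh A0 (zv lam g s) := rfl
  generalize hρe : rh A0 (zv lam g s) = ρ at *
  have h1z : 1 - nz A0 (zv lam g s) 0 = (∑ i, lam i ^ 2) / ρ ^ 2 := by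
    rw [n0, hρ2]; field_simp; ring
  have hdiv : (∑ i, lam i ^ 2) / ρ ^ 2 ≤ (∑ i, lam i ^ 2) / A0 :=
    div_le_div_of_nonneg_left hP0.le hA (by rw [hρ2]; linarith)
  have hm2' : |nz A0 (zv lam g s) 1| ≤ (∑ i, lam i ^ 2) / ρ ^ 2 := by
    rw [n1, abs_div, abs_of_pos (by positivity : 0 < ρ ^ 3), div_le_div_iff₀ (by positivity) (by positivity)]
    have h5 := cube_le lam
    have h6 : Real.sqrt (∑ i, lam i ^ 2) * ∑ i, lam i ^ 2 ≤ ρ * ∑ i, lam i ^ 2 :=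
      mul_le_mul_of_nonneg_right hspρ hP0.le
    have h7 : |∑ i, lam i ^ 3| ≤ ρ * ∑ i, lam i ^ 2 := h5.trans h6
    calc |∑ i, lam i ^ 3| * ρ ^ 2 ≤ (ρ * ∑ i, lam i ^ 2) * ρ ^ 2 :=
          mul_le_mul_of_nonneg_right h7 (by positivity)
      _ = (∑ i, lam i ^ 2) * ρ ^ 3 := by ring
  have hle1 : (∑ i, lam i ^ 2) / ρ ^ 2 ≤ 1 := by
    rw [div_le_one (by positivity), hρ2]; linarith
  refine ⟨by rw [hρe]; exact hρ, by rw [hρe]; exact hρV, by rw [hρe]; exact haρ, h.s0, hs1, ?_, ?_, ?_⟩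
  · rw [mem_Bx]
    refine ⟨⟨?_, ?_⟩, ⟨?_, ?_⟩, ⟨?_, ?_⟩, ⟨?_, ?_⟩⟩
    · rw [n0]; positivity
    · rw [n0, hρ2, div_le_one (by linarith)]; linarith
    · exact (abs_le.1 (hm2'.trans hle1)).1
    · exact (abs_le.1 (hm2'.trans hle1)).2
    · rw [n2]; have := sq_nonneg s; linarith
    · rw [n2]; exact h.q1
    · rw [n3]; exact mul_nonneg h.s0 hρ.le
    · rw [n3]
      calc s * ρ ≤ 1 * Real.sqrt (A0 + |R|) := mul_le_mul hs1 hρV hρ.le zero_le_one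
        _ = Real.sqrt (A0 + |R|) := one_mul _
  · refine max_le ?_ (hm2'.trans hdiv)
    rw [h1z, abs_of_nonneg (by positivity)]
    exact hdiv
  · rw [div_mul_eq_mul_div]
    refine div_le_div_of_nonneg_right ?_ hA.le
    have hsP : Real.sqrt (∑ i, lam i ^ 2) ≤ Real.sqrt |R| := Real.sqrt_le_sqrt hRR
    have hsq : Real.sqrt (∑ i, lam i ^ 2) * Real.sqrt (∑ i, lam i ^ 2) = ∑ i, lam i ^ 2 :=
      Real.mul_self_sqrt hP0.le
    calc ∑ i, lam i ^ 2 = Real.sqrt (∑ i, lam i ^ 2) * Real.sqrt (∑ i, lam i ^ 2) := hsq.symm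
      _ ≤ Real.sqrt |R| * Real.sqrt (∑ i, lam i ^ 2) :=
        mul_le_mul_of_nonneg_right hsP (Real.sqrt_nonneg _)

/-- bounded quantities -/
lemma bd_of {n : ℕ} {A0 : ℝ} (hA : 0 < A0) (R : ℝ) (p : Pol) (e : ℤ) :
    ∃ K : ℝ, 0 ≤ K ∧ ∀ (lam g : Fin n → ℝ) (s : ℝ), Adm lam g s → ∑ i, lam i ^ 2 ≤ R →
      |rh A0 (zv lam g s) ^ e * p.ev (nz A0 (zv lam g s))| ≤ K := by
  obtain ⟨M, hM, bM⟩ := ev_bdd (Real.sqrt (A0 + |R|)) p
  have ha0 : 0 < Real.sqrt A0 := Real.sqrt_pos.2 hA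
  obtain ⟨C, hC⟩ := (isCompact_Icc (a := Real.sqrt A0) (b := Real.sqrt (A0 + |R|))).exists_bound_of_continuousOn
    (f := fun t : ℝ => t ^ e) (continuousOn_id.zpow₀ e fun t ht => Or.inl (by
      have : 0 < t := lt_of_lt_of_le ha0 ht.1
      exact this.ne'))
  refine ⟨|C| * M, by positivity, fun lam g s h hR => ?_⟩
  have hs := sb_of_adm hA h hR
  rw [abs_mul]
  refine mul_le_mul ?_ (bM _ hs.box) (abs_nonneg _) (abs_nonneg _)
  have := hC _ ⟨hs.ra, hs.rV⟩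
  rw [Real.norm_eq_abs] at this
  exact this.trans (le_abs_self C)

/-- small quantities -/
lemma sm_of {n : ℕ} {A0 : ℝ} (hA : 0 < A0) (R : ℝ) (p : Pol) (e : ℤ)
    (hp : ∀ Q v : ℝ, p.ev ![1, 0, Q, v] = 0) :
    ∃ K : ℝ, 0 ≤ K ∧ ∀ (lam g : Fin n → ℝ) (s : ℝ), Adm lam g s → ∑ i, lam i ^ 2 ≤ R →
      |rh A0 (zv lam g s) ^ e * p.ev (nz A0 (zv lam g s))| ≤ K * (∑ i, lam i ^ 2) ∧
      |rh A0 (zv lam g s) ^ e * p.ev (nz A0 (zv lam g s))| ≤ K * Real.sqrt (∑ i, lam i ^ 2) := by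
  obtain ⟨M, hM, bM⟩ := ev_small (Real.sqrt (A0 + |R|)) p hp
  have ha0 : 0 < Real.sqrt A0 := Real.sqrt_pos.2 hA
  obtain ⟨C, hC⟩ := (isCompact_Icc (a := Real.sqrt A0) (b := Real.sqrt (A0 + |R|))).exists_bound_of_continuousOn
    (f := fun t : ℝ => t ^ e) (continuousOn_id.zpow₀ e fun t ht => Or.inl (by
      have : 0 < t := lt_of_lt_of_le ha0 ht.1
      exact this.ne'))
  have hr0 : 0 ≤ Real.sqrt |R| := Real.sqrt_nonneg _
  refine ⟨|C| * (M / A0) + |C| * (M * (Real.sqrt |R| / A0)), by positivity, fun lam g s h hR => ?_⟩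
  have hs := sb_of_adm hA h hR
  have hP0 : 0 < ∑ i, lam i ^ 2 := h.pos
  have hsp : 0 ≤ Real.sqrt (∑ i, lam i ^ 2) := Real.sqrt_nonneg _
  have h1 : |rh A0 (zv lam g s) ^ e| ≤ |C| := by
    have := hC _ ⟨hs.ra, hs.rV⟩
    rw [Real.norm_eq_abs] at this
    exact this.trans (le_abs_self C)
  have h2 : |p.ev (nz A0 (zv lam g s))| ≤ M * ((∑ i, lam i ^ 2) / A0) :=
    (bM _ hs.box).trans (mul_le_mul_of_nonneg_left hs.mx hM)
  have h3 : |p.ev (nz A0 (zv lam g s))| ≤ M * (Real.sqrt |R| / A0 * Real.sqrt (∑ i, lam i ^ 2)) :=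
    h2.trans (mul_le_mul_of_nonneg_left hs.mx' hM)
  rw [abs_mul]
  constructor
  · calc |rh A0 (zv lam g s) ^ e| * |p.ev (nz A0 (zv lam g s))|
        ≤ |C| * (M * ((∑ i, lam i ^ 2) / A0)) := mul_le_mul h1 h2 (abs_nonneg _) (abs_nonneg _)
      _ = |C| * (M / A0) * (∑ i, lam i ^ 2) := by ring
      _ ≤ _ := mul_le_mul_of_nonneg_right (le_add_of_nonneg_right (by positivity)) hP0.le
  · calc |rh A0 (zv lam g s) ^ e| * |p.ev (nz A0 (zv lam g s))|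
        ≤ |C| * (M * (Real.sqrt |R| / A0 * Real.sqrt (∑ i, lam i ^ 2))) :=
          mul_le_mul h1 h3 (abs_nonneg _) (abs_nonneg _)
      _ = |C| * (M * (Real.sqrt |R| / A0)) * Real.sqrt (∑ i, lam i ^ 2) := by ring
      _ ≤ _ := mul_le_mul_of_nonneg_right (le_add_of_nonneg_left (by positivity)) hsp

/-- growth of the data on admissible states with `P₂ ≤ R` -/
lemma growth_of (D : Dat) {A0 : ℝ} (hA : 0 < A0) (hZ : ∀ Q v : ℝ, D.Z.ev ![1, 0, Q, v] = 0)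
    (hp0 : ∀ Q v : ℝ, D.p0.ev ![1, 0, Q, v] = 0) {n : ℕ} (R : ℝ) :
    ∃ K : ℝ, ∀ (lam g : Fin n → ℝ) (s : ℝ), Adm lam g s → ∑ i, lam i ^ 2 ≤ R →
    (D.cert A0).Z.f (zv lam g s) ≤ K * ∑ i, lam i ^ 2 ∧ |(D.cert A0).Z.d 0 (zv lam g s)| ≤ K ∧
    |(D.cert A0).Z.d 1 (zv lam g s)| ≤ K ∧
    |(D.cert A0).Z.d 2 (zv lam g s)| ≤ K * Real.sqrt (∑ i, lam i ^ 2) ∧
    |(D.cert A0).Z.d 3 (zv lam g s)| ≤ K * Real.sqrt (∑ i, lam i ^ 2) ∧
    |(D.cert A0).y0.f (zv lam g s)| ≤ K * Real.sqrt (∑ i, lam i ^ 2) ∧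
    |(D.cert A0).ga.f (zv lam g s)| ≤ K ∧ |(D.cert A0).y1.f (zv lam g s)| ≤ K ∧
    |(D.cert A0).y2.f (zv lam g s)| ≤ K ∧ |(D.cert A0).y3.f (zv lam g s)| ≤ K := by
  obtain ⟨KZ, hKZ, cZ⟩ := sm_of (n := n) hA R D.Z 1 hZ
  obtain ⟨K0, hK0, c0⟩ := sm_of (n := n) hA R D.p0 2 hp0
  obtain ⟨KQ, hKQ, cQ⟩ := sm_of (n := n) hA R (D.Z.D 2) 1 (van_D2 hZ)
  obtain ⟨Kv, hKv, cv⟩ := sm_of (n := n) hA R (D.Z.D 3) 2 (van_D3 hZ)
  obtain ⟨Kg, hKg, cg⟩ := bd_of (n := n) hA R D.g (-1)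
  obtain ⟨K1, hK1, c1⟩ := bd_of (n := n) hA R D.p1 1
  obtain ⟨K2, hK2, c2⟩ := bd_of (n := n) hA R D.p2 0
  obtain ⟨K3, hK3, c3⟩ := bd_of (n := n) hA R D.p3 (-1)
  obtain ⟨Kc, hKc, cc⟩ := bd_of (n := n) hA R (D.Z.D 1) (-2)
  obtain ⟨Ka, hKa, ca⟩ := bd_of (n := n) hA R D.Z (-1)
  obtain ⟨Kb, hKb, cb⟩ := bd_of (n := n) hA R (D.Z.D 0) (-1)
  obtain ⟨Kd, hKd, cd⟩ := bd_of (n := n) hA R (D.Z.D 1) (-1)
  obtain ⟨Ke, hKe, ce⟩ := bd_of (n := n) hA R (D.Z.D 3) (-1)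
  set V : ℝ := Real.sqrt (A0 + |R|) with hV
  have hV0 : 0 ≤ V := Real.sqrt_nonneg _
  have q0 : 0 ≤ 2 * KQ + Kv := by positivity
  have q1 : 0 ≤ Ka + 2 * Kb + 3 * Kd + V * Ke := by positivity
  refine ⟨KZ + K0 + KQ + (2 * KQ + Kv) + Kg + K1 + K2 + K3 + Kc + (Ka + 2 * Kb + 3 * Kd + V * Ke),
    fun lam g s h hR => ?_⟩
  have hs := sb_of_adm hA h hR
  have hP0 : 0 < ∑ i, lam i ^ 2 := h.pos
  have hsp : 0 ≤ Real.sqrt (∑ i, lam i ^ 2) := Real.sqrt_nonneg _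
  have hρ := hs.rpos
  have aZ := cZ lam g s h hR
  have a0 := c0 lam g s h hR
  have aQ := cQ lam g s h hR
  have av := cv lam g s h hR
  have ag := cg lam g s h hR
  have a1 := c1 lam g s h hR
  have a2 := c2 lam g s h hR
  have a3 := c3 lam g s h hR
  have ac := cc lam g s h hR
  have aa := ca lam g s h hR
  have ab := cb lam g s h hR
  have ad := cd lam g s h hR
  have ae := ce lam g s h hR
  have hy := mem_Bx.1 hs.box
  have mono : ∀ {x a b : ℝ}, 0 ≤ x → a ≤ b → a * x ≤ b * x := fun hx hab =>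
    mul_le_mul_of_nonneg_right hab hx
  refine ⟨?_, ?_, ?_, ?_, ?_, ?_, ?_, ?_, ?_, ?_⟩
  · exact ((le_abs_self _).trans aZ.1).trans (mono hP0.le (by linarith))
  · -- `Z.d 0`
    have e : (D.cert A0).Z.d 0 (zv lam g s) = (1 / 2) * (
        rh A0 (zv lam g s) ^ (-1 : ℤ) * D.Z.ev (nz A0 (zv lam g s))
        - 2 * nz A0 (zv lam g s) 0 * (rh A0 (zv lam g s) ^ (-1 : ℤ) * (D.Z.D 0).ev (nz A0 (zv lam g s)))
        - 3 * nz A0 (zv lam g s) 1 * (rh A0 (zv lam g s) ^ (-1 : ℤ) * (D.Z.D 1).ev (nz A0 (zv lam g s)))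
        + nz A0 (zv lam g s) 3 * (rh A0 (zv lam g s) ^ (-1 : ℤ) * (D.Z.D 3).ev (nz A0 (zv lam g s)))) := by
      show rh A0 (zv lam g s) ^ (1 : ℤ) * (eul 1 D.Z (nz A0 (zv lam g s)) / (2 * rh A0 (zv lam g s) ^ 2)) = _
      unfold eul
      rw [zpow_one, zpow_neg_one]
      field_simp
      push_cast
      ring
    rw [e]
    generalize rh A0 (zv lam g s) ^ (-1 : ℤ) * D.Z.ev (nz A0 (zv lam g s)) = X0 at *
    generalize rh A0 (zv lam g s) ^ (-1 : ℤ) * (D.Z.D 0).ev (nz A0 (zv lam g s)) = X1 at *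
    generalize rh A0 (zv lam g s) ^ (-1 : ℤ) * (D.Z.D 1).ev (nz A0 (zv lam g s)) = X2 at *
    generalize rh A0 (zv lam g s) ^ (-1 : ℤ) * (D.Z.D 3).ev (nz A0 (zv lam g s)) = X3 at *
    have u1 : |nz A0 (zv lam g s) 0 * X1| ≤ 1 * Kb := by
      rw [abs_mul]
      exact mul_le_mul (abs_le.2 ⟨by linarith [hy.1.1], hy.1.2⟩) ab (abs_nonneg _) zero_le_one
    have u2 : |nz A0 (zv lam g s) 1 * X2| ≤ 1 * Kd := by
      rw [abs_mul]
      exact mul_le_mul (abs_le.2 hy.2.1) ad (abs_nonneg _) zero_le_one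
    have u3 : |nz A0 (zv lam g s) 3 * X3| ≤ V * Ke := by
      rw [abs_mul]
      exact mul_le_mul (abs_le.2 ⟨by linarith [hy.2.2.2.1], hy.2.2.2.2⟩) ae (abs_nonneg _) hV0
    rw [abs_le] at aa u1 u2 u3 ⊢
    constructor <;> linarith [aa.1, aa.2, u1.1, u1.2, u2.1, u2.2, u3.1, u3.2]
  · -- `Z.d 1`
    have e : (D.cert A0).Z.d 1 (zv lam g s)
        = rh A0 (zv lam g s) ^ (-2 : ℤ) * (D.Z.D 1).ev (nz A0 (zv lam g s)) := by
      show rh A0 (zv lam g s) ^ (1 : ℤ) * ((D.Z.D 1).ev (nz A0 (zv lam g s)) / rh A0 (zv lam g s) ^ 3) = _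
      have : rh A0 (zv lam g s) ^ (-2 : ℤ) = (rh A0 (zv lam g s) ^ 2)⁻¹ := by
        rw [zpow_neg]; norm_cast
      rw [zpow_one, this]
      field_simp
    rw [e]
    exact ac.trans (by linarith)
  · -- `Z.d 2`
    exact aQ.2.trans (mono hsp (by linarith))
  · -- `Z.d 3`
    have e : (D.cert A0).Z.d 3 (zv lam g s)
        = 2 * s * (rh A0 (zv lam g s) ^ (1 : ℤ) * (D.Z.D 2).ev (nz A0 (zv lam g s)))
          + rh A0 (zv lam g s) ^ (2 : ℤ) * (D.Z.D 3).ev (nz A0 (zv lam g s)) := by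
      show rh A0 (zv lam g s) ^ (1 : ℤ) * (2 * s * (D.Z.D 2).ev (nz A0 (zv lam g s))
        + rh A0 (zv lam g s) * (D.Z.D 3).ev (nz A0 (zv lam g s))) = _
      have : rh A0 (zv lam g s) ^ (2 : ℤ) = rh A0 (zv lam g s) ^ 2 := by norm_cast
      rw [zpow_one, this]
      ring
    rw [e]
    have u1 : |2 * s * (rh A0 (zv lam g s) ^ (1 : ℤ) * (D.Z.D 2).ev (nz A0 (zv lam g s)))|
        ≤ 2 * (KQ * Real.sqrt (∑ i, lam i ^ 2)) := by
      rw [abs_mul]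
      refine mul_le_mul ?_ aQ.2 (abs_nonneg _) zero_le_two
      rw [abs_of_nonneg (mul_nonneg zero_le_two hs.s0)]
      linarith [hs.s1]
    refine (abs_add_le _ _).trans ((add_le_add u1 av.2).trans ?_)
    have : 2 * (KQ * Real.sqrt (∑ i, lam i ^ 2)) + Kv * Real.sqrt (∑ i, lam i ^ 2)
      = (2 * KQ + Kv) * Real.sqrt (∑ i, lam i ^ 2) := by ring
    rw [this]
    exact mono hsp (by linarith)
  · exact a0.2.trans (mono hsp (by linarith))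
  · exact ag.trans (by linarith)
  · exact a1.trans (by linarith)
  · exact a2.trans (by linarith)
  · exact a3.trans (by linarith)

/-- **the certificate from the normalised conditions** -/
theorem cert_of_ncert {n : ℕ} {A0 Lam : ℝ} {D : Dat} (H : NCert n A0 Lam D) (hn : 0 < n) :
    Cert n (D.cert A0) Lam where
  okga := coef_ok H.Apos _ _
  ok0 := coef_ok H.Apos _ _
  ok1 := coef_ok H.Apos _ _
  ok2 := coef_ok H.Apos _ _
  ok3 := coef_ok H.Apos _ _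
  okZ := coef_ok H.Apos _ _
  Zpos := by
    intro lam g s h
    have hρ : 0 < rh A0 (zv lam g s) := rh_pos H.Apos h.pos
    have := H.Zpos _ _ (nadm_of_adm H.Apos h).1
    show 0 < rh A0 (zv lam g s) ^ (1 : ℤ) * D.Z.ev (nz A0 (zv lam g s))
    positivity
  lam_gt := H.lam_gt
  PJ := fun lam g s τ h hτ => pj_of_ncert H hn lam g s τ h hτ
  BJ := fun lam k0 Hc h1 h2 h3 h4 => bj_of_ncert H lam k0 Hc h1 h2 h3 h4
  growth := Or.inl fun R => growth_of D H.Apos H.Zvan H.p0van R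

end Crest.Agent.R097.CP
end

-- ▼ part R097/CQ4

/-!
# Row 97: (PJ) of `NCert` from covers of the two charts by leaves (helper351)
-/

set_option autoImplicit false
open scoped BigOperators

namespace Crest.Agent.R097.CQ

open Crest.Agent.R097.CP

/-- denominators of the bound of `∑ l⁴` -/
def N4of : ℕ → ℕ
  | 3 => 8
  | 4 => 54
  | _ => 192

/-- `N4 * p4up` as a polynomial -/
def p4P (n : ℕ) (X a C : SP) : SP :=
  let X2 := mul X X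
  match n with
  | 3 =>
    let R := sub (smul 2 a) (smul 3 X2)
    let K := add (smul 2 C) (mul X (sub (smul 3 a) (smul 6 X2)))
    add (add (smul 9 (mul X2 X2)) (smul 6 (mul X2 R))) (add (smul (-8) (mul X K)) (mul R R))
  | 4 =>
    let R := sub (smul 3 a) (smul 4 X2)
    let K := add (smul 9 C) (mul X (sub (smul 9 a) (smul 20 X2)))
    add (add (smul 56 (mul X2 X2)) (smul 12 (mul X2 R))) (add (smul (-8) (mul X K)) (smul 3 (mul R R)))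
  | _ =>
    let R := sub (smul 4 a) (smul 5 X2)
    let K := add (smul 8 C) (mul X (sub (smul 6 a) (smul 15 X2)))
    add (add (smul 195 (mul X2 X2)) (smul 18 (mul X2 R))) (add (smul (-24) (mul X K)) (smul 7 (mul R R)))

lemma p4P_ev {n : ℕ} (hn : nOK n) (X a C : SP) (t : ℕ → ℝ) :
    ev t (p4P n X a C) / (N4of n : ℝ) = p4up n (ev t X) (ev t a) (ev t C) := by
  rcases hn with rfl | rfl | rfl
  · simp only [p4P, ev_add, ev_sub, ev_smul, ev_mul, N4of, p4up, rr, k3, cn]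
    norm_num
    ring
  · simp only [p4P, ev_add, ev_sub, ev_smul, ev_mul, N4of, p4up, rr, k3, cn]
    norm_num
    ring
  · simp only [p4P, ev_add, ev_sub, ev_smul, ev_mul, N4of, p4up, rr, k3, cn]
    norm_num
    ring

/-- normal form of all fields -/
def BaseP.nf (B : BaseP) : BaseP where
  g := norm 5 B.g
  k11 := norm 5 B.k11
  k12 := norm 5 B.k12
  k22 := norm 5 B.k22
  C0 := norm 5 B.C0
  Ck := norm 5 B.Ck
  L1 := norm 5 B.L1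
  L2 := norm 5 B.L2
  Lw := norm 5 B.Lw
  A11 := norm 5 B.A11
  A12 := norm 5 B.A12
  W1 := norm 5 B.W1
  W2 := norm 5 B.W2
  psi := norm 5 B.psi

lemma BaseP.nf_ev (B : BaseP) (t : ℕ → ℝ) : B.nf.ev t = B.ev t := by
  simp only [BaseP.ev, BaseP.nf, ev_norm]

/-- parameters of a data set -/
structure Pars (P : Par) : Prop where
  n : nOK P.n
  an : 0 < P.an
  ad : 0 < P.ad
  ld : 0 < P.ld
  N4 : P.N4 = N4of P.n

lemma N4of_pos (n : ℕ) : 0 < N4of n := by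
  unfold N4of
  split <;> norm_num

lemma kap_pos {P : Par} (h : Pars P) : (0 : ℝ) < (P.kap : ℝ) := by
  have h1 := h.an
  have h2 := h.ld
  have h3 := N4of_pos P.n
  rw [← h.N4] at h3
  have : 0 < P.kap := by unfold Par.kap; positivity
  exact_mod_cast this



/-- the variables of chart S -/
def XS : SP := [(1, [1, 0, 1])]
def CS : SP := [(1, [0, 1, 3])]
def ZS : SP := [(1, []), (-1, [0, 0, 2])]
def AS : SP := [(1, [0, 0, 2])]

lemma ev_XS (t : ℕ → ℝ) : ev t XS = t 2 * t 0 := by simp [XS, ev, mon]; ring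
lemma ev_CS (t : ℕ → ℝ) : ev t CS = t 2 ^ 3 * t 1 := by simp [CS, ev, mon]; ring
lemma ev_ZS (t : ℕ → ℝ) : ev t ZS = 1 - t 2 ^ 2 := by simp [ZS, ev, mon]; ring
lemma ev_AS (t : ℕ → ℝ) : ev t AS = t 2 ^ 2 := by simp [AS, ev, mon]

/-- base polynomials of chart S, variables `(x, p, s, Q, v)` -/
def BS (P : Par) (D : Dat) : Option BaseP :=
  (mkB P XS CS ZS (var 3) (var 4) (p4P P.n XS AS CS) [] D).nf.scaleS

/-- the unscaled base at a point of chart S -/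
noncomputable def nbS (P : Par) (D : Dat) (x p s Q v : ℝ) : TEl.Base :=
  D.nb P.n P.A0 P.Lam (s * x) (p4up P.n (s * x) (s ^ 2) (s ^ 3 * p)) 0 ![1 - s ^ 2, s ^ 3 * p, Q, v]

lemma bsc_bsc (a b : ℝ) (B : TEl.Base) : bsc a (bsc b B) = bsc (a * b) B := by
  simp only [bsc, mul_assoc]

lemma bsc_one (B : TEl.Base) : bsc 1 B = B := by
  simp only [bsc, one_mul]

lemma srel_bsc {s κ : ℝ} {B B' : TEl.Base} (h : SRel s B B') : SRel s (bsc κ B) (bsc κ B') := by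
  refine ⟨?_, ?_, ?_, ?_, ?_, ?_, ?_, ?_, ?_, ?_, ?_, ?_, ?_, ?_⟩ <;> simp only [bsc]
  · rw [h.g]
  · rw [h.k11]; ring
  · rw [h.k12]; ring
  · rw [h.k22]; ring
  · rw [h.C0]; ring
  · rw [h.Ck]; ring
  · rw [h.L1]
  · rw [h.L2]; ring
  · rw [h.Lw]; ring
  · rw [h.A11]; ring
  · rw [h.A12]; ring
  · rw [h.W1]
  · rw [h.W2]; ring
  · rw [h.psi]; ring

theorem BS_ev {P : Par} (h : Pars P) (D : Dat) {B' : BaseP} (hB : BS P D = some B') (t : ℕ → ℝ) :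
    ∃ B'' : TEl.Base, B'.ev t = bsc P.kap B'' ∧ SRel (t 2) (nbS P D (t 0) (t 1) (t 2) (t 3) (t 4)) B'' := by
  have hκ := kap_pos h
  have hN : 0 < P.N4 := by rw [h.N4]; exact N4of_pos _
  refine ⟨bsc (1 / P.kap) (B'.ev t), ?_, ?_⟩
  · rw [bsc_bsc, mul_one_div, div_self hκ.ne', bsc_one]
  · have h1 := srel_of_scaleS hB t
    rw [BaseP.nf_ev, mkB_ev P _ _ _ _ _ _ _ D t h.an h.ad h.ld hN, h.N4, p4P_ev h.n] at h1
    have h2 := srel_bsc (κ := 1 / P.kap) h1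
    rw [bsc_bsc, one_div_mul_cancel hκ.ne', bsc_one] at h2
    simp only [ev_XS, ev_CS, ev_ZS, ev_AS, ev_var] at h2
    have : ev t [] / ((N4of P.n : ℕ) : ℝ) = 0 := by simp [ev]
    rw [this] at h2
    exact h2



/-- `C₀` does not depend on `P4` if there is no `y₃` -/
lemma nb_P4 (n : ℕ) (A0 Lam : ℝ) (D : Dat) (h3 : D.p3 = []) (ξ p4 P4 P4' : ℝ) (y : Fin 4 → ℝ) :
    D.nb n A0 Lam ξ p4 P4 y = D.nb n A0 Lam ξ p4 P4' y := by
  simp only [Dat.nb, h3, Pol.ev_nil, zero_mul]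

lemma Fb_p4 (n : ℕ) (A0 Lam : ℝ) (D : Dat) (ξ p4 p4' P4 : ℝ) (y : Fin 4 → ℝ) (r s0 X Y W Gt : ℝ) :
    TEl.Fb (D.nb n A0 Lam ξ p4 P4 y) r s0 X Y W Gt = TEl.Fb (D.nb n A0 Lam ξ p4' P4 y) r s0 X Y W Gt := rfl


end Crest.Agent.R097.CQ
private theorem rz_795808f877 : type_of% @_root_.Crest.Agent.R097.CQ.N4of.eq_1 := @_root_.Crest.Agent.R097.CQ.N4of.eq_1 -- L16
private theorem rz_f845533612 : type_of% @_root_.Crest.Agent.R097.CQ.p4P.eq_1 := @_root_.Crest.Agent.R097.CQ.p4P.eq_1 -- L22
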