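import Crest.Agent.R097.B1
import Crest.Agent.R097.B2
import Crest.Agent.R097.Defs
import Crest.Agent.R097.B3

-- ▼ part R097/Weiss1
section

/-! W1: smoothed Weiss monotonicity formula. -/
set_option autoImplicit false
open MeasureTheory Metric Set Filter Topology
open scoped NNReal RealInnerProductSpace Gradient ContDiff Laplacian

namespace Crest.Agent.R097
variable {d : ℕ}

/-- the weight `(1 - |x|²/r²)⁺` -/
noncomputable def wk (r : ℝ) (x : E d) : ℝ := max (1 - ‖x‖ ^ 2 / r ^ 2) 0

/-- smoothed Weiss energy -/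
noncomputable def Ws (u : E d → ℝ) (r : ℝ) : ℝ :=
  ((∫ x, (‖∇ u x‖ ^ 2 + pos (u x)) * wk r x ^ 2) - 4 / r ^ 2 * ∫ x, u x ^ 2 * wk r x) / r ^ d

theorem wk_nonneg (r : ℝ) (x : E d) : 0 ≤ wk r x := le_max_right _ _

theorem wk_of_lt {r : ℝ} (hr : 0 < r) {x : E d} (hx : ‖x‖ ≤ r) : wk r x = 1 - ‖x‖ ^ 2 / r ^ 2 := by
  unfold wk
  rw [max_eq_left]
  rw [sub_nonneg, div_le_one (by positivity)]
  exact pow_le_pow_left₀ (norm_nonneg _) hx 2

theorem wk_of_ge {r : ℝ} (hr : 0 < r) {x : E d} (hx : r ≤ ‖x‖) : wk r x = 0 := by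
  unfold wk
  rw [max_eq_right]
  rw [sub_nonpos, one_le_div (by positivity)]
  exact pow_le_pow_left₀ hr.le hx 2

theorem wk_le_one (r : ℝ) (x : E d) : wk r x ≤ 1 := by
  unfold wk
  refine max_le ?_ zero_le_one
  have : 0 ≤ ‖x‖ ^ 2 / r ^ 2 := by positivity
  linarith

theorem wk_cont (r : ℝ) : Continuous (wk r : E d → ℝ) := by
  unfold wk; fun_prop

theorem wk_meas (r : ℝ) : Measurable (wk r : E d → ℝ) := (wk_cont r).measurable

theorem wk_supp {r : ℝ} (hr : 0 < r) : ∀ x : E d, x ∉ closedBall (0 : E d) r → wk r x = 0 := fun x hx => by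
  apply wk_of_ge hr
  rw [mem_closedBall_zero_iff, not_le] at hx
  exact hx.le


theorem wk_lip {r : ℝ} (hr : 0 < r) : LipschitzWith (2 / r).toNNReal (wk r : E d → ℝ) := by
  refine LipschitzWith.of_dist_le_mul fun x y => ?_
  rw [Real.coe_toNNReal _ (by positivity), Real.dist_eq]
  have key : ∀ x : E d, wk r x = 1 - (min ‖x‖ r) ^ 2 / r ^ 2 := by
    intro x
    rcases le_total ‖x‖ r with h | h
    · rw [wk_of_lt hr h, min_eq_left h]
    · rw [wk_of_ge hr h, min_eq_right h, div_self (by positivity), sub_self]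
  rw [key, key]
  have h1 : |min ‖x‖ r - min ‖y‖ r| ≤ dist x y := by
    refine (abs_min_sub_min_le_max _ _ _ _).trans ?_
    simp only [sub_self, abs_zero]
    refine max_le ?_ dist_nonneg
    rw [dist_eq_norm]; exact abs_norm_sub_norm_le x y
  have h2 : 0 ≤ min ‖x‖ r := le_min (norm_nonneg _) hr.le
  have h3 : 0 ≤ min ‖y‖ r := le_min (norm_nonneg _) hr.le
  have h4 : min ‖x‖ r ≤ r := min_le_right _ _
  have h5 : min ‖y‖ r ≤ r := min_le_right _ _
  have h6 : 1 - min ‖x‖ r ^ 2 / r ^ 2 - (1 - min ‖y‖ r ^ 2 / r ^ 2) =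
      -((min ‖x‖ r - min ‖y‖ r) * ((min ‖x‖ r + min ‖y‖ r) / r ^ 2)) := by ring
  rw [h6, abs_neg, abs_mul]
  have h7 : |(min ‖x‖ r + min ‖y‖ r) / r ^ 2| ≤ 2 / r := by
    rw [abs_of_nonneg (by positivity), div_le_div_iff₀ (by positivity) hr]
    nlinarith
  calc |min ‖x‖ r - min ‖y‖ r| * |(min ‖x‖ r + min ‖y‖ r) / r ^ 2| ≤ dist x y * (2 / r) := by gcongr
    _ = 2 / r * dist x y := by ring

/-- `q s = (s⁺)²` -/
theorem hasDerivAt_q (s : ℝ) : HasDerivAt (fun s : ℝ => (max s 0) ^ 2) (2 * max s 0) s := by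
  rcases lt_trichotomy s 0 with h | h | h
  · have : (fun s : ℝ => (max s 0) ^ 2) =ᶠ[𝓝 s] fun _ => 0 := by
      filter_upwards [Iio_mem_nhds h] with t ht
      rw [max_eq_right (le_of_lt ht)]; norm_num
    rw [max_eq_right h.le, mul_zero]
    exact (hasDerivAt_const s (0 : ℝ)).congr_of_eventuallyEq this
  · subst h
    rw [max_self, mul_zero, hasDerivAt_iff_isLittleO_nhds_zero]
    simp only [zero_add, max_self, smul_zero, sub_zero]
    have h1 : (fun h : ℝ => (max h 0) ^ 2 - 0 ^ 2) =O[𝓝 0] fun h => h ^ 2 := by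
      refine Asymptotics.IsBigO.of_bound 1 (Eventually.of_forall fun h => ?_)
      rw [Real.norm_eq_abs, Real.norm_eq_abs, one_mul]
      rcases le_total h 0 with h' | h'
      · rw [max_eq_right h']; simp only [ne_eq, OfNat.ofNat_ne_zero, not_false_eq_true, zero_pow, sub_self, abs_zero]; positivity
      · rw [max_eq_left h']; simp
    exact h1.trans_isLittleO (Asymptotics.isLittleO_pow_id (by norm_num))
  · have : (fun s : ℝ => (max s 0) ^ 2) =ᶠ[𝓝 s] fun s => s ^ 2 := by
      filter_upwards [Ioi_mem_nhds h] with t ht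
      rw [max_eq_left (le_of_lt ht)]
    rw [max_eq_left h.le]
    have h1 := hasDerivAt_pow 2 s
    simp only [Nat.cast_ofNat, Nat.add_one_sub_one, pow_one] at h1
    exact h1.congr_of_eventuallyEq this

theorem contDiff_q : ContDiff ℝ 1 (fun s : ℝ => (max s 0) ^ 2) := by
  rw [contDiff_one_iff_deriv]
  refine ⟨fun s => (hasDerivAt_q s).differentiableAt, ?_⟩
  have : deriv (fun s : ℝ => (max s 0) ^ 2) = fun s => 2 * max s 0 := funext fun s => (hasDerivAt_q s).deriv
  rw [this]; fun_prop

theorem wk2_contDiff (r : ℝ) : ContDiff ℝ 1 (fun x : E d => wk r x ^ 2) := by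
  unfold wk
  exact contDiff_q.comp (contDiff_const.sub ((contDiff_norm_sq ℝ).div_const _))

theorem wk2_fderiv (r : ℝ) (x v : E d) :
    fderiv ℝ (fun x : E d => wk r x ^ 2) x v = -(4 / r ^ 2) * wk r x * inner ℝ x v := by
  have h1 : HasFDerivAt (fun x : E d => 1 - ‖x‖ ^ 2 / r ^ 2)
      (-((r ^ 2)⁻¹ • ((2 : ℕ) • innerSL ℝ x))) x := by
    have := (((hasStrictFDerivAt_norm_sq x).hasFDerivAt.const_mul ((r ^ 2)⁻¹)).const_sub 1)
    refine this.congr_of_eventuallyEq (Eventually.of_forall fun y => ?_)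
    simp only [div_eq_inv_mul]
  have h2 := (hasDerivAt_q (1 - ‖x‖ ^ 2 / r ^ 2)).comp_hasFDerivAt x h1
  have h3 : fderiv ℝ (fun x : E d => wk r x ^ 2) x = _ := h2.fderiv
  rw [h3]
  simp only [two_smul, smul_neg, neg_apply, smul_apply, add_apply, innerSL_apply_apply, smul_eq_mul]
  unfold wk
  ring


/-- integrability of a locally bounded measurable function cut off to a ball -/
theorem int_cut {f : E d → ℝ} (hf : AEStronglyMeasurable f) {r C : ℝ} (h0 : ∀ x, x ∉ closedBall (0 : E d) r → f x = 0)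
    (hC : ∀ x ∈ closedBall (0 : E d) r, |f x| ≤ C) : Integrable f :=
  integrable_of_bdd (isCompact_closedBall 0 r) hf h0 hC

theorem wkx_contDiff (r : ℝ) : ContDiff ℝ 1 (fun x : E d => (wk r x ^ 2) • x) := (wk2_contDiff r).smul contDiff_id

theorem wkx_fderiv (r : ℝ) (x v : E d) : fderiv ℝ (fun x : E d => (wk r x ^ 2) • x) x v =
    (wk r x ^ 2) • v + (-(4 / r ^ 2) * wk r x * inner ℝ x v) • x := by
  have h1 : HasFDerivAt (fun x : E d => wk r x ^ 2) (fderiv ℝ (fun x : E d => wk r x ^ 2) x) x :=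
    ((wk2_contDiff r).differentiable (by norm_num) x).hasFDerivAt
  have h2 := (h1.smul (hasFDerivAt_id x)).fderiv
  have h3 : fderiv ℝ (fun x : E d => (wk r x ^ 2) • x) x = _ := h2
  rw [h3]
  simp only [add_apply, smul_apply, ContinuousLinearMap.smulRight_apply, wk2_fderiv, id_eq,
    ContinuousLinearMap.coe_id']

theorem wkx_dv (r : ℝ) (x : E d) : dv (fun x : E d => (wk r x ^ 2) • x) x =
    d * wk r x ^ 2 - 4 / r ^ 2 * (wk r x * ‖x‖ ^ 2) := by
  unfold dv
  simp_rw [wkx_fderiv, inner_bv']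
  have : ∀ i : Fin d, ((wk r x ^ 2) • bv i + (-(4 / r ^ 2) * wk r x * x i) • x) i =
      wk r x ^ 2 + (-(4 / r ^ 2) * wk r x) * (x i * x i) := by
    intro i
    simp [bv]
    ring
  simp_rw [this, Finset.sum_add_distrib, ← Finset.mul_sum]
  have hn : ‖x‖ ^ 2 = ∑ i, x i * x i := by
    rw [EuclideanSpace.norm_sq_eq]
    simp [pow_two]
  rw [hn]
  simp
  ring

theorem wkx_compact {r : ℝ} (hr : 0 < r) : HasCompactSupport (fun x : E d => (wk r x ^ 2) • x) :=
  HasCompactSupport.intro (isCompact_closedBall 0 r) fun x hx => by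
    rw [wk_supp hr x hx]; simp

/-- identity from the inner variation with `X = wk² x` -/
theorem weiss_I1 {K : ℝ≥0} {u : E d → ℝ} (hu : LM u K) {r : ℝ} (hr : 0 < r) :
    (d : ℝ) * (∫ x, (‖∇ u x‖ ^ 2 + pos (u x)) * wk r x ^ 2)
      - 4 / r ^ 2 * (∫ x, (‖∇ u x‖ ^ 2 + pos (u x)) * (wk r x * ‖x‖ ^ 2))
      - 2 * (∫ x, ‖∇ u x‖ ^ 2 * wk r x ^ 2) + 8 / r ^ 2 * (∫ x, wk r x * inner ℝ x (∇ u x) ^ 2) = 0 := by
  have h := hu.inner (wkx_contDiff r) (wkx_compact hr)
  have hg : Measurable (gE u) := gE_meas hu.lip.continuous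
  have hw : Measurable (wk r : E d → ℝ) := wk_meas r
  have hgr := measurable_grad u
  have hb : ∀ x, |gE u x| ≤ (K : ℝ) ^ 2 + 1 := fun x => gE_bound hu.lip x
  have hgb : ∀ x, ‖∇ u x‖ ≤ K := norm_grad_le hu.lip
  have hw1 : ∀ x : E d, |wk r x| ≤ 1 := fun x => by
    rw [abs_of_nonneg (wk_nonneg r x)]; exact wk_le_one r x
  have hw2 : ∀ x : E d, |wk r x ^ 2| ≤ 1 := fun x => by
    rw [abs_pow]; exact pow_le_one₀ (abs_nonneg _) (hw1 x)
  have i1 : Integrable (fun x => gE u x * wk r x ^ 2) := by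
    refine int_cut (hg.mul (hw.pow_const 2)).aestronglyMeasurable (r := r) (C := ((K : ℝ) ^ 2 + 1) * 1)
      (fun x hx => by rw [wk_supp hr x hx]; simp) (fun x _ => ?_)
    rw [abs_mul]
    exact mul_le_mul (hb x) (hw2 x) (abs_nonneg _) (by positivity)
  have i2 : Integrable (fun x => gE u x * (wk r x * ‖x‖ ^ 2)) := by
    refine int_cut (hg.mul (hw.mul (measurable_norm.pow_const 2))).aestronglyMeasurable (r := r)
      (C := ((K : ℝ) ^ 2 + 1) * (1 * r ^ 2))
      (fun x hx => by rw [wk_supp hr x hx]; simp) (fun x hx => ?_)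
    rw [mem_closedBall_zero_iff] at hx
    rw [abs_mul, abs_mul, abs_of_nonneg (by positivity : (0 : ℝ) ≤ ‖x‖ ^ 2)]
    exact mul_le_mul (hb x) (mul_le_mul (hw1 x) (pow_le_pow_left₀ (norm_nonneg _) hx 2) (by positivity) (by norm_num))
      (by positivity) (by positivity)
  have i3 : Integrable (fun x => ‖∇ u x‖ ^ 2 * wk r x ^ 2) := by
    refine int_cut ((hgr.norm.pow_const 2).mul (hw.pow_const 2)).aestronglyMeasurable (r := r)
      (C := (K : ℝ) ^ 2 * 1)
      (fun x hx => by rw [wk_supp hr x hx]; simp) (fun x hx => ?_)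
    rw [abs_mul, abs_of_nonneg (by positivity : (0 : ℝ) ≤ ‖∇ u x‖ ^ 2)]
    exact mul_le_mul (pow_le_pow_left₀ (norm_nonneg _) (hgb x) 2) (hw2 x) (abs_nonneg _) (by positivity)
  have hin : Measurable (fun x => inner ℝ x (∇ u x)) := measurable_id.inner hgr
  have i4 : Integrable (fun x => wk r x * inner ℝ x (∇ u x) ^ 2) := by
    refine int_cut (hw.mul (hin.pow_const 2)).aestronglyMeasurable (r := r)
      (C := 1 * (r * K) ^ 2)
      (fun x hx => by rw [wk_supp hr x hx]; simp) (fun x hx => ?_)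
    rw [mem_closedBall_zero_iff] at hx
    rw [abs_mul, abs_pow]
    refine mul_le_mul (hw1 x) (pow_le_pow_left₀ (abs_nonneg _) ?_ 2) (by positivity) (by norm_num)
    exact (abs_real_inner_le_norm _ _).trans (mul_le_mul hx (hgb x) (norm_nonneg _) hr.le)
  have e : ∀ x, (‖∇ u x‖ ^ 2 + pos (u x)) * dv (fun x : E d => (wk r x ^ 2) • x) x -
      2 * inner ℝ (∇ u x) (fderiv ℝ (fun x : E d => (wk r x ^ 2) • x) x (∇ u x)) =
      (d : ℝ) * (gE u x * wk r x ^ 2) - 4 / r ^ 2 * (gE u x * (wk r x * ‖x‖ ^ 2)) -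
        2 * (‖∇ u x‖ ^ 2 * wk r x ^ 2) + 8 / r ^ 2 * (wk r x * inner ℝ x (∇ u x) ^ 2) := by
    intro x
    rw [wkx_dv, wkx_fderiv, inner_add_right, inner_smul_right, inner_smul_right, real_inner_self_eq_norm_sq,
      real_inner_comm x (∇ u x)]
    unfold gE
    ring
  rw [integral_congr_ae (Eventually.of_forall e)] at h
  have j12 : Integrable (fun x => (d : ℝ) * (gE u x * wk r x ^ 2) - 4 / r ^ 2 * (gE u x * (wk r x * ‖x‖ ^ 2))) :=
    (i1.const_mul _).sub (i2.const_mul _)
  have j123 : Integrable (fun x => (d : ℝ) * (gE u x * wk r x ^ 2) - 4 / r ^ 2 * (gE u x * (wk r x * ‖x‖ ^ 2))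
      - 2 * (‖∇ u x‖ ^ 2 * wk r x ^ 2)) := j12.sub (i3.const_mul _)
  rw [integral_add j123 (i4.const_mul _), integral_sub j12 (i3.const_mul _),
    integral_sub (i1.const_mul _) (i2.const_mul _), integral_const_mul, integral_const_mul, integral_const_mul,
    integral_const_mul] at h
  exact h

/-- identity from the outer variation with `η = wk²` -/
theorem weiss_I2 {K : ℝ≥0} {u : E d → ℝ} (hu : LM u K) {r : ℝ} (hr : 0 < r) :
    (∫ x, ‖∇ u x‖ ^ 2 * wk r x ^ 2) - 4 / r ^ 2 * (∫ x, wk r x * (u x * inner ℝ x (∇ u x))) = 0 := by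
  have hcs : HasCompactSupport (fun x : E d => wk r x ^ 2) :=
    HasCompactSupport.intro (isCompact_closedBall 0 r) fun x hx => by rw [wk_supp hr x hx]; simp
  obtain ⟨L, hL⟩ := (wk2_contDiff (d := d) r).lipschitzWith_of_hasCompactSupport hcs (by norm_num)
  have h := hu.eta hL hcs
  have hw : Measurable (wk r : E d → ℝ) := wk_meas r
  have hgr := measurable_grad u
  have hgb : ∀ x, ‖∇ u x‖ ≤ K := norm_grad_le hu.lip
  have hw1 : ∀ x : E d, |wk r x| ≤ 1 := fun x => by
    rw [abs_of_nonneg (wk_nonneg r x)]; exact wk_le_one r x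
  have hw2 : ∀ x : E d, |wk r x ^ 2| ≤ 1 := fun x => by
    rw [abs_pow]; exact pow_le_one₀ (abs_nonneg _) (hw1 x)
  have i3 : Integrable (fun x => ‖∇ u x‖ ^ 2 * wk r x ^ 2) := by
    refine int_cut ((hgr.norm.pow_const 2).mul (hw.pow_const 2)).aestronglyMeasurable (r := r)
      (C := (K : ℝ) ^ 2 * 1)
      (fun x hx => by rw [wk_supp hr x hx]; simp) (fun x hx => ?_)
    rw [abs_mul, abs_of_nonneg (by positivity : (0 : ℝ) ≤ ‖∇ u x‖ ^ 2)]
    exact mul_le_mul (pow_le_pow_left₀ (norm_nonneg _) (hgb x) 2) (hw2 x) (abs_nonneg _) (by positivity)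
  have hin : Measurable (fun x => inner ℝ x (∇ u x)) := measurable_id.inner hgr
  obtain ⟨M, hM⟩ := (isCompact_closedBall (0 : E d) r).exists_bound_of_continuousOn hu.lip.continuous.continuousOn
  have i5 : Integrable (fun x => wk r x * (u x * inner ℝ x (∇ u x))) := by
    refine int_cut (hw.mul (hu.lip.continuous.measurable.mul hin)).aestronglyMeasurable (r := r)
      (C := 1 * (M * (r * K)))
      (fun x hx => by rw [wk_supp hr x hx]; simp) (fun x hx => ?_)
    have hMx := hM x hx
    rw [mem_closedBall_zero_iff] at hx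
    rw [abs_mul, abs_mul]
    refine mul_le_mul (hw1 x) (mul_le_mul hMx ?_ (abs_nonneg _) ((norm_nonneg _).trans hMx)) (by positivity) (by norm_num)
    exact (abs_real_inner_le_norm _ _).trans (mul_le_mul hx (hgb x) (norm_nonneg _) hr.le)
  have e : ∀ x, (wk r x ^ 2 * ‖∇ u x‖ ^ 2 + u x * inner ℝ (∇ u x) (∇ (fun x : E d => wk r x ^ 2) x)) =
      ‖∇ u x‖ ^ 2 * wk r x ^ 2 - 4 / r ^ 2 * (wk r x * (u x * inner ℝ x (∇ u x))) := by
    intro x
    rw [real_inner_comm, inner_gradient, wk2_fderiv]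
    ring
  rw [integral_congr_ae (Eventually.of_forall e), integral_sub i3 (i5.const_mul _), integral_const_mul] at h
  exact h



/-- product of a locally Lipschitz function with a cut-off -/
theorem lip_mul_cut {K L : ℝ≥0} {f g : E d → ℝ} (hf : LipschitzWith K f) (hg : LipschitzWith L g) {r : ℝ}
    (h0 : ∀ x, x ∉ closedBall (0 : E d) r → g x = 0) : ∃ C : ℝ≥0, LipschitzWith C (fun x => f x * g x) := by
  obtain ⟨A, hA⟩ := (isCompact_closedBall (0 : E d) r).exists_bound_of_continuousOn hf.continuous.continuousOn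
  obtain ⟨B, hB⟩ := (isCompact_closedBall (0 : E d) r).exists_bound_of_continuousOn hg.continuous.continuousOn
  have hA' : ∀ x ∈ closedBall (0 : E d) r, |f x| ≤ |A| := fun x hx => (hA x hx).trans (le_abs_self A)
  have hB' : ∀ x, |g x| ≤ |B| := fun x => by
    by_cases hx : x ∈ closedBall (0 : E d) r
    · exact (hB x hx).trans (le_abs_self B)
    · rw [h0 x hx, abs_zero]; exact abs_nonneg _
  have key : ∀ x y, x ∈ closedBall (0 : E d) r → |f x * g x - f y * g y| ≤ (|A| * L + |B| * K) * dist x y := by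
    intro x y hx
    have e : f x * g x - f y * g y = f x * (g x - g y) + g y * (f x - f y) := by ring
    have h1 := hg.dist_le_mul x y
    have h2 := hf.dist_le_mul x y
    rw [Real.dist_eq] at h1 h2
    rw [e]
    refine (abs_add_le _ _).trans ?_
    rw [abs_mul, abs_mul]
    calc |f x| * |g x - g y| + |g y| * |f x - f y|
        ≤ |A| * (L * dist x y) + |B| * (K * dist x y) := by
          refine add_le_add (mul_le_mul (hA' x hx) h1 (abs_nonneg _) (abs_nonneg _))
            (mul_le_mul (hB' y) h2 (abs_nonneg _) (abs_nonneg _))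
      _ = (|A| * L + |B| * K) * dist x y := by ring
  refine ⟨(|A| * L + |B| * K).toNNReal, LipschitzWith.of_dist_le_mul fun x y => ?_⟩
  rw [Real.coe_toNNReal _ (by positivity), Real.dist_eq]
  by_cases hx : x ∈ closedBall (0 : E d) r
  · exact key x y hx
  · by_cases hy : y ∈ closedBall (0 : E d) r
    · rw [abs_sub_comm, dist_comm]; exact key y x hy
    · rw [h0 x hx, h0 y hy]; simp; positivity

theorem ae_norm_ne (hd : 0 < d) {r : ℝ} (hr : 0 < r) : ∀ᵐ x : E d, ‖x‖ ≠ r := by
  have : Nonempty (Fin d) := ⟨⟨0, hd⟩⟩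
  have h : volume (sphere (0 : E d) r) = 0 := Measure.addHaar_sphere_of_ne_zero volume 0 hr.ne'
  rw [ae_iff]
  convert h using 2
  ext x; simp

/-- integration by parts: divergence of `u² x` against the weight `wk` -/
theorem weiss_I3 {K : ℝ≥0} {u : E d → ℝ} (hu : LipschitzWith K u) {r : ℝ} (hr : 0 < r) :
    2 / r ^ 2 * (∫ x in ball 0 r, u x ^ 2 * ‖x‖ ^ 2) =
      2 * (∫ x, wk r x * (u x * inner ℝ x (∇ u x))) + d * (∫ x, u x ^ 2 * wk r x) := by
  rcases Nat.eq_zero_or_pos d with hd | hd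
  · subst hd
    have h0 : ∀ x : E 0, x = 0 := fun x => Subsingleton.elim x 0
    have e1 : (∫ x in ball (0 : E 0) r, u x ^ 2 * ‖x‖ ^ 2) = 0 := by
      have : ∀ x : E 0, u x ^ 2 * ‖x‖ ^ 2 = 0 := fun x => by rw [h0 x]; simp
      simp_rw [this]; simp
    have e2 : (∫ x : E 0, wk r x * (u x * inner ℝ x (∇ u x))) = 0 := by
      have : ∀ x : E 0, wk r x * (u x * inner ℝ x (∇ u x)) = 0 := fun x => by rw [h0 x]; simp
      simp_rw [this]; simp
    rw [e1, e2]; simp
  have hw : Measurable (wk r : E d → ℝ) := wk_meas r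
  have hgr := measurable_grad u
  have hgb : ∀ x, ‖∇ u x‖ ≤ K := norm_grad_le hu
  have hw1 : ∀ x : E d, |wk r x| ≤ 1 := fun x => by
    rw [abs_of_nonneg (wk_nonneg r x)]; exact wk_le_one r x
  have hin : Measurable (fun x => inner ℝ x (∇ u x)) := measurable_id.inner hgr
  obtain ⟨M, hM⟩ := (isCompact_closedBall (0 : E d) r).exists_bound_of_continuousOn hu.continuous.continuousOn
  have i5 : Integrable (fun x => wk r x * (u x * inner ℝ x (∇ u x))) := by
    refine int_cut (hw.mul (hu.continuous.measurable.mul hin)).aestronglyMeasurable (r := r)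
      (C := 1 * (M * (r * K)))
      (fun x hx => by rw [wk_supp hr x hx]; simp) (fun x hx => ?_)
    have hMx := hM x hx
    rw [mem_closedBall_zero_iff] at hx
    rw [abs_mul, abs_mul]
    refine mul_le_mul (hw1 x) (mul_le_mul hMx ?_ (abs_nonneg _) ((norm_nonneg _).trans hMx)) (by positivity) (by norm_num)
    exact (abs_real_inner_le_norm _ _).trans (mul_le_mul hx (hgb x) (norm_nonneg _) hr.le)
  obtain ⟨C1, hC1⟩ := lip_mul_cut hu (wk_lip (d := d) hr) (wk_supp hr)
  obtain ⟨C2, hC2⟩ := lip_mul_cut hu hC1 (r := r) (fun x hx => by rw [wk_supp hr x hx, mul_zero])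
  set g : E d → ℝ := fun x => u x * (u x * wk r x) with hg
  have hgc : HasCompactSupport g :=
    HasCompactSupport.intro (isCompact_closedBall 0 r) fun x hx => by simp only [hg]; rw [wk_supp hr x hx]; simp
  have h1 := ibpV (Y := fun x => x) contDiff_id hC2 hgc
  have h2 : ∀ x : E d, dv (fun x : E d => x) x = d := by
    intro x
    simp [dv, bv]
  simp_rw [h2] at h1
  rw [integral_mul_const] at h1
  have hae : ∀ᵐ x : E d, fderiv ℝ g x x = 2 * (wk r x * (u x * inner ℝ x (∇ u x))) -
      (2 / r ^ 2) * (ball (0 : E d) r).indicator (fun x => u x ^ 2 * ‖x‖ ^ 2) x := by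
    filter_upwards [hu.ae_differentiableAt, ae_norm_ne hd hr] with x hx hxr
    have hux := hx.hasFDerivAt
    rcases lt_or_gt_of_ne hxr with h | h
    · have hwx : HasFDerivAt (wk r) (-((r ^ 2)⁻¹ • ((2 : ℕ) • innerSL ℝ x))) x := by
        have h3 := (((hasStrictFDerivAt_norm_sq x).hasFDerivAt.const_mul ((r ^ 2)⁻¹)).const_sub 1)
        refine h3.congr_of_eventuallyEq ?_
        have : ball (0 : E d) r ∈ 𝓝 x := isOpen_ball.mem_nhds (by rwa [mem_ball_zero_iff])
        filter_upwards [this] with y hy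
        rw [mem_ball_zero_iff] at hy
        rw [wk_of_lt hr hy.le, div_eq_inv_mul]
      have h4 : HasFDerivAt g _ x := hux.mul (hux.mul hwx)
      rw [h4.fderiv, indicator_of_mem (by rwa [mem_ball_zero_iff])]
      have h5 : fderiv ℝ u x x = inner ℝ x (∇ u x) := by rw [real_inner_comm, inner_gradient]
      have h6 : (innerSL ℝ x) x = ‖x‖ ^ 2 := by rw [innerSL_apply_apply, real_inner_self_eq_norm_sq]
      simp only [two_smul, smul_neg, neg_apply, smul_apply, add_apply, smul_eq_mul, h5, h6]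
      field_simp
      ring
    · have h4 : g =ᶠ[𝓝 x] fun _ => 0 := by
        have : {y : E d | r < ‖y‖} ∈ 𝓝 x := (isOpen_lt continuous_const continuous_norm).mem_nhds h
        filter_upwards [this] with y hy
        simp only [hg]; rw [wk_of_ge hr (le_of_lt hy)]; simp
      rw [h4.fderiv_eq, indicator_of_notMem (by rw [mem_ball_zero_iff]; exact not_lt.2 h.le), wk_of_ge hr h.le]
      simp
  rw [integral_congr_ae hae] at h1
  have i6 : Integrable ((ball (0 : E d) r).indicator (fun x => u x ^ 2 * ‖x‖ ^ 2)) := by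
    rw [integrable_indicator_iff measurableSet_ball]
    exact ((hu.continuous.pow 2).mul (continuous_norm.pow 2)).locallyIntegrable.integrableOn_isCompact
      (isCompact_closedBall 0 r) |>.mono_set ball_subset_closedBall
  rw [integral_sub (i5.const_mul _) (i6.const_mul _), integral_const_mul, integral_const_mul,
    integral_indicator measurableSet_ball] at h1
  have h7 : (∫ x, g x) = ∫ x, u x ^ 2 * wk r x := by
    refine integral_congr_ae (Eventually.of_forall fun x => ?_)
    simp only [hg]; ring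
  rw [h7] at h1
  linarith

theorem hasDerivAt_inv_sq {s : ℝ} (hs : s ≠ 0) (c : ℝ) : HasDerivAt (fun s : ℝ => 1 - c / s ^ 2) (2 * c / s ^ 3) s := by
  have h1 := (((hasDerivAt_pow 2 s).inv (pow_ne_zero 2 hs)).const_mul c).const_sub 1
  refine (h1.congr_deriv ?_).congr_of_eventuallyEq (Eventually.of_forall fun t => ?_)
  · field_simp
    ring
  · simp [div_eq_mul_inv]

/-- derivatives with respect to `r` of the two integrals -/
theorem weiss_D1 {f : E d → ℝ} (hf : LocallyIntegrable f) {r : ℝ} (hr : 0 < r) :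
    HasDerivAt (fun r => ∫ x, f x * wk r x ^ 2) (4 / r ^ 3 * ∫ x, f x * (wk r x * ‖x‖ ^ 2)) r := by
  have hfm : AEStronglyMeasurable f := hf.aestronglyMeasurable
  have hI : IntegrableOn f (closedBall 0 (2 * r)) := hf.integrableOn_isCompact (isCompact_closedBall 0 (2 * r))
  have hs : Ioo (r / 2) (2 * r) ∈ 𝓝 r := Ioo_mem_nhds (by linarith) (by linarith)
  have hbi : Integrable ((closedBall (0 : E d) (2 * r)).indicator fun x => |f x| * (4 / (r / 2) ^ 3 * (2 * r) ^ 2)) := by
    rw [integrable_indicator_iff measurableSet_closedBall]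
    exact hI.norm.mul_const _
  have key := hasDerivAt_integral_of_dominated_loc_of_deriv_le (μ := (volume : Measure (E d)))
    (F := fun s x => f x * wk s x ^ 2) (x₀ := r) (s := Ioo (r / 2) (2 * r))
    (F' := fun s x => f x * (4 / s ^ 3 * (wk s x * ‖x‖ ^ 2)))
    (bound := (closedBall (0 : E d) (2 * r)).indicator fun x => |f x| * (4 / (r / 2) ^ 3 * (2 * r) ^ 2)) hs
    (Eventually.of_forall fun s => hfm.mul ((wk_meas s).pow_const 2).aestronglyMeasurable)
    ?_ ?_ ?_ hbi ?_
  · have h2 := key.2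
    have e : (∫ x, f x * (4 / r ^ 3 * (wk r x * ‖x‖ ^ 2))) = 4 / r ^ 3 * ∫ x, f x * (wk r x * ‖x‖ ^ 2) := by
      rw [← integral_const_mul]
      refine integral_congr_ae (Eventually.of_forall fun x => ?_)
      simp only; ring
    rw [e] at h2
    exact h2
  · -- integrability at r
    have : Integrable ((closedBall (0 : E d) (2 * r)).indicator fun x => |f x|) := by
      rw [integrable_indicator_iff measurableSet_closedBall]; exact hI.norm
    refine this.mono' (hfm.mul ((wk_meas r).pow_const 2).aestronglyMeasurable) (Eventually.of_forall fun x => ?_)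
    by_cases hx : x ∈ closedBall (0 : E d) (2 * r)
    · rw [indicator_of_mem hx, norm_mul, Real.norm_eq_abs, Real.norm_eq_abs, abs_pow,
        abs_of_nonneg (wk_nonneg r x)]
      have := pow_le_one₀ (n := 2) (wk_nonneg r x) (wk_le_one r x)
      have h0 := abs_nonneg (f x)
      nlinarith
    · rw [indicator_of_notMem hx]
      have : wk r x = 0 := wk_of_ge hr (by
        rw [mem_closedBall_zero_iff, not_le] at hx; linarith)
      rw [this]; simp
  · exact hfm.mul (((wk_meas r).mul (measurable_norm.pow_const 2)).const_mul _).aestronglyMeasurable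
  · refine Eventually.of_forall fun x s hs => ?_
    have hs0 : 0 < s := by linarith [hs.1]
    by_cases hx : x ∈ closedBall (0 : E d) (2 * r)
    · rw [indicator_of_mem hx]
      rw [mem_closedBall_zero_iff] at hx
      simp only [norm_mul, Real.norm_eq_abs]
      have h1 : |4 / s ^ 3| ≤ 4 / (r / 2) ^ 3 := by
        rw [abs_of_pos (by positivity)]
        gcongr
        exact hs.1.le
      have h2 : |wk s x| * |‖x‖ ^ 2| ≤ (2 * r) ^ 2 := by
        rw [abs_of_nonneg (wk_nonneg s x), abs_of_nonneg (by positivity)]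
        have h3 := wk_le_one s x
        have h4 : ‖x‖ ^ 2 ≤ (2 * r) ^ 2 := pow_le_pow_left₀ (norm_nonneg _) hx 2
        have h5 := wk_nonneg s x
        nlinarith [sq_nonneg ‖x‖]
      exact mul_le_mul_of_nonneg_left (mul_le_mul h1 h2 (by positivity) (by positivity)) (abs_nonneg _)
    · rw [indicator_of_notMem hx]
      have : wk s x = 0 := wk_of_ge hs0 (by
        rw [mem_closedBall_zero_iff, not_le] at hx; linarith [hs.2])
      simp [this]
  · refine Eventually.of_forall fun x s hs => ?_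
    have hs0 : 0 < s := by linarith [hs.1]
    have h1 := (hasDerivAt_q (1 - ‖x‖ ^ 2 / s ^ 2)).comp s (hasDerivAt_inv_sq hs0.ne' (‖x‖ ^ 2))
    have h2 := h1.const_mul (f x)
    refine h2.congr_deriv ?_
    unfold wk
    ring

theorem weiss_D2 {f : E d → ℝ} (hf : LocallyIntegrable f) {r : ℝ} (hr : 0 < r) :
    HasDerivAt (fun r => ∫ x, f x * wk r x) (2 / r ^ 3 * ∫ x in ball 0 r, f x * ‖x‖ ^ 2) r := by
  rcases Nat.eq_zero_or_pos d with hd | hd
  · subst hd
    have h0 : ∀ x : E 0, x = 0 := fun x => Subsingleton.elim x 0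
    have e1 : (∫ x in ball (0 : E 0) r, f x * ‖x‖ ^ 2) = 0 := by
      have : ∀ x : E 0, f x * ‖x‖ ^ 2 = 0 := fun x => by rw [h0 x]; simp
      simp_rw [this]; simp
    have e2 : (fun s : ℝ => ∫ x : E 0, f x * wk s x) = fun _ => ∫ x : E 0, f x := by
      ext s
      refine integral_congr_ae (Eventually.of_forall fun x => ?_)
      simp only
      rw [h0 x]; simp [wk]
    rw [e1, mul_zero, e2]
    exact hasDerivAt_const r _
  have hfm : AEStronglyMeasurable f := hf.aestronglyMeasurable
  have hI : IntegrableOn f (closedBall 0 (2 * r)) := hf.integrableOn_isCompact (isCompact_closedBall 0 (2 * r))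
  have hs : Ioo (r / 2) (2 * r) ∈ 𝓝 r := Ioo_mem_nhds (by linarith) (by linarith)
  set Cb : ℝ := 2 * (2 * r) ^ 2 / (r / 2) ^ 3 with hCb
  have hCb0 : 0 ≤ Cb := by positivity
  have hbi : Integrable ((closedBall (0 : E d) (2 * r)).indicator fun x => |f x| * Cb) := by
    rw [integrable_indicator_iff measurableSet_closedBall]
    exact hI.norm.mul_const _
  have hi0 : Integrable (fun x => f x * wk r x) := by
    have : Integrable ((closedBall (0 : E d) (2 * r)).indicator fun x => |f x|) := by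
      rw [integrable_indicator_iff measurableSet_closedBall]; exact hI.norm
    refine this.mono' (hfm.mul (wk_meas r).aestronglyMeasurable) (Eventually.of_forall fun x => ?_)
    by_cases hx : x ∈ closedBall (0 : E d) (2 * r)
    · rw [indicator_of_mem hx, norm_mul, Real.norm_eq_abs, Real.norm_eq_abs,
        abs_of_nonneg (wk_nonneg r x)]
      have := wk_le_one r x
      have h0 := abs_nonneg (f x)
      nlinarith
    · rw [indicator_of_notMem hx]
      have : wk r x = 0 := wk_of_ge hr (by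
        rw [mem_closedBall_zero_iff, not_le] at hx; linarith)
      rw [this]; simp
  have key := hasDerivAt_integral_of_dominated_loc_of_lip (μ := (volume : Measure (E d)))
    (F := fun s x => f x * wk s x) (x₀ := r) (s := Ioo (r / 2) (2 * r))
    (F' := fun x => (ball (0 : E d) r).indicator (fun x => f x * (2 * ‖x‖ ^ 2 / r ^ 3)) x)
    (bound := (closedBall (0 : E d) (2 * r)).indicator fun x => |f x| * Cb) hs
    (Eventually.of_forall fun s => hfm.mul (wk_meas s).aestronglyMeasurable)
    hi0 ?_ ?_ hbi ?_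
  · have h2 := key.2
    have e : (∫ x, (ball (0 : E d) r).indicator (fun x => f x * (2 * ‖x‖ ^ 2 / r ^ 3)) x) =
        2 / r ^ 3 * ∫ x in ball 0 r, f x * ‖x‖ ^ 2 := by
      rw [integral_indicator measurableSet_ball, ← integral_const_mul]
      refine integral_congr_ae (Eventually.of_forall fun x => ?_)
      simp only; ring
    rw [e] at h2
    exact h2
  · refine AEStronglyMeasurable.indicator ?_ measurableSet_ball
    exact hfm.mul (((measurable_norm.pow_const 2).const_mul 2).div_const _).aestronglyMeasurable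
  · refine Eventually.of_forall fun x => ?_
    have hconv : Convex ℝ (Ioo (r / 2) (2 * r)) := convex_Ioo _ _
    have h1 : LipschitzOnWith (Real.nnabs (if ‖x‖ ≤ 2 * r then Cb else 0)) (fun s => wk s x) (Ioo (r / 2) (2 * r)) := by
      by_cases hx : ‖x‖ ≤ 2 * r
      · rw [if_pos hx]
        have h2 : LipschitzOnWith (Real.nnabs Cb) (fun s => 1 - ‖x‖ ^ 2 / s ^ 2) (Ioo (r / 2) (2 * r)) := by
          refine hconv.lipschitzOnWith_of_nnnorm_hasDerivWithin_le
            (f' := fun s => 2 * ‖x‖ ^ 2 / s ^ 3) (fun s hs => ?_) (fun s hs => ?_)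
          · have hs0 : 0 < s := by linarith [hs.1]
            exact (hasDerivAt_inv_sq hs0.ne' (‖x‖ ^ 2)).hasDerivWithinAt
          · have hs0 : 0 < s := by linarith [hs.1]
            rw [← NNReal.coe_le_coe, coe_nnnorm, Real.coe_nnabs, abs_of_nonneg hCb0, Real.norm_eq_abs,
              abs_of_nonneg (by positivity), hCb]
            have h5 : r / 2 ≤ s := hs.1.le
            gcongr
        intro s hs t ht
        refine le_trans ?_ (h2 hs ht)
        rw [edist_dist, edist_dist]
        apply ENNReal.ofReal_le_ofReal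
        rw [Real.dist_eq, Real.dist_eq]
        unfold wk
        refine (abs_max_sub_max_le_max _ _ _ _).trans ?_
        simp
      · rw [if_neg hx]
        intro s hs t ht
        have hx' : 2 * r ≤ ‖x‖ := (not_le.1 hx).le
        have e1 : wk s x = 0 := wk_of_ge (by linarith [hs.1]) (by linarith [hs.2])
        have e2 : wk t x = 0 := wk_of_ge (by linarith [ht.1]) (by linarith [ht.2])
        simp [e1, e2]
    have h3 : (closedBall (0 : E d) (2 * r)).indicator (fun x => |f x| * Cb) x =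
        |f x| * (if ‖x‖ ≤ 2 * r then Cb else 0) := by
      by_cases hx : ‖x‖ ≤ 2 * r
      · rw [if_pos hx, indicator_of_mem (by rwa [mem_closedBall_zero_iff])]
      · rw [if_neg hx, indicator_of_notMem (by rwa [mem_closedBall_zero_iff]), mul_zero]
    intro s hs t ht
    have h4 := h1 hs ht
    rw [edist_dist, edist_dist] at h4 ⊢
    rw [← ENNReal.ofReal_coe_nnreal, ← ENNReal.ofReal_mul (by positivity)] at h4 ⊢
    rw [ENNReal.ofReal_le_ofReal_iff (by positivity)] at h4 ⊢
    rw [h3, Real.coe_nnabs, abs_mul, abs_abs]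
    rw [Real.coe_nnabs] at h4
    rw [Real.dist_eq] at h4 ⊢
    rw [← mul_sub, abs_mul, mul_assoc]
    exact mul_le_mul_of_nonneg_left h4 (abs_nonneg _)
  · filter_upwards [ae_norm_ne hd hr] with x hxr
    rcases lt_or_gt_of_ne hxr with h | h
    · rw [indicator_of_mem (by rwa [mem_ball_zero_iff])]
      refine HasDerivAt.const_mul (f x) ?_
      refine (hasDerivAt_inv_sq hr.ne' (‖x‖ ^ 2)).congr_of_eventuallyEq ?_
      filter_upwards [Ioi_mem_nhds h] with s hs
      exact wk_of_lt (lt_of_le_of_lt (norm_nonneg _) hs) (le_of_lt hs)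
    · rw [indicator_of_notMem (by rw [mem_ball_zero_iff]; exact not_lt.2 h.le)]
      refine (hasDerivAt_const r (0 : ℝ)).congr_of_eventuallyEq ?_
      filter_upwards [Ioo_mem_nhds hr h] with s hs
      rw [wk_of_ge hs.1 hs.2.le, mul_zero]

/-- the monotonicity formula -/
theorem weiss {K : ℝ≥0} {u : E d → ℝ} (hu : LM u K) {r : ℝ} (hr : 0 < r) :
    HasDerivAt (Ws u) (8 / r ^ (d + 3) * ∫ x, wk r x * (inner ℝ x (∇ u x) - u x) ^ 2) r := by
  have hI1 := weiss_I1 hu hr
  have hI2 := weiss_I2 hu hr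
  have hI3 := weiss_I3 hu.lip hr
  have hl1 : LocallyIntegrable (fun x => ‖∇ u x‖ ^ 2 + pos (u x)) := by
    intro x
    exact ⟨ball x 1, ball_mem_nhds x one_pos, gE_integrableOn hu.lip measure_ball_lt_top⟩
  have hl2 : LocallyIntegrable (fun x => u x ^ 2) := (hu.lip.continuous.pow 2).locallyIntegrable
  have hD1 := weiss_D1 hl1 hr
  have hD2 := weiss_D2 hl2 hr
  have hw : Measurable (wk r : E d → ℝ) := wk_meas r
  have hgr := measurable_grad u
  have hgb : ∀ x, ‖∇ u x‖ ≤ K := norm_grad_le hu.lip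
  have hw1 : ∀ x : E d, |wk r x| ≤ 1 := fun x => by
    rw [abs_of_nonneg (wk_nonneg r x)]; exact wk_le_one r x
  have hin : Measurable (fun x => inner ℝ x (∇ u x)) := measurable_id.inner hgr
  obtain ⟨M, hM⟩ := (isCompact_closedBall (0 : E d) r).exists_bound_of_continuousOn hu.lip.continuous.continuousOn
  have i4 : Integrable (fun x => wk r x * inner ℝ x (∇ u x) ^ 2) := by
    refine int_cut (hw.mul (hin.pow_const 2)).aestronglyMeasurable (r := r)
      (C := 1 * (r * K) ^ 2)
      (fun x hx => by rw [wk_supp hr x hx]; simp) (fun x hx => ?_)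
    rw [mem_closedBall_zero_iff] at hx
    rw [abs_mul, abs_pow]
    refine mul_le_mul (hw1 x) (pow_le_pow_left₀ (abs_nonneg _) ?_ 2) (by positivity) (by norm_num)
    exact (abs_real_inner_le_norm _ _).trans (mul_le_mul hx (hgb x) (norm_nonneg _) hr.le)
  have i5 : Integrable (fun x => wk r x * (u x * inner ℝ x (∇ u x))) := by
    refine int_cut (hw.mul (hu.lip.continuous.measurable.mul hin)).aestronglyMeasurable (r := r)
      (C := 1 * (M * (r * K)))
      (fun x hx => by rw [wk_supp hr x hx]; simp) (fun x hx => ?_)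
    have hMx := hM x hx
    rw [mem_closedBall_zero_iff] at hx
    rw [abs_mul, abs_mul]
    refine mul_le_mul (hw1 x) (mul_le_mul hMx ?_ (abs_nonneg _) ((norm_nonneg _).trans hMx)) (by positivity) (by norm_num)
    exact (abs_real_inner_le_norm _ _).trans (mul_le_mul hx (hgb x) (norm_nonneg _) hr.le)
  have i6 : Integrable (fun x => u x ^ 2 * wk r x) :=
    ((hu.lip.continuous.pow 2).mul (wk_cont r)).integrable_of_hasCompactSupport
      (HasCompactSupport.intro (isCompact_closedBall 0 r) fun x hx => by simp [wk_supp hr x hx])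
  have hexp : (∫ x, wk r x * (inner ℝ x (∇ u x) - u x) ^ 2) =
      (∫ x, wk r x * inner ℝ x (∇ u x) ^ 2) - 2 * (∫ x, wk r x * (u x * inner ℝ x (∇ u x))) +
        ∫ x, u x ^ 2 * wk r x := by
    have e : ∀ x : E d, wk r x * (inner ℝ x (∇ u x) - u x) ^ 2 =
        wk r x * inner ℝ x (∇ u x) ^ 2 - 2 * (wk r x * (u x * inner ℝ x (∇ u x))) + u x ^ 2 * wk r x := by
      intro x; ring
    have j : Integrable (fun x => wk r x * inner ℝ x (∇ u x) ^ 2 - 2 * (wk r x * (u x * inner ℝ x (∇ u x)))) :=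
      i4.sub (i5.const_mul _)
    rw [integral_congr_ae (Eventually.of_forall e), integral_add j i6, integral_sub i4 (i5.const_mul _),
      integral_const_mul]
  set A := ∫ x, (‖∇ u x‖ ^ 2 + pos (u x)) * wk r x ^ 2
  set A1 := ∫ x, (‖∇ u x‖ ^ 2 + pos (u x)) * (wk r x * ‖x‖ ^ 2)
  set G := ∫ x, ‖∇ u x‖ ^ 2 * wk r x ^ 2
  set P := ∫ x, wk r x * inner ℝ x (∇ u x) ^ 2
  set Q := ∫ x, wk r x * (u x * inner ℝ x (∇ u x))
  set B := ∫ x, u x ^ 2 * wk r x
  set B1 := ∫ x in ball (0 : E d) r, u x ^ 2 * ‖x‖ ^ 2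
  have hr0 : r ≠ 0 := hr.ne'
  have h4 : HasDerivAt (fun s : ℝ => 4 / s ^ 2) (-8 / r ^ 3) r := by
    have h1 := ((hasDerivAt_pow 2 r).inv (pow_ne_zero 2 hr0)).const_mul 4
    refine (h1.congr_deriv ?_).congr_of_eventuallyEq (Eventually.of_forall fun t => ?_)
    · field_simp
      ring
    · simp [div_eq_mul_inv]
  have h5 := ((hD1.sub (h4.mul hD2)).div (hasDerivAt_pow d r) (pow_ne_zero d hr0))
  refine h5.congr_deriv ?_
  rw [hexp]
  have hA1 : 4 / r ^ 2 * A1 = d * A - 2 * G + 8 / r ^ 2 * P := by linarith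
  have hG : G = 4 / r ^ 2 * Q := by linarith
  have hB1 : 2 / r ^ 2 * B1 = 2 * Q + d * B := hI3
  have hA1' : A1 = r ^ 2 / 4 * (d * A - 2 * (4 / r ^ 2 * Q) + 8 / r ^ 2 * P) := by
    rw [← hG, ← hA1]; field_simp
  have hB1' : B1 = r ^ 2 / 2 * (2 * Q + d * B) := by
    rw [← hB1]; field_simp
  have hR : (d : ℝ) * r ^ (d - 1) = d * r ^ d / r := by
    rcases Nat.eq_zero_or_pos d with hd | hd
    · subst hd; simp
    · obtain ⟨k, rfl⟩ : ∃ k, d = k + 1 := ⟨d - 1, by omega⟩
      rw [Nat.add_sub_cancel, pow_succ]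
      field_simp
  simp only [Pi.sub_apply, Pi.mul_apply]
  rw [hR, hA1', hB1', pow_add]
  have hRd : r ^ d ≠ 0 := pow_ne_zero d hr0
  field_simp
  ring


end Crest.Agent.R097
end

-- ▼ part R097/Weiss2a
section

/-! W2h (part a): monotonicity, scaling and boundedness of the smoothed Weiss energy. -/
set_option autoImplicit false
open MeasureTheory Metric Set Filter Topology
open scoped NNReal RealInnerProductSpace Gradient ContDiff Laplacian

namespace Crest.Agent.R097.W2
variable {d : ℕ}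

theorem Ws_mono' {K : ℝ≥0} {u : E d → ℝ} (hu : LM u K) : MonotoneOn (Ws u) (Ioi 0) := by
  have hder : ∀ r ∈ Ioi (0 : ℝ), HasDerivAt (Ws u)
      (8 / r ^ (d + 3) * ∫ x, wk r x * (inner ℝ x (∇ u x) - u x) ^ 2) r := fun r hr => weiss hu hr
  refine monotoneOn_of_deriv_nonneg (convex_Ioi 0) (fun r hr => (hder r hr).continuousAt.continuousWithinAt) ?_ ?_
  · rw [interior_Ioi]
    exact fun r hr => (hder r hr).differentiableAt.differentiableWithinAt
  · rw [interior_Ioi]
    intro r hr
    rw [(hder r hr).deriv]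
    have hr' : 0 < r := hr
    refine mul_nonneg (by positivity) (integral_nonneg fun x => ?_)
    exact mul_nonneg (wk_nonneg r x) (sq_nonneg _)

lemma grad_blow0 (u : E d → ℝ) {r : ℝ} (hr : r ≠ 0) (x : E d) :
    ∇ (blow u 0 r) x = ∇ u (r • x) := by
  have h1 : fderiv ℝ (blow u 0 r) x = fderiv ℝ u (r • x) := by
    have h2 : blow u 0 r = fun x => r⁻¹ • (fun y => u (r • y)) x := by
      ext y; simp [blow, div_eq_inv_mul]
    have h3 : fderiv ℝ (fun y => u (r • y)) x = r • fderiv ℝ u (r • x) := by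
      rw [fderiv_comp_smul (f := u) r]
    have h4 : fderiv ℝ (fun x => r⁻¹ • (fun y => u (r • y)) x) x
        = r⁻¹ • fderiv ℝ (fun y => u (r • y)) x :=
      congrFun (fderiv_const_smul_field (R := ℝ) (𝕜 := ℝ) (f := fun y => u (r • y)) r⁻¹) x
    rw [h2, h4, h3, smul_smul, inv_mul_cancel₀ hr, one_smul]
  unfold gradient
  rw [h1]

lemma pos_div' (t : ℝ) {r : ℝ} (hr : 0 < r) : pos (t / r) = pos t := by
  unfold pos
  have : 0 < t / r ↔ 0 < t := by
    constructor
    · intro h
      have := mul_pos h hr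
      rwa [div_mul_cancel₀ _ hr.ne'] at this
    · intro h; positivity
  simp [this]

lemma blow_lip0 {K : ℝ≥0} {u : E d → ℝ} (hu : LipschitzWith K u) {r : ℝ} (hr : 0 < r) :
    LipschitzWith K (blow u 0 r) := by
  refine LipschitzWith.of_dist_le_mul fun x y => ?_
  have h1 := hu.dist_le_mul (0 + r • x) (0 + r • y)
  have h2 : dist (0 + r • x) (0 + r • y) = r * dist x y := by
    rw [dist_add_left, dist_smul₀, Real.norm_eq_abs, abs_of_pos hr]
  rw [h2, Real.dist_eq] at h1
  rw [Real.dist_eq, blow, blow, ← sub_div, abs_div, abs_of_pos hr, div_le_iff₀ hr]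
  linarith

lemma wk_scale {ρ r : ℝ} (hρ : 0 < ρ) (hr : 0 < r) (x : E d) : wk (ρ * r) (ρ • x) = wk r x := by
  unfold wk
  rw [norm_smul, Real.norm_eq_abs, abs_of_pos hρ]
  congr 2
  field_simp

/-- scaling of the energy (no minimality needed) -/
theorem Ws_blow0 (u : E d → ℝ) {ρ r : ℝ} (hρ : 0 < ρ) (hr : 0 < r) :
    Ws (blow u 0 ρ) r = Ws u (ρ * r) := by
  have e1 : (∫ x, (‖∇ (blow u 0 ρ) x‖ ^ 2 + pos (blow u 0 ρ x)) * wk r x ^ 2) =
      (ρ ^ d)⁻¹ * ∫ x, (‖∇ u x‖ ^ 2 + pos (u x)) * wk (ρ * r) x ^ 2 := by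
    have h1 : ∀ x : E d, (‖∇ (blow u 0 ρ) x‖ ^ 2 + pos (blow u 0 ρ x)) * wk r x ^ 2 =
        (fun y => (‖∇ u y‖ ^ 2 + pos (u y)) * wk (ρ * r) y ^ 2) (ρ • x) := by
      intro x
      simp only
      rw [grad_blow0 u hρ.ne', wk_scale hρ hr]
      have : blow u 0 ρ x = u (ρ • x) / ρ := by simp [blow]
      rw [this, pos_div' _ hρ]
    simp_rw [h1]
    rw [Measure.integral_comp_smul (volume : Measure (E d))
      (fun y => (‖∇ u y‖ ^ 2 + pos (u y)) * wk (ρ * r) y ^ 2) ρ, finrank_euclideanSpace, Fintype.card_fin,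
      smul_eq_mul, abs_of_nonneg (by positivity)]
  have e2 : (∫ x, blow u 0 ρ x ^ 2 * wk r x) =
      (ρ ^ d)⁻¹ * ((ρ ^ 2)⁻¹ * ∫ x, u x ^ 2 * wk (ρ * r) x) := by
    have h1 : ∀ x : E d, blow u 0 ρ x ^ 2 * wk r x =
        (ρ ^ 2)⁻¹ * (fun y => u y ^ 2 * wk (ρ * r) y) (ρ • x) := by
      intro x
      simp only
      rw [wk_scale hρ hr]
      have : blow u 0 ρ x = u (ρ • x) / ρ := by simp [blow]
      rw [this]
      field_simp
    simp_rw [h1]
    rw [integral_const_mul, Measure.integral_comp_smul (volume : Measure (E d))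
      (fun y => u y ^ 2 * wk (ρ * r) y) ρ, finrank_euclideanSpace, Fintype.card_fin,
      smul_eq_mul, abs_of_nonneg (by positivity)]
    ring
  unfold Ws
  rw [e1, e2]
  have hρ0 : ρ ≠ 0 := hρ.ne'
  have hr0 : r ≠ 0 := hr.ne'
  have hρd : ρ ^ d ≠ 0 := pow_ne_zero _ hρ0
  have hrd : r ^ d ≠ 0 := pow_ne_zero _ hr0
  field_simp
  rw [mul_pow]
  ring

theorem Ws_blow' {K : ℝ≥0} {u : E d → ℝ} (_hu : LM u K) {ρ r : ℝ} (hρ : 0 < ρ) (hr : 0 < r) :
    Ws (blow u 0 ρ) r = Ws u (ρ * r) := Ws_blow0 u hρ hr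

/-- bound at scale one -/
theorem Ws_one_bdd {K : ℝ≥0} {u : E d → ℝ} (hu : LipschitzWith K u) (h0 : u 0 = 0) :
    |Ws u 1| ≤ (5 * (K : ℝ) ^ 2 + 1) * (volume (closedBall (0 : E d) 1)).toReal := by
  have hgb : ∀ x, ‖∇ u x‖ ≤ K := norm_grad_le hu
  have hub : ∀ x ∈ closedBall (0 : E d) 1, |u x| ≤ K := by
    intro x hx
    have h := hu.dist_le_mul x 0
    rw [h0, Real.dist_eq, sub_zero, dist_zero_right] at h
    rw [mem_closedBall_zero_iff] at hx
    calc |u x| ≤ K * ‖x‖ := h
      _ ≤ K * 1 := mul_le_mul_of_nonneg_left hx K.2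
      _ = K := mul_one _
  have h1 : ‖∫ x, (‖∇ u x‖ ^ 2 + pos (u x)) * wk 1 x ^ 2‖ ≤
      ((K : ℝ) ^ 2 + 1) * (volume (closedBall (0 : E d) 1)).toReal := by
    have e : (∫ x, (‖∇ u x‖ ^ 2 + pos (u x)) * wk 1 x ^ 2) =
        ∫ x in closedBall (0 : E d) 1, (‖∇ u x‖ ^ 2 + pos (u x)) * wk 1 x ^ 2 := by
      rw [setIntegral_eq_integral_of_forall_compl_eq_zero]
      intro x hx
      rw [wk_supp one_pos x hx]; simp
    rw [e]
    refine norm_setIntegral_le_of_norm_le_const (isCompact_closedBall 0 1).measure_lt_top fun x _ => ?_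
    have hp0 : 0 ≤ pos (u x) := by unfold pos; split_ifs <;> norm_num
    have hp1 : pos (u x) ≤ 1 := by unfold pos; split_ifs <;> norm_num
    have hw := pow_le_one₀ (n := 2) (wk_nonneg 1 x) (wk_le_one 1 x)
    have hg : ‖∇ u x‖ ^ 2 ≤ (K : ℝ) ^ 2 := pow_le_pow_left₀ (norm_nonneg _) (hgb x) 2
    rw [Real.norm_eq_abs, abs_of_nonneg (by positivity)]
    calc (‖∇ u x‖ ^ 2 + pos (u x)) * wk 1 x ^ 2 ≤ ((K : ℝ) ^ 2 + 1) * 1 := by gcongr
      _ = _ := mul_one _
  have h2 : ‖∫ x, u x ^ 2 * wk 1 x‖ ≤ (K : ℝ) ^ 2 * (volume (closedBall (0 : E d) 1)).toReal := by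
    have e : (∫ x, u x ^ 2 * wk 1 x) = ∫ x in closedBall (0 : E d) 1, u x ^ 2 * wk 1 x := by
      rw [setIntegral_eq_integral_of_forall_compl_eq_zero]
      intro x hx
      rw [wk_supp one_pos x hx]; simp
    rw [e]
    refine norm_setIntegral_le_of_norm_le_const (isCompact_closedBall 0 1).measure_lt_top fun x hx => ?_
    have hg : u x ^ 2 ≤ (K : ℝ) ^ 2 := by
      rw [← sq_abs]; exact pow_le_pow_left₀ (abs_nonneg _) (hub x hx) 2
    rw [Real.norm_eq_abs, abs_of_nonneg (mul_nonneg (sq_nonneg _) (wk_nonneg 1 x))]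
    calc u x ^ 2 * wk 1 x ≤ (K : ℝ) ^ 2 * 1 :=
          mul_le_mul hg (wk_le_one 1 x) (wk_nonneg 1 x) (by positivity)
      _ = _ := mul_one _
  unfold Ws
  rw [one_pow, one_pow, div_one, div_one]
  rw [Real.norm_eq_abs] at h1 h2
  have h3 := abs_sub (∫ x, (‖∇ u x‖ ^ 2 + pos (u x)) * wk 1 x ^ 2) (4 * ∫ x, u x ^ 2 * wk 1 x)
  rw [abs_mul, abs_of_pos (by norm_num : (0 : ℝ) < 4)] at h3
  linarith

theorem Ws_bdd' (d : ℕ) (K : ℝ≥0) : ∃ C : ℝ, ∀ u : E d → ℝ, LM u K → u 0 = 0 → ∀ r : ℝ, 0 < r → |Ws u r| ≤ C := by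
  refine ⟨(5 * (K : ℝ) ^ 2 + 1) * (volume (closedBall (0 : E d) 1)).toReal, fun u hu h0 r hr => ?_⟩
  have h1 : Ws (blow u 0 r) 1 = Ws u (r * 1) := Ws_blow0 u hr one_pos
  rw [mul_one] at h1
  rw [← h1]
  refine Ws_one_bdd (blow_lip0 hu.lip hr) ?_
  simp [blow, h0]

end Crest.Agent.R097.W2
end

-- ▼ part R097/Weiss2b
section

/-! W2h: homogeneity of minimisers with constant Weiss energy (helper870). -/
set_option autoImplicit false
open MeasureTheory Metric Set Filter Topology
open scoped NNReal RealInnerProductSpace Gradient ContDiff Laplacian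

namespace Crest.Agent.R097
namespace W2
variable {d : ℕ}

theorem integrable_wk {K : ℝ≥0} {u : E d → ℝ} (hu : LipschitzWith K u) {r : ℝ} (hr : 0 < r) :
    Integrable (fun x => wk r x * (inner ℝ x (∇ u x) - u x) ^ 2) := by
  have hw : Measurable (wk r : E d → ℝ) := wk_meas r
  have hgr := measurable_grad u
  have hgb : ∀ x, ‖∇ u x‖ ≤ K := norm_grad_le hu
  have hw1 : ∀ x : E d, |wk r x| ≤ 1 := fun x => by
    rw [abs_of_nonneg (wk_nonneg r x)]; exact wk_le_one r x
  have hin : Measurable (fun x => inner ℝ x (∇ u x)) := measurable_id.inner hgr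
  obtain ⟨M, hM⟩ :=
    (isCompact_closedBall (0 : E d) r).exists_bound_of_continuousOn hu.continuous.continuousOn
  refine int_cut (hw.mul ((hin.sub hu.continuous.measurable).pow_const 2)).aestronglyMeasurable
    (r := r) (C := 1 * (r * K + M) ^ 2)
    (fun x hx => by rw [wk_supp hr x hx]; simp) (fun x hx => ?_)
  have hMx := hM x hx
  rw [mem_closedBall_zero_iff] at hx
  rw [Real.norm_eq_abs] at hMx
  have hb : |inner ℝ x (∇ u x) - u x| ≤ r * K + M := by
    refine (abs_sub _ _).trans (add_le_add ?_ hMx)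
    exact (abs_real_inner_le_norm _ _).trans (mul_le_mul hx (hgb x) (norm_nonneg _) hr.le)
  rw [abs_mul, abs_pow]
  exact mul_le_mul (hw1 x) (pow_le_pow_left₀ (abs_nonneg _) hb 2) (by positivity) (by norm_num)

theorem radial_ae {K : ℝ≥0} {u : E d → ℝ} (hu : LM u K)
    (h : ∀ r s : ℝ, 0 < r → 0 < s → Ws u r = Ws u s) :
    ∀ᵐ x : E d, inner ℝ x (∇ u x) = u x := by
  have key : ∀ n : ℕ, ∀ᵐ x : E d, wk (n + 1) x * (inner ℝ x (∇ u x) - u x) ^ 2 = 0 := by
    intro n
    have hr : (0 : ℝ) < n + 1 := by positivity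
    have h1 := weiss hu hr
    have h2 : HasDerivAt (Ws u) 0 ((n : ℝ) + 1) := by
      refine (hasDerivAt_const ((n : ℝ) + 1) (Ws u ((n : ℝ) + 1))).congr_of_eventuallyEq ?_
      filter_upwards [Ioi_mem_nhds hr] with s hs
      exact h s _ hs hr
    have h3 := h1.unique h2
    have h4 : (∫ x : E d, wk ((n : ℝ) + 1) x * (inner ℝ x (∇ u x) - u x) ^ 2) = 0 := by
      rcases mul_eq_zero.1 h3 with h5 | h5
      · exfalso
        have : (0 : ℝ) < 8 / ((n : ℝ) + 1) ^ (d + 3) := by positivity
        linarith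
      · exact h5
    exact (integral_eq_zero_iff_of_nonneg
      (fun x => mul_nonneg (wk_nonneg _ _) (sq_nonneg _)) (integrable_wk hu.lip hr)).1 h4
  filter_upwards [ae_all_iff.2 key] with x hx
  obtain ⟨n, hn⟩ := exists_nat_gt ‖x‖
  have hr : (0 : ℝ) < n + 1 := by positivity
  have h1 := hx n
  have hlt : ‖x‖ < (n : ℝ) + 1 := hn.trans (by linarith)
  have hpos : 0 < wk ((n : ℝ) + 1) x := by
    rw [wk_of_lt hr hlt.le, sub_pos, div_lt_one (by positivity)]
    exact pow_lt_pow_left₀ hlt (norm_nonneg _) (by norm_num)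
  rcases mul_eq_zero.1 h1 with h2 | h2
  · exact absurd h2 hpos.ne'
  · have := pow_eq_zero_iff (two_ne_zero) |>.1 h2
    linarith

theorem radial_on {K : ℝ≥0} {u : E d → ℝ} (hu : LM u K)
    (h : ∀ r s : ℝ, 0 < r → 0 < s → Ws u r = Ws u s) {x : E d} (hx : 0 < u x) :
    inner ℝ x (∇ u x) = u x := by
  have hop : IsOpen {x | 0 < u x} := isOpen_lt continuous_const hu.lip.continuous
  have hC : ContDiffOn ℝ ∞ u {x | 0 < u x} := hu.harm.1
  have hfc : ContinuousOn (fderiv ℝ u) {x | 0 < u x} :=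
    hC.continuousOn_fderiv_of_isOpen hop (by norm_cast)
  have hgc : ContinuousOn (∇ u) {x | 0 < u x} := by
    unfold gradient
    exact (InnerProductSpace.toDual ℝ (E d)).symm.continuous.comp_continuousOn hfc
  exact Measure.eqOn_open_of_ae_eq (μ := volume)
    (f := fun x => inner ℝ x (∇ u x)) (g := u) (ae_restrict_of_ae (radial_ae hu h)) hop
    (continuousOn_id.inner hgc) hu.lip.continuous.continuousOn hx

theorem sq_deriv {K : ℝ≥0} {u : E d → ℝ} (hu : LM u K)
    (h : ∀ r s : ℝ, 0 < r → 0 < s → Ws u r = Ws u s) (x : E d) {t : ℝ} (ht : 0 < t) :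
    HasDerivAt (fun s : ℝ => u (s • x) ^ 2) (2 * u (t • x) ^ 2 / t) t := by
  rcases (hu.nonneg (t • x)).lt_or_eq with hpos | hzero
  · have hop : IsOpen {x | 0 < u x} := isOpen_lt continuous_const hu.lip.continuous
    have hC : ContDiffOn ℝ ∞ u {x | 0 < u x} := hu.harm.1
    have hd : DifferentiableAt ℝ u (t • x) :=
      (hC.differentiableOn (by norm_cast)).differentiableAt (hop.mem_nhds hpos)
    have h1 := hd.hasGradientAt.hasFDerivAt
    have h2 : HasDerivAt (fun s : ℝ => s • x) x t := by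
      simpa using (hasDerivAt_id t).smul_const x
    have h3 := h1.comp_hasDerivAt t h2
    have h4 : (InnerProductSpace.toDual ℝ (E d)) (∇ u (t • x)) x = u (t • x) / t := by
      rw [InnerProductSpace.toDual_apply_apply, real_inner_comm]
      have h5 := radial_on hu h hpos
      rw [real_inner_smul_left] at h5
      field_simp
      linarith
    rw [h4] at h3
    refine (h3.pow 2).congr_deriv ?_
    simp only [Function.comp]
    field_simp
    norm_num
    ring
  · rw [← hzero]
    have hb : ∀ s : ℝ, |u (s • x) ^ 2| ≤ (K * ‖x‖) ^ 2 * |s - t| ^ 2 := by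
      intro s
      have h1 := hu.lip.dist_le_mul (s • x) (t • x)
      rw [Real.dist_eq, ← hzero, sub_zero, dist_eq_norm, ← sub_smul, norm_smul,
        Real.norm_eq_abs] at h1
      rw [abs_pow, ← mul_pow]
      refine pow_le_pow_left₀ (abs_nonneg _) (h1.trans (le_of_eq ?_)) 2
      ring
    rw [hasDerivAt_iff_isLittleO]
    have e : (fun s : ℝ => u (s • x) ^ 2 - u (t • x) ^ 2 - (s - t) • (2 * 0 ^ 2 / t)) =
        fun s : ℝ => u (s • x) ^ 2 := by
      funext s
      rw [← hzero]
      simp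
    rw [e]
    have h1 : (fun s : ℝ => u (s • x) ^ 2) =O[𝓝 t] fun s => |s - t| ^ 2 := by
      refine Asymptotics.IsBigO.of_bound ((K * ‖x‖) ^ 2) (Eventually.of_forall fun s => ?_)
      rw [Real.norm_eq_abs, Real.norm_eq_abs, abs_of_nonneg (by positivity : 0 ≤ |s - t| ^ 2)]
      exact hb s
    have h2 : (fun s : ℝ => |s - t| ^ 2) =o[𝓝 t] fun s => s - t := by
      have h3 : (fun s : ℝ => |s - t| ^ 2) = fun s => (s - t) * (s - t) := by
        funext s
        rw [sq_abs]
        ring
      rw [h3]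
      have h4 : (fun s : ℝ => s - t) =o[𝓝 t] fun _ => (1 : ℝ) := by
        rw [Asymptotics.isLittleO_one_iff]
        have : Tendsto (fun s : ℝ => s - t) (𝓝 t) (𝓝 (t - t)) :=
          (continuous_id.sub continuous_const).tendsto t
        simpa using this
      simpa using h4.mul_isBigO (Asymptotics.isBigO_refl (fun s : ℝ => s - t) (𝓝 t))
    exact h1.trans_isLittleO h2

theorem hom_of_Ws' {K : ℝ≥0} {u : E d → ℝ} (hu : LM u K)
    (h : ∀ r s : ℝ, 0 < r → 0 < s → Ws u r = Ws u s) : Hom1 u := by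
  intro r hr x
  have hd : ∀ t : ℝ, 0 < t → HasDerivAt (fun s : ℝ => u (s • x) ^ 2 / s ^ 2) 0 t := by
    intro t ht
    have h1 := (sq_deriv hu h x ht).div (hasDerivAt_pow 2 t) (by positivity)
    refine h1.congr_deriv ?_
    field_simp
    simp
  have hc : (fun s : ℝ => u (s • x) ^ 2 / s ^ 2) r = (fun s : ℝ => u (s • x) ^ 2 / s ^ 2) 1 := by
    refine isOpen_Ioi.is_const_of_deriv_eq_zero isPreconnected_Ioi
      (fun t ht => (hd t ht).differentiableAt.differentiableWithinAt)
      (fun t ht => (hd t ht).deriv) (x := r) (y := 1) hr ?_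
    exact (one_pos : (0 : ℝ) < 1)
  simp only [one_smul, one_pow, div_one] at hc
  have h1 : u (r • x) ^ 2 = (r * u x) ^ 2 := by
    rw [div_eq_iff (by positivity)] at hc
    rw [hc]; ring
  exact (pow_left_inj₀ (hu.nonneg _) (mul_nonneg hr.le (hu.nonneg _)) two_ne_zero).1 h1

end W2
end Crest.Agent.R097
end

-- ▼ part R097/C1
section

/-! C1: Arzela-Ascoli for Lipschitz functions. -/
set_option autoImplicit false
open MeasureTheory Metric Set Filter Topology
open scoped NNReal

namespace Crest.Agent.R097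
variable {d : ℕ}

theorem lip_of_ptw {K : ℝ≥0} {u : ℕ → E d → ℝ} {v : E d → ℝ} (hu : ∀ k, LipschitzWith K (u k))
    (h : ∀ x, Tendsto (fun k => u k x) atTop (𝓝 (v x))) : LipschitzWith K v := by
  refine LipschitzWith.of_dist_le_mul fun x y => ?_
  have h1 : Tendsto (fun k => dist (u k x) (u k y)) atTop (𝓝 (dist (v x) (v y))) :=
    (h x).dist (h y)
  exact le_of_tendsto h1 (Eventually.of_forall fun k => (hu k).dist_le_mul x y)

/-- pointwise convergence of equi-Lipschitz functions is uniform on balls -/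
theorem unif_of_ptw {K : ℝ≥0} {u : ℕ → E d → ℝ} {v : E d → ℝ} (hu : ∀ k, LipschitzWith K (u k))
    (h : ∀ x, Tendsto (fun k => u k x) atTop (𝓝 (v x))) (R : ℝ) :
    TendstoUniformlyOn u v atTop (closedBall 0 R) := by
  have hv : LipschitzWith K v := lip_of_ptw hu h
  rw [Metric.tendstoUniformlyOn_iff]
  intro ε hε
  have hK : (0 : ℝ) ≤ K := K.2
  set δ : ℝ := ε / (3 * (K + 1)) with hδ
  have hδ0 : 0 < δ := by positivity
  have hKδ : K * δ < ε / 3 := by
    rw [hδ]
    have : (K : ℝ) * (ε / (3 * (K + 1))) = (ε / 3) * (K / (K + 1)) := by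
      field_simp
    rw [this]
    have h1 : (K : ℝ) / (K + 1) < 1 := by
      rw [div_lt_one (by positivity)]; linarith
    nlinarith
  obtain ⟨t, -, htf, ht⟩ := (isCompact_closedBall (0 : E d) R).finite_cover_balls hδ0
  have h2 : ∀ᶠ k in atTop, ∀ c ∈ t, dist (v c) (u k c) < ε / 3 := by
    rw [Filter.eventually_all_finite htf]
    intro c _
    have := (Metric.tendsto_nhds.1 (h c)) (ε / 3) (by positivity)
    filter_upwards [this] with k hk
    rwa [dist_comm]
  filter_upwards [h2] with k hk x hx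
  have h3 := ht hx
  simp only [mem_iUnion, mem_ball] at h3
  obtain ⟨c, hc, hxc⟩ := h3
  have h4 : dist (v x) (v c) ≤ K * δ :=
    (hv.dist_le_mul x c).trans (mul_le_mul_of_nonneg_left hxc.le hK)
  have h5 : dist (u k c) (u k x) ≤ K * δ := by
    refine ((hu k).dist_le_mul c x).trans (mul_le_mul_of_nonneg_left ?_ hK)
    rw [dist_comm]; exact hxc.le
  have h6 := hk c hc
  calc dist (v x) (u k x) ≤ dist (v x) (v c) + dist (v c) (u k c) + dist (u k c) (u k x) :=
        dist_triangle4 _ _ _ _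
    _ < ε := by linarith

theorem arzela {K : ℝ≥0} {u : ℕ → E d → ℝ} (hu : ∀ k, LipschitzWith K (u k)) {M : ℝ} (hM : ∀ k, |u k 0| ≤ M) :
    ∃ (φ : ℕ → ℕ) (v : E d → ℝ), StrictMono φ ∧ LipschitzWith K v ∧
      ∀ x, Tendsto (fun k => u (φ k) x) atTop (𝓝 (v x)) := by
  have hK : (0 : ℝ) ≤ K := K.2
  let q : ℕ → E d := TopologicalSpace.denseSeq (E d)
  have hcomp : IsCompact (Set.pi univ fun n : ℕ => Icc (-(M + K * ‖q n‖)) (M + K * ‖q n‖)) :=
    isCompact_univ_pi fun n => isCompact_Icc
  have hbd : ∀ k x, |u k x| ≤ M + K * ‖x‖ := by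
    intro k x
    have h1 := (hu k).dist_le_mul x 0
    rw [Real.dist_eq, dist_zero_right] at h1
    have h2 : |u k x| ≤ |u k x - u k 0| + |u k 0| := by
      have := abs_add_le (u k x - u k 0) (u k 0)
      simpa using this
    linarith [hM k]
  obtain ⟨a, -, φ, hφ, hlim⟩ := hcomp.tendsto_subseq (x := fun k n => u k (q n)) (by
    intro k
    rw [mem_univ_pi]
    intro n
    exact abs_le.1 (hbd k (q n)))
  have hlim' : ∀ n, Tendsto (fun k => u (φ k) (q n)) atTop (𝓝 (a n)) := by
    intro n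
    exact (tendsto_pi_nhds.1 hlim) n
  have hcau : ∀ x, CauchySeq (fun k => u (φ k) x) := by
    intro x
    rw [Metric.cauchySeq_iff]
    intro ε hε
    have hδ0 : 0 < ε / (3 * (K + 1)) := by positivity
    have hKδ : K * (ε / (3 * (K + 1))) < ε / 3 := by
      have : (K : ℝ) * (ε / (3 * (K + 1))) = (ε / 3) * (K / (K + 1)) := by
        field_simp
      rw [this]
      have h1 : (K : ℝ) / (K + 1) < 1 := by
        rw [div_lt_one (by positivity)]; linarith
      nlinarith
    obtain ⟨n, hn⟩ : ∃ n, dist x (q n) < ε / (3 * (K + 1)) := by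
      have := (TopologicalSpace.denseRange_denseSeq (E d)).exists_dist_lt x hδ0
      exact this
    have h1 := (hlim' n).cauchySeq
    rw [Metric.cauchySeq_iff] at h1
    obtain ⟨N, hN⟩ := h1 (ε / 3) (by positivity)
    refine ⟨N, fun m hm l hl => ?_⟩
    have h2 := hN m hm l hl
    have h3 : dist (u (φ m) x) (u (φ m) (q n)) ≤ K * (ε / (3 * (K + 1))) :=
      ((hu _).dist_le_mul x (q n)).trans (mul_le_mul_of_nonneg_left hn.le hK)
    have h4 : dist (u (φ l) (q n)) (u (φ l) x) ≤ K * (ε / (3 * (K + 1))) := by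
      refine ((hu _).dist_le_mul (q n) x).trans (mul_le_mul_of_nonneg_left ?_ hK)
      rw [dist_comm]; exact hn.le
    calc dist (u (φ m) x) (u (φ l) x)
        ≤ dist (u (φ m) x) (u (φ m) (q n)) + dist (u (φ m) (q n)) (u (φ l) (q n))
          + dist (u (φ l) (q n)) (u (φ l) x) := dist_triangle4 _ _ _ _
      _ < ε := by linarith
  choose v hv using fun x => cauchySeq_tendsto_of_complete (hcau x)
  exact ⟨φ, v, hφ, lip_of_ptw (fun k => hu (φ k)) hv, hv⟩

end Crest.Agent.R097
end

-- ▼ part R097/C2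
section

/-! C2: limits of Lipschitz minimisers. -/
set_option autoImplicit false
open MeasureTheory Metric Set Filter Topology
open scoped NNReal RealInnerProductSpace Gradient ContDiff Laplacian

namespace Crest.Agent.R097
variable {d : ℕ}

/-- local form of uniform convergence -/
lemma ptw_ball {K : ℝ≥0} {u : ℕ → E d → ℝ} {v : E d → ℝ} (hu : ∀ k, LipschitzWith K (u k))
    (h : ∀ x, Tendsto (fun k => u k x) atTop (𝓝 (v x))) (x0 : E d) (r : ℝ) {ε : ℝ} (hε : 0 < ε) :
    ∀ᶠ k in atTop, ∀ x ∈ ball x0 r, |u k x - v x| < ε := by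
  have h1 := unif_of_ptw hu h (‖x0‖ + |r|)
  rw [Metric.tendstoUniformlyOn_iff] at h1
  filter_upwards [h1 ε hε] with k hk x hx
  have h2 : x ∈ closedBall (0 : E d) (‖x0‖ + |r|) := by
    rw [mem_closedBall, dist_zero_right]
    have h3 : ‖x‖ ≤ ‖x0‖ + ‖x - x0‖ := by
      have := norm_add_le x0 (x - x0)
      simpa using this
    have h4 : ‖x - x0‖ < r := by rwa [← dist_eq_norm]
    linarith [le_abs_self r]
  have h3 := hk x h2
  rw [dist_comm, Real.dist_eq] at h3
  exact h3

lemma unif_loc {K : ℝ≥0} {u : ℕ → E d → ℝ} {v : E d → ℝ} (hu : ∀ k, LipschitzWith K (u k))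
    (h : ∀ x, Tendsto (fun k => u k x) atTop (𝓝 (v x))) (s : Set (E d)) :
    TendstoLocallyUniformlyOn u v atTop s := by
  rw [Metric.tendstoLocallyUniformlyOn_iff]
  intro ε hε x _
  refine ⟨ball x 1, mem_nhdsWithin_of_mem_nhds (ball_mem_nhds x one_pos), ?_⟩
  filter_upwards [ptw_ball hu h x 1 hε] with k hk y hy
  rw [dist_comm, Real.dist_eq]
  exact hk y hy

/-- nondegeneracy of limits -/
lemma lim_nondeg (hd : 1 ≤ d) : ∃ ε : ℝ, 0 < ε ∧ ∀ (K : ℝ≥0) (u : ℕ → E d → ℝ) (v : E d → ℝ),
    (∀ k, LM (u k) K) → (∀ x, Tendsto (fun k => u k x) atTop (𝓝 (v x))) →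
    ∀ (x0 : E d) (r : ℝ), 0 < r → (∀ x ∈ ball x0 r, v x ≤ ε * r) →
      ∀ᶠ k in atTop, ∀ x ∈ ball x0 (r / 2), u k x = 0 := by
  obtain ⟨ε, hε, H⟩ := nondeg d hd
  refine ⟨ε / 2, by positivity, fun K u v hu h x0 r hr hv => ?_⟩
  filter_upwards [ptw_ball (fun k => (hu k).lip) h x0 r (ε := ε / 2 * r) (by positivity)] with k hk
  refine H K (u k) (hu k) x0 r hr fun x hx => ?_
  have h1 := hv x hx
  have h2 := (abs_lt.1 (hk x hx)).2
  linarith

/-- outside the free boundary of the limit, gradients converge and positivity stabilises -/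
theorem lim_ptw (hd : 1 ≤ d) {K : ℝ≥0} {u : ℕ → E d → ℝ} {v : E d → ℝ} (hu : ∀ k, LM (u k) K)
    (h : ∀ x, Tendsto (fun k => u k x) atTop (𝓝 (v x))) :
    volume (frontier {x | 0 < v x}) = 0 ∧
    ∀ x ∉ frontier {x | 0 < v x}, Tendsto (fun k => ∇ (u k) x) atTop (𝓝 (∇ v x)) ∧
      ∀ᶠ k in atTop, pos (u k x) = pos (v x) := by
  have hlip : ∀ k, LipschitzWith K (u k) := fun k => (hu k).lip
  have hv : LipschitzWith K v := lip_of_ptw hlip h
  have hv0 : ∀ x, 0 ≤ v x := fun x => ge_of_tendsto (h x) (Eventually.of_forall fun k => (hu k).nonneg x)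
  obtain ⟨ε, hε, H⟩ := lim_nondeg (d := d) hd
  have hop : IsOpen {x | 0 < v x} := isOpen_lt continuous_const hv.continuous
  constructor
  · refine null_frontier hv hv0 hε fun x0 r hr hx x hx' => ?_
    have h1 := H K u v hu h x0 r hr hx
    have h2 : Tendsto (fun k => u k x) atTop (𝓝 0) :=
      tendsto_const_nhds.congr' (by filter_upwards [h1] with k hk; exact (hk x hx').symm)
    exact tendsto_nhds_unique (h x) h2
  · intro x hx
    by_cases hpx : 0 < v x
    · -- positivity set
      obtain ⟨r, hr, hb⟩ : ∃ r > 0, ∀ y ∈ ball x r, v x / 2 < v y := by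
        have : ∀ᶠ y in 𝓝 x, v x / 2 < v y :=
          hv.continuous.continuousAt.eventually (lt_mem_nhds (by linarith))
        exact Metric.eventually_nhds_iff_ball.1 this
      have h1 := ptw_ball hlip h x r (ε := v x / 4) (by positivity)
      have h2 : ∀ᶠ k in atTop, ∀ y ∈ ball x r, 0 < u k y := by
        filter_upwards [h1] with k hk y hy
        have := (abs_lt.1 (hk y hy)).1
        have := hb y hy
        linarith
      refine ⟨?_, ?_⟩
      · have h3 : ∀ᶠ k in atTop, Harm (u k) (ball x r) := by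
          filter_upwards [h2] with k hk
          exact ⟨(hu k).harm.1.mono hk, fun y hy => (hu k).harm.2 y (hk y hy)⟩
        exact (harm_lim isOpen_ball h3 (unif_loc hlip h _)).2 x (mem_ball_self hr)
      · filter_upwards [h2] with k hk
        simp [pos, hk x (mem_ball_self hr), hpx]
    · have hvx : v x = 0 := le_antisymm (not_lt.1 hpx) (hv0 x)
      have hx2 : x ∉ closure {x | 0 < v x} := by
        intro hc
        refine hx ⟨hc, fun hi => hpx ?_⟩
        have h3 : x ∈ {x | 0 < v x} := interior_subset hi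
        exact h3
      obtain ⟨r, hr, hb⟩ : ∃ r > 0, ∀ y ∈ ball x r, v y = 0 := by
        have : ∀ᶠ y in 𝓝 x, y ∉ {x | 0 < v x} := by
          have h1 : (closure {x | 0 < v x})ᶜ ∈ 𝓝 x := isClosed_closure.isOpen_compl.mem_nhds hx2
          filter_upwards [h1] with y hy hy2
          exact hy (subset_closure hy2)
        obtain ⟨r, hr, hb⟩ := Metric.eventually_nhds_iff_ball.1 this
        exact ⟨r, hr, fun y hy => le_antisymm (not_lt.1 (hb y hy)) (hv0 y)⟩
      have h1 := H K u v hu h x r hr (fun y hy => by rw [hb y hy]; positivity)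
      have hgv : ∇ v x = 0 := by
        have : fderiv ℝ v x = 0 := fderiv_eq_zero_of_nonneg hv0 hvx
        rw [← norm_eq_zero, norm_gradient, this, norm_zero]
      refine ⟨?_, ?_⟩
      · rw [hgv]
        refine tendsto_const_nhds.congr' ?_
        filter_upwards [h1] with k hk
        have : fderiv ℝ (u k) x = 0 :=
          fderiv_eq_zero_of_nonneg (hu k).nonneg (hk x (mem_ball_self (by positivity)))
        symm
        rw [← norm_eq_zero, norm_gradient, this, norm_zero]
      · filter_upwards [h1] with k hk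
        rw [hk x (mem_ball_self (by positivity)), hvx]

theorem lim_LM (hd : 1 ≤ d) {K : ℝ≥0} {u : ℕ → E d → ℝ} {v : E d → ℝ} (hu : ∀ k, LM (u k) K)
    (h : ∀ x, Tendsto (fun k => u k x) atTop (𝓝 (v x))) : LM v K := by
  have hlip : ∀ k, LipschitzWith K (u k) := fun k => (hu k).lip
  have hv : LipschitzWith K v := lip_of_ptw hlip h
  have hv0 : ∀ x, 0 ≤ v x := fun x => ge_of_tendsto (h x) (Eventually.of_forall fun k => (hu k).nonneg x)
  refine LM.of_dJ hv0 hv fun w L hw hw0 hc => ?_
  obtain ⟨R, hR0, hR⟩ : ∃ R : ℝ, 0 < R ∧ tsupport (fun x => w x - v x) ⊆ ball 0 R := by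
    obtain ⟨R, hR⟩ := hc.isCompact.isBounded.subset_ball_lt 0 0
    exact ⟨R, hR.1, hR.2⟩
  have hwv : ∀ x : E d, R ≤ ‖x‖ → w x = v x := by
    intro x hx
    have : x ∉ tsupport (fun x => w x - v x) := fun h2 => by
      have := hR h2
      rw [mem_ball, dist_zero_right] at this
      linarith
    have h2 := image_eq_zero_of_notMem_tsupport this
    linarith
  -- bound of |w - v|
  obtain ⟨M0, hM0⟩ : ∃ M0 : ℝ, ∀ x, |w x - v x| ≤ M0 := by
    have hcont : Continuous (fun x => w x - v x) := hw.continuous.sub hv.continuous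
    obtain ⟨C, hC⟩ := hcont.bounded_above_of_compact_support hc
    exact ⟨C, fun x => by simpa using hC x⟩
  have hM00 : 0 ≤ M0 := (abs_nonneg _).trans (hM0 0)
  set M : ℝ≥0 := ⟨M0 + 1, by positivity⟩ with hMdef
  have hMc : (M : ℝ) = M0 + 1 := rfl
  set ζ : E d → ℝ := fun x => M * max (R + 1 - ‖x‖) 0 with hζ
  have hζ0 : ∀ x, 0 ≤ ζ x := fun x => mul_nonneg M.2 (le_max_right _ _)
  have hζl : LipschitzWith M ζ := by
    refine LipschitzWith.of_dist_le_mul fun x y => ?_
    rw [Real.dist_eq, hζ]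
    simp only
    rw [← mul_sub, abs_mul, abs_of_nonneg (NNReal.coe_nonneg M)]
    refine mul_le_mul_of_nonneg_left ?_ (NNReal.coe_nonneg M)
    refine (abs_max_sub_max_le_abs _ _ _).trans ?_
    have : R + 1 - ‖x‖ - (R + 1 - ‖y‖) = ‖y‖ - ‖x‖ := by ring
    rw [this, abs_sub_comm, dist_eq_norm]
    exact abs_norm_sub_norm_le x y
  set W : ℕ → E d → ℝ := fun k x => max (u k x - ζ x) (min (w x) (u k x + ζ x)) with hW
  set L' : ℝ≥0 := max (K + M) (max L (K + M)) with hL'
  have hWl : ∀ k, LipschitzWith L' (W k) := fun k =>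
    ((hlip k).sub hζl).max (hw.min ((hlip k).add hζl))
  have hW0 : ∀ k x, 0 ≤ W k x := fun k x =>
    le_max_of_le_right (le_min (hw0 x) (add_nonneg ((hu k).nonneg x) (hζ0 x)))
  have hWout : ∀ k x, R + 1 ≤ ‖x‖ → W k x = u k x := by
    intro k x hx
    have h1 : ζ x = 0 := by
      simp only [hζ]
      rw [max_eq_right (by linarith)]
      ring
    simp only [hW, h1, sub_zero, add_zero]
    rcases le_total (w x) (u k x) with h2 | h2
    · rw [min_eq_left h2, max_eq_left h2]
    · rw [min_eq_right h2, max_self]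
  have hWc : ∀ k, HasCompactSupport (fun x => W k x - u k x) := by
    intro k
    refine HasCompactSupport.of_support_subset_isCompact (isCompact_closedBall (0 : E d) (R + 1)) ?_
    intro x hx
    by_contra h2
    rw [mem_closedBall, dist_zero_right, not_le] at h2
    exact hx (by simp [hWout k x h2.le])
  have hJ : ∀ k, 0 ≤ dJ (W k) (u k) := fun k => (hu k).dJ_nonneg (hWl k) (hW0 k) (hWc k)
  obtain ⟨hnull, hptw⟩ := lim_ptw hd hu h
  -- local stabilisation
  have hloc : ∀ x : E d, ‖x‖ < R + 1 → ∀ᶠ k in atTop, W k =ᶠ[𝓝 x] w := by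
    intro x hx
    set δ : ℝ := (R + 1 - ‖x‖) / 2 with hδ
    have hδ0 : 0 < δ := by rw [hδ]; linarith
    have hδ1 : ∀ y ∈ ball x δ, δ ≤ R + 1 - ‖y‖ := by
      intro y hy
      have h3 : ‖y‖ ≤ ‖x‖ + ‖y - x‖ := by
        have := norm_add_le x (y - x)
        simpa using this
      have h4 : ‖y - x‖ < δ := by rwa [← dist_eq_norm]
      linarith
    have h1 := ptw_ball hlip h x δ (ε := min 1 (M * δ)) (by
      have : (0 : ℝ) < M := by rw [hMc]; positivity
      positivity)
    filter_upwards [h1] with k hk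
    filter_upwards [ball_mem_nhds x hδ0] with y hy
    have h2 := hk y hy
    have h3 : |u k y - v y| < 1 := h2.trans_le (min_le_left _ _)
    have h4 : |u k y - v y| < M * δ := h2.trans_le (min_le_right _ _)
    have h5 : |w y - u k y| ≤ ζ y := by
      have hz : ζ y = M * (R + 1 - ‖y‖) := by
        simp only [hζ]
        rw [max_eq_left (by linarith [hδ1 y hy])]
      rw [hz]
      rcases le_total R ‖y‖ with h6 | h6
      · rw [hwv y h6, abs_sub_comm]
        exact h4.le.trans (mul_le_mul_of_nonneg_left (hδ1 y hy) M.2)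
      · have h7 : |w y - u k y| ≤ |w y - v y| + |u k y - v y| := by
          have := abs_sub_le (w y) (v y) (u k y)
          rwa [abs_sub_comm (v y) (u k y)] at this
        have h8 := hM0 y
        have h9 : (M : ℝ) * 1 ≤ M * (R + 1 - ‖y‖) := mul_le_mul_of_nonneg_left (by linarith) M.2
        rw [hMc] at h9 ⊢
        linarith
    obtain ⟨h6, h7⟩ := abs_le.1 h5
    simp only [hW]
    rw [min_eq_left (by linarith), max_eq_right (by linarith)]
  have hLK : ∀ k x, ‖eD (W k) (u k) x‖ ≤ (closedBall (0 : E d) (R + 1)).indicator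
      (fun _ => (L' : ℝ) ^ 2 + (K : ℝ) ^ 2 + 2) x := by
    intro k x
    by_cases hx : x ∈ closedBall (0 : E d) (R + 1)
    · rw [indicator_of_mem hx, Real.norm_eq_abs, eD]
      have h1 := norm_grad_le (hWl k) x
      have h2 := norm_grad_le (hlip k) x
      have h3 : ‖∇ (W k) x‖ ^ 2 ≤ (L' : ℝ) ^ 2 := pow_le_pow_left₀ (norm_nonneg _) h1 2
      have h4 : ‖∇ (u k) x‖ ^ 2 ≤ (K : ℝ) ^ 2 := pow_le_pow_left₀ (norm_nonneg _) h2 2
      have h5 := sq_nonneg ‖∇ (W k) x‖
      have h6 := sq_nonneg ‖∇ (u k) x‖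
      have h7 := pos_nonneg (W k x)
      have h8 := pos_le_one (W k x)
      have h9 := pos_nonneg (u k x)
      have h10 := pos_le_one (u k x)
      rw [abs_le]
      constructor <;> nlinarith
    · rw [indicator_of_notMem hx]
      have h1 : x ∉ tsupport (fun x => W k x - u k x) := by
        intro h2
        have h3 : tsupport (fun x => W k x - u k x) ⊆ closedBall (0 : E d) (R + 1) := by
          refine closure_minimal ?_ isClosed_closedBall
          intro y hy
          by_contra h2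
          rw [mem_closedBall, dist_zero_right, not_le] at h2
          exact hy (by simp [hWout k y h2.le])
        exact hx (h3 h2)
      rw [eD_zero h1, norm_zero]
  have hmeas : ∀ k, AEStronglyMeasurable (eD (W k) (u k)) volume := fun k =>
    (eD_integrable (hWl k) (hlip k) (hWc k)).aestronglyMeasurable
  have hlim : Tendsto (fun k => dJ (W k) (u k)) atTop (𝓝 (dJ w v)) := by
    refine tendsto_integral_of_dominated_convergence _ hmeas ?_ (fun k => Eventually.of_forall (hLK k)) ?_
    · rw [integrable_indicator_iff measurableSet_closedBall]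
      exact integrableOn_const (by exact measure_closedBall_lt_top.ne)
    · have hs : volume (sphere (0 : E d) (R + 1)) = 0 :=
        Measure.addHaar_sphere_of_ne_zero _ _ (by linarith)
      have h1 : ∀ᵐ x : E d, x ∉ frontier {x | 0 < v x} := by
        rw [ae_iff]
        have h3 : {a : E d | ¬ a ∉ frontier {x | 0 < v x}} = frontier {x | 0 < v x} := by
          ext a; simp
        rw [h3]; exact hnull
      have h2 : ∀ᵐ x : E d, x ∉ sphere (0 : E d) (R + 1) := by
        rw [ae_iff]
        have h3 : {a : E d | ¬ a ∉ sphere (0 : E d) (R + 1)} = sphere (0 : E d) (R + 1) := by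
          ext a; simp
        rw [h3]; exact hs
      filter_upwards [h1, h2] with x hx1 hx2
      obtain ⟨hg, hp⟩ := hptw x hx1
      rcases lt_trichotomy ‖x‖ (R + 1) with h3 | h3 | h3
      · have h4 := hloc x h3
        have h5 : Tendsto (fun k => (‖∇ w x‖ ^ 2 - ‖∇ (u k) x‖ ^ 2) + (pos (w x) - pos (v x)))
            atTop (𝓝 (eD w v x)) := by
          refine Tendsto.add ?_ tendsto_const_nhds
          exact tendsto_const_nhds.sub ((hg.norm).pow 2)
        refine h5.congr' ?_
        filter_upwards [h4, hp] with k hk1 hk2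
        have h6 : ∇ (W k) x = ∇ w x := by
          unfold gradient
          rw [hk1.fderiv_eq]
        rw [eD, h6, hk1.eq_of_nhds, hk2]
      · exact absurd (by simp [h3]) hx2
      · have h4 : ∀ k, eD (W k) (u k) x = 0 := by
          intro k
          have h5 := hLK k x
          rw [indicator_of_notMem (by simp [h3])] at h5
          exact norm_le_zero_iff.1 h5
        have h6 : eD w v x = 0 := by
          refine eD_zero fun h7 => ?_
          have := hR h7
          rw [mem_ball, dist_zero_right] at this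
          linarith
        simp_rw [h4, h6]
        exact tendsto_const_nhds
  exact ge_of_tendsto hlim (Eventually.of_forall hJ)

end Crest.Agent.R097
end

-- ▼ part R097/Weiss2c
section

/-! W2h (part c): convergence of the smoothed Weiss energy. -/
set_option autoImplicit false
open MeasureTheory Metric Set Filter Topology
open scoped NNReal RealInnerProductSpace Gradient ContDiff Laplacian

namespace Crest.Agent.R097.W2
variable {d : ℕ}

theorem Ws_lim' (hd : 1 ≤ d) {K : ℝ≥0} {u : ℕ → E d → ℝ} {v : E d → ℝ} (hu : ∀ k, LM (u k) K)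
    (h : ∀ x, Tendsto (fun k => u k x) atTop (𝓝 (v x))) {r : ℝ} (hr : 0 < r) :
    Tendsto (fun k => Ws (u k) r) atTop (𝓝 (Ws v r)) := by
  have hlip : ∀ k, LipschitzWith K (u k) := fun k => (hu k).lip
  have hv : LipschitzWith K v := lip_of_ptw hlip h
  obtain ⟨h0, hptw⟩ := lim_ptw hd hu h
  have hae : ∀ᵐ x : E d, x ∉ frontier {x | 0 < v x} := by
    rw [ae_iff]; simpa using h0
  have hw : Measurable (wk r : E d → ℝ) := wk_meas r
  -- first integral
  have T1 : Tendsto (fun k => ∫ x, (‖∇ (u k) x‖ ^ 2 + pos (u k x)) * wk r x ^ 2) atTop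
      (𝓝 (∫ x, (‖∇ v x‖ ^ 2 + pos (v x)) * wk r x ^ 2)) := by
    refine tendsto_integral_of_dominated_convergence
      (fun x => (closedBall (0 : E d) r).indicator (fun _ => (K : ℝ) ^ 2 + 1) x) (fun k => ?_) ?_ (fun k => ?_) ?_
    · have hg : Measurable (gE (u k)) := gE_meas (hlip k).continuous
      exact (hg.mul (hw.pow_const 2)).aestronglyMeasurable
    · rw [integrable_indicator_iff measurableSet_closedBall]
      exact integrableOn_const (isCompact_closedBall 0 r).measure_lt_top.ne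
    · refine Eventually.of_forall fun x => ?_
      by_cases hx : x ∈ closedBall (0 : E d) r
      · rw [indicator_of_mem hx, norm_mul, Real.norm_eq_abs, Real.norm_eq_abs]
        have h1 : |‖∇ (u k) x‖ ^ 2 + pos (u k x)| ≤ (K : ℝ) ^ 2 + 1 := gE_bound (hlip k) x
        have h2 : |wk r x ^ 2| ≤ 1 := by
          rw [abs_pow, abs_of_nonneg (wk_nonneg r x)]
          exact pow_le_one₀ (wk_nonneg r x) (wk_le_one r x)
        calc _ ≤ ((K : ℝ) ^ 2 + 1) * 1 := mul_le_mul h1 h2 (abs_nonneg _) (by positivity)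
          _ = _ := mul_one _
      · rw [indicator_of_notMem hx, wk_supp hr x hx]; simp
    · filter_upwards [hae] with x hx
      obtain ⟨h1, h2⟩ := hptw x hx
      have h3 : Tendsto (fun k => pos (u k x)) atTop (𝓝 (pos (v x))) :=
        tendsto_const_nhds.congr' (by filter_upwards [h2] with k hk; exact hk.symm)
      exact (((h1.norm).pow 2).add h3).mul_const _
  have T2 : Tendsto (fun k => ∫ x, u k x ^ 2 * wk r x) atTop (𝓝 (∫ x, v x ^ 2 * wk r x)) := by
    obtain ⟨B, hB⟩ : ∃ B : ℝ, ∀ k, |u k 0| ≤ B := by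
      obtain ⟨B, hB⟩ := (h 0).abs.bddAbove_range
      exact ⟨B, fun k => hB ⟨k, rfl⟩⟩
    have hB0 : 0 ≤ B := (abs_nonneg _).trans (hB 0)
    refine tendsto_integral_of_dominated_convergence
      (fun x => (closedBall (0 : E d) r).indicator (fun _ => (B + K * r) ^ 2) x) (fun k => ?_) ?_ (fun k => ?_) ?_
    · exact (((hlip k).continuous.measurable.pow_const 2).mul hw).aestronglyMeasurable
    · rw [integrable_indicator_iff measurableSet_closedBall]
      exact integrableOn_const (isCompact_closedBall 0 r).measure_lt_top.ne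
    · refine Eventually.of_forall fun x => ?_
      by_cases hx : x ∈ closedBall (0 : E d) r
      · rw [indicator_of_mem hx, norm_mul, Real.norm_eq_abs, Real.norm_eq_abs]
        have h1 : |u k x| ≤ B + K * r := by
          have h3 := (hlip k).dist_le_mul x 0
          rw [Real.dist_eq, dist_zero_right] at h3
          rw [mem_closedBall_zero_iff] at hx
          have h4 : (K : ℝ) * ‖x‖ ≤ K * r := mul_le_mul_of_nonneg_left hx K.2
          have h5 := hB k
          have h6 : |u k x| ≤ |u k x - u k 0| + |u k 0| := by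
            have := abs_add_le (u k x - u k 0) (u k 0)
            rwa [sub_add_cancel] at this
          linarith
        have h1' : |u k x ^ 2| ≤ (B + K * r) ^ 2 := by
          rw [abs_pow]; exact pow_le_pow_left₀ (abs_nonneg _) h1 2
        have h2 : |wk r x| ≤ 1 := by
          rw [abs_of_nonneg (wk_nonneg r x)]; exact wk_le_one r x
        calc _ ≤ (B + K * r) ^ 2 * 1 := mul_le_mul h1' h2 (abs_nonneg _) (by positivity)
          _ = _ := mul_one _
      · rw [indicator_of_notMem hx, wk_supp hr x hx]; simp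
    · exact Eventually.of_forall fun x => ((h x).pow 2).mul_const _
  exact (T1.sub (T2.const_mul _)).div_const _

end Crest.Agent.R097.W2
end

-- ▼ part R097/Weiss2
section

/-! W2h: consequences of the Weiss formula: bounds, limits, homogeneity. -/
set_option autoImplicit false
open MeasureTheory Metric Set Filter Topology
open scoped NNReal RealInnerProductSpace Gradient ContDiff Laplacian

namespace Crest.Agent.R097
variable {d : ℕ}

theorem Ws_mono {K : ℝ≥0} {u : E d → ℝ} (hu : LM u K) : MonotoneOn (Ws u) (Ioi 0) := W2.Ws_mono' hu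

theorem Ws_bdd (d : ℕ) (K : ℝ≥0) : ∃ C : ℝ, ∀ u : E d → ℝ, LM u K → u 0 = 0 → ∀ r : ℝ, 0 < r → |Ws u r| ≤ C := W2.Ws_bdd' d K

theorem Ws_blow {K : ℝ≥0} {u : E d → ℝ} (hu : LM u K) {ρ r : ℝ} (hρ : 0 < ρ) (hr : 0 < r) :
    Ws (blow u 0 ρ) r = Ws u (ρ * r) := W2.Ws_blow' hu hρ hr

theorem Ws_lim (hd : 1 ≤ d) {K : ℝ≥0} {u : ℕ → E d → ℝ} {v : E d → ℝ} (hu : ∀ k, LM (u k) K)
    (h : ∀ x, Tendsto (fun k => u k x) atTop (𝓝 (v x))) {r : ℝ} (hr : 0 < r) :
    Tendsto (fun k => Ws (u k) r) atTop (𝓝 (Ws v r)) := W2.Ws_lim' hd hu h hr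

theorem hom_of_Ws {K : ℝ≥0} {u : E d → ℝ} (hu : LM u K) (h : ∀ r s : ℝ, 0 < r → 0 < s → Ws u r = Ws u s) :
    Hom1 u := W2.hom_of_Ws' hu h

end Crest.Agent.R097
end

-- ▼ part R097/Blow
section

/-! F1: scaling, blow-ups. -/
set_option autoImplicit false
open MeasureTheory Metric Set Filter Topology
open scoped NNReal RealInnerProductSpace Gradient ContDiff Laplacian

namespace Crest.Agent.R097
variable {d : ℕ}

/-- the gradient of a rescaled function -/
lemma grad_blow (u : E d → ℝ) (x0 : E d) {r : ℝ} (hr : r ≠ 0) (x : E d) :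
    ∇ (Crest.Agent.R097.blow u x0 r) x = ∇ u (x0 + r • x) := by
  have h1 : fderiv ℝ (Crest.Agent.R097.blow u x0 r) x = fderiv ℝ u (x0 + r • x) := by
    have h2 : Crest.Agent.R097.blow u x0 r = fun x => r⁻¹ • (fun y => (fun z => u (x0 + z)) (r • y)) x := by
      ext y; simp [Crest.Agent.R097.blow, div_eq_inv_mul]
    have h3 : fderiv ℝ (fun y => (fun z => u (x0 + z)) (r • y)) x = r • fderiv ℝ u (x0 + r • x) := by
      rw [fderiv_comp_smul (f := fun z => u (x0 + z)) r, fderiv_comp_add_left]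
    have h4 : fderiv ℝ (fun x => r⁻¹ • (fun y => (fun z => u (x0 + z)) (r • y)) x) x
        = r⁻¹ • fderiv ℝ (fun y => (fun z => u (x0 + z)) (r • y)) x :=
      congrFun (fderiv_const_smul_field (R := ℝ) (𝕜 := ℝ) (f := fun y => (fun z => u (x0 + z)) (r • y)) r⁻¹) x
    rw [h2, h4, h3, smul_smul, inv_mul_cancel₀ hr, one_smul]
  unfold gradient
  rw [h1]

lemma pos_div (t : ℝ) {r : ℝ} (hr : 0 < r) : pos (t / r) = pos t := by
  unfold pos
  have : 0 < t / r ↔ 0 < t := by
    constructor
    · intro h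
      have := mul_pos h hr
      rwa [div_mul_cancel₀ _ hr.ne'] at this
    · intro h; positivity
  simp [this]

lemma blow_lip {K : ℝ≥0} {u : E d → ℝ} (hu : LipschitzWith K u) (x0 : E d) {r : ℝ} (hr : 0 < r) :
    LipschitzWith K (Crest.Agent.R097.blow u x0 r) := by
  refine LipschitzWith.of_dist_le_mul fun x y => ?_
  have h1 := hu.dist_le_mul (x0 + r • x) (x0 + r • y)
  have h2 : dist (x0 + r • x) (x0 + r • y) = r * dist x y := by
    rw [dist_add_left, dist_smul₀, Real.norm_eq_abs, abs_of_pos hr]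
  rw [h2, Real.dist_eq] at h1
  rw [Real.dist_eq, Crest.Agent.R097.blow, Crest.Agent.R097.blow, ← sub_div, abs_div, abs_of_pos hr, div_le_iff₀ hr]
  linarith

/-- change of variables in the energy difference -/
lemma dJ_blow (w u : E d → ℝ) (x0 : E d) {r : ℝ} (hr : 0 < r) :
    dJ (Crest.Agent.R097.blow w x0 r) (Crest.Agent.R097.blow u x0 r) = (r ^ d)⁻¹ * dJ w u := by
  have h1 : ∀ x, eD (Crest.Agent.R097.blow w x0 r) (Crest.Agent.R097.blow u x0 r) x = eD w u (x0 + r • x) := by
    intro x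
    rw [eD, eD, grad_blow w x0 hr.ne', grad_blow u x0 hr.ne', Crest.Agent.R097.blow, Crest.Agent.R097.blow,
      pos_div _ hr, pos_div _ hr]
  rw [dJ, dJ]
  simp_rw [h1]
  have h2 := Measure.integral_comp_smul (volume : Measure (E d)) (fun z => eD w u (x0 + z)) r
  rw [h2]
  have h3 : ∫ x, eD w u (x0 + x) = ∫ x, eD w u x := integral_add_left_eq_self _ _
  rw [h3, finrank_euclideanSpace, Fintype.card_fin, smul_eq_mul, abs_of_nonneg (by positivity)]

theorem LM.blow {K : ℝ≥0} {u : E d → ℝ} (hu : LM u K) (x0 : E d) {r : ℝ} (hr : 0 < r) :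
    LM (blow u x0 r) K := by
  refine LM.of_dJ (fun x => div_nonneg (hu.nonneg _) hr.le) (blow_lip hu.lip x0 hr) fun w L hw hw0 hc => ?_
  -- the competitor at the original scale
  have hri : 0 < r⁻¹ := by positivity
  set W : E d → ℝ := Crest.Agent.R097.blow w (-(r⁻¹ • x0)) r⁻¹ with hW
  have h1 : ∀ y, W y = r * w (r⁻¹ • (y - x0)) := by
    intro y
    rw [hW, Crest.Agent.R097.blow, div_inv_eq_mul, mul_comm]
    congr 2
    rw [smul_sub]; abel
  have h2 : Crest.Agent.R097.blow W x0 r = w := by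
    ext y
    rw [Crest.Agent.R097.blow, h1, add_sub_cancel_left, smul_smul, inv_mul_cancel₀ hr.ne', one_smul,
      mul_div_cancel_left₀ _ hr.ne']
  have h3 : HasCompactSupport (fun y => W y - u y) := by
    have h4 : (fun y => W y - u y) = fun y => r * (fun x => w x - Crest.Agent.R097.blow u x0 r x) (r⁻¹ • (y - x0)) := by
      ext y
      simp only [h1, Crest.Agent.R097.blow]
      rw [smul_smul, mul_inv_cancel₀ hr.ne', one_smul, add_sub_cancel]
      field_simp
    rw [h4]
    refine HasCompactSupport.mul_left ?_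
    let e : E d ≃ₜ E d := (Homeomorph.addRight (-x0)).trans (Homeomorph.smulOfNeZero r⁻¹ hri.ne')
    have h5 := hc.comp_homeomorph e
    have h6 : (fun y => (fun x => w x - Crest.Agent.R097.blow u x0 r x) (r⁻¹ • (y - x0)))
        = (fun x => w x - Crest.Agent.R097.blow u x0 r x) ∘ e := by
      funext y
      simp [e, sub_eq_add_neg]
    rw [h6]; exact h5
  have h6 : 0 ≤ dJ W u := hu.dJ_nonneg (blow_lip hw _ hri) (fun y => by rw [h1]; exact mul_nonneg hr.le (hw0 _)) h3
  have h7 := dJ_blow W u x0 hr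
  rw [h2] at h7
  rw [h7]
  positivity

/-- invariance under linear isometries -/
theorem LM.isom {K : ℝ≥0} {u : E d → ℝ} (hu : LM u K) (L : E d ≃ₗᵢ[ℝ] E d) : LM (fun x => u (L x)) K := by
  have hl : LipschitzWith K (fun x => u (L x)) := by
    refine LipschitzWith.of_dist_le_mul fun x y => ?_
    have := hu.lip.dist_le_mul (L x) (L y)
    rwa [L.dist_map] at this
  have hg : ∀ (f : E d → ℝ) (x : E d), ‖∇ (fun x => f (L x)) x‖ = ‖∇ f (L x)‖ := by
    intro f x
    rw [norm_gradient, norm_gradient]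
    have h1 : fderiv ℝ (f ∘ L.toContinuousLinearEquiv) x =
        (fderiv ℝ f (L.toContinuousLinearEquiv x)).comp (L.toContinuousLinearEquiv : E d →L[ℝ] E d) :=
      ContinuousLinearEquiv.comp_right_fderiv _
    have h2 : (fun x => f (L x)) = f ∘ L.toContinuousLinearEquiv := rfl
    rw [h2, h1]
    exact ContinuousLinearMap.opNorm_comp_linearIsometryEquiv _ L
  refine LM.of_dJ (fun x => hu.nonneg _) hl fun w M hw hw0 hc => ?_
  set W : E d → ℝ := fun y => w (L.symm y) with hW
  have h2 : ∀ x, W (L x) = w x := fun x => by simp [hW]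
  have hWl : LipschitzWith M W := by
    refine LipschitzWith.of_dist_le_mul fun x y => ?_
    have := hw.dist_le_mul (L.symm x) (L.symm y)
    rwa [L.symm.dist_map] at this
  have h3 : HasCompactSupport (fun y => W y - u y) := by
    have h5 := hc.comp_homeomorph L.symm.toHomeomorph
    have h6 : (fun y => W y - u y) = (fun x => w x - u (L x)) ∘ L.symm.toHomeomorph := by
      funext y
      simp [hW]
    rw [h6]; exact h5
  have h4 : 0 ≤ dJ W u := hu.dJ_nonneg hWl (fun y => hw0 _) h3
  have h5 : dJ w (fun x => u (L x)) = dJ W u := by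
    rw [dJ, dJ]
    have h6 := L.measurePreserving.integral_comp L.toHomeomorph.measurableEmbedding (eD W u)
    rw [← h6]
    have h7 : (fun x => W (L x)) = w := funext h2
    refine integral_congr_ae (Eventually.of_forall fun x => ?_)
    simp only [eD]
    rw [hg u x, ← hg W x, h2, h7]
  rw [h5]; exact h4

/-- blow-up limits at a free boundary point are homogeneous -/
theorem blowup (hd : 1 ≤ d) {K : ℝ≥0} {u : E d → ℝ} (hu : LM u K) {x0 : E d} (hx : x0 ∈ frontier {x | 0 < u x})
    {r : ℕ → ℝ} (hr : ∀ k, 0 < r k) (hr0 : Tendsto r atTop (𝓝 0)) :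
    ∃ (φ : ℕ → ℕ) (v : E d → ℝ), StrictMono φ ∧ LM v K ∧ Hom1 v ∧ (∃ x, v x ≠ 0) ∧
      ∀ x, Tendsto (fun k => Crest.Agent.R097.blow u x0 (r (φ k)) x) atTop (𝓝 (v x)) := by
  have hop : IsOpen {x | 0 < u x} := isOpen_lt continuous_const hu.lip.continuous
  have hx0 : u x0 = 0 := by
    have h1 : x0 ∉ {x | 0 < u x} := by
      intro h
      have h2 : x0 ∈ interior {x | 0 < u x} := by rwa [hop.interior_eq]
      exact hx.2 h2
    exact le_antisymm (not_lt.1 h1) (hu.nonneg x0)
  have hcl : x0 ∈ closure {x | 0 < u x} := hx.1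
  have hB : ∀ k, LM (Crest.Agent.R097.blow u x0 (r k)) K := fun k => hu.blow x0 (hr k)
  have hz : ∀ k, Crest.Agent.R097.blow u x0 (r k) 0 = 0 := fun k => by
    simp [Crest.Agent.R097.blow, hx0]
  obtain ⟨φ, v, hφ, hvl, hv⟩ := arzela (M := 0) (fun k => (hB k).lip) (fun k => by rw [hz k]; simp)
  have hLM : LM v K := lim_LM hd (fun k => hB (φ k)) hv
  refine ⟨φ, v, hφ, hLM, ?_, ?_, hv⟩
  · -- homogeneity by the monotonicity formula
    set u' : E d → ℝ := Crest.Agent.R097.blow u x0 1 with hu'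
    have hu'L : LM u' K := hu.blow x0 one_pos
    have hu'0 : u' 0 = 0 := by simp [hu', Crest.Agent.R097.blow, hx0]
    obtain ⟨C, hC⟩ := Ws_bdd d K
    have hmono := Ws_mono hu'L
    obtain ⟨l, hl⟩ : ∃ l, Tendsto (Ws u') (𝓝[>] 0) (𝓝 l) := by
      refine ⟨sInf (Ws u' '' Ioi 0), MonotoneOn.tendsto_nhdsGT hmono ⟨-C, ?_⟩⟩
      rintro _ ⟨s, hs, rfl⟩
      exact (abs_le.1 (hC u' hu'L hu'0 s hs)).1
    have hbl : ∀ k s, 0 < s → Ws (Crest.Agent.R097.blow u x0 (r (φ k))) s = Ws u' (r (φ k) * s) := by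
      intro k s hs
      rw [← Ws_blow hu'L (hr (φ k)) hs]
      congr 1
      ext x
      simp [hu', Crest.Agent.R097.blow]
    have hrφ : Tendsto (fun k => r (φ k)) atTop (𝓝 0) := hr0.comp hφ.tendsto_atTop
    have hconst : ∀ s : ℝ, 0 < s → Ws v s = l := by
      intro s hs
      have h1 := Ws_lim hd (fun k => hB (φ k)) hv hs
      have h2 : Tendsto (fun k => Ws (Crest.Agent.R097.blow u x0 (r (φ k))) s) atTop (𝓝 l) := by
        have h3 : Tendsto (fun k => r (φ k) * s) atTop (𝓝[>] 0) := by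
          refine tendsto_nhdsWithin_iff.2 ⟨?_, Eventually.of_forall fun k => mul_pos (hr _) hs⟩
          simpa using hrφ.mul_const s
        refine (hl.comp h3).congr fun k => ?_
        rw [hbl k s hs]; rfl
      exact tendsto_nhds_unique h1 h2
    exact hom_of_Ws hLM fun s t hs ht => by rw [hconst s hs, hconst t ht]
  · by_contra hne
    push Not at hne
    obtain ⟨ε, hε, H⟩ := lim_nondeg (d := d) hd
    have h1 := H K _ v (fun k => hB (φ k)) hv 0 1 one_pos (fun x _ => by rw [hne x]; positivity)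
    obtain ⟨k, hk⟩ := h1.exists
    have h2 : ∀ y ∈ ball x0 (r (φ k) * (1 / 2)), u y = 0 := by
      intro y hy
      have hrk := hr (φ k)
      have h3 := hk ((r (φ k))⁻¹ • (y - x0)) (by
        rw [mem_ball, dist_zero_right, norm_smul, norm_inv, Real.norm_eq_abs, abs_of_pos hrk]
        rw [mem_ball, dist_eq_norm] at hy
        rw [inv_mul_lt_iff₀ hrk]
        exact hy)
      rw [Crest.Agent.R097.blow, smul_smul, mul_inv_cancel₀ hrk.ne', one_smul, add_sub_cancel] at h3
      have h4 := (div_eq_zero_iff.1 h3).resolve_right hrk.ne'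
      exact h4
    rw [Metric.mem_closure_iff] at hcl
    obtain ⟨y, hy, hxy⟩ := hcl (r (φ k) * (1 / 2)) (mul_pos (hr _) (by norm_num))
    have h5 := h2 y (by rw [mem_ball, dist_comm]; exact hxy)
    have h6 : 0 < u y := hy
    linarith

/-- blow-up limits of a one-homogeneous function at `x0 ≠ 0` are invariant in the direction `x0` -/
theorem blowup_inv {K : ℝ≥0} {u : E d → ℝ} (hu : LipschitzWith K u) (hh : Hom1 u) {x0 : E d} (hx : u x0 = 0)
    {r : ℕ → ℝ} (hr : ∀ k, 0 < r k) (hr0 : Tendsto r atTop (𝓝 0)) {v : E d → ℝ}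
    (h : ∀ x, Tendsto (fun k => Crest.Agent.R097.blow u x0 (r k) x) atTop (𝓝 (v x))) (x : E d) (t : ℝ) :
    v (x + t • x0) = v x := by
  have hK : (0 : ℝ) ≤ K := K.2
  have h1 : Tendsto (fun k => Crest.Agent.R097.blow u x0 (r k) (x + t • x0) - Crest.Agent.R097.blow u x0 (r k) x)
      atTop (𝓝 (v (x + t • x0) - v x)) := (h _).sub (h _)
  have h2 : Tendsto (fun k => Crest.Agent.R097.blow u x0 (r k) (x + t • x0) - Crest.Agent.R097.blow u x0 (r k) x)
      atTop (𝓝 0) := by
    refine squeeze_zero_norm' (a := fun k => (4 * K * ‖x‖ * |t|) * r k) ?_ (by simpa using hr0.const_mul (4 * K * ‖x‖ * |t|))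
    have h3 : ∀ᶠ k in atTop, |r k * t| < 1 / 2 := by
      have : Tendsto (fun k => |r k * t|) atTop (𝓝 0) := by
        have := (hr0.mul_const t).abs
        simpa using this
      exact this.eventually (gt_mem_nhds (by norm_num))
    filter_upwards [h3] with k hk
    have hrk := hr k
    set ρ := r k with hρ
    obtain ⟨ha, hb⟩ := abs_lt.1 hk
    have hs : 0 < 1 + ρ * t := by linarith
    set s := 1 + ρ * t with hsdef
    have e1 : x0 + ρ • (x + t • x0) = s • (x0 + (ρ / s) • x) := by
      rw [smul_add, smul_add, smul_smul, smul_smul, mul_div_cancel₀ _ hs.ne', hsdef, add_smul, one_smul]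
      abel
    have e2 : u (x0 + ρ • (x + t • x0)) = s * u (x0 + (ρ / s) • x) := by rw [e1, hh s hs]
    have hρs : 0 < ρ / s := div_pos hrk hs
    have b1 : |u (x0 + (ρ / s) • x)| ≤ K * (ρ / s * ‖x‖) := by
      have := hu.dist_le_mul (x0 + (ρ / s) • x) x0
      rw [Real.dist_eq, hx, sub_zero, dist_eq_norm, add_sub_cancel_left, norm_smul, Real.norm_eq_abs,
        abs_of_pos hρs] at this
      exact this
    have b2 : |u (x0 + (ρ / s) • x) - u (x0 + ρ • x)| ≤ K * (|ρ / s - ρ| * ‖x‖) := by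
      have := hu.dist_le_mul (x0 + (ρ / s) • x) (x0 + ρ • x)
      rw [Real.dist_eq, dist_add_left, dist_eq_norm, ← sub_smul, norm_smul, Real.norm_eq_abs] at this
      exact this
    have hs2 : 1 / s ≤ 2 := by
      rw [div_le_iff₀ hs]; linarith
    have b3 : ρ / s ≤ 2 * ρ := by
      rw [div_eq_mul_one_div]; nlinarith
    have b4 : |ρ / s - ρ| ≤ 2 * ρ * (ρ * |t|) := by
      have e3 : ρ / s - ρ = -(ρ / s * (ρ * t)) := by
        field_simp
        rw [hsdef]; ring
      rw [e3, abs_neg, abs_mul, abs_mul, abs_of_pos hrk, abs_of_pos (by positivity : 0 < ρ / s)]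
      exact mul_le_mul_of_nonneg_right b3 (by positivity)
    rw [Real.norm_eq_abs, Crest.Agent.R097.blow, Crest.Agent.R097.blow, e2, ← sub_div, abs_div, abs_of_pos hrk,
      div_le_iff₀ hrk]
    have e4 : s * u (x0 + (ρ / s) • x) - u (x0 + ρ • x)
        = (ρ * t) * u (x0 + (ρ / s) • x) + (u (x0 + (ρ / s) • x) - u (x0 + ρ • x)) := by
      rw [hsdef]; ring
    rw [e4]
    refine (abs_add_le _ _).trans ?_
    rw [abs_mul, abs_mul, abs_of_pos hrk]
    have b5 : ρ * |t| * |u (x0 + (ρ / s) • x)| ≤ ρ * |t| * (K * (2 * ρ * ‖x‖)) := by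
      refine mul_le_mul_of_nonneg_left (b1.trans ?_) (by positivity)
      exact mul_le_mul_of_nonneg_left (mul_le_mul_of_nonneg_right b3 (norm_nonneg _)) hK
    have b6 : |u (x0 + (ρ / s) • x) - u (x0 + ρ • x)| ≤ K * (2 * ρ * (ρ * |t|) * ‖x‖) :=
      b2.trans (mul_le_mul_of_nonneg_left (mul_le_mul_of_nonneg_right b4 (norm_nonneg _)) hK)
    nlinarith
  have h4 := tendsto_nhds_unique h1 h2
  linarith

end Crest.Agent.R097
end

-- ▼ part R097/DimRed

/-! F2: dimension reduction. -/
set_option autoImplicit false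
open MeasureTheory Metric Set Filter Topology
open scoped NNReal RealInnerProductSpace Gradient ContDiff Laplacian

namespace Crest.Agent.R097
variable {d : ℕ}

/-- the projection forgetting the last coordinate -/
noncomputable def prj (x : E (d + 1)) : E d := WithLp.toLp 2 (fun i => x i.castSucc)

namespace DR

@[simp] lemma prj_apply (x : E (d + 1)) (i : Fin d) : prj x i = x i.castSucc := rfl

/-- inclusion `y ↦ (y, s)` -/
noncomputable def inc (y : E d) (s : ℝ) : E (d + 1) := WithLp.toLp 2 (Fin.snoc (α := fun _ => ℝ) (fun i => y i) s)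

@[simp] lemma inc_last (y : E d) (s : ℝ) : inc y s (Fin.last d) = s := by simp [inc]

@[simp] lemma inc_cast (y : E d) (s : ℝ) (i : Fin d) : inc y s i.castSucc = y i := by simp [inc]

@[simp] lemma prj_inc (y : E d) (s : ℝ) : prj (inc y s) = y := by ext i; simp

lemma inc_prj (x : E (d + 1)) : inc (prj x) (x (Fin.last d)) = x := by
  ext i
  refine Fin.lastCases ?_ (fun j => ?_) i <;> simp

/-- the projection as a continuous linear map -/
noncomputable def prjL : E (d + 1) →L[ℝ] E d :=
  LinearMap.toContinuousLinearMap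
    { toFun := prj
      map_add' := fun x y => by ext i; simp
      map_smul' := fun c x => by ext i; simp }

@[simp] lemma prjL_apply (x : E (d + 1)) : prjL x = prj x := rfl

/-- the inclusion as a continuous linear map -/
noncomputable def incL : E d →L[ℝ] E (d + 1) :=
  LinearMap.toContinuousLinearMap
    { toFun := fun y => inc y 0
      map_add' := fun x y => by
        ext i
        refine Fin.lastCases ?_ (fun j => ?_) i <;> simp
      map_smul' := fun c x => by
        ext i
        refine Fin.lastCases ?_ (fun j => ?_) i <;> simp }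

@[simp] lemma incL_apply (y : E d) : incL y = inc y 0 := rfl

lemma norm_sq (x : E (d + 1)) : ‖x‖ ^ 2 = ‖prj x‖ ^ 2 + (x (Fin.last d)) ^ 2 := by
  rw [EuclideanSpace.norm_sq_eq, EuclideanSpace.norm_sq_eq, Fin.sum_univ_castSucc]
  simp

lemma norm_prj_le (x : E (d + 1)) : ‖prj x‖ ≤ ‖x‖ := by
  have := norm_sq x
  nlinarith [norm_nonneg x, norm_nonneg (prj x), sq_nonneg (x (Fin.last d)), sq_abs (x (Fin.last d)),
    abs_nonneg (‖x‖ - ‖prj x‖)]

lemma abs_last_le (x : E (d + 1)) : |x (Fin.last d)| ≤ ‖x‖ := by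
  have := norm_sq x
  apply abs_le_of_sq_le_sq _ (norm_nonneg _)
  nlinarith [sq_nonneg ‖prj x‖]

lemma norm_inc_zero (y : E d) : ‖inc y 0‖ = ‖y‖ := by
  have := norm_sq (inc y 0)
  simp only [prj_inc, inc_last, ne_eq, OfNat.ofNat_ne_zero, not_false_eq_true, zero_pow, add_zero] at this
  exact (sq_eq_sq₀ (norm_nonneg _) (norm_nonneg _)).1 this

lemma inner_inc (x : E (d + 1)) (y : E d) : inner ℝ x (inc y 0) = inner ℝ (prj x) y := by
  simp only [PiLp.inner_apply, Fin.sum_univ_castSucc]
  simp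

lemma lip_prj : LipschitzWith 1 (prj : E (d + 1) → E d) := by
  apply LipschitzWith.of_dist_le_mul
  intro x y
  have : prj x - prj y = prj (x - y) := by ext i; simp
  rw [dist_eq_norm, dist_eq_norm, this]
  simpa using norm_prj_le (x - y)

lemma lip_last : LipschitzWith 1 (fun x : E (d + 1) => x (Fin.last d)) := by
  apply LipschitzWith.of_dist_le_mul
  intro x y
  rw [Real.dist_eq, dist_eq_norm]
  simpa using abs_last_le (x - y)

lemma lip_inc : LipschitzWith 1 (fun y : E d => inc y 0) := by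
  apply LipschitzWith.of_dist_le_mul
  intro x y
  have : inc x 0 - inc y 0 = inc (x - y) 0 := by
    ext i
    refine Fin.lastCases ?_ (fun j => ?_) i <;> simp
  rw [dist_eq_norm, dist_eq_norm, this, norm_inc_zero]
  simp

lemma norm_grad_prj (f : E d → ℝ) (x : E (d + 1)) : ‖∇ (fun x => f (prj x)) x‖ = ‖∇ f (prj x)‖ := by
  rw [norm_gradient, norm_gradient]
  have hP : ‖(prjL : E (d + 1) →L[ℝ] E d)‖ ≤ 1 :=
    ContinuousLinearMap.opNorm_le_bound _ zero_le_one fun x => by simpa using norm_prj_le x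
  have hI : ‖(incL : E d →L[ℝ] E (d + 1))‖ ≤ 1 :=
    ContinuousLinearMap.opNorm_le_bound _ zero_le_one fun x => by simp [norm_inc_zero]
  by_cases hf : DifferentiableAt ℝ f (prj x)
  · have h1 : fderiv ℝ (fun x => f (prj x)) x = (fderiv ℝ f (prj x)).comp prjL := by
      have : HasFDerivAt (fun x => f (prj x)) ((fderiv ℝ f (prj x)).comp prjL) x :=
        (hf.hasFDerivAt).comp x (prjL : E (d + 1) →L[ℝ] E d).hasFDerivAt
      exact this.fderiv
    rw [h1]
    apply le_antisymm
    · refine (ContinuousLinearMap.opNorm_comp_le _ _).trans ?_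
      exact mul_le_of_le_one_right (norm_nonneg _) hP
    · have h2 : fderiv ℝ f (prj x) = ((fderiv ℝ f (prj x)).comp prjL).comp incL := by
        ext y; simp
      calc ‖fderiv ℝ f (prj x)‖ = ‖((fderiv ℝ f (prj x)).comp prjL).comp incL‖ := by rw [← h2]
        _ ≤ _ := ContinuousLinearMap.opNorm_comp_le _ _
        _ ≤ _ := mul_le_of_le_one_right (norm_nonneg _) hI
  · have h1 : ¬ DifferentiableAt ℝ (fun x => f (prj x)) x := by
      intro h
      apply hf
      have h3 : f = (fun x => f (prj x)) ∘ fun y => x + incL (y - prj x) := by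
        funext y
        have : prj (x + incL (y - prj x)) = y := by
          ext i; simp
        simp only [Function.comp, this]
      rw [h3]
      have h4 : DifferentiableAt ℝ (fun y => x + (incL : E d →L[ℝ] E (d + 1)) (y - prj x)) (prj x) := by
        fun_prop
      apply DifferentiableAt.comp _ _ h4
      have h5 : x + (incL : E d →L[ℝ] E (d + 1)) (prj x - prj x) = x := by
        rw [sub_self, map_zero, add_zero]
      rw [h5]; exact h
    rw [fderiv_zero_of_not_differentiableAt hf, fderiv_zero_of_not_differentiableAt h1]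
    simp

/-- the splitting of the volume -/
noncomputable def spl : E (d + 1) ≃ᵐ ℝ × E d :=
  (MeasurableEquiv.toLp 2 (Fin (d + 1) → ℝ)).symm.trans
    ((MeasurableEquiv.piFinSuccAbove (fun _ => ℝ) (Fin.last d)).trans
      (MeasurableEquiv.prodCongr (MeasurableEquiv.refl ℝ) (MeasurableEquiv.toLp 2 (Fin d → ℝ))))

lemma spl_apply (x : E (d + 1)) : spl x = (x (Fin.last d), prj x) := by
  simp only [spl, MeasurableEquiv.trans_apply]
  refine Prod.ext rfl ?_
  ext i
  simp [MeasurableEquiv.prodCongr, MeasurableEquiv.piFinSuccAbove, Fin.init]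

lemma mp_spl : MeasurePreserving (spl : E (d + 1) → ℝ × E d) volume volume := by
  have h1 := EuclideanSpace.volume_preserving_symm_measurableEquiv_toLp (Fin (d + 1))
  have h2 := volume_preserving_piFinSuccAbove (fun _ : Fin (d + 1) => ℝ) (Fin.last d)
  have h3 := (MeasurePreserving.id (volume : Measure ℝ)).prod
    (EuclideanSpace.volume_preserving_symm_measurableEquiv_toLp (Fin d)).symm
  exact h3.comp (h2.comp h1)


/-- cut-off in the last variable -/
noncomputable def ct (M s : ℝ) : ℝ := max 0 (min 1 (M + 1 - |s|))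

lemma ct_nonneg (M s : ℝ) : 0 ≤ ct M s := le_max_left _ _
lemma ct_le (M s : ℝ) : ct M s ≤ 1 := max_le zero_le_one (min_le_left _ _)
lemma ct_one {M s : ℝ} (h : |s| ≤ M) : ct M s = 1 := by
  unfold ct; rw [min_eq_left (by linarith), max_eq_right zero_le_one]
lemma ct_zero {M s : ℝ} (h : M + 1 ≤ |s|) : ct M s = 0 := by
  unfold ct; rw [max_eq_left]; exact (min_le_right _ _).trans (by linarith)
lemma ct_lip (M s t : ℝ) : |ct M s - ct M t| ≤ |s - t| := by
  unfold ct
  calc |max 0 (min 1 (M + 1 - |s|)) - max 0 (min 1 (M + 1 - |t|))|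
      ≤ |min 1 (M + 1 - |s|) - min 1 (M + 1 - |t|)| := by
        rw [max_comm 0, max_comm 0]
        exact abs_max_sub_max_le_abs _ _ _
    _ ≤ |(M + 1 - |s|) - (M + 1 - |t|)| := by
        rw [min_comm 1, min_comm 1]
        refine (abs_min_sub_min_le_max _ _ _ _).trans ?_
        simp
    _ = |(|s| - |t|)| := by rw [← abs_neg]; congr 1; ring
    _ ≤ |s - t| := abs_abs_sub_abs_le_abs_sub s t

/-- the competitor -/
noncomputable def cmpW (w w' : E d → ℝ) (M : ℝ) (x : E (d + 1)) : ℝ :=
  w (prj x) + ct M (x (Fin.last d)) * (w' (prj x) - w (prj x))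

lemma cmp_lip {w w' : E d → ℝ} {K L B : ℝ≥0} (hw : LipschitzWith K w) (hw' : LipschitzWith L w')
    (hB : ∀ y, |w' y - w y| ≤ B) (M : ℝ) : LipschitzWith (K + (B + (L + K))) (cmpW w w' M) := by
  apply LipschitzWith.of_dist_le_mul
  intro x y
  have h1 : |w (prj x) - w (prj y)| ≤ K * dist x y := by
    have := hw.dist_le_mul (prj x) (prj y)
    rw [Real.dist_eq] at this
    refine this.trans (mul_le_mul_of_nonneg_left ?_ K.2)
    simpa using lip_prj.dist_le_mul x y
  have h2 : |w' (prj x) - w' (prj y)| ≤ L * dist x y := by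
    have := hw'.dist_le_mul (prj x) (prj y)
    rw [Real.dist_eq] at this
    refine this.trans (mul_le_mul_of_nonneg_left ?_ L.2)
    simpa using lip_prj.dist_le_mul x y
  have h3 : |ct M (x (Fin.last d)) - ct M (y (Fin.last d))| ≤ dist x y := by
    refine (ct_lip M _ _).trans ?_
    have := lip_last.dist_le_mul x y
    rw [Real.dist_eq] at this
    simpa using this
  rw [Real.dist_eq]
  unfold cmpW
  set a := ct M (x (Fin.last d))
  set b := ct M (y (Fin.last d))
  have hb0 : 0 ≤ b := ct_nonneg _ _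
  have hb1 : b ≤ 1 := ct_le _ _
  have e : w (prj x) + a * (w' (prj x) - w (prj x)) - (w (prj y) + b * (w' (prj y) - w (prj y)))
      = (w (prj x) - w (prj y)) + (a - b) * (w' (prj x) - w (prj x))
        + b * ((w' (prj x) - w' (prj y)) - (w (prj x) - w (prj y))) := by ring
  rw [e]
  calc _ ≤ |w (prj x) - w (prj y)| + |a - b| * |w' (prj x) - w (prj x)|
        + |b| * |(w' (prj x) - w' (prj y)) - (w (prj x) - w (prj y))| := by
        refine (abs_add_le _ _).trans ?_
        rw [abs_mul]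
        gcongr
        refine (abs_add_le _ _).trans ?_
        rw [abs_mul]
    _ ≤ K * dist x y + dist x y * B + 1 * (L * dist x y + K * dist x y) := by
        gcongr
        · exact hB _
        · rw [abs_of_nonneg hb0]; exact hb1
        · exact (abs_sub _ _).trans (by gcongr)
    _ = _ := by push_cast; ring

lemma cmp_sub (w w' : E d → ℝ) (M : ℝ) (x : E (d + 1)) :
    cmpW w w' M x - w (prj x) = ct M (x (Fin.last d)) * (w' (prj x) - w (prj x)) := by
  unfold cmpW; ring

lemma cmp_tsupport (w w' : E d → ℝ) (M : ℝ) :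
    tsupport (fun x => cmpW w w' M x - w (prj x)) ⊆
      {x : E (d + 1) | |x (Fin.last d)| ≤ M + 1 ∧ prj x ∈ tsupport (fun y => w' y - w y)} := by
  apply closure_minimal
  · intro x hx
    rw [Function.mem_support, cmp_sub] at hx
    constructor
    · by_contra h
      exact hx (by rw [ct_zero (le_of_lt (not_le.1 h)), zero_mul])
    · apply subset_tsupport
      rw [Function.mem_support]
      exact right_ne_zero_of_mul hx
  · apply IsClosed.inter
    · exact isClosed_le (lip_last.continuous.abs) continuous_const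
    · exact (isClosed_tsupport _).preimage lip_prj.continuous

lemma cmp_compact {w w' : E d → ℝ} (M : ℝ) (hM : 0 ≤ M) (hc : HasCompactSupport (fun y => w' y - w y)) :
    HasCompactSupport (fun x => cmpW w w' M x - w (prj x)) := by
  obtain ⟨R, hR⟩ := hc.isCompact.isBounded.subset_closedBall 0
  apply HasCompactSupport.of_support_subset_isCompact (isCompact_closedBall (0 : E (d + 1)) (|R| + (M + 1)))
  refine (subset_tsupport _).trans ((cmp_tsupport w w' M).trans ?_)
  rintro x ⟨h1, h2⟩
  have h3 := hR h2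
  rw [mem_closedBall_zero_iff] at h3 ⊢
  have h4 := norm_sq x
  have h5 : ‖prj x‖ ≤ |R| := h3.trans (le_abs_self R)
  apply le_of_sq_le_sq _ (by positivity)
  rw [h4, ← sq_abs (x (Fin.last d))]
  nlinarith [norm_nonneg (prj x), abs_nonneg (x (Fin.last d)), abs_nonneg R,
    mul_nonneg (abs_nonneg R) (by linarith : (0 : ℝ) ≤ M + 1)]

end DR

open DR in
/-- a minimiser on `E (d+1)` that does not depend on the last coordinate is a minimiser on `E d` -/
theorem LM_slice {K : ℝ≥0} {w : E d → ℝ} (hw : LipschitzWith K w) (h : LM (fun x : E (d + 1) => w (prj x)) K) :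
    LM w K := by
  apply LM.of_dJ (fun y => by simpa using h.nonneg (inc y 0)) hw
  intro w' L hw' h0' hc
  by_contra hneg
  push Not at hneg
  set c := - dJ w' w with hcdef
  have hc0 : 0 < c := by rw [hcdef]; linarith
  -- bound for `w' - w`
  obtain ⟨B, hB⟩ : ∃ B : ℝ≥0, ∀ y, |w' y - w y| ≤ B := by
    have hcont : Continuous (fun y => w' y - w y) := hw'.continuous.sub hw.continuous
    obtain ⟨C, hC⟩ := hcont.bounded_above_of_compact_support hc
    refine ⟨⟨max C 0, le_max_right _ _⟩, fun y => ?_⟩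
    exact (hC y).trans (le_max_left _ _)
  set LW : ℝ≥0 := K + (B + (L + K)) with hLW
  set T := tsupport (fun y => w' y - w y) with hT
  have hTc : IsCompact T := hc
  set V := (volume T).toReal with hV
  have hVfin : volume T < ⊤ := hTc.measure_lt_top
  set C1 : ℝ := (LW : ℝ) ^ 2 + (K : ℝ) ^ 2 + 1 with hC1
  have hC1p : 0 ≤ C1 := by positivity
  set C2 : ℝ := C1 * V with hC2
  have hC2p : 0 ≤ C2 := by positivity
  set M : ℝ := (C2 + 1) / c with hM
  have hMp : 0 < M := by positivity
  set W := cmpW w w' M with hW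
  have hWl : LipschitzWith LW W := cmp_lip hw hw' hB M
  have hW0 : ∀ x, 0 ≤ W x := by
    intro x
    have h1 := ct_nonneg M (x (Fin.last d))
    have h2 := ct_le M (x (Fin.last d))
    have h3 := h0' (prj x)
    have h4 : 0 ≤ w (prj x) := h.nonneg x
    have : W x = (1 - ct M (x (Fin.last d))) * w (prj x) + ct M (x (Fin.last d)) * w' (prj x) := by
      rw [hW]; unfold cmpW; ring
    rw [this]
    have := mul_nonneg (sub_nonneg.2 h2) h4
    have := mul_nonneg h1 h3
    linarith
  have hWc : HasCompactSupport (fun x => W x - w (prj x)) := cmp_compact M hMp.le hc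
  have hmain := h.dJ_nonneg hWl hW0 hWc
  -- integrability
  have hint : Integrable (eD W (fun x : E (d + 1) => w (prj x))) := eD_integrable hWl h.lip hWc
  set G := eD W (fun x : E (d + 1) => w (prj x)) with hG
  set g : ℝ × E d → ℝ := fun p => G (inc p.2 p.1) with hg
  have hgs : ∀ x : E (d + 1), g (spl x) = G x := by
    intro x
    rw [spl_apply, hg]
    simp only [inc_prj]
  have hgint : Integrable g (volume : Measure (ℝ × E d)) := by
    rw [← mp_spl.integrable_comp_emb (spl : E (d + 1) ≃ᵐ ℝ × E d).measurableEmbedding]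
    refine hint.congr (Filter.Eventually.of_forall fun x => ?_)
    simp only [Function.comp, hgs]
  have hdJ : dJ W (fun x : E (d + 1) => w (prj x)) = ∫ s : ℝ, ∫ y : E d, g (s, y) := by
    unfold dJ
    rw [← hG]
    calc ∫ x, G x = ∫ x, g (spl x) := by simp only [hgs]
      _ = ∫ p, g p := mp_spl.integral_comp' (f := spl) g
      _ = _ := by rw [Measure.volume_eq_prod] at hgint ⊢; exact integral_prod g hgint
  -- pointwise bounds
  have hb : ∀ x, |G x| ≤ C1 := by
    intro x
    rw [hG]; unfold eD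
    have h1 := norm_grad_le hWl x
    have h2 := norm_grad_le h.lip x
    have h3 := pos_nonneg (W x)
    have h4 := pos_le_one (W x)
    have h5 := pos_nonneg (w (prj x))
    have h6 := pos_le_one (w (prj x))
    have h7 : ‖∇ W x‖ ^ 2 ≤ (LW : ℝ) ^ 2 := pow_le_pow_left₀ (norm_nonneg _) h1 2
    have h8 : ‖∇ (fun x : E (d + 1) => w (prj x)) x‖ ^ 2 ≤ (K : ℝ) ^ 2 := pow_le_pow_left₀ (norm_nonneg _) h2 2
    have h9 := sq_nonneg ‖∇ W x‖
    have h10 := sq_nonneg ‖∇ (fun x : E (d + 1) => w (prj x)) x‖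
    rw [abs_le]
    constructor <;> simp only [hC1] <;> linarith [sq_nonneg (K : ℝ), sq_nonneg (LW : ℝ)]
  have hz : ∀ s y, (M + 1 < |s| ∨ y ∉ T) → g (s, y) = 0 := by
    intro s y hsy
    rw [hg]; simp only; rw [hG]
    apply eD_zero
    intro hx
    have := cmp_tsupport w w' M hx
    simp only [Set.mem_ofPred_eq, inc_last, prj_inc] at this
    rcases hsy with h1 | h1
    · linarith [this.1]
    · exact h1 this.2
  have hin : ∀ s y, |s| < M → g (s, y) = eD w' w y := by
    intro s y hs
    rw [hg]; simp only; rw [hG]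
    have hop : IsOpen {x : E (d + 1) | |x (Fin.last d)| < M} :=
      isOpen_lt (lip_last.continuous.abs) continuous_const
    have hmem : inc y s ∈ {x : E (d + 1) | |x (Fin.last d)| < M} := by
      simpa using hs
    have hev : W =ᶠ[𝓝 (inc y s)] fun x => w' (prj x) := by
      filter_upwards [hop.mem_nhds hmem] with x hx
      rw [hW]; unfold cmpW
      rw [ct_one (le_of_lt hx)]; ring
    have hgr : ∇ W (inc y s) = ∇ (fun x : E (d + 1) => w' (prj x)) (inc y s) := by
      unfold gradient; rw [hev.fderiv_eq]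
    unfold eD
    rw [hgr, norm_grad_prj, norm_grad_prj, hev.eq_of_nhds]
    simp only [prj_inc]
  -- the slices
  set H : ℝ → ℝ := fun s => ∫ y : E d, g (s, y) with hH
  have hHint : Integrable H := by
    rw [Measure.volume_eq_prod] at hgint
    exact hgint.integral_prod_left
  have hH1 : ∀ s, |s| < M → H s = -c := by
    intro s hs
    rw [hH]; simp only
    rw [hcdef, neg_neg]
    unfold dJ
    exact integral_congr_ae (Filter.Eventually.of_forall fun y => hin s y hs)
  have hH2 : ∀ s, M + 1 < |s| → H s = 0 := by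
    intro s hs
    rw [hH]; simp only
    rw [← integral_zero (E d) ℝ]
    exact integral_congr_ae (Filter.Eventually.of_forall fun y => hz s y (Or.inl hs))
  have hH3 : ∀ s, H s ≤ C2 := by
    intro s
    rw [hH]; simp only
    have h1 : ∫ y : E d, g (s, y) = ∫ y in T, g (s, y) := by
      rw [setIntegral_eq_integral_of_forall_compl_eq_zero]
      intro y hy; exact hz s y (Or.inr hy)
    rw [h1]
    refine (le_abs_self _).trans ?_
    rw [← Real.norm_eq_abs]
    have := norm_setIntegral_le_of_norm_le_const (μ := volume) (s := T) (f := fun y => g (s, y)) (C := C1) hVfin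
      (fun y _ => by rw [Real.norm_eq_abs]; exact hb _)
    exact this
  set hf : ℝ → ℝ := fun s => (Icc (-(M + 1)) (M + 1)).indicator (fun _ => C2) s
    + (Ioo (-M) M).indicator (fun _ => -c - C2) s with hhf
  have hle : ∀ s, H s ≤ hf s := by
    intro s
    rw [hhf]; simp only
    by_cases h1 : |s| < M
    · rw [hH1 s h1, indicator_of_mem, indicator_of_mem]
      · linarith
      · rw [mem_Ioo]; exact abs_lt.1 h1
      · rw [mem_Icc]; exact abs_le.1 (by linarith)
    · have h2 : s ∉ Ioo (-M) M := by rw [mem_Ioo]; intro h3; exact h1 (abs_lt.2 h3)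
      rw [indicator_of_notMem h2, add_zero]
      by_cases h3 : |s| ≤ M + 1
      · rw [indicator_of_mem (by rw [mem_Icc]; exact abs_le.1 h3)]
        exact hH3 s
      · rw [hH2 s (not_le.1 h3)]
        exact indicator_nonneg (fun _ _ => hC2p) s
  have hi1 : Integrable (fun s => (Icc (-(M + 1)) (M + 1)).indicator (fun _ => C2) s) := by
    apply IntegrableOn.integrable_indicator _ measurableSet_Icc
    exact integrableOn_const (by simp)
  have hi2 : Integrable (fun s => (Ioo (-M) M).indicator (fun _ => -c - C2) s) := by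
    apply IntegrableOn.integrable_indicator _ measurableSet_Ioo
    exact integrableOn_const (by simp)
  have hhfi : ∫ s, hf s = C2 * (2 * (M + 1)) + (-c - C2) * (2 * M) := by
    rw [hhf, integral_add hi1 hi2, integral_indicator measurableSet_Icc, integral_indicator measurableSet_Ioo,
      setIntegral_const, setIntegral_const]
    simp only [Measure.real, Real.volume_Icc, Real.volume_Ioo, smul_eq_mul]
    rw [ENNReal.toReal_ofReal (by linarith), ENNReal.toReal_ofReal (by linarith)]
    ring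
  have hfin : dJ W (fun x : E (d + 1) => w (prj x)) ≤ C2 * (2 * (M + 1)) + (-c - C2) * (2 * M) := by
    rw [hdJ, ← hhfi]
    exact integral_mono hHint (hi1.add hi2) hle
  have hcM : c * M = C2 + 1 := by rw [hM]; field_simp
  nlinarith

namespace DR

/-- a linear isometry taking the last basis vector to a given unit vector -/
lemma exists_isom {e : E (d + 1)} (he : ‖e‖ = 1) :
    ∃ L : E (d + 1) ≃ₗᵢ[ℝ] E (d + 1), L (inc 0 1) = e := by
  have h : ‖(inc (0 : E d) 1 : E (d + 1))‖ = ‖e‖ := by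
    rw [he]
    have := norm_sq (inc (0 : E d) 1)
    simp only [prj_inc, norm_zero, inc_last] at this
    norm_num at this
    rcases this with h | h
    · exact h
    · linarith [norm_nonneg (inc (0 : E d) 1 : E (d + 1))]
  exact ⟨Submodule.reflection _, Submodule.reflection_sub h⟩

end DR

open DR in
theorem Cls_cyl (hc : Cls d) {K : ℝ≥0} {u : E (d + 1) → ℝ} (hu : LM u K) (hh : Hom1 u) (hne : ∃ x, u x ≠ 0)
    {x0 : E (d + 1)} (hx : x0 ≠ 0) (hi : ∀ x (t : ℝ), u (x + t • x0) = u x) :
    ∃ e : E (d + 1), ‖e‖ = 1 ∧ ∀ x, u x = hp e x := by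
  have hx' : ‖x0‖ ≠ 0 := norm_ne_zero_iff.2 hx
  obtain ⟨L, hL⟩ := exists_isom (d := d) (e := (‖x0‖)⁻¹ • x0) (by
    rw [norm_smul, norm_inv, norm_norm, inv_mul_cancel₀ hx'])
  have hv := hu.isom L
  set w : E d → ℝ := fun y => u (L (inc y 0)) with hw
  have hvw : (fun x : E (d + 1) => u (L x)) = fun x => w (prj x) := by
    funext x
    rw [hw]; simp only
    have h1 : x = inc (prj x) 0 + (x (Fin.last d)) • inc 0 1 := by
      ext i
      refine Fin.lastCases ?_ (fun j => ?_) i <;> simp
    have h2 : L x = L (inc (prj x) 0) + (x (Fin.last d) * (‖x0‖)⁻¹) • x0 := by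
      conv_lhs => rw [h1]
      rw [map_add, map_smul, hL, smul_smul]
    rw [h2, hi]
  rw [hvw] at hv
  have hwl : LipschitzWith K w := by
    have := (hu.lip.comp L.lipschitz).comp lip_inc
    rw [mul_one, mul_one] at this
    exact this
  have hwLM : LM w K := LM_slice hwl hv
  have hwh : Hom1 w := by
    intro r hr x
    rw [hw]; simp only
    have : inc (r • x) 0 = r • inc x 0 := by
      ext i
      refine Fin.lastCases ?_ (fun j => ?_) i <;> simp
    rw [this, map_smul, hh r hr]
  have hwne : ∃ y, w y ≠ 0 := by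
    obtain ⟨x, hx⟩ := hne
    refine ⟨prj (L.symm x), ?_⟩
    have := congrFun hvw (L.symm x)
    simp only [LinearIsometryEquiv.apply_symm_apply] at this
    rw [← this]; exact hx
  obtain ⟨e, he, hwe⟩ := hc K w hwLM hwh hwne
  refine ⟨L (inc e 0), ?_, fun x => ?_⟩
  · rw [L.norm_map, norm_inc_zero, he]
  · have h1 := congrFun hvw (L.symm x)
    simp only [LinearIsometryEquiv.apply_symm_apply] at h1
    rw [h1, hwe]
    unfold hp
    rw [← inner_inc, ← L.inner_map_map, LinearIsometryEquiv.apply_symm_apply]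

/-- flatness at the free boundary points of a cone, away from the vertex -/
theorem cone_flat (hd : 1 ≤ d) (hc : Cls d) {K : ℝ≥0} {u : E (d + 1) → ℝ} (hu : LM u K) (hh : Hom1 u)
    {x0 : E (d + 1)} (hx : x0 ∈ frontier {x | 0 < u x}) (hx0 : x0 ≠ 0) {ε : ℝ} (hε : 0 < ε) :
    ∃ (r : ℝ) (e : E (d + 1)), 0 < r ∧ r < ε ∧ ‖e‖ = 1 ∧ ∀ x ∈ ball x0 r,
      max (inner ℝ (x - x0) e - ε * r) 0 ≤ u x ∧ u x ≤ max (inner ℝ (x - x0) e + ε * r) 0 := by
  have hu0 : u x0 = 0 := by
    have hop : IsOpen {x | 0 < u x} := isOpen_lt continuous_const hu.lip.continuous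
    rw [hop.frontier_eq] at hx
    exact le_antisymm (not_lt.1 hx.2) (hu.nonneg x0)
  set r : ℕ → ℝ := fun k => ε / (k + 2) with hr
  have hr0 : ∀ k, 0 < r k := fun k => by rw [hr]; positivity
  have hrε : ∀ k, r k < ε := fun k => by
    rw [hr]; simp only
    rw [div_lt_iff₀ (by positivity)]
    nlinarith [(Nat.cast_nonneg k : (0 : ℝ) ≤ k)]
  have hrlim : Tendsto r atTop (𝓝 0) := by
    rw [hr]
    exact tendsto_const_nhds.div_atTop (tendsto_atTop_add_const_right _ _ tendsto_natCast_atTop_atTop)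
  obtain ⟨φ, v, hφ, hv, hvh, hvne, hlim⟩ := blowup (by omega) hu hx hr0 hrlim
  have hinv := blowup_inv hu.lip hh hu0 (fun k => hr0 (φ k)) (hrlim.comp hφ.tendsto_atTop) hlim
  obtain ⟨e, he, hve⟩ := Cls_cyl hc hv hvh hvne hx0 hinv
  obtain ⟨ε0, hε0, hnd⟩ := nondeg (d + 1) (by omega)
  -- radius and tolerance
  set ρ : ℝ := min (ε / 2) 1 with hρ
  have hρ0 : 0 < ρ := lt_min (by linarith) one_pos
  have hρ1 : ρ ≤ 1 := min_le_right _ _
  have hρ2 : ρ ≤ ε / 2 := min_le_left _ _
  set δ : ℝ := min (ε / 2) (ε0 * ρ) with hδ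
  have hδ0 : 0 < δ := lt_min (by linarith) (by positivity)
  have hδ1 : δ ≤ ε / 2 := min_le_left _ _
  have hδ2 : δ ≤ ε0 * ρ := min_le_right _ _
  have hbl : ∀ k, LM (Crest.Agent.R097.blow u x0 (r (φ k))) K := fun k => hu.blow x0 (hr0 _)
  have hunif := unif_of_ptw (fun k => (hbl k).lip) hlim 2
  rw [Metric.tendstoUniformlyOn_iff] at hunif
  obtain ⟨k, hk⟩ := (hunif δ hδ0).exists
  refine ⟨r (φ k), e, hr0 _, hrε _, he, ?_⟩
  intro x hxb
  set R := r (φ k) with hR
  have hRp : 0 < R := hr0 _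
  set y : E (d + 1) := R⁻¹ • (x - x0) with hy
  have hyx : x = x0 + R • y := by
    rw [hy, smul_smul, mul_inv_cancel₀ hRp.ne', one_smul]; abel
  have hyn : ‖y‖ < 1 := by
    rw [hy, norm_smul, norm_inv, Real.norm_of_nonneg hRp.le, inv_mul_lt_iff₀ hRp, mul_one]
    simpa [dist_eq_norm] using hxb
  have hux : u x = R * Crest.Agent.R097.blow u x0 R y := by
    unfold Crest.Agent.R097.blow
    rw [← hyx]; field_simp
  have hin : inner ℝ (x - x0) e = R * inner ℝ y e := by
    rw [hyx, add_sub_cancel_left, real_inner_smul_left]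
  -- bounds for the blow-up
  set b := Crest.Agent.R097.blow u x0 R with hb
  have hbv : ∀ z, ‖z‖ ≤ 2 → |b z - hp e z| < δ := by
    intro z hz
    have := hk z (by simpa using hz)
    rw [dist_comm, Real.dist_eq, hve z] at this
    exact this
  have hb0 : 0 ≤ b y := (hbl k).nonneg y
  have h1 := hbv y (by linarith)
  rw [abs_lt] at h1
  unfold hp at h1
  rw [hux, hin]
  have hlow : max (inner ℝ y e - ε) 0 ≤ b y := by
    apply max_le _ hb0
    have := le_max_left (inner ℝ y e) 0
    linarith [h1.1]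
  have hup : b y ≤ max (inner ℝ y e + ε) 0 := by
    by_cases h2 : inner ℝ y e < -ρ
    · -- nondegeneracy
      have h3 : b y = 0 := by
        apply hnd K b (hbl k) y ρ hρ0 _ y (mem_ball_self (by linarith))
        intro z hz
        rw [mem_ball, dist_eq_norm] at hz
        have h4 : ‖z‖ ≤ 2 := by
          have := norm_add_le (z - y) y
          rw [sub_add_cancel] at this
          linarith
        have h5 : inner ℝ z e ≤ 0 := by
          have h6 : inner ℝ z e = inner ℝ y e + inner ℝ (z - y) e := by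
            rw [inner_sub_left]; ring
          have h7 : inner ℝ (z - y) e ≤ ‖z - y‖ * ‖e‖ := real_inner_le_norm _ _
          rw [he, mul_one] at h7
          linarith
        have h6 := hbv z h4
        unfold hp at h6
        rw [max_eq_right h5, sub_zero, abs_lt] at h6
        linarith [h6.2]
      rw [h3]; exact le_max_right _ _
    · push Not at h2
      refine le_trans ?_ (le_max_left _ _)
      rcases le_total 0 (inner ℝ y e) with h3 | h3
      · rw [max_eq_left h3] at h1; linarith [h1.2]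
      · rw [max_eq_right h3] at h1; linarith [h1.2]
  constructor
  · calc max (R * inner ℝ y e - ε * R) 0 = R * max (inner ℝ y e - ε) 0 := by
          rw [mul_max_of_nonneg _ _ hRp.le]; congr 1 <;> ring
      _ ≤ _ := mul_le_mul_of_nonneg_left hlow hRp.le
  · calc R * b y ≤ R * max (inner ℝ y e + ε) 0 := mul_le_mul_of_nonneg_left hup hRp.le
      _ = _ := by rw [mul_max_of_nonneg _ _ hRp.le]; congr 1 <;> ring

end Crest.Agent.R097
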