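import Crest.Agent.R097.F4c
import Crest.Agent.R097.F3Def
import Crest.Agent.R097.Defs
import Crest.Agent.R097.F5Def

-- ▼ part R097/F5a
section

/-!
# Row 97, F5 (a): one step of the iteration
-/

set_option autoImplicit false
set_option synthInstance.maxHeartbeats 400000
open MeasureTheory Metric Set Filter Topology InnerProductSpace
open scoped RealInnerProductSpace NNReal ENNReal Gradient Laplacian

namespace Crest.Agent.R097

variable {d : ℕ}

/-- interior estimates and Taylor expansion for harmonic functions (`harm_jets` of note 10074) -/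
def Jet3Stmt (d : ℕ) : Prop :=
  ∃ C : ℝ, 1 ≤ C ∧ ∀ (x : E d) (r : ℝ), 0 < r → ∀ (h : E d → ℝ) (M : ℝ),
    ContDiffOn ℝ 2 h (ball x r) → (∀ y ∈ ball x r, (Δ h) y = 0) → (∀ y ∈ ball x r, |h y| ≤ M) →
    STF2 (D2 h x) ∧ STF3 (D3 h x) ∧ ‖fderiv ℝ h x‖ ≤ C * M / r ∧ ‖D2 h x‖ ≤ C * M / r ^ 2 ∧
    ‖D3 h x‖ ≤ C * M / r ^ 3 ∧
    ∀ y ∈ ball x (r / 2), |h y - (h x + fderiv ℝ h x (y - x) + D2 h x (y - x) (y - x) / 2 +
      D3 h x (y - x) (y - x) (y - x) / 6)| ≤ C * M * (‖y - x‖ / r) ^ 4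

/-- derivatives of a function invariant under a linear map -/
lemma fderiv_of_invariant {h : E d → ℝ} (hh : ContDiff ℝ (⊤ : ℕ∞) h) (S : E d →L[ℝ] E d)
    (hS : ∀ x, h (S x) = h x) (x v : E d) : fderiv ℝ h x v = fderiv ℝ h (S x) (S v) := by
  have hd : Differentiable ℝ h := hh.differentiable (by simp)
  have h1 : HasFDerivAt (fun y => h (S y)) ((fderiv ℝ h (S x)).comp S) x :=
    (hd (S x)).hasFDerivAt.comp x S.hasFDerivAt
  have h2 : (fun y => h (S y)) = h := funext hS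
  rw [h2] at h1
  rw [h1.fderiv]
  rfl

lemma contDiff_fderiv {F : Type*} [NormedAddCommGroup F] [NormedSpace ℝ F] {h : E d → F}
    (hh : ContDiff ℝ (⊤ : ℕ∞) h) : ContDiff ℝ (⊤ : ℕ∞) (fderiv ℝ h) :=
  hh.fderiv_right (by simp)

lemma D2_of_invariant {h : E d → ℝ} (hh : ContDiff ℝ (⊤ : ℕ∞) h) (S : E d →L[ℝ] E d)
    (hS : ∀ x, h (S x) = h x) (x v w : E d) : D2 h x v w = D2 h (S x) (S v) (S w) := by
  have hd : Differentiable ℝ (fderiv ℝ h) := (contDiff_fderiv hh).differentiable (by simp)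
  have h0 : (fun y => fderiv ℝ h y w) = fun y => fderiv ℝ h (S y) (S w) := by
    funext y; exact fderiv_of_invariant hh S hS y w
  have h1 : HasFDerivAt (fun y => fderiv ℝ h y w) _ x :=
    ((hd x).hasFDerivAt).clm_apply (hasFDerivAt_const w x)
  have h2 : HasFDerivAt (fun y => fderiv ℝ h (S y)) ((fderiv ℝ (fderiv ℝ h) (S x)).comp S) x :=
    (hd (S x)).hasFDerivAt.comp x S.hasFDerivAt
  have h3 : HasFDerivAt (fun y => fderiv ℝ h (S y) (S w)) _ x :=
    h2.clm_apply (hasFDerivAt_const (S w) x)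
  have h4 := h1.unique (h0 ▸ h3)
  have h5 := congrArg (fun L : E d →L[ℝ] ℝ => L v) h4
  simpa [D2] using h5

lemma D3_of_invariant {h : E d → ℝ} (hh : ContDiff ℝ (⊤ : ℕ∞) h) (S : E d →L[ℝ] E d)
    (hS : ∀ x, h (S x) = h x) (x v w z : E d) :
    D3 h x v w z = D3 h (S x) (S v) (S w) (S z) := by
  have hd : Differentiable ℝ (D2 h) :=
    (contDiff_fderiv (contDiff_fderiv hh)).differentiable (by simp)
  have h0 : (fun y => D2 h y w z) = fun y => D2 h (S y) (S w) (S z) := by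
    funext y; exact D2_of_invariant hh S hS y w z
  have h1 : HasFDerivAt (fun y => D2 h y w z) _ x :=
    (((hd x).hasFDerivAt).clm_apply (hasFDerivAt_const w x)).clm_apply (hasFDerivAt_const z x)
  have h2 : HasFDerivAt (fun y => D2 h (S y)) ((fderiv ℝ (D2 h) (S x)).comp S) x :=
    (hd (S x)).hasFDerivAt.comp x S.hasFDerivAt
  have h3 : HasFDerivAt (fun y => D2 h (S y) (S w) (S z)) _ x :=
    (h2.clm_apply (hasFDerivAt_const (S w) x)).clm_apply (hasFDerivAt_const (S z) x)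
  have h4 := h1.unique (h0 ▸ h3)
  have h5 := congrArg (fun L : E d →L[ℝ] ℝ => L v) h4
  have e1 : ∀ x, fderiv ℝ (D2 h) x = D3 h x := fun x => rfl
  simpa [e1] using h5

/-- reflection -/
noncomputable def refl (e : E d) : E d →L[ℝ] E d :=
  ContinuousLinearMap.id ℝ (E d) - (2 : ℝ) • (innerSL ℝ e).smulRight e

lemma refl_apply (e x : E d) : refl e x = x - (2 * ⟪e, x⟫_ℝ) • e := by
  simp only [refl, ContinuousLinearMap.sub_apply, ContinuousLinearMap.smul_apply,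
    ContinuousLinearMap.smulRight_apply, innerSL_apply_apply]
  rw [smul_smul]
  rfl

/-- jets at the origin of an even function -/
lemma even_jets {h : E d → ℝ} (hh : ContDiff ℝ (⊤ : ℕ∞) h) {e : E d} (he : ‖e‖ = 1)
    (hev : ∀ x, h (x - (2 * ⟪e, x⟫_ℝ) • e) = h x) :
    fderiv ℝ h 0 e = 0 ∧ (∀ t, ⟪e, t⟫_ℝ = 0 → D2 h 0 e t = 0) ∧
      ∀ t t', ⟪e, t⟫_ℝ = 0 → ⟪e, t'⟫_ℝ = 0 → D3 h 0 e t t' = 0 := by
  have hee : ⟪e, e⟫_ℝ = 1 := by rw [real_inner_self_eq_norm_sq, he]; norm_num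
  have hS : ∀ x, h (refl e x) = h x := fun x => by rw [refl_apply]; exact hev x
  have hSe : refl e e = -e := by
    rw [refl_apply, hee]
    module
  have hSt : ∀ t, ⟪e, t⟫_ℝ = 0 → refl e t = t := by
    intro t ht
    rw [refl_apply, ht]; simp
  refine ⟨?_, fun t ht => ?_, fun t t' ht ht' => ?_⟩
  · have := fderiv_of_invariant hh (refl e) hS 0 e
    rw [map_zero, hSe, map_neg] at this
    linarith
  · have := D2_of_invariant hh (refl e) hS 0 e t
    rw [map_zero, hSe, hSt t ht, map_neg, ContinuousLinearMap.neg_apply] at this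
    linarith
  · have := D3_of_invariant hh (refl e) hS 0 e t t'
    rw [map_zero, hSe, hSt t ht, hSt t' ht', map_neg, ContinuousLinearMap.neg_apply,
      ContinuousLinearMap.neg_apply] at this
    linarith

/-- the Taylor polynomial shifts the cubic polynomial -/
lemma cub_add (e v : E d) (A A2 : Bil d) (B B2 : Tri d) (δ : ℝ) (x : E d) :
    cub (e + δ • v) (A + δ • A2) (B + δ • B2) x =
      cub e A B x + δ * (⟪v, x⟫_ℝ + A2 x x / 2 + B2 x x x / 6) := by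
  have h1 : (A + δ • A2) x x = A x x + δ * A2 x x := rfl
  have h2 : (B + δ • B2) x x x = B x x x + δ * B2 x x x := rfl
  rw [cub, cub, h1, h2, inner_add_left, inner_smul_left]
  simp only [conj_trivial]
  ring

/-- comparison of cubic polynomials with close coefficients -/
lemma cub_sub_le {e e' : E d} {A A' : Bil d} {B B' : Tri d} {η₁ η₂ η₃ r : ℝ} (he : ‖e' - e‖ ≤ η₁)
    (hA : ‖A' - A‖ ≤ η₂) (hB : ‖B' - B‖ ≤ η₃) {x : E d} (hx : ‖x‖ ≤ r) :
    |cub e' A' B' x - cub e A B x| ≤ η₁ * r + η₂ * r ^ 2 + η₃ * r ^ 3 := by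
  have h1 : cub e' A' B' x - cub e A B x =
      ⟪e' - e, x⟫_ℝ + (A' - A) x x / 2 + (B' - B) x x x / 6 := by
    have e1 : (A' - A) x x = A' x x - A x x := rfl
    have e2 : (B' - B) x x x = B' x x x - B x x x := rfl
    rw [cub, cub, e1, e2, inner_sub_left]; ring
  have hr : 0 ≤ r := (norm_nonneg x).trans hx
  have hη₁ : 0 ≤ η₁ := (norm_nonneg _).trans he
  have hη₂ : 0 ≤ η₂ := (norm_nonneg _).trans hA
  have hη₃ : 0 ≤ η₃ := (norm_nonneg _).trans hB
  have h2 : |⟪e' - e, x⟫_ℝ| ≤ η₁ * r := (abs_real_inner_le_norm _ _).trans (by gcongr)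
  have h3 : |(A' - A) x x| ≤ η₂ * r ^ 2 := (bil_abs_le _ x x).trans (by
    calc ‖A' - A‖ * ‖x‖ * ‖x‖ ≤ η₂ * r * r := by gcongr
      _ = _ := by ring)
  have h4 : |(B' - B) x x x| ≤ η₃ * r ^ 3 := (abs_tri_le _ x x x).trans (by
    calc ‖B' - B‖ * ‖x‖ * ‖x‖ * ‖x‖ ≤ η₃ * r * r * r := by gcongr
      _ = _ := by ring)
  rw [h1]
  have p2 : 0 ≤ η₂ * r ^ 2 := by positivity
  have p3 : 0 ≤ η₃ * r ^ 3 := by positivity
  rw [abs_le] at h2 h3 h4 ⊢
  constructor <;> linarith [h2.1, h2.2, h3.1, h3.2, h4.1, h4.2]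

/-- a perturbation of the sandwich -/
lemma max_shift {p q a w u : ℝ} (h : |p - q| ≤ w) (hu : max (p - a) 0 ≤ u ∧ u ≤ max (p + a) 0) :
    max (q - (a + w)) 0 ≤ u ∧ u ≤ max (q + (a + w)) 0 := by
  rw [abs_le] at h
  refine ⟨(max_le_max (by linarith [h.1, h.2]) le_rfl).trans hu.1,
    hu.2.trans (max_le_max (by linarith [h.1, h.2]) le_rfl)⟩

set_option maxHeartbeats 1000000 in
/-- **one step of the iteration** (radius `σ²`, width factor `σ⁷`) -/
theorem F5step (hF3 : F3Stmt d) (hJ : Jet3Stmt d) :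
    ∃ σ η k C₁ : ℝ, 0 < σ ∧ σ < 1 / 2 ∧ 0 < η ∧ η ≤ 1 ∧ 0 < k ∧ 1 ≤ C₁ ∧
    ∀ (u : E d → ℝ) (K : ℝ≥0) (e : E d) (A : Bil d) (B : Tri d) (δ : ℝ), LM u K → u 0 = 0 →
      (0 : E d) ∈ closure (Om u) → KK e A B → ‖A‖ ≤ η → ‖B‖ ≤ η → 0 < δ → δ ≤ η →
      9 * (‖A‖ + ‖B‖) * δ + 3 * ‖A‖ * ‖B‖ + ‖B‖ ^ 2 ≤ k * δ →
      Sand u (cub e A B) (-δ) δ (ball 0 1) →
      ∃ (e' : E d) (A' : Bil d) (B' : Tri d), KK e' A' B' ∧ ‖e' - e‖ ≤ C₁ * δ ∧
        ‖A' - A‖ ≤ C₁ * δ ∧ ‖B' - B‖ ≤ C₁ * δ ∧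
        Sand u (cub e' A' B') (-(σ ^ 7 * δ)) (σ ^ 7 * δ) (ball 0 (σ ^ 2)) := by
  obtain ⟨C, hC1, hJ⟩ := hJ
  obtain ⟨C2, hC21, hkk⟩ := kk_correct d (16 * C)
  have hC0 : 0 < C := by linarith
  have hC20 : 0 < C2 := by linarith
  obtain ⟨σ, hσ⟩ : ∃ σ : ℝ, σ = 1 / (128 * C) := ⟨_, rfl⟩
  have hσ0 : 0 < σ := by rw [hσ]; positivity
  have hσ1 : σ ≤ 1 / 128 := by
    rw [hσ]
    apply div_le_div_of_nonneg_left <;> linarith
  have hCσ : 128 * C * σ = 1 := by rw [hσ]; field_simp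
  obtain ⟨k₀, hk₀, δ₀, hδ₀, hF⟩ := hF3 (σ ^ 7 / 8) (by positivity)
  obtain ⟨η, hη⟩ : ∃ η : ℝ, η = min (min (1 / C2) (k₀ / 2)) (min δ₀ (min 1 (σ ^ 7 / (24 * C2)))) :=
    ⟨_, rfl⟩
  have hη0 : 0 < η := by rw [hη]; positivity
  have hηC2 : η ≤ 1 / C2 := by rw [hη]; exact (min_le_left _ _).trans (min_le_left _ _)
  have hηk : η ≤ k₀ / 2 := by rw [hη]; exact (min_le_left _ _).trans (min_le_right _ _)
  have hηδ : η ≤ δ₀ := by rw [hη]; exact (min_le_right _ _).trans (min_le_left _ _)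
  have hη1 : η ≤ 1 := by
    rw [hη]; exact (min_le_right _ _).trans ((min_le_right _ _).trans (min_le_left _ _))
  have hησ : η ≤ σ ^ 7 / (24 * C2) := by
    rw [hη]; exact (min_le_right _ _).trans ((min_le_right _ _).trans (min_le_right _ _))
  refine ⟨σ, η, k₀, 16 * C + 3 * C2, hσ0, by linarith, hη0, hη1, hk₀, by linarith, ?_⟩
  intro u K e A B δ hu hu0 hcl h hA hB hδ hδη hgr hS
  have he := h.norm_e
  have ha0 := norm_nonneg A
  have hb0 := norm_nonneg B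
  -- apply F3
  have hnice : Nice (cub e A B) e k₀ δ := by
    refine ⟨contDiff_cub e A B, fun x hx => ?_, fun x hx => ?_, fun x _ => ?_, fun x hx hP => ?_⟩
    · refine (abs_cub_sub_le e A B (mem_ball_zero_iff.1 hx).le).trans ?_
      linarith
    · refine (norm_fderiv_cub_sub_le h (mem_ball_zero_iff.1 hx).le).trans ?_
      linarith
    · rw [laplacian_cub h, abs_zero]; positivity
    · refine (grad_est h (mem_ball_zero_iff.1 hx).le).trans (le_trans ?_ hgr)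
      have : 3 * (‖A‖ + ‖B‖) * |cub e A B x| ≤ 3 * (‖A‖ + ‖B‖) * (3 * δ) := by gcongr
      linarith
  obtain ⟨w, hw, hwΔ, hwe, hwb, hwS⟩ := hF u K (cub e A B) e δ hu he hδ (hδη.trans hηδ) hnice hS
  -- the value at the origin
  have h00 : (0 : E d) ∈ ball (0 : E d) (1 / 2) := by simp
  have hw0u : w 0 ≤ σ ^ 7 / 8 := by
    have := (hwS 0 h00).1
    rw [hu0, cub_zero, zero_add] at this
    have h1 : δ * (w 0 - σ ^ 7 / 8) ≤ 0 := (le_max_left _ _).trans this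
    by_contra hcon
    push Not at hcon
    have : 0 < δ * (w 0 - σ ^ 7 / 8) := mul_pos hδ (by linarith)
    linarith
  have hw0l : -(σ ^ 7 / 8) ≤ w 0 := by
    by_contra hcon
    push Not at hcon
    have hcont : Continuous (fun x => cub e A B x + δ * (w x + σ ^ 7 / 8)) :=
      (contDiff_cub e A B (n := 0)).continuous.add
        (continuous_const.mul (hw.continuous.add continuous_const))
    have h0 : cub e A B 0 + δ * (w 0 + σ ^ 7 / 8) < 0 := by
      rw [cub_zero, zero_add]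
      exact mul_neg_of_pos_of_neg hδ (by linarith)
    have hev : ∀ᶠ x in 𝓝 (0 : E d), cub e A B x + δ * (w x + σ ^ 7 / 8) < 0 ∧
        x ∈ ball (0 : E d) (1 / 2) :=
      (hcont.continuousAt.eventually_lt continuousAt_const h0).and (ball_mem_nhds 0 (by norm_num))
    obtain ⟨x, ⟨hx1, hx2⟩, hx3⟩ := (mem_closure_iff_nhds.1 hcl _ hev)
    have := (hwS x hx2).2
    rw [max_eq_right hx1.le] at this
    have hx4 : 0 < u x := hx3
    linarith
  -- the Taylor expansion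
  obtain ⟨hD2, hD3, hn1, hn2, hn3, hT⟩ := hJ 0 (1 / 2) (by norm_num) w 2
    (show ContDiff ℝ 2 w by exact_mod_cast contDiff_infty.1 hw 2).contDiffOn (fun y _ => hwΔ y) hwb
  have n1 : C * 2 / (1 / 2) = 4 * C := by ring
  have n2 : C * 2 / (1 / 2) ^ 2 = 8 * C := by ring
  have n3 : C * 2 / (1 / 2) ^ 3 = 16 * C := by ring
  rw [n1] at hn1
  rw [n2] at hn2
  rw [n3] at hn3
  obtain ⟨j1, j2, j3⟩ := even_jets hw he hwe
  obtain ⟨v, hv⟩ : ∃ v : E d, v = ∇ w 0 := ⟨_, rfl⟩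
  have hvx : ∀ x, ⟪v, x⟫_ℝ = fderiv ℝ w 0 x := fun x => by rw [hv, inner_gradient]
  have hvn : ‖v‖ ≤ 16 * C := by
    rw [hv, norm_gradient]
    refine hn1.trans ?_
    linarith
  have hev : ⟪e, v⟫_ℝ = 0 := by rw [real_inner_comm, hvx, j1]
  have hδC2 : δ ≤ 1 / C2 := hδη.trans hηC2
  obtain ⟨e', A', B', hKK, hk1, hk2, hk3⟩ := hkk e A B v (D2 w 0) (D3 w 0) δ h (hA.trans hη1)
    (hB.trans hη1) hδ.le hδC2 hev hD2 hD3 hvn (hn2.trans (by linarith)) hn3
    j2 j3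
  obtain ⟨err, herr⟩ : ∃ err : ℝ, err = C2 * δ * (‖A‖ + ‖B‖ + δ) := ⟨_, rfl⟩
  rw [← herr] at hk1 hk2 hk3
  have herr0 : 0 ≤ err := by rw [herr]; positivity
  have herr1 : err ≤ σ ^ 7 / 8 * δ := by
    have h1 : ‖A‖ + ‖B‖ + δ ≤ 3 * (σ ^ 7 / (24 * C2)) := by linarith
    have h2 : C2 * (‖A‖ + ‖B‖ + δ) ≤ C2 * (3 * (σ ^ 7 / (24 * C2))) := by gcongr
    have h3 : C2 * (3 * (σ ^ 7 / (24 * C2))) = σ ^ 7 / 8 := by field_simp; norm_num
    calc err = C2 * (‖A‖ + ‖B‖ + δ) * δ := by rw [herr]; ring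
      _ ≤ σ ^ 7 / 8 * δ := by
          rw [← h3]; gcongr
  have herr2 : err ≤ 3 * C2 * δ := by
    have h1 : ‖A‖ + ‖B‖ + δ ≤ 3 := by linarith
    calc err = C2 * δ * (‖A‖ + ‖B‖ + δ) := herr
      _ ≤ C2 * δ * 3 := by gcongr
      _ = 3 * C2 * δ := by ring
  refine ⟨e', A', B', hKK, ?_, ?_, ?_, ?_⟩
  · have : e' - e = (e' - (e + δ • v)) + δ • v := by abel
    rw [this]
    refine (norm_add_le _ _).trans ?_
    rw [norm_smul, Real.norm_eq_abs, abs_of_pos hδ]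
    have : δ * ‖v‖ ≤ δ * (16 * C) := by gcongr
    linarith
  · have : A' - A = (A' - (A + δ • D2 w 0)) + δ • D2 w 0 := by abel
    rw [this]
    refine (norm_add_le _ _).trans ?_
    rw [norm_smul, Real.norm_eq_abs, abs_of_pos hδ]
    have : δ * ‖D2 w 0‖ ≤ δ * (16 * C) := by
      gcongr
      refine hn2.trans ?_
      linarith
    linarith
  · have : B' - B = (B' - (B + δ • D3 w 0)) + δ • D3 w 0 := by abel
    rw [this]
    refine (norm_add_le _ _).trans ?_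
    rw [norm_smul, Real.norm_eq_abs, abs_of_pos hδ]
    have : δ * ‖D3 w 0‖ ≤ δ * (16 * C) := by
      gcongr
    linarith
  · -- the new sandwich
    intro x hx
    have hσ2 : σ ^ 2 ≤ 1 / 4 := by nlinarith
    have hxn : ‖x‖ < σ ^ 2 := mem_ball_zero_iff.1 hx
    have hx1 : x ∈ ball (0 : E d) (1 / 2) := mem_ball_zero_iff.2 (by linarith)
    have hx2 : x ∈ ball (0 : E d) (1 / 2 / 2) := mem_ball_zero_iff.2 (by linarith)
    have hsand := hwS x hx1
    have hTx := hT x hx2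
    simp only [sub_zero] at hTx
    have hTx2 : C * 2 * (‖x‖ / (1 / 2)) ^ 4 ≤ σ ^ 7 / 4 := by
      have h1 : ‖x‖ ^ 4 ≤ (σ ^ 2) ^ 4 := pow_le_pow_left₀ (norm_nonneg _) hxn.le 4
      have h2 : C * 2 * (‖x‖ / (1 / 2)) ^ 4 = 32 * C * ‖x‖ ^ 4 := by ring
      rw [h2]
      calc 32 * C * ‖x‖ ^ 4 ≤ 32 * C * (σ ^ 2) ^ 4 := by gcongr
        _ = (128 * C * σ) * (σ ^ 7 / 4) := by ring
        _ = σ ^ 7 / 4 := by rw [hCσ, one_mul]
    obtain ⟨T, hTdef⟩ : ∃ T : ℝ, T = ⟪v, x⟫_ℝ + D2 w 0 x x / 2 + D3 w 0 x x x / 6 := ⟨_, rfl⟩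
    have hT2 : |w x - (w 0 + T)| ≤ σ ^ 7 / 4 := by
      have : w 0 + T = w 0 + fderiv ℝ w 0 x + D2 w 0 x x / 2 + D3 w 0 x x x / 6 := by
        rw [hTdef, hvx]; ring
      rw [this]
      exact hTx.trans hTx2
    have hT3 : |w x - T| ≤ 3 * σ ^ 7 / 8 := by
      rw [abs_le] at hT2 ⊢
      constructor <;> linarith [hT2.1, hT2.2]
    have hc1 : |cub (e + δ • v) (A + δ • D2 w 0) (B + δ • D3 w 0) x - cub e' A' B' x| ≤
        err * 1 + err * 1 ^ 2 + err * 1 ^ 3 := by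
      rw [abs_sub_comm]
      exact cub_sub_le hk1 hk2 hk3 (by nlinarith)
    rw [cub_add, ← hTdef] at hc1
    have hc1' : |cub e A B x + δ * T - cub e' A' B' x| ≤ 3 * (σ ^ 7 / 8 * δ) := by
      refine hc1.trans ?_
      linarith
    have hsand2 : max ((cub e A B x + δ * w x) - σ ^ 7 / 8 * δ) 0 ≤ u x ∧
        u x ≤ max ((cub e A B x + δ * w x) + σ ^ 7 / 8 * δ) 0 := by
      have e1 : (cub e A B x + δ * w x) - σ ^ 7 / 8 * δ =
          cub e A B x + δ * (w x - σ ^ 7 / 8) := by ring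
      have e2 : (cub e A B x + δ * w x) + σ ^ 7 / 8 * δ =
          cub e A B x + δ * (w x + σ ^ 7 / 8) := by ring
      rw [e1, e2]
      exact hsand
    have hdiff : |(cub e A B x + δ * w x) - cub e' A' B' x| ≤ 6 * (σ ^ 7 / 8 * δ) := by
      have h1 : |δ * (w x - T)| ≤ δ * (3 * σ ^ 7 / 8) := by
        rw [abs_mul, abs_of_pos hδ]; gcongr
      rw [abs_le] at hc1' h1 ⊢
      constructor <;> linarith [hc1'.1, hc1'.2, h1.1, h1.2]
    have hfin := max_shift hdiff hsand2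
    have hp : 0 ≤ σ ^ 7 * δ := by positivity
    refine ⟨(max_le_max ?_ le_rfl).trans hfin.1, hfin.2.trans (max_le_max ?_ le_rfl)⟩
    · linarith
    · linarith

end Crest.Agent.R097
end

-- ▼ part R097/F5b

/-!
# Row 97, F5 (b): the iteration
-/

set_option autoImplicit false
set_option synthInstance.maxHeartbeats 400000
open MeasureTheory Metric Set Filter Topology InnerProductSpace
open scoped RealInnerProductSpace NNReal ENNReal Gradient Laplacian

namespace Crest.Agent.R097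

variable {d : ℕ}

/-- minimality is invariant under blow-ups -/
def BlowStmt (d : ℕ) : Prop := ∀ (u : E d → ℝ) (K : ℝ≥0), LM u K → ∀ (x0 : E d) (r : ℝ), 0 < r →
  LM (blow u x0 r) K

/-- scaling in the constraint set -/
lemma KK.smul {e : E d} {A : Bil d} {B : Tri d} (h : KK e A B) (r : ℝ) :
    KK e (r • A) (r ^ 2 • B) := by
  have eA : ∀ x y, (r • A) x y = r * A x y := fun x y => rfl
  have eB : ∀ x y z, (r ^ 2 • B) x y z = r ^ 2 * B x y z := fun x y z => rfl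
  refine ⟨h.norm_e, ⟨fun x y => ?_, ?_⟩, ⟨fun x y z => ?_, fun x y z => ?_, fun x => ?_⟩,
    fun t ht => ?_, fun t ht => ?_⟩
  · rw [eA, eA, h.stfA.symm x y]
  · simp only [eA]
    rw [← Finset.mul_sum, h.stfA.tr, mul_zero]
  · rw [eB, eB, h.stfB.symm12 x y z]
  · rw [eB, eB, h.stfB.symm23 x y z]
  · simp only [eB]
    rw [← Finset.mul_sum, h.stfB.tr, mul_zero]
  · rw [eA, h.eig t ht, mul_zero]
  · simp only [eA, eB]
    rw [h.bdry t ht]
    have : ∑ i, (r * A t (bv i)) ^ 2 = r ^ 2 * ∑ i, (A t (bv i)) ^ 2 := by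
      rw [Finset.mul_sum]
      exact Finset.sum_congr rfl fun i _ => by ring
    rw [this]; ring

lemma cub_scale (e : E d) (A : Bil d) (B : Tri d) {r : ℝ} (hr : r ≠ 0) (x : E d) :
    cub e (r • A) (r ^ 2 • B) x = cub e A B (r • x) / r := by
  have eA : (r • A) x x = r * A x x := rfl
  have eB : (r ^ 2 • B) x x x = r ^ 2 * B x x x := rfl
  rw [cub, cub, eA, eB, inner_smul_right]
  simp only [map_smul, ContinuousLinearMap.smul_apply, smul_eq_mul]
  field_simp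

lemma tendsto_clm {F : Type*} [NormedAddCommGroup F] [NormedSpace ℝ F] {A : ℕ → E d →L[ℝ] F}
    {A' : E d →L[ℝ] F} (hA : Tendsto A atTop (𝓝 A')) {x : ℕ → E d} {x' : E d}
    (hx : Tendsto x atTop (𝓝 x')) : Tendsto (fun m => A m (x m)) atTop (𝓝 (A' x')) :=
  (isBoundedBilinearMap_apply.continuous.tendsto (A', x')).comp (hA.prodMk_nhds hx)

/-- the constraint set is closed -/
lemma KK.lim {e : ℕ → E d} {A : ℕ → Bil d} {B : ℕ → Tri d} (h : ∀ m, KK (e m) (A m) (B m))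
    {e' : E d} {A' : Bil d} {B' : Tri d} (he : Tendsto e atTop (𝓝 e'))
    (hA : Tendsto A atTop (𝓝 A')) (hB : Tendsto B atTop (𝓝 B')) : KK e' A' B' := by
  have tA : ∀ {x y : ℕ → E d} {x' y' : E d}, Tendsto x atTop (𝓝 x') → Tendsto y atTop (𝓝 y') →
      Tendsto (fun m => A m (x m) (y m)) atTop (𝓝 (A' x' y')) := fun hx hy =>
    tendsto_clm (tendsto_clm hA hx) hy
  have tB : ∀ {x y z : ℕ → E d} {x' y' z' : E d}, Tendsto x atTop (𝓝 x') →
      Tendsto y atTop (𝓝 y') → Tendsto z atTop (𝓝 z') →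
      Tendsto (fun m => B m (x m) (y m) (z m)) atTop (𝓝 (B' x' y' z')) := fun hx hy hz =>
    tendsto_clm (tendsto_clm (tendsto_clm hB hx) hy) hz
  have cst : ∀ x : E d, Tendsto (fun _ : ℕ => x) atTop (𝓝 x) := fun x => tendsto_const_nhds
  have hne : ‖e'‖ = 1 := by
    have h1 : Tendsto (fun m => ‖e m‖) atTop (𝓝 ‖e'‖) := he.norm
    have h2 : Tendsto (fun m => ‖e m‖) atTop (𝓝 1) := by
      simp only [fun m => (h m).norm_e]
      exact tendsto_const_nhds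
    exact tendsto_nhds_unique h1 h2
  refine ⟨hne, ⟨fun x y => ?_, ?_⟩, ⟨fun x y z => ?_, fun x y z => ?_, fun x => ?_⟩,
    fun t ht => ?_, fun t ht => ?_⟩
  · refine tendsto_nhds_unique (tA (cst x) (cst y)) ?_
    simp only [fun m => (h m).stfA.symm x y]
    exact tA (cst y) (cst x)
  · have h1 : Tendsto (fun m => ∑ i, A m (bv i) (bv i)) atTop (𝓝 (∑ i, A' (bv i) (bv i))) :=
      tendsto_finsetSum _ fun i _ => tA (cst _) (cst _)
    simp only [fun m => (h m).stfA.tr] at h1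
    exact tendsto_nhds_unique h1 tendsto_const_nhds
  · refine tendsto_nhds_unique (tB (cst x) (cst y) (cst z)) ?_
    simp only [fun m => (h m).stfB.symm12 x y z]
    exact tB (cst y) (cst x) (cst z)
  · refine tendsto_nhds_unique (tB (cst x) (cst y) (cst z)) ?_
    simp only [fun m => (h m).stfB.symm23 x y z]
    exact tB (cst x) (cst z) (cst y)
  · have h1 : Tendsto (fun m => ∑ i, B m x (bv i) (bv i)) atTop (𝓝 (∑ i, B' x (bv i) (bv i))) :=
      tendsto_finsetSum _ fun i _ => tB (cst _) (cst _) (cst _)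
    simp only [fun m => (h m).stfB.tr] at h1
    exact tendsto_nhds_unique h1 tendsto_const_nhds
  · have h1 : Tendsto (fun m => A m (e m) t) atTop (𝓝 (A' e' t)) := tA he (cst t)
    have h2 : Tendsto (fun m => A m (e m) (e m) * ⟪e m, t⟫_ℝ) atTop
        (𝓝 (A' e' e' * ⟪e', t⟫_ℝ)) := (tA he he).mul (he.inner (cst t))
    simp only [fun m => (h m).eig' t] at h1
    rw [tendsto_nhds_unique h1 h2, ht, mul_zero]
  · have ht' : Tendsto (fun m => t - ⟪e m, t⟫_ℝ • e m) atTop (𝓝 t) := by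
      have h1 : Tendsto (fun m => t - ⟪e m, t⟫_ℝ • e m) atTop (𝓝 (t - ⟪e', t⟫_ℝ • e')) :=
        (cst t).sub ((he.inner (cst t)).smul he)
      rwa [ht, zero_smul, sub_zero] at h1
    have h2 := tB ht' ht' he
    have h3 : Tendsto (fun m => A m (e m) (e m) * A m (t - ⟪e m, t⟫_ℝ • e m)
        (t - ⟪e m, t⟫_ℝ • e m) - ∑ i, (A m (t - ⟪e m, t⟫_ℝ • e m) (bv i)) ^ 2) atTop
        (𝓝 (A' e' e' * A' t t - ∑ i, (A' t (bv i)) ^ 2)) :=
      ((tA he he).mul (tA ht' ht')).sub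
        (tendsto_finsetSum _ fun i _ => (tA ht' (cst (bv i))).pow 2)
    refine tendsto_nhds_unique h2 ?_
    have h4 : ∀ m, B m (t - ⟪e m, t⟫_ℝ • e m) (t - ⟪e m, t⟫_ℝ • e m) (e m) =
        A m (e m) (e m) * A m (t - ⟪e m, t⟫_ℝ • e m)
        (t - ⟪e m, t⟫_ℝ • e m) - ∑ i, (A m (t - ⟪e m, t⟫_ℝ • e m) (bv i)) ^ 2 := fun m =>
      (h m).bdry _ (inner_sub_inner_smul (h m).norm_e t)
    simp only [h4]
    exact h3

/-- sequences by dependent choice -/
lemma exists_seq_rel {S : Type*} {P : ℕ → S → Prop} {R : ℕ → S → S → Prop} {s0 : S} (h0 : P 0 s0)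
    (hs : ∀ m s, P m s → ∃ s', P (m + 1) s' ∧ R m s s') :
    ∃ f : ℕ → S, f 0 = s0 ∧ ∀ m, P m (f m) ∧ R m (f m) (f (m + 1)) := by
  choose! g hg1 hg2 using hs
  set f : ℕ → S := fun n => Nat.rec s0 (fun m s => g m s) n with hf
  have hP : ∀ m, P m (f m) := by
    intro m
    induction m with
    | zero => exact h0
    | succ m ih => exact hg1 m (f m) ih
  exact ⟨f, rfl, fun m => ⟨hP m, hg2 m (f m) (hP m)⟩⟩

lemma closure_blow {u : E d → ℝ} {r : ℝ} (hr : 0 < r) (h : (0 : E d) ∈ closure (Om u)) :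
    (0 : E d) ∈ closure (Om (blow u 0 r)) := by
  rw [Metric.mem_closure_iff] at h ⊢
  intro ε hε
  obtain ⟨x, hx, hd⟩ := h (r * ε) (by positivity)
  refine ⟨r⁻¹ • x, ?_, ?_⟩
  · change 0 < u (0 + r • (r⁻¹ • x)) / r
    rw [smul_smul, mul_inv_cancel₀ hr.ne', one_smul, zero_add]
    exact div_pos hx hr
  · rw [dist_zero_left] at hd ⊢
    rw [norm_smul, norm_inv, Real.norm_eq_abs, abs_of_pos hr, inv_mul_lt_iff₀ hr]
    exact hd

/-- rescaling a sandwich -/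
lemma sand_blow {u : E d → ℝ} {e : E d} {A : Bil d} {B : Tri d} {r w : ℝ} (hr : 0 < r) {ρ : ℝ}
    (h : Sand u (cub e A B) (-(r * w)) (r * w) (ball 0 (r * ρ))) :
    Sand (blow u 0 r) (cub e (r • A) (r ^ 2 • B)) (-w) w (ball 0 ρ) := by
  intro x hx
  have hx' : r • x ∈ ball (0 : E d) (r * ρ) := by
    rw [mem_ball_zero_iff, norm_smul, Real.norm_eq_abs, abs_of_pos hr]
    exact mul_lt_mul_of_pos_left (mem_ball_zero_iff.1 hx) hr
  have h1 := h (r • x) hx'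
  have hc := cub_scale e A B hr.ne' x
  have e1 : cub e (r • A) (r ^ 2 • B) x + -w = (cub e A B (r • x) + -(r * w)) / r := by
    rw [hc]; field_simp
  have e2 : cub e (r • A) (r ^ 2 • B) x + w = (cub e A B (r • x) + r * w) / r := by
    rw [hc]; field_simp
  have e3 : blow u 0 r x = u (r • x) / r := by
    rw [blow, zero_add]
  have e4 : ∀ t : ℝ, max (t / r) 0 = max t 0 / r := by
    intro t
    rw [max_div_div_right hr.le t 0 |>.symm, zero_div]
  rw [e1, e2, e3, e4, e4]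
  exact ⟨div_le_div_of_nonneg_right h1.1 hr.le, div_le_div_of_nonneg_right h1.2 hr.le⟩

lemma sand_unblow {u : E d → ℝ} {e : E d} {A : Bil d} {B : Tri d} {r w : ℝ} (hr : 0 < r) {ρ : ℝ}
    (h : Sand (blow u 0 r) (cub e A B) (-w) w (ball 0 ρ)) :
    Sand u (cub e (r⁻¹ • A) ((r⁻¹) ^ 2 • B)) (-(r * w)) (r * w) (ball 0 (r * ρ)) := by
  intro x hx
  have hri : 0 < r⁻¹ := by positivity
  have hx' : r⁻¹ • x ∈ ball (0 : E d) ρ := by
    rw [mem_ball_zero_iff, norm_smul, Real.norm_eq_abs, abs_of_pos hri, inv_mul_lt_iff₀ hr]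
    exact mem_ball_zero_iff.1 hx
  have h1 := h (r⁻¹ • x) hx'
  have hc := cub_scale e A B hri.ne' x
  have e3 : u x = r * blow u 0 r (r⁻¹ • x) := by
    rw [blow, zero_add, smul_smul, mul_inv_cancel₀ hr.ne', one_smul]
    field_simp
  have e1 : cub e (r⁻¹ • A) ((r⁻¹) ^ 2 • B) x + -(r * w) = r * (cub e A B (r⁻¹ • x) + -w) := by
    rw [hc, div_inv_eq_mul]; ring
  have e2 : cub e (r⁻¹ • A) ((r⁻¹) ^ 2 • B) x + r * w = r * (cub e A B (r⁻¹ • x) + w) := by
    rw [hc, div_inv_eq_mul]; ring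
  have e4 : ∀ t : ℝ, max (r * t) 0 = r * max t 0 := by
    intro t
    rw [mul_max_of_nonneg _ _ hr.le, mul_zero]
  rw [e1, e2, e3, e4, e4]
  exact ⟨mul_le_mul_of_nonneg_left h1.1 hr.le, mul_le_mul_of_nonneg_left h1.2 hr.le⟩

end Crest.Agent.R097
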