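import Crest.Agent.R097.F5c
import Crest.Agent.R097.F3Def
import Crest.Agent.R097.F4
import Crest.Agent.R097.Calc
import Crest.Agent.R097.Iface
import Crest.Agent.R097.V1
import Crest.Agent.R097.HarmHar
import Crest.Agent.R097.HarmJets
import Crest.Agent.R097.F6
import Crest.Agent.R097.B1

-- ▼ part R097/F5d
section

/-!
# Row 97, F5 (d): expansions at all free boundary points near a flat one
-/

set_option autoImplicit false
set_option synthInstance.maxHeartbeats 400000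
open MeasureTheory Metric Set Filter Topology InnerProductSpace
open scoped RealInnerProductSpace NNReal ENNReal Gradient Laplacian

namespace Crest.Agent.R097

variable {d : ℕ}

/-- the value of `u` at a free boundary point -/
lemma val_frontier {u : E d → ℝ} (hc : Continuous u) (h0 : ∀ x, 0 ≤ u x) {y : E d}
    (hy : y ∈ frontier (Om u)) : u y = 0 := by
  have hO : IsOpen (Om u) := isOpen_lt continuous_const hc
  rw [hO.frontier_eq] at hy
  have h1 : ¬ 0 < u y := hy.2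
  exact le_antisymm (not_lt.1 h1) (h0 y)

/-- the height of free boundary points in a sandwich -/
lemma height_frontier {u : E d → ℝ} (hc : Continuous u) (h0 : ∀ x, 0 ≤ u x) {e : E d} {δ : ℝ}
    (hS : Sand u (fun x => ⟪e, x⟫_ℝ) (-δ) δ (ball 0 1)) {y : E d}
    (hy : y ∈ frontier (Om u)) (hyb : y ∈ ball (0 : E d) 1) : |⟪e, y⟫_ℝ| ≤ δ := by
  have hu0 := val_frontier hc h0 hy
  rw [abs_le]
  constructor
  · by_contra hlt
    rw [not_le] at hlt
    have hop : IsOpen ({x : E d | ⟪e, x⟫_ℝ < -δ} ∩ ball (0 : E d) 1) :=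
      (isOpen_lt (continuous_const.inner continuous_id) continuous_const).inter isOpen_ball
    obtain ⟨x, ⟨hx1, hx2⟩, hx3⟩ := mem_closure_iff.1 (frontier_subset_closure hy) _ hop ⟨hlt, hyb⟩
    have h1 := (hS x hx2).2
    have h2 : (0 : ℝ) < u x := hx3
    have h3 : max (⟪e, x⟫_ℝ + δ) 0 = 0 := max_eq_right (by linarith [show ⟪e, x⟫_ℝ < -δ from hx1])
    rw [h3] at h1
    linarith
  · have h1 := (hS y hyb).1
    rw [hu0] at h1
    have h2 := le_max_left (⟪e, y⟫_ℝ + -δ) 0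
    linarith

/-- **F5** -/
theorem F5 (hF3 : F3Stmt d) (hJ : Jet3Stmt d) (hBl : BlowStmt d) : F5Stmt d := by
  obtain ⟨δ, C, hδ, hC, hmain⟩ := F5zero hF3 hJ hBl
  refine ⟨δ / 4, by positivity, 6 * C, by linarith, ?_⟩
  intro u K e hu he hS y hy hyb
  have hyn : ‖y‖ < 1 / 2 := mem_ball_zero_iff.1 hyb
  have hyb1 : y ∈ ball (0 : E d) 1 := mem_ball_zero_iff.2 (by linarith)
  have hu0 := val_frontier hu.lip.continuous hu.nonneg hy
  have hh := height_frontier hu.lip.continuous hu.nonneg hS hy hyb1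
  rw [abs_le] at hh
  have h2 : (0 : ℝ) < 1 / 2 := by norm_num
  have hv := hBl u K hu y (1 / 2) h2
  have ev : ∀ x, blow u y (1 / 2) x = 2 * u (y + (1 / 2 : ℝ) • x) := fun x => by
    rw [blow]; ring
  have hvS : Sand (blow u y (1 / 2)) (fun x => ⟪e, x⟫_ℝ) (-δ) δ (ball 0 1) := by
    intro x hx
    have hxn : ‖x‖ < 1 := mem_ball_zero_iff.1 hx
    have hz : y + (1 / 2 : ℝ) • x ∈ ball (0 : E d) 1 := by
      rw [mem_ball_zero_iff]
      refine (norm_add_le _ _).trans_lt ?_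
      rw [norm_smul, Real.norm_eq_abs, abs_of_pos h2]
      linarith
    obtain ⟨h3, h4⟩ := hS _ hz
    simp only [inner_add_right, inner_smul_right] at h3 h4
    simp only [ev]
    constructor
    · refine max_le ?_ ?_
      · have := (le_max_left _ _).trans h3
        linarith
      · have := (le_max_right _ _).trans h3
        linarith
    · rcases le_total (⟪e, y⟫_ℝ + 1 / 2 * ⟪e, x⟫_ℝ + δ / 4) 0 with h5 | h5
      · rw [max_eq_right h5] at h4
        exact le_trans (by linarith) (le_max_right _ _)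
      · rw [max_eq_left h5] at h4
        exact le_trans (by linarith) (le_max_left _ _)
  have hv0 : blow u y (1 / 2) 0 = 0 := by
    rw [ev, smul_zero, add_zero, hu0, mul_zero]
  have hvcl : (0 : E d) ∈ closure (Om (blow u y (1 / 2))) := by
    rw [Metric.mem_closure_iff]
    intro ε hε
    obtain ⟨x, hx, hd⟩ := Metric.mem_closure_iff.1 (frontier_subset_closure hy) (ε / 2)
      (by positivity)
    refine ⟨(2 : ℝ) • (x - y), ?_, ?_⟩
    · change 0 < blow u y (1 / 2) ((2 : ℝ) • (x - y))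
      rw [ev, smul_smul]
      norm_num
      exact hx
    · rw [dist_zero_left, norm_smul, Real.norm_eq_abs, abs_of_pos (by norm_num : (0 : ℝ) < 2)]
      rw [dist_comm, dist_eq_norm] at hd
      linarith
  obtain ⟨e', A', B', hE⟩ := hmain _ K e hv he hvS hv0 hvcl
  have key : ∀ z ∈ ball y (1 / 2 : ℝ),
      max (cub e' ((2 : ℝ) • A') ((2 : ℝ) ^ 2 • B') (z - y) -
        6 * C * (‖z - y‖ ^ 3 * Real.sqrt ‖z - y‖)) 0 ≤ u z ∧
      u z ≤ max (cub e' ((2 : ℝ) • A') ((2 : ℝ) ^ 2 • B') (z - y) +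
        6 * C * (‖z - y‖ ^ 3 * Real.sqrt ‖z - y‖)) 0 := by
    intro z hz
    rw [mem_ball, dist_eq_norm] at hz
    have hx : (2 : ℝ) • (z - y) ∈ ball (0 : E d) 1 := by
      rw [mem_ball_zero_iff, norm_smul, Real.norm_eq_abs, abs_of_pos (by norm_num : (0 : ℝ) < 2)]
      linarith
    have h3 := hE.lo _ hx
    have h4 := hE.hi _ hx
    have h5 : blow u y (1 / 2) ((2 : ℝ) • (z - y)) = 2 * u z := by
      rw [ev, smul_smul]
      norm_num
    rw [h5, sub_zero] at h3 h4
    rw [cub_scale e' A' B' (two_ne_zero) (z - y)]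
    have h6 : ‖(2 : ℝ) • (z - y)‖ = 2 * ‖z - y‖ := by
      rw [norm_smul, Real.norm_eq_abs, abs_of_pos (by norm_num : (0 : ℝ) < 2)]
    rw [h6] at h3 h4
    obtain ⟨s, hs⟩ : ∃ s, s = ‖z - y‖ := ⟨_, rfl⟩
    have hs0 : 0 ≤ s := by rw [hs]; exact norm_nonneg _
    obtain ⟨q, hq⟩ : ∃ q, q = Real.sqrt s := ⟨_, rfl⟩
    have hq0 : 0 ≤ q := by rw [hq]; exact Real.sqrt_nonneg _
    have h7 : Real.sqrt (2 * s) ≤ 3 / 2 * q := by
      rw [hq, Real.sqrt_le_left (by positivity), mul_pow, Real.sq_sqrt hs0]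
      linarith
    rw [← hs] at h3 h4 ⊢
    rw [← hq]
    have h8 : C * ((2 * s) ^ 3 * Real.sqrt (2 * s)) ≤ 12 * C * (s ^ 3 * q) := by
      have : C * ((2 * s) ^ 3 * Real.sqrt (2 * s)) ≤ C * ((2 * s) ^ 3 * (3 / 2 * q)) := by
        gcongr
      refine this.trans (le_of_eq ?_)
      ring
    obtain ⟨c, hc⟩ : ∃ c, c = cub e' A' B' ((2 : ℝ) • (z - y)) := ⟨_, rfl⟩
    rw [← hc] at h3 h4 ⊢
    constructor
    · refine max_le ?_ ?_
      · have := (le_max_left _ _).trans h3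
        linarith
      · have := (le_max_right _ _).trans h3
        linarith
    · rcases le_total (c + C * ((2 * s) ^ 3 * Real.sqrt (2 * s))) 0 with h9 | h9
      · rw [max_eq_right h9] at h4
        exact le_trans (by linarith) (le_max_right _ _)
      · rw [max_eq_left h9] at h4
        exact le_trans (by linarith) (le_max_left _ _)
  refine ⟨e', (2 : ℝ) • A', (2 : ℝ) ^ 2 • B', ⟨hE.kk.smul 2, ?_, ?_, fun x hx => (key x hx).1,
    fun x hx => (key x hx).2⟩⟩
  · rw [norm_smul, Real.norm_eq_abs, abs_of_pos (by norm_num : (0 : ℝ) < 2)]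
    have := hE.nA
    linarith
  · rw [norm_smul, Real.norm_eq_abs, abs_of_pos (by norm_num : (0 : ℝ) < (2 : ℝ) ^ 2)]
    have := hE.nB
    linarith

end Crest.Agent.R097
end

-- ▼ part R097/F3a
section

/-!
# Row 97, F3 (a): the barriers and the sup-convolution (helper392)
-/

set_option autoImplicit false
open MeasureTheory Metric Set Filter Topology InnerProductSpace
open scoped RealInnerProductSpace NNReal ENNReal Gradient Laplacian

namespace Crest.Agent.R097

variable {d : ℕ}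

namespace F3P

/-! ### the barriers -/

/-- barrier `P + δ h + σ (⟪e,x⟫ + ⟪e,x⟫²) + c` -/
noncomputable def bar (P h : E d → ℝ) (e : E d) (δ σ c : ℝ) (x : E d) : ℝ :=
  P x + δ * h x + σ * (⟪e, x⟫_ℝ + ⟪e, x⟫_ℝ ^ 2) + c

lemma contDiff_bar {P h : E d → ℝ} (hP : ContDiff ℝ 2 P) (hh : ContDiff ℝ 2 h) (e : E d)
    (δ σ c : ℝ) : ContDiff ℝ 2 (bar P h e δ σ c) := by
  have h0 : ContDiff ℝ 2 (fun x : E d => ⟪e, x⟫_ℝ) := contDiff_const.inner ℝ contDiff_id
  exact ((hP.add (contDiff_const.mul hh)).add (contDiff_const.mul (h0.add (h0.pow 2)))).add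
    contDiff_const

lemma hasFDerivAt_bar {P h : E d → ℝ} (hP : ContDiff ℝ 2 P) (hh : ContDiff ℝ 2 h) (e : E d)
    (δ σ c : ℝ) (x : E d) : HasFDerivAt (bar P h e δ σ c)
      (fderiv ℝ P x + δ • fderiv ℝ h x + (σ * (1 + 2 * ⟪e, x⟫_ℝ)) • innerSL ℝ e) x := by
  have h0 : HasFDerivAt (fun x : E d => ⟪e, x⟫_ℝ) (innerSL ℝ e) x := (innerSL ℝ e).hasFDerivAt
  have h1 : HasFDerivAt P (fderiv ℝ P x) x := (hP.differentiable (by norm_num) x).hasFDerivAt
  have h2 : HasFDerivAt h (fderiv ℝ h x) x := (hh.differentiable (by norm_num) x).hasFDerivAt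
  have h3 := ((h1.add (h2.const_mul δ)).add ((h0.add (h0.pow 2)).const_mul σ)).add_const c
  refine (h3.congr_of_eventuallyEq (Eventually.of_forall fun y => ?_)).congr_fderiv ?_
  · simp only [bar, Pi.add_apply]
  · ext v
    simp only [ContinuousLinearMap.add_apply, ContinuousLinearMap.smul_apply, smul_eq_mul]
    ring

lemma fderiv_bar {P h : E d → ℝ} (hP : ContDiff ℝ 2 P) (hh : ContDiff ℝ 2 h) (e : E d)
    (δ σ c : ℝ) (x : E d) : fderiv ℝ (bar P h e δ σ c) x =
      fderiv ℝ P x + δ • fderiv ℝ h x + (σ * (1 + 2 * ⟪e, x⟫_ℝ)) • innerSL ℝ e :=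
  (hasFDerivAt_bar hP hh e δ σ c x).fderiv

lemma laplacian_bar {P h : E d → ℝ} (hP : ContDiff ℝ 2 P) (hh : ContDiff ℝ 2 h) {e : E d}
    (he : ‖e‖ = 1) (δ σ c : ℝ) (x : E d) :
    (Δ (bar P h e δ σ c)) x = (Δ P) x + δ * (Δ h) x + 2 * σ := by
  rw [laplacian_eq_sum (contDiff_bar hP hh e δ σ c).contDiffAt, laplacian_eq_sum hP.contDiffAt,
    laplacian_eq_sum hh.contDiffAt]
  have hdP : ∀ i : Fin d, DifferentiableAt ℝ (fun y => fderiv ℝ P y (bv i)) x := fun i =>
    (((hP.fderiv_right (m := 1) (by norm_num)).differentiable (by norm_num)) x).clm_apply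
      (differentiableAt_const _)
  have hdh : ∀ i : Fin d, DifferentiableAt ℝ (fun y => fderiv ℝ h y (bv i)) x := fun i =>
    (((hh.fderiv_right (m := 1) (by norm_num)).differentiable (by norm_num)) x).clm_apply
      (differentiableAt_const _)
  have h1 : ∀ i : Fin d, fderiv ℝ (fun y => fderiv ℝ (bar P h e δ σ c) y (bv i)) x (bv i) =
      fderiv ℝ (fun y => fderiv ℝ P y (bv i)) x (bv i)
        + δ * fderiv ℝ (fun y => fderiv ℝ h y (bv i)) x (bv i) + 2 * σ * (e i * e i) := by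
    intro i
    have h2 : (fun y => fderiv ℝ (bar P h e δ σ c) y (bv i)) =
        fun y => (fderiv ℝ P y (bv i) + δ * fderiv ℝ h y (bv i))
          + σ * e i * (1 + 2 * ⟪e, y⟫_ℝ) := by
      funext y
      rw [fderiv_bar hP hh]
      simp only [ContinuousLinearMap.add_apply, ContinuousLinearMap.smul_apply, smul_eq_mul,
        innerSL_apply_apply, inner_bv']
      ring
    rw [h2]
    have h0 : HasFDerivAt (fun x : E d => ⟪e, x⟫_ℝ) (innerSL ℝ e) x :=
      (innerSL ℝ e).hasFDerivAt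
    have h3 : HasFDerivAt (fun y : E d => (fderiv ℝ P y (bv i) + δ * fderiv ℝ h y (bv i))
          + σ * e i * (1 + 2 * ⟪e, y⟫_ℝ)) _ x :=
      ((hdP i).hasFDerivAt.add ((hdh i).hasFDerivAt.const_mul δ)).add
        (((h0.const_mul 2).const_add 1).const_mul (σ * e i))
    rw [h3.fderiv]
    simp only [ContinuousLinearMap.add_apply, ContinuousLinearMap.smul_apply, smul_eq_mul,
      innerSL_apply_apply, inner_bv']
    ring
  have h4 : ∑ i, e i * e i = 1 := by
    have := EuclideanSpace.norm_sq_eq e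
    rw [he] at this
    simp only [Real.norm_eq_abs, sq_abs] at this
    rw [show (∑ i, e i * e i) = ∑ i, e i ^ 2 from Finset.sum_congr rfl fun i _ => by ring]
    linarith
  simp only [h1, Finset.sum_add_distrib, ← Finset.mul_sum, h4]
  ring

lemma norm_add_sq' (p v : E d →L[ℝ] ℝ) : ‖p + v‖ ^ 2 = ‖p‖ ^ 2 + 2 * dt p v + ‖v‖ ^ 2 := by
  rw [← dt_self, ← dt_self, ← dt_self, dt_add_left, dt_add_right, dt_add_right, dt_comm v p]
  ring

lemma dt_inner_self (e : E d) (he : ‖e‖ = 1) : (innerSL ℝ e) e = 1 := by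
  rw [innerSL_apply_apply, real_inner_self_eq_norm_sq, he]; norm_num

/-! ### evenness -/

lemma even_deriv {h : E d → ℝ} (hh : ContDiff ℝ 2 h) {e : E d} (he : ‖e‖ = 1)
    (hev : ∀ x, h (x - (2 * ⟪e, x⟫_ℝ) • e) = h x) {x0 : E d} (hx0 : ⟪e, x0⟫_ℝ = 0) :
    fderiv ℝ h x0 e = 0 := by
  set R : E d →L[ℝ] E d := ContinuousLinearMap.id ℝ (E d) -
    ((2 : ℝ) • innerSL ℝ e).smulRight e with hR
  have hRx : ∀ x, R x = x - (2 * ⟪e, x⟫_ℝ) • e := by
    intro x
    simp [hR]
  have hR0 : R x0 = x0 := by rw [hRx, hx0]; simp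
  have hRe : R e = -e := by
    rw [hRx, real_inner_self_eq_norm_sq, he]
    have : (2 * (1:ℝ) ^ 2) = 2 := by norm_num
    rw [this, two_smul]
    abel
  have h1 : HasFDerivAt h (fderiv ℝ h x0) (R x0) := by
    rw [hR0]; exact (hh.differentiable (by norm_num) x0).hasFDerivAt
  have h2 : HasFDerivAt (fun x => h (R x)) ((fderiv ℝ h x0).comp R) x0 :=
    h1.comp x0 R.hasFDerivAt
  have h3 : (fun x => h (R x)) = h := by
    funext x
    rw [hRx]; exact hev x
  rw [h3] at h2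
  have h4 := congrArg (fun T : E d →L[ℝ] ℝ => T e) h2.fderiv
  simp only [ContinuousLinearMap.comp_apply] at h4
  rw [hRe, map_neg] at h4
  linarith

lemma proj_norm_le {e : E d} (he : ‖e‖ = 1) (x : E d) : ‖x - ⟪e, x⟫_ℝ • e‖ ≤ ‖x‖ := by
  have h1 : ‖x - ⟪e, x⟫_ℝ • e‖ ^ 2 = ‖x‖ ^ 2 - ⟪e, x⟫_ℝ ^ 2 := by
    rw [norm_sub_sq_real, inner_smul_right, norm_smul, he, real_inner_comm x e,
      Real.norm_eq_abs, mul_one, sq_abs]
    ring
  have h2 : ‖x - ⟪e, x⟫_ℝ • e‖ ^ 2 ≤ ‖x‖ ^ 2 := by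
    rw [h1]; nlinarith [sq_nonneg ⟪e, x⟫_ℝ]
  exact (sq_le_sq₀ (norm_nonneg _) (norm_nonneg _)).1 h2

/-- the `e`-derivative of an even function is controlled by the distance to the hyperplane -/
lemma grad_e_le {h : E d → ℝ} (hh : ContDiff ℝ 2 h) {e : E d} (he : ‖e‖ = 1)
    (hev : ∀ x, h (x - (2 * ⟪e, x⟫_ℝ) • e) = h x) {s A : ℝ}
    (hA : ∀ y ∈ closedBall (0 : E d) s, ‖D2 h y‖ ≤ A) {x : E d}
    (hx : x ∈ closedBall (0 : E d) s) : |fderiv ℝ h x e| ≤ A * |⟪e, x⟫_ℝ| := by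
  set x0 := x - ⟪e, x⟫_ℝ • e with hx0d
  have hx0 : ⟪e, x0⟫_ℝ = 0 := by
    rw [hx0d, inner_sub_right, inner_smul_right, real_inner_self_eq_norm_sq, he]
    ring
  have hxn : ‖x‖ ≤ s := by simpa using hx
  have hx0m : x0 ∈ closedBall (0 : E d) s := by
    simpa using (proj_norm_le he x).trans hxn
  have hd2 : ∀ y ∈ closedBall (0 : E d) s, DifferentiableAt ℝ (fderiv ℝ h) y := fun y _ =>
    (hh.fderiv_right (m := 1) (by norm_num)).differentiable (by norm_num) y
  have h1 := (convex_closedBall (0 : E d) s).norm_image_sub_le_of_norm_fderiv_le hd2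
    (fun y hy => hA y hy) hx0m hx
  have h2 : x - x0 = ⟪e, x⟫_ℝ • e := by rw [hx0d]; abel
  rw [h2, norm_smul, he, mul_one, Real.norm_eq_abs] at h1
  have h3 : fderiv ℝ h x e = (fderiv ℝ h x - fderiv ℝ h x0) e := by
    rw [ContinuousLinearMap.sub_apply, even_deriv hh he hev hx0, sub_zero]
  rw [h3, ← Real.norm_eq_abs]
  refine (ContinuousLinearMap.le_opNorm _ _).trans ?_
  rw [he, mul_one]
  exact h1

end F3P

end Crest.Agent.R097
end

-- ▼ part R097/F3b
section

/-!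
# Row 97, F3 (b): the sup-convolution and its even version (helper392)
-/

set_option autoImplicit false
open MeasureTheory Metric Set Filter Topology InnerProductSpace
open scoped RealInnerProductSpace NNReal ENNReal Gradient Laplacian

namespace Crest.Agent.R097

variable {d : ℕ}

namespace F3P

/-- Lipschitz regularisation from above of a function bounded by one on a set -/
lemma exists_supconv (K : ℝ≥0) (w : E d → ℝ) (A : Set (E d)) (hw1 : ∀ x ∈ A, w x ≤ 1) :
    ∃ G : E d → ℝ, LipschitzWith K G ∧ (∀ z, |G z| ≤ 1) ∧ (∀ z ∈ A, w z ≤ G z) ∧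
      ∀ z b, -1 ≤ b → (∀ x ∈ A, w x - K * ‖x - z‖ ≤ b) → G z ≤ b := by
  set T : E d → Set ℝ := fun z => insert (-1) ((fun x => w x - K * ‖x - z‖) '' A) with hT
  have hne : ∀ z, (T z).Nonempty := fun z => ⟨-1, mem_insert _ _⟩
  have hub : ∀ z, ∀ t ∈ T z, t ≤ 1 := by
    intro z t ht
    rcases ht with rfl | ⟨x, hx, rfl⟩
    · norm_num
    · have h1 := hw1 x hx
      have h2 : 0 ≤ (K : ℝ) * ‖x - z‖ := by positivity
      show w x - K * ‖x - z‖ ≤ 1
      linarith
  have hbd : ∀ z, BddAbove (T z) := fun z => ⟨1, hub z⟩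
  set G : E d → ℝ := fun z => sSup (T z) with hG
  have hle : ∀ z, ∀ t ∈ T z, t ≤ G z := fun z t ht => le_csSup (hbd z) ht
  have hGle : ∀ z b, -1 ≤ b → (∀ x ∈ A, w x - K * ‖x - z‖ ≤ b) → G z ≤ b := by
    intro z b hb hx
    refine csSup_le (hne z) ?_
    intro t ht
    rcases ht with rfl | ⟨x, hxA, rfl⟩
    · exact hb
    · exact hx x hxA
  have hG1 : ∀ z, -1 ≤ G z := fun z => hle z _ (mem_insert _ _)
  refine ⟨G, ?_, ?_, ?_, hGle⟩
  · refine LipschitzWith.of_le_add_mul K fun z z' => ?_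
    refine hGle z _ ?_ ?_
    · have h1 := hG1 z'
      have h2 : 0 ≤ (K : ℝ) * dist z z' := by positivity
      linarith
    · intro x hx
      have h1 := hle z' _ (mem_insert_of_mem _ ⟨x, hx, rfl⟩)
      have h2 : ‖x - z'‖ ≤ ‖x - z‖ + dist z z' := by
        rw [dist_eq_norm]
        have : x - z' = (x - z) + (z - z') := by abel
        rw [this]; exact norm_add_le _ _
      have h3 : (K : ℝ) * ‖x - z'‖ ≤ K * (‖x - z‖ + dist z z') :=
        mul_le_mul_of_nonneg_left h2 K.2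
      simp only at h1
      linarith
  · intro z
    rw [abs_le]
    exact ⟨hG1 z, csSup_le (hne z) (hub z)⟩
  · intro z hz
    have h1 := hle z _ (mem_insert_of_mem _ ⟨z, hz, rfl⟩)
    simpa using h1

/-- even version -/
lemma exists_even {K : ℝ≥0} {G : E d → ℝ} (hG : LipschitzWith K G) (hG1 : ∀ z, |G z| ≤ 1)
    {e : E d} (he : ‖e‖ = 1) : ∃ g : E d → ℝ, LipschitzWith (K * 3) g ∧ (∀ z, |g z| ≤ 1) ∧
      (∀ x, g (x - (2 * ⟪e, x⟫_ℝ) • e) = g x) ∧
      ∀ κ : ℝ, 0 ≤ κ → ∀ z, -κ ≤ ⟪e, z⟫_ℝ → |g z - G z| ≤ K * (2 * κ) := by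
  have hee : ⟪e, e⟫_ℝ = 1 := by rw [real_inner_self_eq_norm_sq, he]; norm_num
  refine ⟨fun z => G (z + (|⟪e, z⟫_ℝ| - ⟪e, z⟫_ℝ) • e), ?_, fun z => hG1 _, ?_, ?_⟩
  · have hin : ∀ x y : E d, |⟪e, x⟫_ℝ - ⟪e, y⟫_ℝ| ≤ dist x y := by
      intro x y
      rw [← inner_sub_right, dist_eq_norm]
      have := abs_real_inner_le_norm e (x - y)
      rwa [he, one_mul] at this
    have h1 : LipschitzWith 3 fun z : E d => z + (|⟪e, z⟫_ℝ| - ⟪e, z⟫_ℝ) • e := by
      refine LipschitzWith.of_dist_le_mul fun x y => ?_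
      rw [dist_eq_norm]
      have e1 : x + (|⟪e, x⟫_ℝ| - ⟪e, x⟫_ℝ) • e - (y + (|⟪e, y⟫_ℝ| - ⟪e, y⟫_ℝ) • e)
          = (x - y) + ((|⟪e, x⟫_ℝ| - |⟪e, y⟫_ℝ|) - (⟪e, x⟫_ℝ - ⟪e, y⟫_ℝ)) • e := by
        module
      rw [e1]
      refine (norm_add_le _ _).trans ?_
      rw [norm_smul, he, mul_one, Real.norm_eq_abs]
      have h2 := hin x y
      have h3 := abs_abs_sub_abs_le_abs_sub ⟪e, x⟫_ℝ ⟪e, y⟫_ℝ
      have h4 := abs_sub (|⟪e, x⟫_ℝ| - |⟪e, y⟫_ℝ|) (⟪e, x⟫_ℝ - ⟪e, y⟫_ℝ)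
      rw [← dist_eq_norm x y]
      have h5 : ((3 : ℝ≥0) : ℝ) = 3 := by norm_num
      rw [h5]
      linarith
    exact hG.comp h1
  · intro x
    simp only
    have h1 : ⟪e, x - (2 * ⟪e, x⟫_ℝ) • e⟫_ℝ = -⟪e, x⟫_ℝ := by
      rw [inner_sub_right, inner_smul_right, hee]; ring
    rw [h1, abs_neg]
    congr 1
    module
  · intro κ hκ z hz
    have h1 := hG.dist_le_mul (z + (|⟪e, z⟫_ℝ| - ⟪e, z⟫_ℝ) • e) z
    rw [Real.dist_eq, dist_eq_norm, add_sub_cancel_left, norm_smul, he, mul_one,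
      Real.norm_eq_abs] at h1
    refine h1.trans (mul_le_mul_of_nonneg_left ?_ K.2)
    rcases le_total 0 ⟪e, z⟫_ℝ with h | h
    · rw [abs_of_nonneg h, sub_self, abs_zero]; linarith
    · rw [abs_of_nonpos h, abs_le]
      constructor <;> linarith

end F3P

end Crest.Agent.R097
end

-- ▼ part R097/F3
section

/-!
# Row 97, F3: the improved sandwich by an even harmonic function (helper392)
-/

set_option autoImplicit false
open MeasureTheory Metric Set Filter Topology InnerProductSpace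
open scoped RealInnerProductSpace NNReal ENNReal Gradient Laplacian

namespace Crest.Agent.R097

variable {d : ℕ}

namespace F3P

lemma Nice.mono {P : E d → ℝ} {e : E d} {k k' δ : ℝ} (h : Nice P e k δ) (hk : k ≤ k')
    (hδ : 0 ≤ δ) : Nice P e k' δ where
  c2 := h.c2
  close := fun x hx => (h.close x hx).trans hk
  dclose := fun x hx => (h.dclose x hx).trans hk
  lap := fun x hx => (h.lap x hx).trans (mul_le_mul_of_nonneg_right hk hδ)
  grad := fun x hx h3 => (h.grad x hx h3).trans (mul_le_mul_of_nonneg_right hk hδ)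

lemma abs_inner_e_le {e : E d} (he : ‖e‖ = 1) (x : E d) : |⟪e, x⟫_ℝ| ≤ ‖x‖ := by
  have := abs_real_inner_le_norm e x
  rwa [he, one_mul] at this

lemma q_bd {t : ℝ} (h : |t| ≤ 1 / 2) : -(1 / 4) ≤ t + t ^ 2 ∧ t + t ^ 2 ≤ 3 / 4 := by
  have h1 := abs_le.1 h
  constructor
  · nlinarith [sq_nonneg (t + 1 / 2)]
  · have h2 : t ^ 2 ≤ (1 / 2) ^ 2 := by
      rw [← sq_abs t]
      exact pow_le_pow_left₀ (abs_nonneg t) h 2
    linarith [h1.2]

/-- the even Lipschitz function seen by the local sandwiches -/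
lemma exists_g {u P : E d → ℝ} {e : E d} (he : ‖e‖ = 1) {δ η r₁ κ : ℝ} (hδ : 0 < δ)
    (hr₁ : 0 < r₁) (hκ : 0 ≤ κ) (hKκ : 2 / r₁ * (2 * κ) ≤ η)
    (hS : Sand u P (-δ) δ (ball (0 : E d) 1))
    (hloc : ∀ x₀ ∈ ball (0 : E d) (3 / 4), ∃ a b : ℝ, -1 ≤ a ∧ a ≤ b ∧ b ≤ 1 ∧ b - a ≤ η ∧
        Sand u P (a * δ) (b * δ) (ball x₀ r₁)) :
    ∃ g : E d → ℝ, LipschitzWith (⟨2 / r₁, by positivity⟩ * 3 : ℝ≥0) g ∧ (∀ z, |g z| ≤ 1) ∧
      (∀ x, g (x - (2 * ⟪e, x⟫_ℝ) • e) = g x) ∧
      ∀ x ∈ ball (0 : E d) (1 / 2), -κ ≤ ⟪e, x⟫_ℝ →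
        (0 < u x → u x - P x ≤ δ * (g x + 2 * η) ∧ δ * (g x - 2 * η) ≤ u x - P x) ∧
        (u x = 0 → P x + δ * (g x - 2 * η) ≤ 0) := by
  set K : ℝ≥0 := ⟨2 / r₁, by positivity⟩ with hK
  have hKr : (K : ℝ) = 2 / r₁ := rfl
  set w : E d → ℝ := fun x => (u x - P x) / δ with hw
  have hwδ : ∀ x, δ * w x = u x - P x := fun x => by simp only [hw]; field_simp
  set A : Set (E d) := {x | 0 < u x} ∩ ball (0 : E d) (3 / 4) with hA
  have hw1 : ∀ x ∈ A, w x ≤ 1 := by
    intro x hx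
    have h1 := (hS x (ball_subset_ball (by norm_num) hx.2)).2
    have h2 : 0 < u x := hx.1
    have h3 : u x ≤ P x + δ := by
      rcases le_max_iff.1 h1 with h | h
      · exact h
      · linarith
    simp only [hw]
    rw [div_le_one hδ]; linarith
  obtain ⟨G, hGl, hG1, hGw, hGle⟩ := exists_supconv K w A hw1
  obtain ⟨g, hgl, hg1, hge, hgG⟩ := exists_even hGl hG1 he
  refine ⟨g, hgl, hg1, hge, ?_⟩
  intro x hx hxe
  have hx34 : x ∈ ball (0 : E d) (3 / 4) := ball_subset_ball (by norm_num) hx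
  obtain ⟨a, b, ha, hab, hb, hba, hab'⟩ := hloc x hx34
  have hgx : |g x - G x| ≤ η := (hgG κ hκ x hxe).trans hKκ
  rw [abs_le] at hgx
  have hGb : G x ≤ b := by
    refine hGle x b (by linarith) ?_
    intro y hy
    by_cases hyr : ‖y - x‖ < r₁
    · have h1 := (hab' y (by rw [mem_ball, dist_eq_norm]; exact hyr)).2
      have h2 : 0 < u y := hy.1
      have h3 : u y ≤ P y + b * δ := by
        rcases le_max_iff.1 h1 with h | h
        · exact h
        · linarith
      have h4 : w y ≤ b := by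
        simp only [hw]
        rw [div_le_iff₀ hδ]; linarith
      have h5 : 0 ≤ (K : ℝ) * ‖y - x‖ := by positivity
      linarith
    · have h1 := hw1 y hy
      have h2 : 2 ≤ (K : ℝ) * ‖y - x‖ := by
        rw [hKr]
        calc (2:ℝ) = 2 / r₁ * r₁ := by field_simp
          _ ≤ 2 / r₁ * ‖y - x‖ := mul_le_mul_of_nonneg_left (not_lt.1 hyr) (by positivity)
      linarith
  have hlow : P x + a * δ ≤ u x :=
    (le_max_left _ _).trans (hab' x (mem_ball_self hr₁)).1
  constructor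
  · intro hux
    have h1 := hGw x ⟨hux, hx34⟩
    have h3 : a ≤ w x := by
      simp only [hw]
      rw [le_div_iff₀ hδ]; linarith
    rw [← hwδ x]
    constructor
    · exact mul_le_mul_of_nonneg_left (by linarith) hδ.le
    · exact mul_le_mul_of_nonneg_left (by linarith) hδ.le
  · intro hux
    have h1 : δ * (g x - 2 * η) ≤ δ * a := mul_le_mul_of_nonneg_left (by linarith) hδ.le
    rw [hux] at hlow
    linarith

/-- the gradient of the lower barrier -/
lemma grad_low {p p' : E d →L[ℝ] ℝ} {e : E d} (he : ‖e‖ = 1) {η δ k κ A B s : ℝ}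
    (hη : 0 < η) (hη1 : η ≤ 1) (hδ : 0 < δ) (hk : k ≤ η / 4) (hkB : k * B ≤ η / 4)
    (hAκ : (2 * η + A) * κ ≤ η / 4) (hA : 0 ≤ A) (hs : |s| ≤ κ)
    (hpe : ‖p - innerSL ℝ e‖ ≤ k) (hp : 1 - k * δ ≤ ‖p‖ ^ 2) (hp'B : ‖p'‖ + 2 ≤ B)
    (hp'e : |p' e| ≤ A * |s|) (hs1 : |s| ≤ 1 / 2) :
    1 < ‖p + δ • p' + (η * δ * (1 + 2 * s)) • innerSL ℝ e‖ := by
  set v : E d →L[ℝ] ℝ := p' + (η * (1 + 2 * s)) • innerSL ℝ e with hv
  have e1 : p + δ • p' + (η * δ * (1 + 2 * s)) • innerSL ℝ e = p + δ • v := by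
    rw [hv, smul_add, smul_smul, add_assoc]
    congr 3
    ring
  have hs1' := abs_le.1 hs1
  have hvB : ‖v‖ ≤ B := by
    refine (norm_add_le _ _).trans ?_
    rw [norm_smul, innerSL_apply_norm, he, mul_one, Real.norm_eq_abs,
      abs_of_nonneg (mul_nonneg hη.le (by linarith))]
    nlinarith
  have hB0 : 0 ≤ B := (norm_nonneg v).trans hvB
  have hve : η - (2 * η + A) * κ ≤ v e := by
    have h1 : v e = p' e + η * (1 + 2 * s) := by
      simp only [hv, add_apply, smul_apply, smul_eq_mul]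
      rw [dt_inner_self e he, mul_one]
    rw [h1]
    have h2 := (abs_le.1 hp'e).1
    have h3 := (abs_le.1 (le_refl |s|)).1
    have h4 : (2 * η + A) * |s| ≤ (2 * η + A) * κ := mul_le_mul_of_nonneg_left hs (by linarith)
    have h5 : η * (2 * (-|s|)) ≤ η * (2 * s) := mul_le_mul_of_nonneg_left (by linarith) hη.le
    linarith
  have hdt : η - (2 * η + A) * κ - k * B ≤ dt p v := by
    have h1 : dt p v = dt (p - innerSL ℝ e) v + v e := by
      rw [dt_sub_left, dt_inner]; ring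
    have h2 := (abs_le.1 (abs_dt_le (p - innerSL ℝ e) v)).1
    have h3 : ‖p - innerSL ℝ e‖ * ‖v‖ ≤ k * B :=
      mul_le_mul hpe hvB (norm_nonneg _) ((norm_nonneg _).trans hpe)
    rw [h1]; linarith
  have hsq : 1 < ‖p + δ • v‖ ^ 2 := by
    rw [norm_add_sq', dt_smul_right]
    have h1 : 0 ≤ ‖δ • v‖ ^ 2 := by positivity
    have h2 : δ * (η / 2) ≤ δ * dt p v := mul_le_mul_of_nonneg_left (by linarith) hδ.le
    have h3 : k * δ ≤ η / 4 * δ := mul_le_mul_of_nonneg_right hk hδ.le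
    have h4 : 0 < η * δ := mul_pos hη hδ
    nlinarith
  rw [e1]
  have h0 := norm_nonneg (p + δ • v)
  nlinarith

/-- the gradient of the upper barrier -/
lemma grad_up {p p' : E d →L[ℝ] ℝ} {e : E d} (he : ‖e‖ = 1) {η δ k κ A B s : ℝ}
    (hη : 0 < η) (hη1 : η ≤ 1) (hδ : 0 < δ) (hk : k ≤ η / 4) (hkB : k * B ≤ η / 4)
    (hδB : δ * B ^ 2 ≤ η / 4)
    (hAκ : (2 * η + A) * κ ≤ η / 4) (hA : 0 ≤ A) (hs : |s| ≤ κ)
    (hpe : ‖p - innerSL ℝ e‖ ≤ k) (hp : ‖p‖ ^ 2 ≤ 1 + k * δ) (hp'B : ‖p'‖ + 2 ≤ B)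
    (hp'e : |p' e| ≤ A * |s|) (hs1 : |s| ≤ 1 / 2) :
    ‖p + δ • p' + (-(η * δ) * (1 + 2 * s)) • innerSL ℝ e‖ < 1 := by
  set v : E d →L[ℝ] ℝ := p' + (-η * (1 + 2 * s)) • innerSL ℝ e with hv
  have e1 : p + δ • p' + (-(η * δ) * (1 + 2 * s)) • innerSL ℝ e = p + δ • v := by
    rw [hv, smul_add, smul_smul, add_assoc]
    congr 3
    ring
  have hs1' := abs_le.1 hs1
  have hvB : ‖v‖ ≤ B := by
    refine (norm_add_le _ _).trans ?_
    rw [norm_smul, innerSL_apply_norm, he, mul_one, Real.norm_eq_abs, neg_mul, abs_neg,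
      abs_of_nonneg (mul_nonneg hη.le (by linarith))]
    nlinarith
  have hB0 : 0 ≤ B := (norm_nonneg v).trans hvB
  have hve : v e ≤ -η + (2 * η + A) * κ := by
    have h1 : v e = p' e + -η * (1 + 2 * s) := by
      simp only [hv, add_apply, smul_apply, smul_eq_mul]
      rw [dt_inner_self e he, mul_one]
    rw [h1]
    have h2 := (abs_le.1 hp'e).2
    have h3 := (abs_le.1 (le_refl |s|)).1
    have h4 : (2 * η + A) * |s| ≤ (2 * η + A) * κ := mul_le_mul_of_nonneg_left hs (by linarith)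
    have h5 : η * (2 * (-|s|)) ≤ η * (2 * s) := mul_le_mul_of_nonneg_left (by linarith) hη.le
    linarith
  have hdt : dt p v ≤ -η + (2 * η + A) * κ + k * B := by
    have h1 : dt p v = dt (p - innerSL ℝ e) v + v e := by
      rw [dt_sub_left, dt_inner]; ring
    have h2 := (abs_le.1 (abs_dt_le (p - innerSL ℝ e) v)).2
    have h3 : ‖p - innerSL ℝ e‖ * ‖v‖ ≤ k * B :=
      mul_le_mul hpe hvB (norm_nonneg _) ((norm_nonneg _).trans hpe)
    rw [h1]; linarith
  have hsq : ‖p + δ • v‖ ^ 2 < 1 := by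
    rw [norm_add_sq', dt_smul_right]
    have h1 : ‖δ • v‖ ^ 2 ≤ δ * (η / 4) := by
      rw [norm_smul, Real.norm_eq_abs, abs_of_pos hδ, mul_pow]
      have h6 : ‖v‖ ^ 2 ≤ B ^ 2 := by
        have := norm_nonneg v
        nlinarith
      calc δ ^ 2 * ‖v‖ ^ 2 ≤ δ ^ 2 * B ^ 2 := mul_le_mul_of_nonneg_left h6 (by positivity)
        _ = δ * (δ * B ^ 2) := by ring
        _ ≤ δ * (η / 4) := mul_le_mul_of_nonneg_left hδB hδ.le
    have h2 : δ * dt p v ≤ δ * (-(η / 2)) := mul_le_mul_of_nonneg_left (by linarith) hδ.le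
    have h3 : k * δ ≤ η / 4 * δ := mul_le_mul_of_nonneg_right hk hδ.le
    have h4 : 0 < η * δ := mul_pos hη hδ
    nlinarith
  rw [e1]
  have h0 := norm_nonneg (p + δ • v)
  by_contra hc
  have hc' := not_lt.1 hc
  nlinarith

end F3P

set_option maxHeartbeats 1000000 in
open F3P in
/-- **F3**: the improved sandwich -/
theorem F3 (hV1 : V1Stmt d) (hV2 : V2Stmt d) (hF2 : F2Stmt d) (hDir : DirStmt d)
    (hJet : JetStmt d) : F3Stmt d := by
  intro ε hε
  set η : ℝ := min ε 1 / 8 with hηd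
  have hη0 : 0 < η := by
    have : 0 < min ε 1 := lt_min hε one_pos
    positivity
  have hη8 : η ≤ 1 / 8 := by
    have : min ε 1 ≤ 1 := min_le_right _ _
    linarith
  have hηε : 8 * η ≤ ε := by
    have : min ε 1 ≤ ε := min_le_left _ _
    linarith
  obtain ⟨r₁, hr₁, k₁, hk₁, δ₁, hδ₁, hF2⟩ := hF2 η hη0
  obtain ⟨C, hC, hJ⟩ := hJet
  obtain ⟨τ, hτ, hτ8, hD⟩ := hDir (⟨2 / r₁, by positivity⟩ * 3) η hη0
  set A : ℝ := C * 2 / τ ^ 2 with hA
  have hA0 : 0 ≤ A := by positivity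
  set B : ℝ := C * 2 / τ + 2 with hB
  have hB0 : 0 < B := by positivity
  set κ : ℝ := min (η * r₁ / 4) (η / (4 * (2 * η + A))) with hκ
  have hκ0 : 0 < κ := lt_min (by positivity) (by positivity)
  have hκ1 : 2 / r₁ * (2 * κ) ≤ η := by
    have h1 : κ ≤ η * r₁ / 4 := min_le_left _ _
    calc 2 / r₁ * (2 * κ) ≤ 2 / r₁ * (2 * (η * r₁ / 4)) :=
          mul_le_mul_of_nonneg_left (by linarith) (by positivity)
      _ = η := by field_simp; ring
  have hκ2 : (2 * η + A) * κ ≤ η / 4 := by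
    have h1 : κ ≤ η / (4 * (2 * η + A)) := min_le_right _ _
    calc (2 * η + A) * κ ≤ (2 * η + A) * (η / (4 * (2 * η + A))) :=
          mul_le_mul_of_nonneg_left h1 (by positivity)
      _ = η / 4 := by field_simp
  set k₀ : ℝ := min k₁ (min (η / 4) (min (η / (4 * B)) (κ / 2))) with hk₀
  have hk0 : 0 < k₀ := lt_min hk₁ (lt_min (by positivity) (lt_min (by positivity) (by positivity)))
  have hkk1 : k₀ ≤ k₁ := min_le_left _ _
  have hkη : k₀ ≤ η / 4 := (min_le_right _ _).trans (min_le_left _ _)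
  have hkB : k₀ * B ≤ η / 4 := by
    have h1 : k₀ ≤ η / (4 * B) :=
      (min_le_right _ _).trans ((min_le_right _ _).trans (min_le_left _ _))
    calc k₀ * B ≤ η / (4 * B) * B := mul_le_mul_of_nonneg_right h1 hB0.le
      _ = η / 4 := by field_simp
  have hkκ : k₀ ≤ κ / 2 :=
    (min_le_right _ _).trans ((min_le_right _ _).trans (min_le_right _ _))
  set δ₀ : ℝ := min δ₁ (min (κ / 6) (η / (4 * B ^ 2))) with hδ₀
  refine ⟨k₀, hk0, δ₀, lt_min hδ₁ (lt_min (by positivity) (by positivity)), ?_⟩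
  intro u K' P e δ hu he hδ hδδ hN hS
  have hδ1 : δ ≤ δ₁ := hδδ.trans (min_le_left _ _)
  have hδκ : δ ≤ κ / 6 := hδδ.trans ((min_le_right _ _).trans (min_le_left _ _))
  have hδB : δ * B ^ 2 ≤ η / 4 := by
    have h1 : δ ≤ η / (4 * B ^ 2) := hδδ.trans ((min_le_right _ _).trans (min_le_right _ _))
    calc δ * B ^ 2 ≤ η / (4 * B ^ 2) * B ^ 2 := mul_le_mul_of_nonneg_right h1 (by positivity)
      _ = η / 4 := by field_simp
  have hηδ : 0 < η * δ := mul_pos hη0 hδ
  obtain ⟨g, hgl, hg1, hge, hgk⟩ := exists_g (κ := κ) (η := η) he hδ hr₁ hκ0.le hκ1 hS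
    (hF2 u K' P e δ hu he hδ hδ1 (Nice.mono hN hkk1 hδ.le) hS)
  obtain ⟨h, hh, hΔh, hhe, hh2, hhg⟩ := hD e he g hgl hg1 hge
  have hhC2 : ContDiff ℝ 2 h := by exact_mod_cast contDiff_infty.1 hh 2
  refine ⟨h, hh, hΔh, hhe, hh2, ?_⟩
  set D : Set (E d) := ball (0 : E d) (1 / 2) with hDd
  set S : Set (E d) := closedBall (0 : E d) (1 / 2 - τ) with hSd
  have hSD : S ⊆ D := closedBall_subset_ball (by linarith)
  have hD1 : ∀ x ∈ D, x ∈ ball (0 : E d) 1 := fun x hx => ball_subset_ball (by norm_num) hx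
  -- elementary bounds on `D`
  have hxe : ∀ x ∈ D, |⟪e, x⟫_ℝ| ≤ 1 / 2 := by
    intro x hx
    have h1 : ‖x‖ < 1 / 2 := by simpa [hDd] using hx
    exact (abs_inner_e_le he x).trans h1.le
  have hq : ∀ x ∈ D, -(1 / 4) ≤ ⟪e, x⟫_ℝ + ⟪e, x⟫_ℝ ^ 2 ∧ ⟪e, x⟫_ℝ + ⟪e, x⟫_ℝ ^ 2 ≤ 3 / 4 := by
    intro x hx
    exact q_bd (hxe x hx)
  have hPx : ∀ x ∈ D, |P x - ⟪e, x⟫_ℝ| ≤ k₀ := fun x hx => hN.close x (hD1 x hx)
  have hh2' : ∀ x ∈ D, -(2 * δ) ≤ δ * h x ∧ δ * h x ≤ 2 * δ := by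
    intro x hx
    have h1 := abs_le.1 (hh2 x hx)
    have h2 := mul_le_mul_of_nonneg_left h1.1 hδ.le
    have h3 := mul_le_mul_of_nonneg_left h1.2 hδ.le
    constructor <;> linarith
  -- the annulus
  have hann : ∀ x ∈ D, x ∉ S → |h x - g x| ≤ η := by
    intro x hx hxS
    refine hhg x hx ?_
    have h1 : ¬ ‖x‖ ≤ 1 / 2 - τ := by simpa [hSd] using hxS
    exact (not_le.1 h1).le
  have hann2 : ∀ x ∈ D, x ∉ S → δ * (g x) - η * δ ≤ δ * h x ∧ δ * h x ≤ δ * (g x) + η * δ := by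
    intro x hx hxS
    have h1 := abs_le.1 (hann x hx hxS)
    have h2 := mul_le_mul_of_nonneg_left h1.1 hδ.le
    have h3 := mul_le_mul_of_nonneg_left h1.2 hδ.le
    constructor <;> linarith
  -- the barriers
  set Ψ : E d → ℝ := bar P h e δ (η * δ) (-(6 * (η * δ))) with hΨ
  set Φ : E d → ℝ := bar P h e δ (-(η * δ)) (6 * (η * δ)) with hΦ
  have hΨv : ∀ x, Ψ x = P x + δ * h x + η * δ * (⟪e, x⟫_ℝ + ⟪e, x⟫_ℝ ^ 2) - 6 * (η * δ) := by
    intro x; simp only [hΨ, bar]; ring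
  have hΦv : ∀ x, Φ x = P x + δ * h x - η * δ * (⟪e, x⟫_ℝ + ⟪e, x⟫_ℝ ^ 2) + 6 * (η * δ) := by
    intro x; simp only [hΦ, bar]; ring
  have hqδ : ∀ x ∈ D, -(1 / 4 * (η * δ)) ≤ η * δ * (⟪e, x⟫_ℝ + ⟪e, x⟫_ℝ ^ 2) ∧
      η * δ * (⟪e, x⟫_ℝ + ⟪e, x⟫_ℝ ^ 2) ≤ 3 / 4 * (η * δ) := by
    intro x hx
    have h1 := hq x hx
    have h2 := mul_le_mul_of_nonneg_left h1.1 hηδ.le
    have h3 := mul_le_mul_of_nonneg_left h1.2 hηδ.le
    constructor <;> linarith
  have hpos_e : ∀ x ∈ D, 0 < u x → -κ ≤ ⟪e, x⟫_ℝ ∧ -δ < P x := by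
    intro x hx hux
    have h1 := (hS x (hD1 x hx)).2
    have h2 : u x ≤ P x + δ := by
      rcases le_max_iff.1 h1 with h | h
      · exact h
      · linarith
    have h3 := abs_le.1 (hPx x hx)
    constructor <;> linarith
  have hlowS : ∀ x ∈ D, x ∉ S → Ψ x ≤ u x := by
    intro x hx hxS
    have h1 := hqδ x hx
    have h2 := hann2 x hx hxS
    rw [hΨv]
    rcases (hu.nonneg x).lt_or_eq with hux | hux
    · have h3 := ((hgk x hx (hpos_e x hx hux).1).1 hux).2
      linarith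
    · rw [← hux]
      by_cases hxk : -κ ≤ ⟪e, x⟫_ℝ
      · have h3 := (hgk x hx hxk).2 hux.symm
        linarith
      · have h3 := (abs_le.1 (hPx x hx)).2
        have h4 := (hh2' x hx).2
        have h5 := not_le.1 hxk
        linarith
  have hupS : ∀ x ∈ D, x ∉ S → u x ≤ max (Φ x) 0 := by
    intro x hx hxS
    have h1 := hqδ x hx
    have h2 := hann2 x hx hxS
    rcases (hu.nonneg x).lt_or_eq with hux | hux
    · refine le_max_of_le_left ?_
      rw [hΦv]
      have h3 := ((hgk x hx (hpos_e x hx hux).1).1 hux).1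
      linarith
    · rw [← hux]; exact le_max_right _ _
  -- derivatives of `h` on `S`
  have hjet : ∀ y ∈ S, ‖fderiv ℝ h y‖ ≤ C * 2 / τ ∧ ‖D2 h y‖ ≤ A := by
    intro y hy
    have hsub : ball y τ ⊆ D := by
      intro z hz
      have h1 : ‖z - y‖ < τ := by rwa [mem_ball, dist_eq_norm] at hz
      have h2 : ‖y‖ ≤ 1 / 2 - τ := by simpa [hSd] using hy
      have h3 : ‖z‖ ≤ ‖z - y‖ + ‖y‖ := by
        have := norm_add_le (z - y) y
        rwa [sub_add_cancel] at this
      show z ∈ ball (0 : E d) (1 / 2)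
      rw [mem_ball_zero_iff]
      linarith
    exact hJ y τ hτ h 2 hhC2.contDiffOn (fun z _ => hΔh z) (fun z hz => hh2 z (hsub hz))
  have hjete : ∀ y ∈ S, |fderiv ℝ h y e| ≤ A * |⟪e, y⟫_ℝ| := fun y hy =>
    grad_e_le hhC2 he hhe (fun z hz => (hjet z hz).2) hy
  -- smallness of `x_e`
  have hsmall : ∀ x ∈ D, |P x| ≤ 3 * δ → |⟪e, x⟫_ℝ| ≤ κ := by
    intro x hx hP3
    have h1 := abs_le.1 (hPx x hx)
    have h2 := abs_le.1 hP3
    rw [abs_le]
    constructor <;> linarith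
  -- lower comparison
  have hlow : ∀ x ∈ D, Ψ x ≤ u x := by
    refine hV1 u K' hu D S Ψ isOpen_ball (isCompact_closedBall _ _) hSD
      (contDiff_bar hN.c2 hhC2 e _ _ _) ?_ ?_ ?_
    · intro x hx hlt
      by_contra hxS
      exact absurd (hlowS x hx hxS) (not_le.2 hlt)
    · intro x hx _
      rw [hΨ, laplacian_bar hN.c2 hhC2 he, hΔh]
      have h1 := (abs_le.1 (hN.lap x (hD1 x hx))).1
      have h2 := mul_le_mul_of_nonneg_right hkη hδ.le
      linarith
    · intro x hx hux hΨx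
      have hxS : x ∈ S := by
        by_contra hxS
        have := hlowS x hx hxS
        linarith
      have hP1 : P x ≤ δ := by
        have h1 := (hS x (hD1 x hx)).1
        rw [hux] at h1
        have := (le_max_left _ _).trans h1
        linarith
      have hP2 : -(3 * δ) ≤ P x := by
        rw [hΨv] at hΨx
        have h1 := (hh2' x hx).2
        have h2 := (hqδ x hx).2
        linarith
      have hP3 : |P x| ≤ 3 * δ := by rw [abs_le]; constructor <;> linarith
      have hg1 := (abs_le.1 (hN.grad x (hD1 x hx) hP3)).1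
      rw [hΨ, fderiv_bar hN.c2 hhC2]
      exact grad_low he hη0 (by linarith) hδ hkη hkB hκ2 hA0 (hsmall x hx hP3)
        (hN.dclose x (hD1 x hx)) (by linarith) (by have := (hjet x hxS).1; linarith)
        (hjete x hxS) (hxe x hx)
  have hup : ∀ x ∈ D, u x ≤ max (Φ x) 0 := by
    refine hV2 u K' hu D S Φ isOpen_ball (isCompact_closedBall _ _) hSD
      (contDiff_bar hN.c2 hhC2 e _ _ _) ?_ ?_ ?_
    · intro x hx hlt
      by_contra hxS
      exact absurd (hupS x hx hxS) (not_le.2 hlt)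
    · intro x hx _
      rw [hΦ, laplacian_bar hN.c2 hhC2 he, hΔh]
      have h1 := (abs_le.1 (hN.lap x (hD1 x hx))).2
      have h2 := mul_le_mul_of_nonneg_right hkη hδ.le
      linarith
    · intro x hx hux hΦx
      have hxS : x ∈ S := by
        by_contra hxS
        have h1 := hupS x hx hxS
        rw [max_eq_right hΦx] at h1
        linarith
      have hP1 := (hpos_e x hx hux).2
      have hP2 : P x ≤ 3 * δ := by
        rw [hΦv] at hΦx
        have h1 := (hh2' x hx).1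
        have h2 := (hqδ x hx).2
        linarith
      have hP3 : |P x| ≤ 3 * δ := by rw [abs_le]; constructor <;> linarith
      have hg1 := (abs_le.1 (hN.grad x (hD1 x hx) hP3)).2
      rw [hΦ, fderiv_bar hN.c2 hhC2]
      exact grad_up he hη0 (by linarith) hδ hkη hkB hδB hκ2 hA0 (hsmall x hx hP3)
        (hN.dclose x (hD1 x hx)) (by linarith) (by have := (hjet x hxS).1; linarith)
        (hjete x hxS) (hxe x hx)
  intro x hx
  have h8 : 7 * (η * δ) ≤ δ * ε := by
    have := mul_le_mul_of_nonneg_left hηε hδ.le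
    linarith
  have h1 := hqδ x hx
  constructor
  · refine max_le ?_ (hu.nonneg x)
    have h2 := hlow x hx
    rw [hΨv] at h2
    linarith
  · refine (hup x hx).trans (max_le_max ?_ le_rfl)
    rw [hΦv]
    linarith

end Crest.Agent.R097
end

-- ▼ part R097/F1Gauss
section

/-!
# Row 97, F1: the Gaussian barrier
-/

set_option autoImplicit false
open MeasureTheory Metric Set Filter Topology InnerProductSpace
open scoped RealInnerProductSpace NNReal ENNReal Gradient Laplacian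

namespace Crest.Agent.R097

variable {d : ℕ}

/-- the Gaussian barrier -/
noncomputable def gau (μ : ℝ) (z : E d) (x : E d) : ℝ := Real.exp (-(μ * ‖x - z‖ ^ 2))

lemma gau_pos (μ : ℝ) (z x : E d) : 0 < gau μ z x := Real.exp_pos _

lemma gau_le_one {μ : ℝ} (hμ : 0 ≤ μ) (z x : E d) : gau μ z x ≤ 1 := by
  unfold gau
  rw [Real.exp_le_one_iff]
  have : 0 ≤ μ * ‖x - z‖ ^ 2 := by positivity
  linarith

lemma contDiff_gau (μ : ℝ) (z : E d) {n : WithTop ℕ∞} : ContDiff ℝ n (gau (d := d) μ z) := by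
  unfold gau
  exact ((contDiff_const.mul ((contDiff_id.sub contDiff_const).norm_sq ℝ)).neg).exp

lemma hasFDerivAt_normsq_sub (z x : E d) :
    HasFDerivAt (fun x : E d => ‖x - z‖ ^ 2) (2 • innerSL ℝ (x - z)) x := by
  have h := ((hasFDerivAt_id (𝕜 := ℝ) x).sub_const z).norm_sq
  simpa using h

lemma hasFDerivAt_gau (μ : ℝ) (z x : E d) :
    HasFDerivAt (gau μ z) ((-(2 * μ * gau μ z x)) • innerSL ℝ (x - z)) x := by
  have h := (((hasFDerivAt_normsq_sub z x).const_mul μ).neg).exp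
  refine h.congr_fderiv ?_
  ext v
  simp only [smul_apply, neg_apply, smul_eq_mul,
    nsmul_eq_mul, gau, Nat.cast_ofNat]
  simp
  ring

lemma fderiv_gau (μ : ℝ) (z x v : E d) :
    fderiv ℝ (gau μ z) x v = -(2 * μ * gau μ z x) * ⟪x - z, v⟫_ℝ := by
  rw [(hasFDerivAt_gau μ z x).fderiv]
  rfl

lemma laplacian_gau (μ : ℝ) (z x : E d) :
    (Δ (gau μ z)) x = gau μ z x * (4 * μ ^ 2 * ‖x - z‖ ^ 2 - 2 * μ * d) := by
  rw [laplacian_eq_sum (contDiff_gau μ z).contDiffAt]
  simp_rw [fderiv_gau]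
  have key : ∀ i : Fin d, fderiv ℝ (fun y => -(2 * μ * gau μ z y) * ⟪y - z, bv i⟫_ℝ) x (bv i) =
      gau μ z x * (4 * μ ^ 2 * ((x - z) i) ^ 2 - 2 * μ) := by
    intro i
    have h1 : HasFDerivAt (fun y => -(2 * μ * gau μ z y))
        (-((2 * μ) • ((-(2 * μ * gau μ z x)) • innerSL ℝ (x - z)))) x :=
      ((hasFDerivAt_gau μ z x).const_mul (2 * μ)).neg
    have h2 : HasFDerivAt (fun y : E d => ⟪y - z, bv i⟫_ℝ) (innerSL ℝ (bv i)) x := by
      have h3 : (fun y : E d => ⟪y - z, bv i⟫_ℝ) = fun y => innerSL ℝ (bv i) (y - z) := by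
        ext y; simp [real_inner_comm]
      rw [h3]
      have := (innerSL ℝ (bv i)).hasFDerivAt.comp x ((hasFDerivAt_id (𝕜 := ℝ) x).sub_const z)
      exact this
    have h4 := (h1.mul h2).fderiv
    change fderiv ℝ (fun y => -(2 * μ * gau μ z y) * ⟪y - z, bv i⟫_ℝ) x = _ at h4
    rw [h4]
    simp only [add_apply, smul_apply, neg_apply, smul_eq_mul, innerSL_apply_apply]
    rw [inner_bv', inner_bv']
    have : (bv i : E d) i = 1 := by simp [bv]
    rw [this]
    ring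
  simp_rw [key]
  rw [← Finset.mul_sum, Finset.sum_sub_distrib, ← Finset.mul_sum, EuclideanSpace.norm_sq_eq]
  simp only [Real.norm_eq_abs, sq_abs, Finset.sum_const, Finset.card_univ, Fintype.card_fin,
    nsmul_eq_mul]
  ring


lemma gau_anti {μ : ℝ} (hμ : 0 ≤ μ) {z x : E d} {ρ : ℝ} (h : ‖x - z‖ ≤ ρ) :
    Real.exp (-(μ * ρ ^ 2)) ≤ gau μ z x := by
  unfold gau
  rw [Real.exp_le_exp, neg_le_neg_iff]
  exact mul_le_mul_of_nonneg_left (pow_le_pow_left₀ (norm_nonneg _) h 2) hμ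


lemma gau_anti_lt {μ : ℝ} (hμ : 0 < μ) {z x : E d} {ρ : ℝ} (hρ : 0 ≤ ρ) (h : ρ < ‖x - z‖) :
    gau μ z x < Real.exp (-(μ * ρ ^ 2)) := by
  unfold gau
  rw [Real.exp_lt_exp, neg_lt_neg_iff]
  exact mul_lt_mul_of_pos_left (pow_lt_pow_left₀ h hρ (by norm_num)) hμ

end Crest.Agent.R097
end

-- ▼ part R097/F1Defs
section

/-!
# Row 97, F1/F2: the statements used as input (comparison lemmas, Harnack with right-hand side)
-/

set_option autoImplicit false
open MeasureTheory Metric Set Filter Topology InnerProductSpace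
open scoped RealInnerProductSpace NNReal ENNReal Gradient Laplacian

namespace Crest.Agent.R097

/-- V1, local version: comparison with a strict subsolution from below -/
def V1Loc (d : ℕ) : Prop := ∀ (u : E d → ℝ) (K : ℝ≥0), LM u K → ∀ (D S : Set (E d)), IsOpen D →
  IsCompact S → S ⊆ D → ∀ Ψ : E d → ℝ, ContDiff ℝ 2 Ψ → (∀ x ∈ D, u x < Ψ x → x ∈ S) →
  (∀ x ∈ D, u x < Ψ x → 0 ≤ (Δ Ψ) x) →
  (∀ x ∈ D, u x = 0 → 0 < Ψ x → 1 < ‖fderiv ℝ Ψ x‖) → ∀ x ∈ D, Ψ x ≤ u x

/-- V2, local version: comparison with a strict supersolution from above -/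
def V2Loc (d : ℕ) : Prop := ∀ (u : E d → ℝ) (K : ℝ≥0), LM u K → ∀ (D S : Set (E d)), IsOpen D →
  IsCompact S → S ⊆ D → ∀ Φ : E d → ℝ, ContDiff ℝ 2 Φ → (∀ x ∈ D, max (Φ x) 0 < u x → x ∈ S) →
  (∀ x ∈ D, max (Φ x) 0 < u x → (Δ Φ) x ≤ 0) →
  (∀ x ∈ D, max (Φ x) 0 < u x → Φ x ≤ 0 → ‖fderiv ℝ Φ x‖ < 1) → ∀ x ∈ D, u x ≤ max (Φ x) 0

/-- Lipschitz minimisers are harmonic where they are positive -/
def HarmPos (d : ℕ) : Prop := ∀ (u : E d → ℝ) (K : ℝ≥0), LM u K → HarmonicOnNhd u {x | 0 < u x}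

/-- Harnack inequality for nonnegative functions with bounded Laplacian -/
def HarnackRHS (d : ℕ) : Prop := ∃ C : ℝ, 1 ≤ C ∧ ∀ (h : E d → ℝ) (x : E d) (r κ : ℝ), 0 < r →
  0 ≤ κ → (∀ y ∈ ball x r, ContDiffAt ℝ 2 h y) → (∀ y ∈ ball x r, |(Δ h) y| ≤ κ) →
  (∀ y ∈ ball x r, 0 ≤ h y) → ∀ y ∈ ball x (r / 2),
    h y ≤ C * (h x + κ * r ^ 2) ∧ h x ≤ C * (h y + κ * r ^ 2)

end Crest.Agent.R097
end

-- ▼ part R097/F1
section

/-!
# Row 97, F1: partial Harnack inequality for flat minimisers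
-/

set_option autoImplicit false
open MeasureTheory Metric Set Filter Topology InnerProductSpace
open scoped RealInnerProductSpace NNReal ENNReal Gradient Laplacian

namespace Crest.Agent.R097

variable {d : ℕ}


/-- mean value inequality for functions with almost constant gradient -/
lemma lin_approx {P : E d → ℝ} (hP : ContDiff ℝ 2 P) {e x₀ : E d} {r θ : ℝ}
    (hg : ∀ x ∈ ball x₀ r, ‖∇ P x - e‖ ≤ θ) {x y : E d} (hx : x ∈ ball x₀ r) (hy : y ∈ ball x₀ r) :
    |P y - P x - ⟪e, y - x⟫_ℝ| ≤ θ * ‖y - x‖ := by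
  have hd : ∀ z ∈ ball x₀ r, HasFDerivWithinAt (fun z => P z - ⟪e, z⟫_ℝ)
      (fderiv ℝ P z - innerSL ℝ e) (ball x₀ r) z := by
    intro z _
    have h1 : HasFDerivAt P (fderiv ℝ P z) z := (hP.differentiable (by norm_num) z).hasFDerivAt
    have h2 : HasFDerivAt (fun z : E d => ⟪e, z⟫_ℝ) (innerSL ℝ e) z := (innerSL ℝ e).hasFDerivAt
    exact (h1.sub h2).hasFDerivWithinAt
  have hb : ∀ z ∈ ball x₀ r, ‖fderiv ℝ P z - innerSL ℝ e‖ ≤ θ := by
    intro z hz
    have h1 : fderiv ℝ P z - innerSL ℝ e = innerSL ℝ (∇ P z - e) := by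
      ext v
      simp
    rw [h1, innerSL_apply_norm]
    exact hg z hz
  have h := (convex_ball x₀ r).norm_image_sub_le_of_norm_hasFDerivWithin_le hd hb hx hy
  rw [Real.norm_eq_abs] at h
  have e1 : P y - ⟪e, y⟫_ℝ - (P x - ⟪e, x⟫_ℝ) = P y - P x - ⟪e, y - x⟫_ℝ := by
    rw [inner_sub_right]; ring
  rwa [e1] at h

/-- the barrier functions `P + c + s W` -/
noncomputable def bar (P : E d → ℝ) (c s μ : ℝ) (z x : E d) : ℝ := P x + c + s * gau μ z x

lemma contDiff_bar {P : E d → ℝ} (hP : ContDiff ℝ 2 P) (c s μ : ℝ) (z : E d) :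
    ContDiff ℝ 2 (bar P c s μ z) :=
  (hP.add contDiff_const).add (contDiff_const.mul (contDiff_gau μ z))

lemma laplacian_bar {P : E d → ℝ} (hP : ContDiff ℝ 2 P) (c s μ : ℝ) (z x : E d) :
    (Δ (bar P c s μ z)) x = (Δ P) x + s * (Δ (gau μ z)) x := by
  have h1 : (bar P c s μ z) = (P + fun _ => c) + s • gau μ z := by
    ext y; simp [bar]
  have hc : ContDiffAt ℝ 2 (fun _ : E d => c) x := contDiff_const.contDiffAt
  have hA : ContDiffAt ℝ 2 (P + fun _ => c) x := hP.contDiffAt.add hc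
  have hG : ContDiffAt ℝ 2 (gau μ z) x := (contDiff_gau μ z).contDiffAt
  have hB : ContDiffAt ℝ 2 (s • gau μ z) x := (contDiffAt_const (c := s)).smul hG
  rw [h1, hA.laplacian_add hB, hP.contDiffAt.laplacian_add hc, laplacian_smul _ hG]
  simp

lemma gradient_bar {P : E d → ℝ} (hP : ContDiff ℝ 2 P) (c s μ : ℝ) (z x : E d) :
    ∇ (bar P c s μ z) x = ∇ P x + (s * (2 * μ * gau μ z x)) • (z - x) := by
  refine ext_inner_right ℝ fun v => ?_
  have h1 : HasFDerivAt P (fderiv ℝ P x) x := (hP.differentiable (by norm_num) x).hasFDerivAt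
  have h2 : HasFDerivAt (bar P c s μ z)
      (fderiv ℝ P x + s • ((-(2 * μ * gau μ z x)) • innerSL ℝ (x - z))) x :=
    (h1.add_const c).add ((hasFDerivAt_gau μ z x).const_mul s)
  rw [inner_gradient, h2.fderiv, inner_add_left, inner_gradient, real_inner_smul_left]
  simp only [add_apply, smul_apply, smul_eq_mul, innerSL_apply_apply]
  rw [← neg_sub x z, inner_neg_left]
  ring

lemma normsq_gradient_bar {P : E d → ℝ} (hP : ContDiff ℝ 2 P) (c s μ : ℝ) (z x : E d) :
    ‖fderiv ℝ (bar P c s μ z) x‖ ^ 2 = ‖∇ P x‖ ^ 2 + 2 * (s * (2 * μ * gau μ z x)) * ⟪∇ P x, z - x⟫_ℝ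
      + (s * (2 * μ * gau μ z x)) ^ 2 * ‖x - z‖ ^ 2 := by
  rw [← norm_gradient, gradient_bar hP, @norm_add_sq_real, real_inner_smul_right, norm_smul,
    mul_pow, Real.norm_eq_abs, sq_abs, norm_sub_rev z x]
  ring

end Crest.Agent.R097
end

-- ▼ part R097/F1Step
section

/-!
# Row 97, F1: the two barrier arguments
-/

set_option autoImplicit false
open MeasureTheory Metric Set Filter Topology InnerProductSpace
open scoped RealInnerProductSpace NNReal ENNReal Gradient Laplacian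

namespace Crest.Agent.R097

variable {d : ℕ}

/-- the value of the barrier at radius `r/4` -/
noncomputable def E₁ (d : ℕ) : ℝ := Real.exp (-(1000 * d * (1 / 16)))
/-- the value of the barrier at radius `3r/4` -/
noncomputable def E₂ (d : ℕ) : ℝ := Real.exp (-(1000 * d * (9 / 16)))

lemma E₂_pos : 0 < E₂ d := Real.exp_pos _
lemma E₂_lt_E₁ (hd : 1 ≤ d) : E₂ d < E₁ d := by
  have : (1 : ℝ) ≤ d := by exact_mod_cast hd
  unfold E₁ E₂
  rw [Real.exp_lt_exp]
  linarith
lemma E₁_le_one : E₁ d ≤ 1 := by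
  unfold E₁
  rw [Real.exp_le_one_iff]
  have : (0 : ℝ) ≤ d := by positivity
  linarith

/-- geometric facts about the ball around `z = x₀ + (r/5) e` -/
lemma geo_mem {e x₀ : E d} {r : ℝ} (hr : 0 < r) (he : ‖e‖ = 1) {x : E d}
    (hx : x ∈ ball (x₀ + (r / 5) • e) (79 * r / 100)) : x ∈ ball x₀ r := by
  rw [mem_ball, dist_eq_norm] at hx ⊢
  have h1 : x - x₀ = (x - (x₀ + (r / 5) • e)) + (r / 5) • e := by abel
  have h2 : ‖(r / 5) • e‖ = r / 5 := by
    rw [norm_smul, he, Real.norm_eq_abs, abs_of_pos (by positivity), mul_one]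
  rw [h1]
  refine (norm_add_le _ _).trans_lt ?_
  rw [h2]
  linarith

lemma geo_center {P : E d → ℝ} (hP : ContDiff ℝ 2 P) {e x₀ : E d} {r : ℝ} (hr : 0 < r)
    (he : ‖e‖ = 1) (hg : ∀ x ∈ ball x₀ r, ‖∇ P x - e‖ ≤ 1 / 100) (hx₀ : -(r / 50) ≤ P x₀) :
    178 / 1000 * r ≤ P (x₀ + (r / 5) • e) := by
  have h2 : ‖(r / 5) • e‖ = r / 5 := by
    rw [norm_smul, he, Real.norm_eq_abs, abs_of_pos (by positivity), mul_one]
  have hz : x₀ + (r / 5) • e ∈ ball x₀ r := by
    rw [mem_ball, dist_eq_norm, add_sub_cancel_left, h2]; linarith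
  have h := lin_approx hP hg (mem_ball_self hr) hz
  rw [add_sub_cancel_left, h2, real_inner_smul_right, real_inner_self_eq_norm_sq, he] at h
  have := (abs_le.1 h).1
  linarith

lemma geo_inner {P : E d → ℝ} (hP : ContDiff ℝ 2 P) {e x₀ : E d} {r m : ℝ} (hr : 0 < r)
    (he : ‖e‖ = 1) (hg : ∀ x ∈ ball x₀ r, ‖∇ P x - e‖ ≤ 1 / 100) (hx₀ : -(r / 50) ≤ P x₀)
    (hm : 100 * m ≤ r) {x : E d} (hx : x ∈ closedBall (x₀ + (r / 5) • e) (3 * r / 4))
    (hPx : |P x| ≤ 3 * m) : r / 10 ≤ ⟪∇ P x, x₀ + (r / 5) • e - x⟫_ℝ := by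
  set z := x₀ + (r / 5) • e with hz
  have hxD : x ∈ ball z (79 * r / 100) := closedBall_subset_ball (by linarith) hx
  have hxB : x ∈ ball x₀ r := geo_mem hr he hxD
  have hzB : z ∈ ball x₀ r := geo_mem hr he (mem_ball_self (by positivity))
  have hc := geo_center hP hr he hg hx₀
  rw [← hz] at hc
  have h1 := lin_approx hP hg hxB hzB
  have h2 : ‖z - x‖ ≤ 3 * r / 4 := by
    rw [mem_closedBall, dist_eq_norm] at hx
    rwa [norm_sub_rev]
  have h3 : |⟪∇ P x - e, z - x⟫_ℝ| ≤ 1 / 100 * ‖z - x‖ :=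
    (abs_real_inner_le_norm _ _).trans (mul_le_mul_of_nonneg_right (hg x hxB) (norm_nonneg _))
  rw [inner_sub_left] at h3
  have h4 := (abs_le.1 h1).2
  have h5 := (abs_le.1 h3).1
  have h6 := (abs_le.1 hPx).2
  linarith

lemma mu_facts (hd : 1 ≤ d) {r : ℝ} (hr : 0 < r) :
    Real.exp (-((1000 * d / r ^ 2) * (3 * r / 4) ^ 2)) = E₂ d ∧
    Real.exp (-((1000 * d / r ^ 2) * (r / 4) ^ 2)) = E₁ d := by
  constructor
  · unfold E₂
    congr 1
    field_simp
    norm_num
  · unfold E₁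
    congr 1
    field_simp
    norm_num

/-- improvement from below -/
theorem lower_step (hV1 : V1Loc d) (hd : 1 ≤ d) {u : E d → ℝ} {K : ℝ≥0} (hu : LM u K)
    {P : E d → ℝ} (hP : ContDiff ℝ 2 P) {e x₀ : E d} {r m k₁ k₂ a s : ℝ} (hr : 0 < r)
    (he : ‖e‖ = 1) (hg : ∀ x ∈ ball x₀ r, ‖∇ P x - e‖ ≤ 1 / 100)
    (hL : ∀ x ∈ ball x₀ r, |(Δ P) x| ≤ k₁)
    (hN : ∀ x ∈ ball x₀ r, |P x| ≤ 3 * m → |‖∇ P x‖ ^ 2 - 1| ≤ k₂)
    (hm : 100 * m ≤ r) (ha : |a| ≤ m) (hs0 : 0 < s) (hsm : s ≤ m)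
    (hk₁ : k₁ * r ^ 2 ≤ s * E₂ d * (1000 * d) * (d / 2))
    (hk₂ : k₂ * r < 2 / 5 * (s * E₂ d * (1000 * d)))
    (hx₀ : -(r / 50) ≤ P x₀) (hlow : ∀ x ∈ ball x₀ r, max (P x + a) 0 ≤ u x)
    (hhole : ∀ x ∈ ball (x₀ + (r / 5) • e) (r / 40), P x + a + s ≤ u x) :
    ∀ x ∈ ball x₀ (r / 240), P x + a + s * (E₁ d - E₂ d) ≤ u x := by
  set z := x₀ + (r / 5) • e with hz
  set μ : ℝ := 1000 * d / r ^ 2 with hμ
  have hd1 : (1 : ℝ) ≤ d := by exact_mod_cast hd
  have hμ0 : 0 < μ := by positivity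
  obtain ⟨hE2, hE1⟩ := mu_facts hd hr
  rw [← hμ] at hE2 hE1
  have hE2pos := E₂_pos (d := d)
  set Ψ := bar P (a - s * E₂ d) s μ z with hΨ
  have hΨx : ∀ x, Ψ x = P x + (a - s * E₂ d) + s * gau μ z x := fun x => rfl
  have hS : ∀ x ∈ ball z (79 * r / 100), u x < Ψ x → x ∈ closedBall z (3 * r / 4) := by
    intro x hx hlt
    by_contra hcon
    rw [mem_closedBall, dist_eq_norm, not_le] at hcon
    have h1 := gau_anti_lt hμ0 (by positivity : (0 : ℝ) ≤ 3 * r / 4) hcon
    rw [hE2] at h1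
    have h2 := hlow x (geo_mem hr he hx)
    have h3 := le_trans (le_max_left _ _) h2
    rw [hΨx] at hlt
    nlinarith
  have hmain : ∀ x ∈ ball z (79 * r / 100), Ψ x ≤ u x := by
    refine hV1 u K hu (ball z (79 * r / 100)) (closedBall z (3 * r / 4)) isOpen_ball
      (isCompact_closedBall _ _) (closedBall_subset_ball (by linarith)) Ψ
      (contDiff_bar hP _ _ _ _) hS ?_ ?_
    · intro x hx hlt
      have hxS := hS x hx hlt
      have hxB := geo_mem hr he hx
      have hge : r / 40 ≤ ‖x - z‖ := by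
        by_contra hcon
        rw [not_le] at hcon
        have h1 := hhole x (by rw [mem_ball, dist_eq_norm]; exact hcon)
        have h2 := gau_le_one hμ0.le z x
        rw [hΨx] at hlt
        nlinarith [mul_pos hs0 hE2pos]
      rw [hΨ, laplacian_bar hP, laplacian_gau]
      have h3 : E₂ d ≤ gau μ z x := by
        rw [← hE2]
        rw [mem_closedBall, dist_eq_norm] at hxS
        exact gau_anti hμ0.le hxS
      have h4 : μ * (r / 40) ^ 2 ≤ μ * ‖x - z‖ ^ 2 :=
        mul_le_mul_of_nonneg_left (pow_le_pow_left₀ (by positivity) hge 2) hμ0.le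
      have h5 : μ * (r / 40) ^ 2 = 5 / 8 * d := by
        rw [hμ]; field_simp; norm_num
      have h6 : μ * d / 2 ≤ 4 * μ ^ 2 * ‖x - z‖ ^ 2 - 2 * μ * d := by
        have h7 : 4 * μ ^ 2 * ‖x - z‖ ^ 2 = 4 * μ * (μ * ‖x - z‖ ^ 2) := by ring
        rw [h7]
        have h8 : 4 * μ * (5 / 8 * d) ≤ 4 * μ * (μ * ‖x - z‖ ^ 2) :=
          mul_le_mul_of_nonneg_left (by rw [← h5]; exact h4) (by positivity)
        linarith
      have h9 : s * (E₂ d * (μ * d / 2)) ≤ s * (gau μ z x * (4 * μ ^ 2 * ‖x - z‖ ^ 2 - 2 * μ * d)) :=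
        mul_le_mul_of_nonneg_left (mul_le_mul h3 h6 (by positivity) (gau_pos _ _ _).le) hs0.le
      have h10 : k₁ ≤ s * (E₂ d * (μ * d / 2)) := by
        have : s * (E₂ d * (μ * d / 2)) = s * E₂ d * (1000 * d) * (d / 2) / r ^ 2 := by
          rw [hμ]; field_simp
        rw [this, le_div_iff₀ (by positivity)]
        exact hk₁
      have h11 := (abs_le.1 (hL x hxB)).1
      linarith
    · intro x hx hux hΨ0
      have hxS := hS x hx (by rw [hux]; exact hΨ0)
      have hxB := geo_mem hr he hx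
      have h3 : E₂ d ≤ gau μ z x := by
        rw [← hE2]
        rw [mem_closedBall, dist_eq_norm] at hxS
        exact gau_anti hμ0.le hxS
      have ha' := abs_le.1 ha
      have hPx : |P x| ≤ 3 * m := by
        rw [abs_le]
        have h4 := gau_le_one hμ0.le z x
        have h5 := le_trans (le_max_left _ _) (hlow x hxB)
        rw [hux] at h5
        rw [hΨx] at hΨ0
        constructor
        · nlinarith [mul_pos hs0 hE2pos]
        · linarith
      have h6 := geo_inner hP hr he hg hx₀ hm hxS hPx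
      rw [← hz] at h6
      have h7 := (abs_le.1 (hN x hxB hPx)).1
      have h8 : k₂ < 4 * s * μ * E₂ d * (r / 10) := by
        have : 4 * s * μ * E₂ d * (r / 10) = 2 / 5 * (s * E₂ d * (1000 * d)) / r := by
          rw [hμ]; field_simp; ring
        rw [this, lt_div_iff₀ hr]
        exact hk₂
      have h9 : 4 * s * μ * E₂ d * (r / 10) ≤
          2 * (s * (2 * μ * gau μ z x)) * ⟪∇ P x, z - x⟫_ℝ := by
        have : 2 * (s * (2 * μ * gau μ z x)) * ⟪∇ P x, z - x⟫_ℝ =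
          4 * s * μ * gau μ z x * ⟪∇ P x, z - x⟫_ℝ := by ring
        rw [this]
        refine mul_le_mul ?_ h6 (by positivity) (by have := gau_pos μ z x; positivity)
        exact mul_le_mul_of_nonneg_left h3 (by positivity)
      have h10 := normsq_gradient_bar hP (a - s * E₂ d) s μ z x
      have h11 : 0 ≤ (s * (2 * μ * gau μ z x)) ^ 2 * ‖x - z‖ ^ 2 := by positivity
      have h12 : 1 < ‖fderiv ℝ Ψ x‖ ^ 2 := by rw [hΨ, h10]; linarith
      by_contra hcon
      rw [not_lt] at hcon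
      have := pow_le_one₀ (n := 2) (norm_nonneg _) hcon
      linarith
  intro x hx
  have hxz : ‖x - z‖ ≤ r / 4 := by
    have h1 : x - z = (x - x₀) - (r / 5) • e := by rw [hz]; abel
    have h2 : ‖(r / 5) • e‖ = r / 5 := by
      rw [norm_smul, he, Real.norm_eq_abs, abs_of_pos (by positivity), mul_one]
    rw [mem_ball, dist_eq_norm] at hx
    rw [h1]
    refine (norm_sub_le _ _).trans ?_
    rw [h2]
    linarith
  have hxD : x ∈ ball z (79 * r / 100) := by
    rw [mem_ball, dist_eq_norm]; linarith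
  have h1 := hmain x hxD
  have h2 := gau_anti hμ0.le hxz
  rw [hE1] at h2
  rw [hΨx] at h1
  nlinarith

/-- improvement from above -/
theorem upper_step (hV2 : V2Loc d) (hd : 1 ≤ d) {u : E d → ℝ} {K : ℝ≥0} (hu : LM u K)
    {P : E d → ℝ} (hP : ContDiff ℝ 2 P) {e x₀ : E d} {r m k₁ k₂ b s : ℝ} (hr : 0 < r)
    (he : ‖e‖ = 1) (hg : ∀ x ∈ ball x₀ r, ‖∇ P x - e‖ ≤ 1 / 100)
    (hL : ∀ x ∈ ball x₀ r, |(Δ P) x| ≤ k₁)
    (hN : ∀ x ∈ ball x₀ r, |P x| ≤ 3 * m → |‖∇ P x‖ ^ 2 - 1| ≤ k₂)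
    (hm : 100 * m ≤ r) (hb : |b| ≤ m) (hs0 : 0 < s) (hsm : s ≤ m)
    (hsr : s * (12 * (1000 * d)) ≤ r)
    (hk₁ : k₁ * r ^ 2 ≤ s * E₂ d * (1000 * d) * (d / 2))
    (hk₂ : k₂ * r < 1 / 5 * (s * E₂ d * (1000 * d)))
    (hx₀ : -(r / 50) ≤ P x₀) (hup : ∀ x ∈ ball x₀ r, u x ≤ max (P x + b) 0)
    (hhole : ∀ x ∈ ball (x₀ + (r / 5) • e) (r / 40), u x ≤ P x + b - s) :
    ∀ x ∈ ball x₀ (r / 240), u x ≤ max (P x + b - s * (E₁ d - E₂ d)) 0 := by
  set z := x₀ + (r / 5) • e with hz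
  set μ : ℝ := 1000 * d / r ^ 2 with hμ
  have hd1 : (1 : ℝ) ≤ d := by exact_mod_cast hd
  have hμ0 : 0 < μ := by positivity
  obtain ⟨hE2, hE1⟩ := mu_facts hd hr
  rw [← hμ] at hE2 hE1
  have hE2pos := E₂_pos (d := d)
  set Φ := bar P (b + s * E₂ d) (-s) μ z with hΦ
  have hΦx : ∀ x, Φ x = P x + (b + s * E₂ d) + (-s) * gau μ z x := fun x => rfl
  have hS : ∀ x ∈ ball z (79 * r / 100), max (Φ x) 0 < u x → x ∈ closedBall z (3 * r / 4) := by
    intro x hx hlt
    by_contra hcon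
    rw [mem_closedBall, dist_eq_norm, not_le] at hcon
    have h1 := gau_anti_lt hμ0 (by positivity : (0 : ℝ) ≤ 3 * r / 4) hcon
    rw [hE2] at h1
    have h2 := hup x (geo_mem hr he hx)
    have h3 : max (P x + b) 0 ≤ max (Φ x) 0 := by
      refine max_le_max ?_ le_rfl
      rw [hΦx]
      nlinarith
    linarith
  have hmain : ∀ x ∈ ball z (79 * r / 100), u x ≤ max (Φ x) 0 := by
    refine hV2 u K hu (ball z (79 * r / 100)) (closedBall z (3 * r / 4)) isOpen_ball
      (isCompact_closedBall _ _) (closedBall_subset_ball (by linarith)) Φ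
      (contDiff_bar hP _ _ _ _) hS ?_ ?_
    · intro x hx hlt
      have hxS := hS x hx hlt
      have hxB := geo_mem hr he hx
      have hge : r / 40 ≤ ‖x - z‖ := by
        by_contra hcon
        rw [not_le] at hcon
        have h1 := hhole x (by rw [mem_ball, dist_eq_norm]; exact hcon)
        have h2 := gau_le_one hμ0.le z x
        have h3 := lt_of_le_of_lt (le_max_left _ _) hlt
        rw [hΦx] at h3
        nlinarith [mul_pos hs0 hE2pos]
      rw [hΦ, laplacian_bar hP, laplacian_gau]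
      have h3 : E₂ d ≤ gau μ z x := by
        rw [← hE2]
        rw [mem_closedBall, dist_eq_norm] at hxS
        exact gau_anti hμ0.le hxS
      have h4 : μ * (r / 40) ^ 2 ≤ μ * ‖x - z‖ ^ 2 :=
        mul_le_mul_of_nonneg_left (pow_le_pow_left₀ (by positivity) hge 2) hμ0.le
      have h5 : μ * (r / 40) ^ 2 = 5 / 8 * d := by
        rw [hμ]; field_simp; norm_num
      have h6 : μ * d / 2 ≤ 4 * μ ^ 2 * ‖x - z‖ ^ 2 - 2 * μ * d := by
        have h7 : 4 * μ ^ 2 * ‖x - z‖ ^ 2 = 4 * μ * (μ * ‖x - z‖ ^ 2) := by ring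
        rw [h7]
        have h8 : 4 * μ * (5 / 8 * d) ≤ 4 * μ * (μ * ‖x - z‖ ^ 2) :=
          mul_le_mul_of_nonneg_left (by rw [← h5]; exact h4) (by positivity)
        linarith
      have h9 : s * (E₂ d * (μ * d / 2)) ≤ s * (gau μ z x * (4 * μ ^ 2 * ‖x - z‖ ^ 2 - 2 * μ * d)) :=
        mul_le_mul_of_nonneg_left (mul_le_mul h3 h6 (by positivity) (gau_pos _ _ _).le) hs0.le
      have h10 : k₁ ≤ s * (E₂ d * (μ * d / 2)) := by
        have : s * (E₂ d * (μ * d / 2)) = s * E₂ d * (1000 * d) * (d / 2) / r ^ 2 := by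
          rw [hμ]; field_simp
        rw [this, le_div_iff₀ (by positivity)]
        exact hk₁
      have h11 := (abs_le.1 (hL x hxB)).2
      linarith
    · intro x hx hlt hΦ0
      have hxS := hS x hx hlt
      have hxB := geo_mem hr he hx
      have hxz : ‖x - z‖ ≤ 3 * r / 4 := by
        rw [mem_closedBall, dist_eq_norm] at hxS
        exact hxS
      have h3 : E₂ d ≤ gau μ z x := by
        rw [← hE2]
        exact gau_anti hμ0.le hxz
      have hgle := gau_le_one hμ0.le z x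
      have hgpos := gau_pos μ z x
      have hb' := abs_le.1 hb
      have hPx : |P x| ≤ 3 * m := by
        rw [abs_le]
        have h4 : 0 < u x := lt_of_le_of_lt (le_max_right _ _) hlt
        have h5 := hup x hxB
        have h6 : 0 < P x + b := by
          rcases lt_max_iff.1 (lt_of_lt_of_le h4 h5) with h | h
          · exact h
          · exact absurd h (lt_irrefl _)
        rw [hΦx] at hΦ0
        constructor
        · linarith
        · nlinarith [mul_pos hs0 hE2pos]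
      have h6 := geo_inner hP hr he hg hx₀ hm hxS hPx
      rw [← hz] at h6
      have h7 := (abs_le.1 (hN x hxB hPx)).2
      have hgs : E₂ d * (s * μ) ≤ gau μ z x * (s * μ) :=
        mul_le_mul_of_nonneg_right h3 (by positivity)
      have h8 : k₂ < 2 * (s * μ) * gau μ z x * (r / 10) := by
        have h81 : 2 * s * μ * E₂ d * (r / 10) = 1 / 5 * (s * E₂ d * (1000 * d)) / r := by
          rw [hμ]; field_simp; ring
        have h82 : k₂ < 2 * s * μ * E₂ d * (r / 10) := by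
          rw [h81, lt_div_iff₀ hr]
          exact hk₂
        have : 2 * s * μ * E₂ d * (r / 10) ≤ 2 * (s * μ) * gau μ z x * (r / 10) := by
          nlinarith
        linarith
      have h9 : 4 * (s * μ) * gau μ z x * (r / 10) ≤
          4 * (s * μ) * gau μ z x * ⟪∇ P x, z - x⟫_ℝ :=
        mul_le_mul_of_nonneg_left h6 (by positivity)
      -- the quadratic term
      have h13 : (s * (2 * μ * gau μ z x)) ^ 2 * ‖x - z‖ ^ 2 ≤
          2 * (s * μ) * gau μ z x * (r / 10) := by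
        have q1 : ‖x - z‖ ^ 2 ≤ (3 * r / 4) ^ 2 := pow_le_pow_left₀ (norm_nonneg _) hxz 2
        have q2 : (s * (2 * μ * gau μ z x)) ^ 2 * ‖x - z‖ ^ 2 ≤
            (s * (2 * μ * gau μ z x)) ^ 2 * (3 * r / 4) ^ 2 :=
          mul_le_mul_of_nonneg_left q1 (by positivity)
        have q3 : (s * (2 * μ * gau μ z x)) ^ 2 * (3 * r / 4) ^ 2 =
            (2 * (s * μ) * gau μ z x * (r / 10)) * ((45 / 4) * (s * μ * r) * gau μ z x) := by ring
        have q4 : s * μ * r ≤ 1 / 12 := by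
          have : s * μ * r = s * (12 * (1000 * d)) / (12 * r) := by
            rw [hμ]; field_simp
          rw [this, div_le_div_iff₀ (by positivity) (by norm_num)]
          linarith
        have q5 : (45 / 4) * (s * μ * r) * gau μ z x ≤ 1 := by
          have : (45 / 4) * (s * μ * r) * gau μ z x ≤ (45 / 4) * (1 / 12) * 1 :=
            mul_le_mul (mul_le_mul_of_nonneg_left q4 (by norm_num)) hgle hgpos.le (by norm_num)
          linarith
        rw [q3] at q2
        refine q2.trans ?_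
        have q6 : 0 ≤ 2 * (s * μ) * gau μ z x * (r / 10) := by positivity
        exact mul_le_of_le_one_right q6 q5
      have h10 := normsq_gradient_bar hP (b + s * E₂ d) (-s) μ z x
      have e1 : (-s * (2 * μ * gau μ z x)) ^ 2 = (s * (2 * μ * gau μ z x)) ^ 2 := by ring
      have e2 : 2 * (-s * (2 * μ * gau μ z x)) * ⟪∇ P x, z - x⟫_ℝ =
        -(4 * (s * μ) * gau μ z x * ⟪∇ P x, z - x⟫_ℝ) := by ring
      rw [e1, e2] at h10
      have h12 : ‖fderiv ℝ Φ x‖ ^ 2 < 1 := by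
        rw [hΦ, h10]
        have : 4 * (s * μ) * gau μ z x * (r / 10) = 2 * (2 * (s * μ) * gau μ z x * (r / 10)) := by
          ring
        linarith
      by_contra hcon
      rw [not_lt] at hcon
      have := one_le_pow₀ (n := 2) hcon
      linarith
  intro x hx
  have hxz : ‖x - z‖ ≤ r / 4 := by
    have h1 : x - z = (x - x₀) - (r / 5) • e := by rw [hz]; abel
    have h2 : ‖(r / 5) • e‖ = r / 5 := by
      rw [norm_smul, he, Real.norm_eq_abs, abs_of_pos (by positivity), mul_one]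
    rw [mem_ball, dist_eq_norm] at hx
    rw [h1]
    refine (norm_sub_le _ _).trans ?_
    rw [h2]
    linarith
  have hxD : x ∈ ball z (79 * r / 100) := by
    rw [mem_ball, dist_eq_norm]; linarith
  have h1 := hmain x hxD
  have h2 := gau_anti hμ0.le hxz
  rw [hE1] at h2
  refine h1.trans (max_le_max ?_ le_rfl)
  rw [hΦx]
  nlinarith

end Crest.Agent.R097
end

-- ▼ part R097/F1Main
section

/-!
# Row 97, F1: partial Harnack inequality, final form
-/

set_option autoImplicit false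
open MeasureTheory Metric Set Filter Topology InnerProductSpace
open scoped RealInnerProductSpace NNReal ENNReal Gradient Laplacian

namespace Crest.Agent.R097

variable {d : ℕ}

lemma Sand.mono {u P : E d → ℝ} {a b a' b' : ℝ} {D D' : Set (E d)} (h : Sand u P a b D)
    (ha : a' ≤ a) (hb : b ≤ b') (hD : D' ⊆ D) : Sand u P a' b' D' := fun x hx =>
  ⟨(max_le_max (by linarith) le_rfl).trans (h x (hD hx)).1,
    (h x (hD hx)).2.trans (max_le_max (by linarith) le_rfl)⟩

lemma laplacian_add_cst {P : E d → ℝ} (hP : ContDiff ℝ 2 P) (a : ℝ) (x : E d) :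
    (Δ (fun x => P x + a)) x = (Δ P) x := by
  have h : (fun x => P x + a) = P + fun _ => a := rfl
  have hc : ContDiffAt ℝ 2 (fun _ : E d => a) x := contDiff_const.contDiffAt
  rw [h, hP.contDiffAt.laplacian_add hc]
  simp

lemma aux_K1 {C C₀ s E k r D : ℝ} (hs : 0 < s) (hE : 0 < E) (hD : 1 ≤ D)
    (h1 : C₀ * (k * r ^ 2) ≤ 4 * C * s) (h2 : 40 * C ≤ C₀ * E) (hC₀ : 0 < C₀) (hC : 0 < C) :
    k * r ^ 2 ≤ s * E * (1000 * D) * (D / 2) := by
  have h3 : 40 * C * s ≤ C₀ * E * s := mul_le_mul_of_nonneg_right h2 hs.le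
  have h5 : C₀ * (s * E * (1000 * D) * (D / 2)) = (C₀ * E * s) * (500 * D ^ 2) := by ring
  have h6 : (1 : ℝ) ≤ 500 * D ^ 2 := by nlinarith
  have h7 : 0 ≤ C₀ * E * s := by positivity
  have h8 : 0 < C * s := by positivity
  have h9 : C₀ * E * s * 1 ≤ (C₀ * E * s) * (500 * D ^ 2) := mul_le_mul_of_nonneg_left h6 h7
  refine le_of_mul_le_mul_left (a := C₀) ?_ hC₀
  rw [h5]; linarith

lemma aux_K2 {C C₀ s E k r D : ℝ} (hs : 0 < s) (hE : 0 < E) (hD : 1 ≤ D)
    (h1 : C₀ * (k * r) ≤ 4 * C * s) (h2 : 40 * C ≤ C₀ * E) (hC₀ : 0 < C₀) (hC : 0 < C) :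
    k * r < 1 / 5 * (s * E * (1000 * D)) := by
  have h3 : 40 * C * s ≤ C₀ * E * s := mul_le_mul_of_nonneg_right h2 hs.le
  have h5 : C₀ * (1 / 5 * (s * E * (1000 * D))) = (C₀ * E * s) * (200 * D) := by ring
  have h6 : (1 : ℝ) ≤ 200 * D := by linarith
  have h7 : 0 ≤ C₀ * E * s := by positivity
  have h8 : 0 < C * s := by positivity
  have h9 : C₀ * E * s * 1 ≤ (C₀ * E * s) * (200 * D) := mul_le_mul_of_nonneg_left h6 h7
  refine lt_of_mul_lt_mul_left (a := C₀) ?_ hC₀.le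
  rw [h5]; linarith

lemma aux_H {C s k r D x : ℝ} (hC : 0 < C) (hs : 0 < s)
    (hk : C * (k * (r / 20) ^ 2) ≤ C * s / 100) (h5 : D / 2 ≤ C * (x + k * (r / 20) ^ 2))
    (h4Cs : D = 4 * C * s) : s ≤ x := by
  have h8 : 0 < C * s := by positivity
  have h6 : C * s ≤ C * x := by
    rw [mul_add] at h5
    linarith
  exact le_of_mul_le_mul_left h6 hC

/-- **F1**: the partial Harnack inequality. -/
theorem F1 (hV1 : V1Loc d) (hV2 : V2Loc d) (hH : HarmPos d) (hHar : HarnackRHS d) (hd : 1 ≤ d) :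
    ∃ C₀ c : ℝ, 100 ≤ C₀ ∧ 0 < c ∧ c < 1 ∧ ∀ (u : E d → ℝ) (K : ℝ≥0), LM u K →
      ∀ P : E d → ℝ, ContDiff ℝ 2 P → ∀ (e x₀ : E d) (r m k₁ k₂ a b : ℝ), 0 < r → ‖e‖ = 1 →
      (∀ x ∈ ball x₀ r, ‖∇ P x - e‖ ≤ 1 / C₀) → (∀ x ∈ ball x₀ r, |(Δ P) x| ≤ k₁) →
      (∀ x ∈ ball x₀ r, |P x| ≤ 3 * m → |‖∇ P x‖ ^ 2 - 1| ≤ k₂) →
      C₀ * m ≤ r → |a| ≤ m → |b| ≤ m → a ≤ b → C₀ * (k₁ * r ^ 2) ≤ b - a →
      C₀ * (k₂ * r) ≤ b - a → Sand u P a b (ball x₀ r) →
      ∃ a' b' : ℝ, a ≤ a' ∧ b' ≤ b ∧ b' - a' = (1 - c) * (b - a) ∧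
        Sand u P a' b' (ball x₀ (r / 240)) := by
  obtain ⟨C, hC1, hHar⟩ := hHar
  have hd1 : (1 : ℝ) ≤ d := by exact_mod_cast hd
  have hE2 := E₂_pos (d := d)
  have hE12 := E₂_lt_E₁ (d := d) hd
  have hE1 := E₁_le_one (d := d)
  have hC0 : 0 < C := by linarith
  set C₀ : ℝ := 100 + 12000 * d + C + 40 * C / E₂ d with hC₀
  have hq : 0 < 40 * C / E₂ d := by positivity
  have hdd : (0 : ℝ) ≤ 12000 * d := by positivity
  have hC₀100 : 100 ≤ C₀ := by rw [hC₀]; linarith
  have hC₀d : 12000 * d ≤ C₀ := by rw [hC₀]; linarith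
  have hC₀C : C ≤ C₀ := by rw [hC₀]; linarith
  have hC₀E : 40 * C / E₂ d ≤ C₀ := by rw [hC₀]; linarith
  have hC₀E' : 40 * C ≤ C₀ * E₂ d := by rwa [div_le_iff₀ hE2] at hC₀E
  have hC₀pos : 0 < C₀ := by linarith
  refine ⟨C₀, (E₁ d - E₂ d) / (4 * C), hC₀100, by
    apply div_pos (by linarith) (by linarith), by
    rw [div_lt_one (by linarith)]; linarith, ?_⟩
  intro u K hu P hP e x₀ r m k₁ k₂ a b hr he hg hL hN hm ha hb hab hk₁ hk₂ hSand
  have ha' := abs_le.1 ha
  have hb' := abs_le.1 hb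
  have hm0 : 0 ≤ m := (abs_nonneg _).trans ha
  have hsub : ball x₀ (r / 240) ⊆ ball x₀ r := ball_subset_ball (by linarith)
  rcases eq_or_lt_of_le hab with hab' | hab'
  · exact ⟨a, b, le_rfl, le_rfl, by rw [hab']; ring, hSand.mono le_rfl le_rfl hsub⟩
  have hba : 0 < b - a := by linarith
  have hg' : ∀ x ∈ ball x₀ r, ‖∇ P x - e‖ ≤ 1 / 100 := fun x hx =>
    (hg x hx).trans (one_div_le_one_div_of_le (by norm_num) hC₀100)
  have hm' : 100 * m ≤ r := le_trans (mul_le_mul_of_nonneg_right hC₀100 hm0) hm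
  have hc : (E₁ d - E₂ d) / (4 * C) ≤ 1 := by rw [div_le_one (by linarith)]; linarith
  have hc0 : 0 < (E₁ d - E₂ d) / (4 * C) := div_pos (by linarith) (by linarith)
  rcases lt_or_ge (P x₀) (-(r / 50)) with hx₀ | hx₀
  · -- far in the zero phase
    refine ⟨a, b - (E₁ d - E₂ d) / (4 * C) * (b - a), le_rfl, by
      have := mul_pos hc0 hba
      linarith, by ring, ?_⟩
    intro x hx
    have h1 := lin_approx hP hg' (mem_ball_self hr) (hsub hx)
    have h2 : ‖x - x₀‖ < r / 240 := by rwa [mem_ball, dist_eq_norm] at hx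
    have h3 : |⟪e, x - x₀⟫_ℝ| ≤ ‖x - x₀‖ := by
      simpa [he] using abs_real_inner_le_norm e (x - x₀)
    have h4 := (abs_le.1 h1).2
    have h5 := (abs_le.1 h3).2
    have h6 : P x + b ≤ 0 := by linarith
    have h7 := hSand x (hsub hx)
    rw [max_eq_right h6] at h7
    refine ⟨h7.1, h7.2.trans (le_max_right _ _)⟩
  · -- the barrier argument
    set z := x₀ + (r / 5) • e with hz
    have hzc := geo_center hP hr he hg' hx₀
    rw [← hz] at hzc
    set s : ℝ := (b - a) / (4 * C) with hs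
    have hs0 : 0 < s := by positivity
    have hsE : s * (E₁ d - E₂ d) = (E₁ d - E₂ d) / (4 * C) * (b - a) := by rw [hs]; ring
    have h4Cs : b - a = 4 * C * s := by rw [hs]; field_simp
    have hsm : s ≤ m / 2 := by
      rw [hs, div_le_iff₀ (by positivity)]
      have h1 : m / 2 * 4 ≤ m / 2 * (4 * C) := mul_le_mul_of_nonneg_left (by linarith) (by linarith)
      linarith
    have hk₁0 : 0 ≤ k₁ := (abs_nonneg _).trans (hL x₀ (mem_ball_self hr))
    have hkr : 0 ≤ k₁ * r ^ 2 := by positivity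
    have hhole1 : ∀ x ∈ ball z (r / 20), x ∈ ball x₀ r ∧ 0 < P x + a := by
      intro x hx
      have hxB : x ∈ ball x₀ r := geo_mem hr he (ball_subset_ball (by linarith) hx)
      have hzB : z ∈ ball x₀ r := geo_mem hr he (mem_ball_self (by positivity))
      have h1 := lin_approx hP hg' hzB hxB
      have h2 : ‖x - z‖ < r / 20 := by rwa [mem_ball, dist_eq_norm] at hx
      have h3 : |⟪e, x - z⟫_ℝ| ≤ ‖x - z‖ := by
        simpa [he] using abs_real_inner_le_norm e (x - z)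
      have h4 := (abs_le.1 h1).1
      have h5 := (abs_le.1 h3).1
      exact ⟨hxB, by linarith⟩
    have hupos : ∀ x ∈ ball z (r / 20), 0 < u x := fun x hx =>
      lt_of_lt_of_le (hhole1 x hx).2 ((le_max_left _ _).trans (hSand x (hhole1 x hx).1).1)
    have huC : ∀ x ∈ ball z (r / 20), ContDiffAt ℝ 2 u x ∧ (Δ u) x = 0 := fun x hx =>
      ⟨(hH u K hu x (hupos x hx)).1, (hH u K hu x (hupos x hx)).2.self_of_nhds⟩
    have hulow : ∀ x ∈ ball z (r / 20), P x + a ≤ u x := fun x hx =>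
      (le_max_left _ _).trans (hSand x (hhole1 x hx).1).1
    have huup : ∀ x ∈ ball z (r / 20), u x ≤ P x + b := by
      intro x hx
      have h1 := (hSand x (hhole1 x hx).1).2
      have h2 := (hhole1 x hx).2
      rwa [max_eq_left (by linarith)] at h1
    have hzmem : z ∈ ball z (r / 20) := mem_ball_self (by positivity)
    have h402 : ball z (r / 40) ⊆ ball z (r / 20) := ball_subset_ball (by linarith)
    -- constants
    have hkk : C * (k₁ * (r / 20) ^ 2) ≤ C * s / 100 := by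
      have h1 : C₀ * (k₁ * r ^ 2) ≤ 4 * C * s := by rw [← h4Cs]; exact hk₁
      have h2 : C * (k₁ * r ^ 2) ≤ C₀ * (k₁ * r ^ 2) := mul_le_mul_of_nonneg_right hC₀C hkr
      have h3 : C * (k₁ * (r / 20) ^ 2) = C * (k₁ * r ^ 2) / 400 := by ring
      rw [h3]; linarith
    have hK1 : k₁ * r ^ 2 ≤ s * E₂ d * (1000 * d) * (d / 2) :=
      aux_K1 hs0 hE2 hd1 (by rw [← h4Cs]; exact hk₁) hC₀E' hC₀pos hC0
    have hK2 : k₂ * r < 1 / 5 * (s * E₂ d * (1000 * d)) :=
      aux_K2 hs0 hE2 hd1 (by rw [← h4Cs]; exact hk₂) hC₀E' hC₀pos hC0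
    have hsr : s * (12 * (1000 * d)) ≤ r := by
      have h1 : s * (12 * (1000 * d)) = s * (12000 * d) := by ring
      rw [h1]
      have h2 : s * (12000 * d) ≤ m * C₀ := mul_le_mul (by linarith) hC₀d (by positivity) hm0
      linarith
    rcases le_total ((b - a) / 2) (u z - P z - a) with hcase | hcase
    · -- improvement from below
      have hh : ∀ y ∈ ball z (r / 40), P y + a + s ≤ u y := by
        intro y hy
        have h := (hHar (fun x => u x - (P x + a)) z (r / 20) k₁ (by positivity) hk₁0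
          (fun x hx => (huC x hx).1.sub (hP.contDiffAt.add contDiffAt_const)) (fun x hx => by
            have h1 : ContDiffAt ℝ 2 (fun x => P x + a) x := hP.contDiffAt.add contDiffAt_const
            have h2 : (Δ (fun x => u x - (P x + a))) x = (Δ u) x - (Δ (fun x => P x + a)) x :=
              (huC x hx).1.laplacian_sub h1
            have h3 : (Δ (fun x => P x + a)) x = (Δ P) x := laplacian_add_cst hP _ x
            rw [h2, h3, (huC x hx).2, zero_sub, abs_neg]
            exact hL x (hhole1 x hx).1)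
          (fun x hx => by have := hulow x hx; linarith) y (by
            rw [show r / 20 / 2 = r / 40 by ring]; exact hy)).2
        have h7 := aux_H hC0 hs0 hkk (D := b - a) (x := u y - (P y + a)) (by linarith) h4Cs
        linarith
      have hfin := lower_step hV1 hd hu hP hr he hg' hL hN hm' ha hs0 (by linarith) hK1
        (by have : 0 < s * E₂ d * (1000 * d) := by positivity
            linarith) hx₀ (fun x hx => (hSand x hx).1) hh
      refine ⟨a + (E₁ d - E₂ d) / (4 * C) * (b - a), b, by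
        have := mul_pos hc0 hba
        linarith, le_rfl, by ring, ?_⟩
      intro x hx
      refine ⟨max_le ?_ (hu.nonneg x), (hSand x (hsub hx)).2⟩
      have := hfin x hx
      rw [hsE] at this
      linarith
    · -- improvement from above
      have hh : ∀ y ∈ ball z (r / 40), u y ≤ P y + b - s := by
        intro y hy
        have h := (hHar (fun x => (P x + b) - u x) z (r / 20) k₁ (by positivity) hk₁0
          (fun x hx => (hP.contDiffAt.add contDiffAt_const).sub (huC x hx).1) (fun x hx => by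
            have h1 : ContDiffAt ℝ 2 (fun x => P x + b) x := hP.contDiffAt.add contDiffAt_const
            have h2 : (Δ (fun x => (P x + b) - u x)) x = (Δ (fun x => P x + b)) x - (Δ u) x :=
              h1.laplacian_sub (huC x hx).1
            have h3 : (Δ (fun x => P x + b)) x = (Δ P) x := laplacian_add_cst hP _ x
            rw [h2, h3, (huC x hx).2, sub_zero]
            exact hL x (hhole1 x hx).1)
          (fun x hx => by have := huup x hx; linarith) y (by
            rw [show r / 20 / 2 = r / 40 by ring]; exact hy)).2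
        have h7 := aux_H hC0 hs0 hkk (D := b - a) (x := (P y + b) - u y) (by linarith) h4Cs
        linarith
      have hfin := upper_step hV2 hd hu hP hr he hg' hL hN hm' hb hs0 (by linarith) hsr hK1
        hK2 hx₀ (fun x hx => (hSand x hx).2) hh
      refine ⟨a, b - (E₁ d - E₂ d) / (4 * C) * (b - a), le_rfl, by
        have := mul_pos hc0 hba
        linarith, by ring, ?_⟩
      intro x hx
      refine ⟨(hSand x (hsub hx)).1, ?_⟩
      have := hfin x hx
      rw [hsE] at this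
      refine this.trans (max_le_max (by linarith) le_rfl)

end Crest.Agent.R097
end

-- ▼ part R097/F2Core
section

/-!
# Row 97, F2: iteration of the partial Harnack inequality
-/

set_option autoImplicit false
open MeasureTheory Metric Set Filter Topology InnerProductSpace
open scoped RealInnerProductSpace NNReal ENNReal Gradient Laplacian

namespace Crest.Agent.R097

variable {d : ℕ}

lemma norm_fderiv_sub_inner (P : E d → ℝ) (e x : E d) :
    ‖fderiv ℝ P x - innerSL ℝ e‖ = ‖∇ P x - e‖ := by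
  have h1 : fderiv ℝ P x - innerSL ℝ e = innerSL ℝ (∇ P x - e) := by
    ext v
    simp
  rw [h1, innerSL_apply_norm]

/-- **F2**: the oscillation of `(u - P)/δ` becomes small in small balls. -/
theorem F2core (hV1 : V1Loc d) (hV2 : V2Loc d) (hH : HarmPos d) (hHar : HarnackRHS d)
    (hd : 1 ≤ d) : ∀ ε : ℝ, 0 < ε → ∃ r₁ : ℝ, 0 < r₁ ∧ ∃ k₀ : ℝ, 0 < k₀ ∧ ∃ δ₀ : ℝ, 0 < δ₀ ∧
      ∀ (u : E d → ℝ) (K : ℝ≥0) (P : E d → ℝ) (e : E d) (δ : ℝ), LM u K → ‖e‖ = 1 → 0 < δ →
      δ ≤ δ₀ → ContDiff ℝ 2 P → (∀ x ∈ ball (0 : E d) 1, ‖fderiv ℝ P x - innerSL ℝ e‖ ≤ k₀) →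
      (∀ x ∈ ball (0 : E d) 1, |(Δ P) x| ≤ k₀ * δ) →
      (∀ x ∈ ball (0 : E d) 1, |P x| ≤ 3 * δ → |‖fderiv ℝ P x‖ ^ 2 - 1| ≤ k₀ * δ) →
      Sand u P (-δ) δ (ball 0 1) →
      ∀ x₀ ∈ ball (0 : E d) (3 / 4), ∃ a b : ℝ, -1 ≤ a ∧ a ≤ b ∧ b ≤ 1 ∧ b - a ≤ ε ∧
        Sand u P (a * δ) (b * δ) (ball x₀ r₁) := by
  obtain ⟨C₀, c, hC₀, hc0, hc1, hF1⟩ := F1 hV1 hV2 hH hHar hd
  intro ε hε
  have hq0 : 0 < 1 - c := by linarith
  have hq1 : 1 - c < 1 := by linarith
  obtain ⟨N, hN⟩ := exists_pow_lt_of_lt_one (show 0 < ε / 2 by positivity) hq1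
  have hC₀p : 0 < C₀ := by linarith
  set rN : ℝ := 1 / 4 / 240 ^ N with hrN
  have hrN0 : 0 < rN := by positivity
  have hqN : 0 < (1 - c) ^ N := pow_pos hq0 N
  have hqN1 : (1 - c) ^ N ≤ 1 := pow_le_one₀ hq0.le hq1.le
  refine ⟨rN, hrN0, (1 - c) ^ N / C₀, div_pos hqN hC₀p, rN / C₀, div_pos hrN0 hC₀p, ?_⟩
  intro u K P e δ hu he hδ hδ₀ hP hg hL hgr hSand x₀ hx₀
  have key : ∀ n : ℕ, n ≤ N → ∃ a b : ℝ, -δ ≤ a ∧ b ≤ δ ∧ b - a = 2 * δ * (1 - c) ^ n ∧
      Sand u P a b (ball x₀ (1 / 4 / 240 ^ n)) := by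
    intro n
    induction n with
    | zero =>
      intro _
      refine ⟨-δ, δ, le_rfl, le_rfl, by ring, hSand.mono le_rfl le_rfl ?_⟩
      simp only [pow_zero, div_one]
      intro x hx
      rw [mem_ball, dist_eq_norm] at hx
      rw [mem_ball, dist_zero_right] at hx₀ ⊢
      have : x = (x - x₀) + x₀ := by abel
      rw [this]
      refine (norm_add_le _ _).trans_lt ?_
      linarith
    | succ n ih =>
      intro hn
      obtain ⟨a, b, ha, hb, hab, hS⟩ := ih (by omega)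
      set r : ℝ := 1 / 4 / 240 ^ n with hr
      have hr0 : 0 < r := by positivity
      have h240 : (1 : ℝ) ≤ 240 ^ n := one_le_pow₀ (by norm_num)
      have hr1 : r ≤ 1 / 4 := by
        rw [hr, div_le_iff₀ (by positivity)]
        linarith
      have hrNr : rN ≤ r := by
        rw [hrN, hr]
        refine div_le_div_of_nonneg_left (by norm_num) (by positivity) ?_
        exact pow_le_pow_right₀ (by norm_num) (by omega)
      have hsub : ball x₀ r ⊆ ball (0 : E d) 1 := by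
        intro x hx
        rw [mem_ball, dist_eq_norm] at hx
        rw [mem_ball, dist_zero_right] at hx₀ ⊢
        have : x = (x - x₀) + x₀ := by abel
        rw [this]
        refine (norm_add_le _ _).trans_lt ?_
        linarith
      have hqn : 0 < (1 - c) ^ n := pow_pos hq0 n
      have hqNn : (1 - c) ^ N ≤ (1 - c) ^ n := pow_le_pow_of_le_one hq0.le hq1.le (by omega)
      have hpos : 0 < 2 * δ * (1 - c) ^ n := by positivity
      have hk : (1 - c) ^ N / C₀ * δ = (1 - c) ^ N * δ / C₀ := by ring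
      have hCk : C₀ * ((1 - c) ^ N / C₀ * δ) = (1 - c) ^ N * δ := by field_simp
      have hw : (1 - c) ^ N * δ ≤ 2 * δ * (1 - c) ^ n := by
        have := mul_le_mul_of_nonneg_right hqNn hδ.le
        have := mul_pos hqn hδ
        linarith
      have hw0 : 0 ≤ (1 - c) ^ N * δ := by positivity
      obtain ⟨a', b', h1, h2, h3, h4⟩ := hF1 u K hu P hP e x₀ r δ ((1 - c) ^ N / C₀ * δ)
        ((1 - c) ^ N / C₀ * δ) a b hr0 he
        (fun x hx => by
          rw [← norm_fderiv_sub_inner]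
          refine (hg x (hsub hx)).trans ?_
          exact div_le_div_of_nonneg_right hqN1 hC₀p.le)
        (fun x hx => hL x (hsub hx))
        (fun x hx h => by rw [norm_gradient]; exact hgr x (hsub hx) h)
        (by
          rw [le_div_iff₀ hC₀p] at hδ₀
          linarith)
        (by rw [abs_le]; constructor <;> linarith)
        (by rw [abs_le]; constructor <;> linarith)
        (by linarith)
        (by
          rw [hab, ← mul_assoc, hCk]
          have hr2 : r ^ 2 ≤ 1 := pow_le_one₀ hr0.le (by linarith)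
          have := mul_le_mul_of_nonneg_left hr2 hw0
          linarith)
        (by
          rw [hab, ← mul_assoc, hCk]
          have := mul_le_mul_of_nonneg_left (show r ≤ 1 by linarith) hw0
          linarith) hS
      refine ⟨a', b', by linarith, by linarith, by rw [h3, hab]; ring, ?_⟩
      have : (1 : ℝ) / 4 / 240 ^ (n + 1) = r / 240 := by
        rw [hr, pow_succ]; field_simp
      rw [this]; exact h4
  obtain ⟨a, b, ha, hb, hab, hS⟩ := key N le_rfl
  refine ⟨a / δ, b / δ, ?_, ?_, ?_, ?_, ?_⟩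
  · rw [le_div_iff₀ hδ]; linarith
  · have : 0 < 2 * δ * (1 - c) ^ N := by positivity
    exact div_le_div_of_nonneg_right (by linarith) hδ.le
  · rw [div_le_iff₀ hδ]; linarith
  · rw [← sub_div, hab, div_le_iff₀ hδ]
    have := mul_lt_mul_of_pos_right hN hδ
    linarith
  · rw [div_mul_cancel₀ _ hδ.ne', div_mul_cancel₀ _ hδ.ne']
    exact hS

end Crest.Agent.R097
end

-- ▼ part R097/V2
section

/-!
# Row 97: comparison with strict supersolutions from above (V2), local versions of V1, V2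
-/

set_option autoImplicit false
open MeasureTheory Metric Set Filter Topology InnerProductSpace
open scoped RealInnerProductSpace NNReal ENNReal Gradient Laplacian

namespace Crest.Agent.R097

variable {d : ℕ}

/-- **V1, local version.** -/
theorem v1_local (hd : 0 < d) {u : E d → ℝ} {K : ℝ≥0} (hu : LM u K) {Ψ : E d → ℝ}
    (hΨ : ContDiff ℝ 2 Ψ) {D K0 : Set (E d)} (hD : IsOpen D) (hK : IsCompact K0) (hKD : K0 ⊆ D)
    (hsub : ∀ x ∈ D, u x < Ψ x → x ∈ K0)
    (hΔ : ∀ x ∈ D, u x < Ψ x → 0 ≤ (Δ Ψ) x)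
    (hg : ∀ x ∈ D, u x = 0 → 0 < Ψ x → 1 < ‖fderiv ℝ Ψ x‖) :
    ∀ x ∈ D, Ψ x ≤ u x := by
  obtain ⟨χ, hχ, -, hχD, hχ01, hχ1⟩ := exists_cutoff hK hD hKD
  set Ψ' : E d → ℝ := fun x => χ x * Ψ x - (1 - χ x) with hΨ'
  have hC : ContDiff ℝ 2 Ψ' := by
    have h1 : ContDiff ℝ 2 χ := by exact_mod_cast contDiff_infty.1 hχ 2
    exact (h1.mul hΨ).sub (contDiff_const.sub h1)
  have hin : ∀ x, u x < Ψ' x → x ∈ D ∧ u x < Ψ x := by
    intro x hx
    have hu0 := hu.nonneg x
    have hxs : x ∈ tsupport χ := by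
      by_contra h
      have h0 := image_eq_zero_of_notMem_tsupport h
      simp only [hΨ', h0] at hx
      linarith
    refine ⟨hχD hxs, ?_⟩
    by_contra h
    have h1 : Ψ x ≤ u x := not_lt.1 h
    have h2 := hχ01 x
    have h3 : χ x * Ψ x ≤ χ x * u x := mul_le_mul_of_nonneg_left h1 h2.1
    have h4 : χ x * u x ≤ 1 * u x := mul_le_mul_of_nonneg_right h2.2 hu0
    simp only [hΨ'] at hx
    linarith [h2.2]
  have hK0 : ∀ x, u x < Ψ' x → x ∈ K0 := fun x hx => hsub x (hin x hx).1 (hin x hx).2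
  have heq : ∀ x ∈ K0, Ψ' =ᶠ[𝓝 x] Ψ := by
    intro x hx
    filter_upwards [hχ1 x hx] with y hy
    simp [hΨ', hy]
  have hglob := v1_global hd hu hC (hK.isBounded.subset hK0)
    (fun x hx => by
      rw [(laplacian_congr_nhds (heq x (hK0 x hx))).self_of_nhds]
      exact hΔ x (hin x hx).1 (hin x hx).2)
    (fun x hx0 hx1 => by
      have hx : u x < Ψ' x := by rw [hx0]; exact hx1
      have h2 := (heq x (hK0 x hx))
      rw [h2.fderiv_eq]
      refine hg x (hin x hx).1 hx0 ?_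
      rw [← h2.self_of_nhds]; exact hx1)
  intro x hx
  by_contra h
  have h1 : u x < Ψ x := not_le.1 h
  have h2 := hsub x hx h1
  have h3 := hglob x
  rw [(heq x h2).self_of_nhds] at h3
  exact h h3

/-- **V2, global version** (with a Lipschitz `Φ`). -/
theorem v2_global (hd : 0 < d) {u : E d → ℝ} {K : ℝ≥0} (hu : LM u K) {Φ : E d → ℝ}
    (hΦ : ContDiff ℝ 2 Φ) {C1 : ℝ≥0} (hΦl : LipschitzWith C1 Φ)
    (hb : Bornology.IsBounded {x | max (Φ x) 0 < u x})
    (hΔ : ∀ x, max (Φ x) 0 < u x → (Δ Φ) x ≤ 0)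
    (hg : ∀ x, max (Φ x) 0 < u x → Φ x ≤ 0 → ‖fderiv ℝ Φ x‖ < 1) :
    ∀ x, u x ≤ max (Φ x) 0 := by
  set P : E d → ℝ := fun x => max (Φ x) 0 with hP
  have hPl : LipschitzWith C1 P := hΦl.max_const 0
  have hP0 : ∀ x, 0 ≤ P x := fun x => le_max_right _ _
  set A : Set (E d) := {x | P x < u x} with hA
  have hAo : IsOpen A := isOpen_lt hPl.continuous hu.continuous
  have hAm : MeasurableSet A := hAo.measurableSet
  set g : E d → ℝ := fun x => max (u x - P x) 0 with hgdef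
  have hg0 : ∀ x, 0 ≤ g x := fun x => le_max_right _ _
  have hgA : ∀ x ∈ A, g x = u x - P x := fun x hx => max_eq_left (sub_nonneg.2 (le_of_lt hx))
  have hgA' : ∀ x ∉ A, g x = 0 := fun x hx => max_eq_right (by
    have : ¬ (P x < u x) := hx
    linarith [not_lt.1 this])
  have hclA : IsCompact (closure A) := hb.isCompact_closure
  have hgc : HasCompactSupport g := by
    refine HasCompactSupport.of_support_subset_isCompact hclA ?_
    intro x hx
    by_contra h
    exact hx (hgA' x fun h' => h (subset_closure h'))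
  have hgl : LipschitzWith (K + C1) g := (hu.lip.sub hPl).max_const 0
  have hgd0 : ∀ x ∉ A, fderiv ℝ g x = 0 := fun x hx => fderiv_eq_zero_of_nonneg hg0 (hgA' x hx)
  have hΦd : ∀ x, DifferentiableAt ℝ Φ x := fun x => hΦ.differentiable (by norm_num) x
  have hud : ∀ᵐ x, DifferentiableAt ℝ u x := hu.lip.ae_differentiableAt
  have hPd : ∀ᵐ x, DifferentiableAt ℝ P x := hPl.ae_differentiableAt
  have hPdpos : ∀ x, 0 < Φ x → fderiv ℝ P x = fderiv ℝ Φ x := by
    intro x hx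
    have : P =ᶠ[𝓝 x] Φ := by
      filter_upwards [(isOpen_lt continuous_const hΦ.continuous).mem_nhds hx] with y hy
      exact max_eq_left (le_of_lt hy)
    exact this.fderiv_eq
  have hPdneg : ∀ x, Φ x ≤ 0 → fderiv ℝ P x = 0 := fun x hx =>
    fderiv_eq_zero_of_nonneg hP0 (max_eq_right hx)
  have hgdA : ∀ x ∈ A, DifferentiableAt ℝ u x → DifferentiableAt ℝ P x →
      fderiv ℝ g x = fderiv ℝ u x - fderiv ℝ P x := by
    intro x hx hux hPx
    have : g =ᶠ[𝓝 x] fun y => u y - P y := by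
      filter_upwards [hAo.mem_nhds hx] with y hy using hgA y hy
    rw [this.fderiv_eq, fderiv_fun_sub hux hPx]
  -- the competitor
  set v : E d → ℝ := fun x => u x - g x with hv
  have hvA : ∀ x ∈ A, v x = P x := fun x hx => by simp only [hv]; rw [hgA x hx]; ring
  have hvA' : ∀ x ∉ A, v x = u x := fun x hx => by simp only [hv]; rw [hgA' x hx]; ring
  have hv0 : ∀ x, 0 ≤ v x := by
    intro x
    by_cases hx : x ∈ A
    · rw [hvA x hx]; exact hP0 x
    · rw [hvA' x hx]; exact hu.nonneg x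
  have hvl : LipschitzWith (K + (K + C1)) v := hu.lip.sub hgl
  obtain ⟨R, hR0, hR⟩ : ∃ R : ℝ, 0 < R ∧ A ⊆ closedBall (0 : E d) R := by
    obtain ⟨R, hR⟩ := hb.subset_closedBall 0
    exact ⟨|R| + 1, by positivity, hR.trans (closedBall_subset_closedBall (by
      linarith [le_abs_self R]))⟩
  have hvout : ∀ x, x ∉ closedBall (0 : E d) R → v x = u x := fun x hx =>
    hvA' x fun h => hx (hR h)
  set B : Set (E d) := ball (0 : E d) (R + 1) with hB
  have hAB : A ⊆ B := hR.trans (closedBall_subset_ball (by linarith))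
  have hBm : MeasurableSet B := measurableSet_ball
  have hBfin : volume B < ⊤ := measure_ball_lt_top
  have hAfin : volume A < ⊤ := (measure_mono hAB).trans_lt hBfin
  have hmin := hu.min 0 R hR0 v hv0 ⟨_, hvl⟩ hvout
  have hvdA : ∀ x ∈ A, fderiv ℝ v x = fderiv ℝ P x := by
    intro x hx
    have : v =ᶠ[𝓝 x] P := by
      filter_upwards [hAo.mem_nhds hx] with y hy using hvA y hy
    rw [this.fderiv_eq]
  have hgdiff : ∀ᵐ x, DifferentiableAt ℝ g x := hgl.ae_differentiableAt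
  have hvdA' : ∀ᵐ x, x ∉ A → fderiv ℝ v x = fderiv ℝ u x := by
    filter_upwards [hud, hgdiff] with x hx1 hx2 hx3
    simp only [hv]
    rw [fderiv_fun_sub hx1 hx2, hgd0 x hx3, sub_zero]
  have hdir : (∫ x in B, ‖fderiv ℝ v x‖ ^ 2) - ∫ x in B, ‖fderiv ℝ u x‖ ^ 2 =
      ∫ x in A, (‖fderiv ℝ P x‖ ^ 2 - ‖fderiv ℝ u x‖ ^ 2) := by
    rw [← integral_sub (integrableOn_normsq hvl hBfin) (integrableOn_normsq hu.lip hBfin)]
    rw [← integral_indicator hBm, ← integral_indicator hAm]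
    refine integral_congr_ae ?_
    filter_upwards [hvdA'] with x hx
    by_cases hxA : x ∈ A
    · rw [indicator_of_mem (hAB hxA), indicator_of_mem hxA, hvdA x hxA]
    · rw [indicator_of_notMem hxA]
      by_cases hxB : x ∈ B
      · rw [indicator_of_mem hxB, hx hxA, sub_self]
      · rw [indicator_of_notMem hxB]
  -- measure part
  set Z : Set (E d) := A ∩ {x | Φ x ≤ 0} with hZ
  have hZm : MeasurableSet Z := hAm.inter (isClosed_le hΦ.continuous continuous_const).measurableSet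
  have hZfin : volume Z < ⊤ := (measure_mono inter_subset_left).trans_lt hAfin
  have hZA : Z ⊆ A := inter_subset_left
  have hmeas : (volume ({x | 0 < u x} ∩ B)).toReal - (volume ({x | 0 < v x} ∩ B)).toReal =
      (volume Z).toReal := by
    have e1 : {x | 0 < u x} ∩ B = ({x | 0 < v x} ∩ B) ∪ Z := by
      ext x
      constructor
      · rintro ⟨h1, h2⟩
        by_cases hxA : x ∈ A
        · by_cases hx : Φ x ≤ 0
          · exact Or.inr ⟨hxA, hx⟩
          · refine Or.inl ⟨?_, h2⟩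
            show 0 < v x
            rw [hvA x hxA]
            exact lt_max_of_lt_left (not_le.1 hx)
        · refine Or.inl ⟨?_, h2⟩
          show 0 < v x
          rw [hvA' x hxA]; exact h1
      · rintro (⟨h1, h2⟩ | ⟨h1, h2⟩)
        · refine ⟨?_, h2⟩
          have h3 : 0 < u x - g x := h1
          have := hg0 x
          show 0 < u x
          linarith
        · refine ⟨?_, hAB h1⟩
          have h3 : P x < u x := h1
          exact lt_of_le_of_lt (hP0 x) h3
    have hdisj : Disjoint ({x | 0 < v x} ∩ B) Z := by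
      rw [Set.disjoint_left]
      rintro x ⟨h1, -⟩ ⟨h3, h2⟩
      have h4 : 0 < v x := h1
      rw [hvA x h3] at h4
      have h5 : P x = 0 := max_eq_right h2
      linarith
    rw [e1, measure_union hdisj hZm, ENNReal.toReal_add
      ((measure_mono inter_subset_right).trans_lt hBfin).ne hZfin.ne]
    ring
  have hI : (volume Z).toReal ≤ ∫ x in A, (‖fderiv ℝ P x‖ ^ 2 - ‖fderiv ℝ u x‖ ^ 2) := by
    have : Jr u B ≤ Jr v B := hmin
    unfold Jr at this
    linarith
  -- Green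
  have hgreen := green1 hΦ hgl hgc
  have hgreen' : 0 ≤ ∫ x, fderiv ℝ g x (∇ Φ x) := by
    rw [hgreen, ← integral_neg]
    refine integral_nonneg fun x => ?_
    by_cases hx : x ∈ A
    · have := mul_nonneg (hg0 x) (neg_nonneg.2 (hΔ x hx))
      simp only [Pi.zero_apply]
      linarith
    · rw [hgA' x hx]; simp
  have hgreenA : ∫ x in A, fderiv ℝ g x (∇ Φ x) = ∫ x, fderiv ℝ g x (∇ Φ x) := by
    rw [← integral_indicator hAm]
    congr 1
    ext x
    by_cases hx : x ∈ A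
    · rw [indicator_of_mem hx]
    · rw [indicator_of_notMem hx, hgd0 x hx]; simp
  have hcontΦ : Continuous (fun x => ∇ Φ x) := (contDiff_gradient (m := 0) hΦ (by norm_num)).continuous
  have hint2 : IntegrableOn (fun x => fderiv ℝ g x (∇ Φ x)) A := by
    have hm : Measurable fun x => fderiv ℝ g x (∇ Φ x) := by
      have : ∀ x, fderiv ℝ g x (∇ Φ x) = ∑ i, (∇ Φ x) i * fderiv ℝ g x (bv i) := by
        intro x
        conv_lhs => rw [← sum_bv (∇ Φ x), map_sum]
        simp [smul_eq_mul]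
      simp_rw [this]
      refine Finset.measurable_sum _ fun i _ => ?_
      refine Measurable.mul ?_ (measurable_fd g _)
      exact ((EuclideanSpace.proj i : E d →L[ℝ] ℝ).continuous.comp hcontΦ).measurable
    obtain ⟨M, hM⟩ := hclA.exists_bound_of_continuousOn hcontΦ.continuousOn
    refine Measure.integrableOn_of_bounded (M := (K + C1) * M) hAfin.ne
      hm.aestronglyMeasurable ?_
    rw [ae_restrict_iff' hAm]
    refine Eventually.of_forall fun x hx => ?_
    refine (ContinuousLinearMap.le_opNorm _ _).trans ?_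
    exact mul_le_mul (by simpa using norm_fderiv_le_of_lip hgl x) (hM x (subset_closure hx))
      (norm_nonneg _) (by positivity)
  -- the function u - Φ
  set q : E d → ℝ := fun x => u x - Φ x with hq
  have hql : LipschitzWith (K + C1) q := hu.lip.sub hΦl
  have hint1 : IntegrableOn (fun x => ‖fderiv ℝ q x‖ ^ 2) A := integrableOn_normsq hql hAfin
  have hqd : ∀ x, DifferentiableAt ℝ u x → fderiv ℝ q x = fderiv ℝ u x - fderiv ℝ Φ x :=
    fun x hx => by simp only [hq]; rw [fderiv_fun_sub hx (hΦd x)]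
  have hintΦ : IntegrableOn (fun x => ‖fderiv ℝ Φ x‖ ^ 2) A := integrableOn_normsq hΦl hAfin
  have hexp : ∫ x in A, (‖fderiv ℝ P x‖ ^ 2 - ‖fderiv ℝ u x‖ ^ 2) =
      - 2 * (∫ x in A, fderiv ℝ g x (∇ Φ x)) - (∫ x in A, ‖fderiv ℝ q x‖ ^ 2)
        + ∫ x in Z, ‖fderiv ℝ Φ x‖ ^ 2 := by
    have hZind : ∫ x in Z, ‖fderiv ℝ Φ x‖ ^ 2 =
        ∫ x in A, indicator {x | Φ x ≤ 0} (fun x => ‖fderiv ℝ Φ x‖ ^ 2) x := by
      rw [setIntegral_indicator (isClosed_le hΦ.continuous continuous_const).measurableSet]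
    have hintI : IntegrableOn (indicator {x | Φ x ≤ 0} (fun x => ‖fderiv ℝ Φ x‖ ^ 2)) A :=
      hintΦ.indicator (isClosed_le hΦ.continuous continuous_const).measurableSet
    have hsub : IntegrableOn (fun x => -2 * fderiv ℝ g x (∇ Φ x) - ‖fderiv ℝ q x‖ ^ 2) A :=
      (hint2.const_mul (-2)).sub hint1
    rw [hZind, ← integral_const_mul, ← integral_sub (hint2.const_mul (-2)) hint1,
      ← integral_add hsub hintI]
    refine integral_congr_ae ?_
    rw [EventuallyEq, ae_restrict_iff' hAm]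
    filter_upwards [hud, hPd] with x hx hPx hxA
    rw [hgdA x hxA hx hPx, hqd x hx]
    by_cases hx0 : Φ x ≤ 0
    · rw [hPdneg x hx0, indicator_of_mem (by exact hx0), sub_zero]
      have h1 := normsq_sub (fderiv ℝ Φ x) (fderiv ℝ u x) (∇ Φ x) (inner_gradient Φ x)
      rw [norm_sub_rev (fderiv ℝ Φ x) (fderiv ℝ u x)] at h1
      have h2 : (fderiv ℝ Φ x - fderiv ℝ u x) (∇ Φ x) =
          ‖fderiv ℝ Φ x‖ ^ 2 - fderiv ℝ u x (∇ Φ x) := by
        have : fderiv ℝ Φ x (∇ Φ x) = ‖fderiv ℝ Φ x‖ ^ 2 := by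
          rw [← inner_gradient, real_inner_self_eq_norm_sq, norm_gradient]
        rw [sub_apply, this]
      rw [h2] at h1
      simp only [norm_zero]
      linarith
    · have hx1 : 0 < Φ x := not_le.1 hx0
      rw [hPdpos x hx1, indicator_of_notMem (by simpa using hx1)]
      have h1 := normsq_sub (fderiv ℝ Φ x) (fderiv ℝ u x) (∇ Φ x) (inner_gradient Φ x)
      rw [norm_sub_rev (fderiv ℝ Φ x) (fderiv ℝ u x)] at h1
      have h2 : (fderiv ℝ Φ x - fderiv ℝ u x) (∇ Φ x) =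
          - ((fderiv ℝ u x - fderiv ℝ Φ x) (∇ Φ x)) := by
        simp
      rw [h2] at h1
      linarith
  have hQ0 : 0 ≤ ∫ x in A, ‖fderiv ℝ q x‖ ^ 2 := integral_nonneg fun x => by positivity
  have hIII : 0 ≤ ∫ x in Z, (‖fderiv ℝ Φ x‖ ^ 2 - 1) := by
    rw [integral_sub (hintΦ.mono_set hZA) (integrableOn_const hZfin.ne)]
    simp only [integral_const, MeasurableSet.univ, measureReal_restrict_apply, univ_inter,
      smul_eq_mul, mul_one]
    rw [Measure.real]
    rw [hexp, hgreenA] at hI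
    linarith
  have hZlt : ∀ x ∈ Z, ‖fderiv ℝ Φ x‖ ^ 2 < 1 := by
    intro x hx
    have := hg x hx.1 hx.2
    nlinarith [norm_nonneg (fderiv ℝ Φ x)]
  have hZ0 : volume Z = 0 := by
    by_contra hne
    have hpos : 0 < volume Z := pos_iff_ne_zero.2 hne
    have h1 : 0 < ∫ x in Z, (1 - ‖fderiv ℝ Φ x‖ ^ 2) := by
      rw [setIntegral_pos_iff_support_of_nonneg_ae]
      · refine lt_of_lt_of_le hpos (measure_mono ?_)
        intro x hx
        refine ⟨?_, hx⟩
        have := hZlt x hx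
        simp only [Function.mem_support]
        linarith
      · rw [EventuallyLE, ae_restrict_iff' hZm]
        refine Eventually.of_forall fun x hx => ?_
        have := hZlt x hx
        simp only [Pi.zero_apply]
        linarith
      · exact (integrableOn_const hZfin.ne).sub (hintΦ.mono_set hZA)
    have h2 : ∫ x in Z, (1 - ‖fderiv ℝ Φ x‖ ^ 2) = - ∫ x in Z, (‖fderiv ℝ Φ x‖ ^ 2 - 1) := by
      rw [← integral_neg]
      congr 1; ext x; ring
    linarith
  have hIV : ∫ x in A, ‖fderiv ℝ q x‖ ^ 2 = 0 := by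
    refine le_antisymm ?_ hQ0
    have h1 : ∫ x in Z, ‖fderiv ℝ Φ x‖ ^ 2 = 0 := setIntegral_measure_zero _ hZ0
    rw [hexp, hgreenA, h1, hZ0] at hI
    simp only [ENNReal.toReal_zero] at hI
    linarith
  have hZae : ∀ᵐ x, x ∉ Z := measure_eq_zero_iff_ae_notMem.1 hZ0
  have hV : ∀ᵐ x, fderiv ℝ g x = 0 := by
    have h1 := (integral_eq_zero_iff_of_nonneg (fun x => by positivity) hint1).1 hIV
    rw [EventuallyEq, ae_restrict_iff' hAm] at h1
    filter_upwards [h1, hZae, hud, hPd] with x hx hxZ hux hPx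
    by_cases hxA : x ∈ A
    · have h2 := hx hxA
      have h3 : fderiv ℝ q x = 0 := by simpa using h2
      have h4 : 0 < Φ x := by
        by_contra h
        exact hxZ ⟨hxA, not_lt.1 h⟩
      rw [hgdA x hxA hux hPx, hPdpos x h4, ← hqd x hux, h3]
    · exact hgd0 x hxA
  have hfin := lip_eq_zero hd hgl hgc hg0 hV
  intro x
  by_contra h
  have hxA : x ∈ A := not_le.1 h
  have h1 := hfin x
  rw [hgA x hxA] at h1
  have h2 : P x < u x := hxA
  linarith

/-- a smooth Lipschitz function above `u` -/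
lemma exists_upper {u : E d → ℝ} {K : ℝ≥0} (hu : LipschitzWith K u) :
    ∃ L : E d → ℝ, ContDiff ℝ 2 L ∧ (∃ C : ℝ≥0, LipschitzWith C L) ∧ ∀ x, u x ≤ L x := by
  refine ⟨fun x => u 0 + K * Real.sqrt (1 + ‖x‖ ^ 2), ?_, ⟨K, ?_⟩, ?_⟩
  · refine contDiff_const.add (contDiff_const.mul ?_)
    refine ContDiff.sqrt (contDiff_const.add (contDiff_norm_sq ℝ)) fun x => by positivity
  · refine LipschitzWith.of_dist_le_mul fun x y => ?_
    have h1 : |Real.sqrt (1 + ‖x‖ ^ 2) - Real.sqrt (1 + ‖y‖ ^ 2)| ≤ dist x y := by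
      have hx := Real.sqrt_nonneg (1 + ‖x‖ ^ 2)
      have hy := Real.sqrt_nonneg (1 + ‖y‖ ^ 2)
      have hx2 := Real.sq_sqrt (show 0 ≤ 1 + ‖x‖ ^ 2 by positivity)
      have hy2 := Real.sq_sqrt (show 0 ≤ 1 + ‖y‖ ^ 2 by positivity)
      have h2 : |‖x‖ - ‖y‖| ≤ dist x y := by
        rw [dist_eq_norm]; exact abs_norm_sub_norm_le x y
      refine le_trans ?_ h2
      have hx3 : ‖x‖ ≤ Real.sqrt (1 + ‖x‖ ^ 2) := Real.le_sqrt_of_sq_le (by linarith)
      have hy3 : ‖y‖ ≤ Real.sqrt (1 + ‖y‖ ^ 2) := Real.le_sqrt_of_sq_le (by linarith)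
      have hpos : 0 < Real.sqrt (1 + ‖x‖ ^ 2) + Real.sqrt (1 + ‖y‖ ^ 2) := by
        have : 0 < Real.sqrt (1 + ‖x‖ ^ 2) := Real.sqrt_pos.2 (by positivity)
        linarith
      have h4 : |Real.sqrt (1 + ‖x‖ ^ 2) - Real.sqrt (1 + ‖y‖ ^ 2)| *
          (Real.sqrt (1 + ‖x‖ ^ 2) + Real.sqrt (1 + ‖y‖ ^ 2)) = |‖x‖ - ‖y‖| * (‖x‖ + ‖y‖) := by
        have e1 := abs_of_pos hpos
        have e2 := abs_of_nonneg (add_nonneg (norm_nonneg x) (norm_nonneg y))
        rw [← e1, ← e2, ← abs_mul, ← abs_mul]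
        congr 1
        ring_nf
        rw [hx2, hy2]; ring
      have h5 : |‖x‖ - ‖y‖| * (‖x‖ + ‖y‖) ≤ |‖x‖ - ‖y‖| *
          (Real.sqrt (1 + ‖x‖ ^ 2) + Real.sqrt (1 + ‖y‖ ^ 2)) :=
        mul_le_mul_of_nonneg_left (add_le_add hx3 hy3) (abs_nonneg _)
      rw [← h4] at h5
      exact le_of_mul_le_mul_right h5 hpos
    rw [Real.dist_eq]
    have h6 : u 0 + K * Real.sqrt (1 + ‖x‖ ^ 2) - (u 0 + K * Real.sqrt (1 + ‖y‖ ^ 2)) =
        K * (Real.sqrt (1 + ‖x‖ ^ 2) - Real.sqrt (1 + ‖y‖ ^ 2)) := by ring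
    rw [h6, abs_mul, NNReal.abs_eq]
    exact mul_le_mul_of_nonneg_left h1 K.2
  · intro x
    have h1 := hu.dist_le_mul x 0
    rw [Real.dist_eq, dist_zero_right] at h1
    have h2 : ‖x‖ ≤ Real.sqrt (1 + ‖x‖ ^ 2) := Real.le_sqrt_of_sq_le (by linarith)
    have h3 := le_abs_self (u x - u 0)
    have h4 : (K : ℝ) * ‖x‖ ≤ K * Real.sqrt (1 + ‖x‖ ^ 2) := mul_le_mul_of_nonneg_left h2 K.2
    show u x ≤ u 0 + K * Real.sqrt (1 + ‖x‖ ^ 2)
    linarith

/-- **V2, local version.** -/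
theorem v2_local (hd : 0 < d) {u : E d → ℝ} {K : ℝ≥0} (hu : LM u K) {Φ : E d → ℝ}
    (hΦ : ContDiff ℝ 2 Φ) {D K0 : Set (E d)} (hD : IsOpen D) (hK : IsCompact K0) (hKD : K0 ⊆ D)
    (hsub : ∀ x ∈ D, max (Φ x) 0 < u x → x ∈ K0)
    (hΔ : ∀ x ∈ D, max (Φ x) 0 < u x → (Δ Φ) x ≤ 0)
    (hg : ∀ x ∈ D, max (Φ x) 0 < u x → Φ x ≤ 0 → ‖fderiv ℝ Φ x‖ < 1) :
    ∀ x ∈ D, u x ≤ max (Φ x) 0 := by
  obtain ⟨χ, hχ, hχc, hχD, hχ01, hχ1⟩ := exists_cutoff hK hD hKD
  obtain ⟨L, hL, ⟨CL, hCL⟩, huL⟩ := exists_upper hu.lip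
  have hχ2 : ContDiff ℝ 2 χ := by exact_mod_cast contDiff_infty.1 hχ 2
  set Φ' : E d → ℝ := fun x => χ x * (Φ x - L x) + L x with hΦ'
  have hC : ContDiff ℝ 2 Φ' := (hχ2.mul (hΦ.sub hL)).add hL
  obtain ⟨C1, hC1⟩ := lip_of_contDiff_compact (f := fun x => χ x * (Φ x - L x))
    ((hχ2.mul (hΦ.sub hL)).of_le (by norm_num)) hχc.mul_right
  have hlip : LipschitzWith (C1 + CL) Φ' := hC1.add hCL
  have hin : ∀ x, max (Φ' x) 0 < u x → x ∈ D ∧ max (Φ x) 0 < u x := by
    intro x hx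
    have hu0 := hu.nonneg x
    have hx1 : Φ' x < u x := lt_of_le_of_lt (le_max_left _ _) hx
    have hx2 : 0 < u x := lt_of_le_of_lt (le_max_right _ _) hx
    have hxs : x ∈ tsupport χ := by
      by_contra h
      have h0 := image_eq_zero_of_notMem_tsupport h
      simp only [hΦ', h0] at hx1
      linarith [huL x]
    refine ⟨hχD hxs, ?_⟩
    by_contra h
    have h1 : u x ≤ max (Φ x) 0 := not_lt.1 h
    have h2 := hχ01 x
    have h3 : u x ≤ Φ x := by
      rcases le_total (Φ x) 0 with h4 | h4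
      · rw [max_eq_right h4] at h1; linarith
      · rwa [max_eq_left h4] at h1
    have h4 : χ x * u x ≤ χ x * Φ x := mul_le_mul_of_nonneg_left h3 h2.1
    have h5 : (1 - χ x) * u x ≤ (1 - χ x) * L x :=
      mul_le_mul_of_nonneg_left (huL x) (by linarith [h2.2])
    simp only [hΦ'] at hx1
    nlinarith
  have hK0 : ∀ x, max (Φ' x) 0 < u x → x ∈ K0 := fun x hx => hsub x (hin x hx).1 (hin x hx).2
  have heq : ∀ x ∈ K0, Φ' =ᶠ[𝓝 x] Φ := by
    intro x hx
    filter_upwards [hχ1 x hx] with y hy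
    simp [hΦ', hy]
  have hglob := v2_global hd hu hC hlip (hK.isBounded.subset hK0)
    (fun x hx => by
      rw [(laplacian_congr_nhds (heq x (hK0 x hx))).self_of_nhds]
      exact hΔ x (hin x hx).1 (hin x hx).2)
    (fun x hx hx1 => by
      have h2 := (heq x (hK0 x hx))
      rw [h2.fderiv_eq]
      refine hg x (hin x hx).1 (hin x hx).2 ?_
      rw [← h2.self_of_nhds]; exact hx1)
  intro x hx
  by_contra h
  have h1 : max (Φ x) 0 < u x := not_le.1 h
  have h2 := hsub x hx h1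
  have h3 := hglob x
  rw [(heq x h2).self_of_nhds] at h3
  exact h h3

end Crest.Agent.R097
end

-- ▼ part R097/F2
section

/-!
# Row 97, F2: `F2Stmt` from harmonicity in the positivity set and the Harnack inequality
-/

set_option autoImplicit false
open MeasureTheory Metric Set Filter Topology InnerProductSpace
open scoped RealInnerProductSpace NNReal ENNReal Gradient Laplacian

namespace Crest.Agent.R097

variable {d : ℕ}

theorem v1Loc (hd : 1 ≤ d) : V1Loc d := fun _ _ hu _ _ hD hS hSD _ hΨ h1 h2 h3 =>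
  v1_local hd hu hΨ hD hS hSD h1 h2 h3

theorem v2Loc (hd : 1 ≤ d) : V2Loc d := fun _ _ hu _ _ hD hS hSD _ hΨ h1 h2 h3 =>
  v2_local hd hu hΨ hD hS hSD h1 h2 h3

/-- Harnack with right-hand side in the form of note 10074 -/
def HarnackStmt (d : ℕ) : Prop := ∃ C : ℝ, 1 ≤ C ∧ ∀ (x : E d) (r : ℝ), 0 < r →
  ∀ (h : E d → ℝ) (κ : ℝ), ContDiffOn ℝ 2 h (ball x r) → (∀ y ∈ ball x r, 0 ≤ h y) →
  (∀ y ∈ ball x r, |(Δ h) y| ≤ κ) → ∀ y ∈ ball x (r / 2), ∀ z ∈ ball x (r / 2),
    h y ≤ C * h z + C * κ * r ^ 2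

theorem harnackRHS_of (h : HarnackStmt d) : HarnackRHS d := by
  obtain ⟨C, hC, h⟩ := h
  refine ⟨C, hC, fun f x r κ hr _ h1 h2 h3 y hy => ?_⟩
  have hx : x ∈ ball x (r / 2) := mem_ball_self (by positivity)
  have hc : ContDiffOn ℝ 2 f (ball x r) := fun z hz => (h1 z hz).contDiffWithinAt
  have e1 := h x r hr f κ hc h3 h2 y hy x hx
  have e2 := h x r hr f κ hc h3 h2 x hx y hy
  constructor
  · linarith
  · linarith

/-- **F2** in the form `F2Stmt` -/
theorem F2 (hH : HarmPos d) (hHar : HarnackStmt d) (hd : 1 ≤ d) : F2Stmt d := by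
  intro ε hε
  obtain ⟨r₁, hr₁, k₀, hk₀, δ₀, hδ₀, h⟩ :=
    F2core (v1Loc hd) (v2Loc hd) hH (harnackRHS_of hHar) hd ε hε
  exact ⟨r₁, hr₁, k₀, hk₀, δ₀, hδ₀, fun u K P e δ hu he hδ hδ' hN hS =>
    h u K P e δ hu he hδ hδ' hN.c2 hN.dclose hN.lap hN.grad hS⟩

end Crest.Agent.R097
end

-- ▼ part R097/HPoly
section

/-!
# Row 97: polynomials on Euclidean space, Laplacian, the Dirichlet problem on a ball for polynomial
data, the classical maximum principle on a ball.
-/

set_option autoImplicit false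
open MeasureTheory Metric Set Filter Topology InnerProductSpace
open scoped RealInnerProductSpace NNReal ENNReal Gradient Laplacian ContDiff

namespace Crest.Agent.R097.HP

variable {d : ℕ}

/-- evaluation of a polynomial at a point -/
noncomputable def ev (p : MvPolynomial (Fin d) ℝ) (x : E d) : ℝ :=
  MvPolynomial.eval (fun i => x i) p

lemma ev_add (p q : MvPolynomial (Fin d) ℝ) (x : E d) : ev (p + q) x = ev p x + ev q x := by
  simp [ev]
lemma ev_sub (p q : MvPolynomial (Fin d) ℝ) (x : E d) : ev (p - q) x = ev p x - ev q x := by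
  simp [ev]
lemma ev_mul (p q : MvPolynomial (Fin d) ℝ) (x : E d) : ev (p * q) x = ev p x * ev q x := by
  simp [ev]
lemma ev_C (a : ℝ) (x : E d) : ev (MvPolynomial.C a) x = a := by simp [ev]
lemma ev_X (i : Fin d) (x : E d) : ev (MvPolynomial.X i) x = x i := by simp [ev]
lemma ev_sum {ι : Type*} (s : Finset ι) (f : ι → MvPolynomial (Fin d) ℝ) (x : E d) :
    ev (∑ i ∈ s, f i) x = ∑ i ∈ s, ev (f i) x := by
  simp [ev]

lemma contDiff_ev (p : MvPolynomial (Fin d) ℝ) {n : WithTop ℕ∞} : ContDiff ℝ n (ev p) := by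
  induction p using MvPolynomial.induction_on with
  | C a => simpa [funext (ev_C a)] using (contDiff_const : ContDiff ℝ n (fun _ : E d => a))
  | add p q hp hq =>
    rw [funext (ev_add p q)]; exact hp.add hq
  | mul_X p i hp =>
    have : ev (p * MvPolynomial.X i) = fun x : E d => ev p x * x i := by
      funext x; rw [ev_mul, ev_X]
    rw [this]
    exact hp.mul (EuclideanSpace.proj i : E d →L[ℝ] ℝ).contDiff

lemma hasFDerivAt_ev (p : MvPolynomial (Fin d) ℝ) (x : E d) :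
    HasFDerivAt (ev p) (fderiv ℝ (ev p) x) x :=
  ((contDiff_ev p (n := 1)).differentiable (by simp) x).hasFDerivAt

lemma fderiv_ev (p : MvPolynomial (Fin d) ℝ) (x : E d) (i : Fin d) :
    fderiv ℝ (ev p) x (bv i) = ev (MvPolynomial.pderiv i p) x := by
  induction p using MvPolynomial.induction_on with
  | C a =>
    have : ev (MvPolynomial.C a : MvPolynomial (Fin d) ℝ) = fun _ : E d => a := funext (ev_C a)
    rw [this]; simp [ev]
  | add p q hp hq =>
    have : ev (p + q) = ev p + ev q := funext (ev_add p q)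
    rw [this, ((hasFDerivAt_ev p x).add (hasFDerivAt_ev q x)).fderiv, map_add, ev_add,
      add_apply, hp, hq]
  | mul_X p j hp =>
    have : ev (p * MvPolynomial.X j) = ev p * fun x : E d => x j := by
      funext x; rw [ev_mul, ev_X]; rfl
    have h2 : HasFDerivAt (fun x : E d => x j) (EuclideanSpace.proj j : E d →L[ℝ] ℝ) x :=
      (EuclideanSpace.proj j : E d →L[ℝ] ℝ).hasFDerivAt
    have h3 := (hasFDerivAt_ev p x).mul h2
    rw [this, h3.fderiv]
    simp only [add_apply, smul_apply, hp,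
      MvPolynomial.pderiv_mul, ev_add, ev_mul, ev_X, smul_eq_mul]
    by_cases hij : j = i
    · subst hij
      simp [bv, ev]
      ring
    · rw [MvPolynomial.pderiv_X_of_ne hij]
      simp [bv, ev, hij]
      ring

/-- the algebraic Laplacian -/
noncomputable def lapP (d : ℕ) : MvPolynomial (Fin d) ℝ →ₗ[ℝ] MvPolynomial (Fin d) ℝ :=
  ∑ i : Fin d, ((MvPolynomial.pderiv i : Derivation ℝ _ _) : MvPolynomial (Fin d) ℝ →ₗ[ℝ] _) ∘ₗ
    ((MvPolynomial.pderiv i : Derivation ℝ _ _) : MvPolynomial (Fin d) ℝ →ₗ[ℝ] _)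

lemma lapP_apply (p : MvPolynomial (Fin d) ℝ) :
    lapP d p = ∑ i, MvPolynomial.pderiv i (MvPolynomial.pderiv i p) := by
  simp [lapP, LinearMap.sum_apply]

lemma laplacian_ev (p : MvPolynomial (Fin d) ℝ) (x : E d) : (Δ (ev p)) x = ev (lapP d p) x := by
  rw [laplacian_eq_sum (contDiff_ev p).contDiffAt, lapP_apply, ev_sum]
  refine Finset.sum_congr rfl fun i _ => ?_
  rw [show (fun y => fderiv ℝ (ev p) y (bv i)) = ev (MvPolynomial.pderiv i p) from
    funext fun y => fderiv_ev p y i, fderiv_ev]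

lemma totalDegree_pderiv (p : MvPolynomial (Fin d) ℝ) (i : Fin d) :
    (MvPolynomial.pderiv i p).totalDegree ≤ p.totalDegree - 1 := by
  classical
  rw [MvPolynomial.totalDegree]
  refine Finset.sup_le fun m hm => ?_
  rw [MvPolynomial.mem_support_iff, MvPolynomial.coeff_pderiv] at hm
  have h1 : m + Finsupp.single i 1 ∈ p.support := by
    rw [MvPolynomial.mem_support_iff]
    exact fun h => hm (by rw [h, zero_mul])
  have h2 := MvPolynomial.le_totalDegree h1
  rw [Finsupp.sum_add_index' (by simp) (by simp)] at h2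
  have h3 : ((Finsupp.single i 1 : Fin d →₀ ℕ).sum fun _ e => e) = 1 := by simp
  omega

lemma totalDegree_lapP (p : MvPolynomial (Fin d) ℝ) :
    (lapP d p).totalDegree ≤ p.totalDegree - 2 := by
  rw [lapP_apply]
  refine MvPolynomial.totalDegree_finsetSum_le fun i _ => ?_
  have h1 := totalDegree_pderiv (MvPolynomial.pderiv i p) i
  have h2 := totalDegree_pderiv p i
  omega

/-- `|x|² - s²` -/
noncomputable def rho (d : ℕ) (s : ℝ) : MvPolynomial (Fin d) ℝ :=
  ∑ i, MvPolynomial.X i ^ 2 - MvPolynomial.C (s ^ 2)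

lemma ev_rho (s : ℝ) (x : E d) : ev (rho d s) x = ‖x‖ ^ 2 - s ^ 2 := by
  rw [rho, ev_sub, ev_sum, ev_C, EuclideanSpace.norm_sq_eq]
  simp [ev]

lemma totalDegree_rho (s : ℝ) : (rho d s).totalDegree ≤ 2 := by
  rw [rho]
  refine (MvPolynomial.totalDegree_sub _ _).trans (max_le ?_ ?_)
  · refine MvPolynomial.totalDegree_finsetSum_le fun i _ => ?_
    refine (MvPolynomial.totalDegree_pow _ _).trans ?_
    simp
  · rw [MvPolynomial.totalDegree_C]; norm_num

/-- the second derivative test: at a local maximum the Laplacian is not positive -/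
lemma laplacian_le_of_isLocalMax {f : E d → ℝ} {x : E d} (hf : ContDiffAt ℝ 2 f x)
    (hm : IsLocalMax f x) : (Δ f) x ≤ 0 := by
  by_contra hlt
  rw [not_le, laplacian_eq_sum hf] at hlt
  obtain ⟨i, -, hi⟩ := Finset.exists_lt_of_sum_lt (s := Finset.univ)
    (f := fun _ : Fin d => (0 : ℝ)) (g := fun i => fderiv ℝ (fun y => fderiv ℝ f y (bv i)) x (bv i))
    (by simpa using hlt)
  set v : E d := bv i
  set φ : ℝ → ℝ := fun t => f (x + t • v) with hφ
  have hline : ∀ t : ℝ, HasDerivAt (fun t : ℝ => x + t • v) v t := fun t => by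
    simpa using ((hasDerivAt_id t).smul_const v).const_add x
  have hc : Tendsto (fun t : ℝ => x + t • v) (𝓝 0) (𝓝 x) := by
    have := (hline 0).continuousAt
    simpa [ContinuousAt] using this
  have h1 : ∀ᶠ t in 𝓝 (0 : ℝ), HasDerivAt φ (fderiv ℝ f (x + t • v) v) t := by
    filter_upwards [hc.eventually (hf.eventually (by simp))] with t ht
    exact (ht.differentiableAt (by simp)).hasFDerivAt.comp_hasDerivAt t (hline t)
  have h2 : deriv φ =ᶠ[𝓝 0] fun t => fderiv ℝ f (x + t • v) v := by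
    filter_upwards [h1] with t ht using ht.deriv
  have h3 : ContDiffAt ℝ 1 (fderiv ℝ f) x := hf.fderiv_right (by norm_num)
  have h4 : DifferentiableAt ℝ (fun y => fderiv ℝ f y v) x :=
    (h3.differentiableAt (by simp)).clm_apply (differentiableAt_const _)
  have h5 : HasDerivAt (fun t : ℝ => fderiv ℝ f (x + t • v) v)
      (fderiv ℝ (fun y => fderiv ℝ f y v) x v) 0 := by
    have h6 : HasFDerivAt (fun y => fderiv ℝ f y v) (fderiv ℝ (fun y => fderiv ℝ f y v) x)
        (x + (0 : ℝ) • v) := by simpa using h4.hasFDerivAt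
    exact h6.comp_hasDerivAt (0 : ℝ) (hline 0)
  have h7 : deriv (deriv φ) 0 = fderiv ℝ (fun y => fderiv ℝ f y v) x v := by
    rw [h2.deriv_eq, h5.deriv]
  have hmax : IsLocalMax φ 0 := by
    have : ∀ᶠ t in 𝓝 (0 : ℝ), f (x + t • v) ≤ f x := hc.eventually hm
    filter_upwards [this] with t ht
    simpa [hφ] using ht
  have hcont : ContinuousAt φ 0 := (h1.self_of_nhds).continuousAt
  have hmin : IsLocalMin φ 0 :=
    isLocalMin_of_deriv_deriv_pos (by rw [h7]; exact hi) hmax.deriv_eq_zero hcont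
  have hconst : φ =ᶠ[𝓝 0] fun _ => φ 0 := by
    filter_upwards [hmax, hmin] with t ht1 ht2 using le_antisymm ht1 ht2
  have h8 : deriv φ =ᶠ[𝓝 0] fun _ => 0 := by
    have := hconst.deriv
    filter_upwards [this] with t ht
    rw [ht, deriv_const]
  have h9 : deriv (deriv φ) 0 = 0 := by rw [h8.deriv_eq, deriv_const]
  rw [h7] at h9
  exact absurd hi (by simp only [h9]; exact lt_irrefl _)

lemma laplacian_norm_sq (x : E d) : (Δ (fun y : E d => ‖y‖ ^ 2)) x = 2 * (d : ℝ) := by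
  rw [laplacian_eq_sum (contDiff_norm_sq ℝ).contDiffAt]
  have h1 : ∀ i : Fin d, (fun y : E d => fderiv ℝ (fun y : E d => ‖y‖ ^ 2) y (bv i)) =
      fun y => 2 * ⟪bv i, y⟫_ℝ := by
    intro i; funext y
    rw [fderiv_norm_sq_apply]
    simp [real_inner_comm]
  simp_rw [h1]
  have h2 : ∀ i : Fin d, fderiv ℝ (fun y : E d => 2 * ⟪bv i, y⟫_ℝ) x (bv i) = 2 := by
    intro i
    have h3 : HasFDerivAt (fun y : E d => 2 * ⟪bv i, y⟫_ℝ) ((2 : ℝ) • innerSL ℝ (bv i)) x := by
      simpa using ((innerSL ℝ (bv i)).hasFDerivAt (x := x)).const_mul (2 : ℝ)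
    rw [h3.fderiv]
    simp [norm_bv]
  simp_rw [h2]
  simp [mul_comm]

/-- the classical maximum principle on a ball -/
theorem max_ball (hd : 0 < d) {f : E d → ℝ} {s M : ℝ} (hf : ContDiff ℝ 2 f)
    (hΔ : ∀ x ∈ ball (0 : E d) s, 0 ≤ (Δ f) x) (hM : ∀ x ∈ sphere (0 : E d) s, f x ≤ M) :
    ∀ x ∈ closedBall (0 : E d) s, f x ≤ M := by
  intro x1 hx1
  by_contra hlt
  rw [not_le] at hlt
  obtain ⟨ε, hε, hε2⟩ : ∃ ε : ℝ, 0 < ε ∧ ε * s ^ 2 < f x1 - M := by
    refine ⟨(f x1 - M) / (2 * (s ^ 2 + 1)), by have : 0 < f x1 - M := by linarith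
                                               positivity, ?_⟩
    have h1 : 0 < f x1 - M := by linarith
    have h2 : (0 : ℝ) < 2 * (s ^ 2 + 1) := by positivity
    rw [div_mul_eq_mul_div, div_lt_iff₀ h2]
    nlinarith [sq_nonneg s]
  set g : E d → ℝ := f + (ε • fun y : E d => ‖y‖ ^ 2) with hg
  have hgv : ∀ y, g y = f y + ε * ‖y‖ ^ 2 := fun y => rfl
  have hgc : ContDiff ℝ 2 g := hf.add ((contDiff_norm_sq ℝ).const_smul ε)
  obtain ⟨x0, hx0, hmax⟩ := (isCompact_closedBall (0 : E d) s).exists_isMaxOn ⟨x1, hx1⟩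
    hgc.continuous.continuousOn
  have h1 : g x1 ≤ g x0 := hmax hx1
  by_cases hx0s : x0 ∈ ball (0 : E d) s
  · have hloc : IsLocalMax g x0 := by
      filter_upwards [isOpen_ball.mem_nhds hx0s] with y hy using hmax (ball_subset_closedBall hy)
    have h2 := laplacian_le_of_isLocalMax hgc.contDiffAt hloc
    have h3 : (Δ g) x0 = (Δ f) x0 + ε * (2 * d) := by
      have hs2 : ContDiffAt ℝ 2 (ε • fun y : E d => ‖y‖ ^ 2) x0 :=
        ((contDiff_norm_sq ℝ).const_smul ε).contDiffAt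
      rw [hg, hf.contDiffAt.laplacian_add hs2,
        laplacian_smul ε (contDiff_norm_sq ℝ).contDiffAt, laplacian_norm_sq, smul_eq_mul]
    have h4 := hΔ x0 hx0s
    have h5 : (0 : ℝ) < ε * (2 * d) := by
      have : (0 : ℝ) < d := by exact_mod_cast hd
      positivity
    linarith
  · have h2 : x0 ∈ sphere (0 : E d) s := by
      rw [mem_sphere]
      rw [mem_closedBall] at hx0
      rw [mem_ball, not_lt] at hx0s
      exact le_antisymm hx0 hx0s
    have h3 : ‖x0‖ = s := by simpa using h2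
    have h4 := hM x0 h2
    rw [hgv, hgv, h3] at h1
    have h5 : 0 ≤ ε * ‖x1‖ ^ 2 := by positivity
    linarith

/-- a polynomial vanishing on a ball around the origin vanishes -/
lemma eq_zero_of_ball {p : MvPolynomial (Fin d) ℝ} {s : ℝ} (hs : 0 < s)
    (h : ∀ x ∈ closedBall (0 : E d) s, ev p x = 0) : p = 0 := by
  refine MvPolynomial.funext_set (fun _ : Fin d => Icc (0 : ℝ) (s / (d + 1)))
    (fun _ => Icc_infinite (by positivity)) fun x hx => ?_
  have h1 : (WithLp.toLp 2 x : E d) ∈ closedBall (0 : E d) s := by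
    rw [mem_closedBall, dist_zero_right, ← sq_le_sq₀ (norm_nonneg _) hs.le,
      EuclideanSpace.norm_sq_eq]
    have h2 : ∀ i : Fin d, ‖(WithLp.toLp 2 x : E d) i‖ ^ 2 ≤ (s / (d + 1)) ^ 2 := by
      intro i
      have := hx i (mem_univ i)
      rw [mem_Icc] at this
      have h3 : ‖(WithLp.toLp 2 x : E d) i‖ = x i := by
        simp [abs_of_nonneg this.1]
      rw [h3]
      exact pow_le_pow_left₀ this.1 this.2 2
    refine (Finset.sum_le_sum fun i _ => h2 i).trans ?_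
    simp only [Finset.sum_const, Finset.card_univ, Fintype.card_fin, nsmul_eq_mul]
    have hd1 : (0 : ℝ) < (d : ℝ) + 1 := by positivity
    rw [div_pow, mul_div_assoc', div_le_iff₀ (by positivity)]
    have : (0 : ℝ) ≤ d := Nat.cast_nonneg d
    nlinarith [sq_nonneg s, mul_nonneg this (sq_nonneg s), mul_nonneg (mul_nonneg this this) (sq_nonneg s)]
  have := h _ h1
  simpa [ev] using this

/-- the Dirichlet problem on a ball with polynomial data -/
theorem dirichlet_poly (hd : 0 < d) {s : ℝ} (hs : 0 < s) (p : MvPolynomial (Fin d) ℝ) :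
    ∃ h : MvPolynomial (Fin d) ℝ, (∀ x : E d, (Δ (ev h)) x = 0) ∧
      ∀ x : E d, ‖x‖ = s → ev h x = ev p x := by
  set n := p.totalDegree with hn
  set V := MvPolynomial.restrictTotalDegree (Fin d) ℝ n with hV
  have hmap : ∀ q ∈ V, lapP d (rho d s * q) ∈ V := by
    intro q hq
    rw [hV, MvPolynomial.mem_restrictTotalDegree] at hq ⊢
    refine (totalDegree_lapP _).trans ?_
    have h1 := MvPolynomial.totalDegree_mul (rho d s) q
    have h2 := totalDegree_rho (d := d) s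
    omega
  let T : V →ₗ[ℝ] V :=
    ((lapP d ∘ₗ LinearMap.mulLeft ℝ (rho d s)) ∘ₗ V.subtype).codRestrict V
      (fun q => hmap q.1 q.2)
  have hTv : ∀ q : V, ((T q : V) : MvPolynomial (Fin d) ℝ) = lapP d (rho d s * q.1) := fun q => rfl
  have hinj : Function.Injective T := by
    rw [← LinearMap.ker_eq_bot, LinearMap.ker_eq_bot']
    intro q hq
    have h1 : lapP d (rho d s * q.1) = 0 := by rw [← hTv, hq]; rfl
    set w := ev (rho d s * q.1) with hw
    have hΔ : ∀ x : E d, (Δ w) x = 0 := by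
      intro x; rw [hw, laplacian_ev, h1]; simp [ev]
    have hsph : ∀ x ∈ sphere (0 : E d) s, w x = 0 := by
      intro x hx
      have : ‖x‖ = s := by simpa using hx
      rw [hw, ev_mul, ev_rho, this]; ring
    have hup := max_ball hd (contDiff_ev _) (fun x _ => (hΔ x).ge) (fun x hx => (hsph x hx).le)
    have hwneg : ContDiff ℝ 2 (-w) := (contDiff_ev _).neg
    have hlo := max_ball (f := -w) (M := 0) (s := s) hd hwneg
      (fun x _ => by
        rw [laplacian_neg]; simp [hΔ x])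
      (fun x hx => by simp [hsph x hx])
    have h2 : rho d s * q.1 = 0 := by
      refine eq_zero_of_ball hs fun x hx => ?_
      have a := hup x hx
      have b := hlo x hx
      simp only [Pi.neg_apply] at b
      exact le_antisymm a (by linarith)
    rcases mul_eq_zero.1 h2 with h3 | h3
    · exfalso
      have h4 := ev_rho (d := d) s 0
      rw [h3] at h4
      have h5 : (0 : ℝ) < s ^ 2 := by positivity
      simp [ev] at h4
      exact hs.ne' h4
    · exact Subtype.ext h3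
  have hsurj : Function.Surjective T := LinearMap.injective_iff_surjective.1 hinj
  have hlp : lapP d p ∈ V := by
    rw [hV, MvPolynomial.mem_restrictTotalDegree]
    exact (totalDegree_lapP p).trans (Nat.sub_le _ _)
  obtain ⟨q, hq⟩ := hsurj ⟨lapP d p, hlp⟩
  refine ⟨p - rho d s * q.1, fun x => ?_, fun x hx => ?_⟩
  · rw [laplacian_ev, map_sub, ← hTv, hq]
    simp [ev]
  · rw [ev_sub, ev_mul, ev_rho, hx]; ring

end Crest.Agent.R097.HP
end

-- ▼ part R097/DirApprox
section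

/-!
# Row 97 (H2): uniform approximation of even Lipschitz functions near the sphere `|x| = 1/2` by
even harmonic polynomials
-/

set_option autoImplicit false
open MeasureTheory Metric Set Filter Topology InnerProductSpace
open scoped RealInnerProductSpace NNReal ENNReal Gradient Laplacian ContDiff

namespace Crest.Agent.R097

namespace HP

variable {d : ℕ}

/-- Stone-Weierstrass on a closed ball -/
lemma exists_poly_near (g : E d → ℝ) (hg : Continuous g) (s : ℝ) {ε : ℝ} (hε : 0 < ε) :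
    ∃ p : MvPolynomial (Fin d) ℝ, ∀ x ∈ closedBall (0 : E d) s, |ev p x - g x| < ε := by
  let c : Fin d → C(E d, ℝ) := fun i => ⟨fun x => x i, (EuclideanSpace.proj i : E d →L[ℝ] ℝ).continuous⟩
  let φ : MvPolynomial (Fin d) ℝ →ₐ[ℝ] C(E d, ℝ) := MvPolynomial.aeval c
  have hφ : ∀ p (x : E d), φ p x = ev p x := by
    intro p x
    induction p using MvPolynomial.induction_on with
    | C a => simp [φ, ev]
    | add p q hp hq => rw [map_add, ContinuousMap.add_apply, hp, hq, ev_add]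
    | mul_X p i hp =>
      rw [map_mul, ContinuousMap.mul_apply, hp, ev_mul, ev_X]
      congr 1
      simp only [φ, MvPolynomial.aeval_X]
      rfl
  have hsep : φ.range.SeparatesPoints := by
    intro x y hxy
    have : ∃ i, x i ≠ y i := by
      by_contra hcon
      push Not at hcon
      exact hxy (by ext i; exact hcon i)
    obtain ⟨i, hi⟩ := this
    refine ⟨c i, ⟨c i, ⟨MvPolynomial.X i, by simp [φ]⟩, rfl⟩, hi⟩
  obtain ⟨q, ⟨p, rfl⟩, hq⟩ :=
    ContinuousMap.exists_mem_subalgebra_near_continuous_of_isCompact_of_separatesPoints hsep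
      ⟨g, hg⟩ (isCompact_closedBall (0 : E d) s) hε
  refine ⟨p, fun x hx => ?_⟩
  have := hq x hx
  rw [Real.norm_eq_abs] at this
  have h2 : (φ p : C(E d, ℝ)) x = ev p x := hφ p x
  simpa [h2] using this

/-- the Laplacian commutes with isometries -/
lemma laplacian_comp_isometry {f : E d → ℝ} (hf : ContDiff ℝ 2 f) (R : E d ≃ₗᵢ[ℝ] E d) (x : E d) :
    (Δ (fun y => f (R y))) x = (Δ f) (R x) := by
  have h1 := congrFun (laplacian_eq_iteratedFDeriv_orthonormalBasis (fun y => f (R y))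
    (EuclideanSpace.basisFun (Fin d) ℝ)) x
  have h2 := congrFun (laplacian_eq_iteratedFDeriv_orthonormalBasis f
    ((EuclideanSpace.basisFun (Fin d) ℝ).map R)) (R x)
  rw [h1, h2]
  refine Finset.sum_congr rfl fun i _ => ?_
  have h3 := ContinuousLinearMap.iteratedFDeriv_comp_right
    (R.toContinuousLinearEquiv : E d →L[ℝ] E d) hf x (i := 2) le_rfl
  have h4 : (fun y => f (R y)) = f ∘ (R.toContinuousLinearEquiv : E d →L[ℝ] E d) := rfl
  rw [h4, h3, ContinuousMultilinearMap.compContinuousLinearMap_apply]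
  congr 1
  funext j
  fin_cases j <;> simp

/-- the reflection as a linear isometry -/
lemma exists_refl (e : E d) (he : ‖e‖ = 1) :
    ∃ R : E d ≃ₗᵢ[ℝ] E d, (∀ x, R x = x - (2 * ⟪e, x⟫_ℝ) • e) ∧ ∀ x, R (R x) = x := by
  refine ⟨Submodule.reflection (ℝ ∙ e)ᗮ, fun x => ?_, fun x => Submodule.reflection_reflection _ x⟩
  rw [Submodule.reflection_orthogonal_apply, Submodule.reflection_singleton_apply]
  simp [he, two_smul, two_mul, add_smul]

lemma laplacian_inner (c : ℝ) (a : E d) (x : E d) : (Δ (fun z : E d => c * ⟪a, z⟫_ℝ)) x = 0 := by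
  have hc : ContDiff ℝ 2 (fun z : E d => c * ⟪a, z⟫_ℝ) :=
    contDiff_const.mul (contDiff_const.inner ℝ contDiff_id)
  rw [laplacian_eq_sum hc.contDiffAt]
  have h1 : ∀ y : E d, HasFDerivAt (fun z : E d => c * ⟪a, z⟫_ℝ) (c • innerSL ℝ a) y := by
    intro y
    simpa using ((innerSL ℝ a).hasFDerivAt (x := y)).const_mul c
  simp_rw [fun y => (h1 y).fderiv]
  simp

/-- the affine barrier: bound of a harmonic function near the sphere -/
lemma barrier (hd : 0 < d) {K : ℝ≥0} {g : E d → ℝ} (hg : LipschitzWith K g) {h : E d → ℝ}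
    (hh : ContDiff ℝ 2 h) (hΔ : ∀ x, (Δ h) x = 0) {δ : ℝ} (hδ : 0 < δ)
    (hs : ∀ x : E d, ‖x‖ = 1 / 2 → h x ≤ g x + δ) (x : E d) (hx : ‖x‖ ≤ 1 / 2) (hx0 : x ≠ 0) :
    h x ≤ g x + 2 * δ + (K ^ 2 / (4 * δ) + K) * (1 / 2 - ‖x‖) := by
  have hxn : 0 < ‖x‖ := norm_pos_iff.2 hx0
  set z0 : E d := (1 / (2 * ‖x‖)) • x with hz0
  have hz0n : ‖z0‖ = 1 / 2 := by
    rw [hz0, norm_smul, Real.norm_eq_abs, abs_of_pos (by positivity)]
    field_simp
  have hz0x : ⟪z0, x⟫_ℝ = ‖x‖ / 2 := by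
    rw [hz0, real_inner_smul_left, real_inner_self_eq_norm_sq]
    field_simp
  have hgd : ∀ a b : E d, g a ≤ g b + K * ‖a - b‖ := by
    intro a b
    have h1 := hg.dist_le_mul a b
    rw [Real.dist_eq, dist_eq_norm] at h1
    have h2 := le_abs_self (g a - g b)
    linarith
  set c : ℝ := K ^ 2 / (2 * δ) with hc
  have hc2 : ContDiff ℝ 2 (fun z : E d => c * ⟪z0, z⟫_ℝ) :=
    contDiff_const.mul (contDiff_const.inner ℝ contDiff_id)
  have hG : ContDiff ℝ 2 (h + fun z : E d => c * ⟪z0, z⟫_ℝ) := hh.add hc2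
  have hsph : ∀ z ∈ sphere (0 : E d) (1 / 2),
      (h + fun z : E d => c * ⟪z0, z⟫_ℝ) z ≤ g z0 + 2 * δ + K ^ 2 / (8 * δ) := by
    intro z hz
    have hzn : ‖z‖ = 1 / 2 := by simpa using hz
    have h1 := hs z hzn
    have h2 := hgd z z0
    have h3 : ‖z - z0‖ ^ 2 = 1 / 2 - 2 * ⟪z0, z⟫_ℝ := by
      rw [norm_sub_sq_real, hzn, hz0n, real_inner_comm]; ring
    have h4 : K * ‖z - z0‖ ≤ δ + K ^ 2 / (4 * δ) * ‖z - z0‖ ^ 2 := by
      have h5 : δ + K ^ 2 / (4 * δ) * ‖z - z0‖ ^ 2 - K * ‖z - z0‖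
          = (2 * δ - K * ‖z - z0‖) ^ 2 / (4 * δ) := by
        field_simp
        ring
      have h6 : 0 ≤ (2 * δ - K * ‖z - z0‖) ^ 2 / (4 * δ) := by positivity
      linarith
    rw [h3] at h4
    have h7 : K ^ 2 / (4 * δ) * (1 / 2 - 2 * ⟪z0, z⟫_ℝ) =
        K ^ 2 / (8 * δ) - c * ⟪z0, z⟫_ℝ := by
      rw [hc]; field_simp; ring
    simp only [Pi.add_apply]
    linarith
  have hlap : ∀ z ∈ ball (0 : E d) (1 / 2), 0 ≤ (Δ (h + fun z : E d => c * ⟪z0, z⟫_ℝ)) z := by
    intro z _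
    rw [hh.contDiffAt.laplacian_add hc2.contDiffAt, hΔ, laplacian_inner]
    simp
  have hm := max_ball hd hG hlap hsph x (by simpa using hx)
  simp only [Pi.add_apply] at hm
  rw [hz0x] at hm
  have h8 := hgd z0 x
  have h9 : ‖z0 - x‖ = 1 / 2 - ‖x‖ := by
    have : z0 - x = (1 / (2 * ‖x‖) - 1) • x := by rw [hz0, sub_smul, one_smul]
    rw [this, norm_smul, Real.norm_eq_abs, abs_of_nonneg]
    · field_simp
    · rw [sub_nonneg, le_div_iff₀ (by positivity)]; linarith
  rw [h9] at h8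
  have h10 : K ^ 2 / (8 * δ) - c * (‖x‖ / 2) = K ^ 2 / (4 * δ) * (1 / 2 - ‖x‖) := by
    rw [hc]; field_simp; ring
  linarith

end HP

open HP in
/-- **(H2)** an even (with respect to a reflection) Lipschitz function bounded by one is
approximated, near the sphere `|x| = 1/2`, by even harmonic functions bounded by two; the width of
the neighbourhood depends on the Lipschitz constant only. -/
theorem dirichlet_approx (d : ℕ) (hd : 0 < d) : ∀ K : ℝ≥0, ∀ ε : ℝ, 0 < ε →
    ∃ τ : ℝ, 0 < τ ∧ τ < 1 / 8 ∧ ∀ e : E d, ‖e‖ = 1 → ∀ g : E d → ℝ, LipschitzWith K g →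
      (∀ x, |g x| ≤ 1) → (∀ x, g (x - (2 * ⟪e, x⟫_ℝ) • e) = g x) →
      ∃ h : E d → ℝ, ContDiff ℝ (⊤ : ℕ∞) h ∧ (∀ x, (Δ h) x = 0) ∧
        (∀ x, h (x - (2 * ⟪e, x⟫_ℝ) • e) = h x) ∧ (∀ x ∈ ball (0 : E d) (1 / 2), |h x| ≤ 2) ∧
        ∀ x ∈ ball (0 : E d) (1 / 2), 1 / 2 - τ ≤ ‖x‖ → |h x - g x| ≤ ε := by
  intro K ε hε
  set δ : ℝ := min (ε / 4) 1 with hδ
  have hδ0 : 0 < δ := lt_min (by linarith) one_pos
  have hδ1 : δ ≤ 1 := min_le_right _ _
  have hδ2 : δ ≤ ε / 4 := min_le_left _ _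
  set A : ℝ := K ^ 2 / (4 * δ) + K with hA
  have hA0 : 0 ≤ A := by positivity
  set τ : ℝ := min (1 / 16) (ε / 2 / (A + 1)) with hτ
  have hτ0 : 0 < τ := lt_min (by norm_num) (by positivity)
  have hτ1 : τ ≤ 1 / 16 := min_le_left _ _
  have hτ2 : A * τ ≤ ε / 2 := by
    have h1 : τ ≤ ε / 2 / (A + 1) := min_le_right _ _
    calc A * τ ≤ (A + 1) * (ε / 2 / (A + 1)) := by
          refine mul_le_mul (by linarith) h1 hτ0.le (by linarith)
      _ = ε / 2 := by field_simp
  refine ⟨τ, hτ0, by linarith, fun e he g hg hg1 hge => ?_⟩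
  obtain ⟨p, hp⟩ := exists_poly_near g hg.continuous (1 / 2) hδ0
  obtain ⟨q, hq, hqs⟩ := dirichlet_poly hd (s := 1 / 2) (by norm_num) p
  obtain ⟨R, hR, hRR⟩ := exists_refl e he
  have hqc : ∀ n : WithTop ℕ∞, ContDiff ℝ n (ev q) := fun n => contDiff_ev q
  -- boundary values
  have hup : ∀ x : E d, ‖x‖ = 1 / 2 → ev q x ≤ g x + δ := by
    intro x hx
    rw [hqs x hx]
    have := (abs_lt.1 (hp x (by simp [hx]))).2
    linarith
  have hlo : ∀ x : E d, ‖x‖ = 1 / 2 → (-ev q) x ≤ (-g) x + δ := by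
    intro x hx
    simp only [Pi.neg_apply]
    rw [hqs x hx]
    have := (abs_lt.1 (hp x (by simp [hx]))).1
    linarith
  have hneg : ∀ x, (Δ (-ev q)) x = 0 := by
    intro x; rw [laplacian_neg]; simp [hq x]
  have hb1 := max_ball (s := 1 / 2) (M := 2) hd (hqc 2) (fun x _ => (hq x).ge) (fun x hx => by
    have hx' : ‖x‖ = 1 / 2 := by simpa using hx
    have h1 := hup x hx'
    have h2 := (abs_le.1 (hg1 x)).2
    linarith)
  have hb2 := max_ball (s := 1 / 2) (M := 2) hd (hqc 2).neg (fun x _ => (hneg x).ge) (fun x hx => by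
    have hx' : ‖x‖ = 1 / 2 := by simpa using hx
    have h1 := hlo x hx'
    have h2 := (abs_le.1 (hg1 x)).1
    simp only [Pi.neg_apply] at h1
    change -ev q x ≤ 2
    linarith)
  have hb : ∀ x ∈ ball (0 : E d) (1 / 2), |ev q x| ≤ 2 := by
    intro x hx
    rw [abs_le]
    have h1 := hb1 x (ball_subset_closedBall hx)
    have h2 : -ev q x ≤ 2 := hb2 x (ball_subset_closedBall hx)
    exact ⟨by linarith, h1⟩
  have hnear : ∀ x ∈ ball (0 : E d) (1 / 2), 1 / 2 - τ ≤ ‖x‖ → |ev q x - g x| ≤ ε := by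
    intro x hx hxt
    have hxn : ‖x‖ < 1 / 2 := by simpa using hx
    have hx0 : x ≠ 0 := by
      intro h; rw [h, norm_zero] at hxt; linarith
    have h1 := barrier hd hg (hqc 2) hq hδ0 hup x hxn.le hx0
    have h2 := barrier hd hg.neg (hqc 2).neg hneg hδ0 hlo x hxn.le hx0
    have h3 : A * (1 / 2 - ‖x‖) ≤ ε / 2 :=
      (mul_le_mul_of_nonneg_left (by linarith) hA0).trans hτ2
    have h2' : -ev q x ≤ -g x + 2 * δ + A * (1 / 2 - ‖x‖) := h2
    rw [abs_le]
    constructor <;> linarith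
  have hRn : ∀ x, ‖R x‖ = ‖x‖ := R.norm_map
  have hRb : ∀ x ∈ ball (0 : E d) (1 / 2), R x ∈ ball (0 : E d) (1 / 2) := by
    intro x hx
    simpa [hRn] using hx
  have hcR : ∀ n : WithTop ℕ∞, ContDiff ℝ n (fun x => ev q (R x)) := fun n =>
    (hqc n).comp R.contDiff
  set h : E d → ℝ := (1 / 2 : ℝ) • (ev q + fun x => ev q (R x)) with hh
  have hv : ∀ x, h x = (ev q x + ev q (R x)) / 2 := by
    intro x; simp only [hh, Pi.smul_apply, Pi.add_apply, smul_eq_mul]; ring
  have hcc : ContDiff ℝ (⊤ : ℕ∞) h :=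
    ContDiff.const_smul (1 / 2 : ℝ) ((hqc (⊤ : ℕ∞)).add (hcR (⊤ : ℕ∞)))
  refine ⟨h, hcc, fun x => ?_, fun x => ?_, fun x hx => ?_,
    fun x hx hxt => ?_⟩
  · have hsum : ContDiffAt ℝ 2 (ev q + fun x => ev q (R x)) x :=
      ((hqc 2).add (hcR 2)).contDiffAt
    rw [hh, laplacian_smul _ hsum,
      (hqc 2).contDiffAt.laplacian_add (hcR 2).contDiffAt, hq,
      laplacian_comp_isometry (hqc 2), hq]
    simp
  · rw [← hR, hv, hv, hRR, add_comm]
  · rw [hv, abs_le]
    have h1 := abs_le.1 (hb x hx)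
    have h2 := abs_le.1 (hb _ (hRb x hx))
    constructor <;> linarith [h1.1, h1.2, h2.1, h2.2]
  · have h1 := abs_le.1 (hnear x hx hxt)
    have h2 := abs_le.1 (hnear (R x) (hRb x hx) (by rw [hRn]; exact hxt))
    have h3 : g (R x) = g x := by rw [hR]; exact hge x
    rw [h3] at h2
    rw [hv, abs_le]
    constructor <;> linarith [h1.1, h1.2, h2.1, h2.2]

end Crest.Agent.R097
end

-- ▼ part R097/F3Fin
section

/-!
# Row 97, F3: all inputs except harmonicity in the positivity set discharged (helper392)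
-/

set_option autoImplicit false
open MeasureTheory Metric Set Filter Topology InnerProductSpace
open scoped RealInnerProductSpace NNReal ENNReal Gradient Laplacian

namespace Crest.Agent.R097

variable {d : ℕ}

theorem v1Stmt (hd : 1 ≤ d) : V1Stmt d := fun _ _ hu _ _ _ hD hS hSD hΨ h1 h2 h3 =>
  v1_local hd hu hΨ hD hS hSD h1 h2 h3

theorem v2Stmt (hd : 1 ≤ d) : V2Stmt d := fun _ _ hu _ _ _ hD hS hSD hΨ h1 h2 h3 =>
  v2_local hd hu hΨ hD hS hSD h1 h2
    (fun x hx h4 h5 => h3 x hx (lt_of_le_of_lt (le_max_right _ _) h4) h5)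

theorem jetStmt (d : ℕ) : JetStmt d := by
  obtain ⟨C, hC, h⟩ := Hm.harm_jets' d
  refine ⟨C, hC, fun x r hr f M h1 h2 h3 => ?_⟩
  obtain ⟨-, -, h4, h5, -⟩ := h x r hr f M h1 h2 h3
  exact ⟨h4, h5⟩

theorem dirStmt (hd : 1 ≤ d) : DirStmt d := dirichlet_approx d hd

/-- **F3**, with harmonicity of minimisers in `{u > 0}` as the only input -/
theorem f3_main (hH : HarmPos d) (hd : 1 ≤ d) : F3Stmt d :=
  F3 (v1Stmt hd) (v2Stmt hd) (F2 hH (Hm.harnack' d) hd) (dirStmt hd) (jetStmt d)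

end Crest.Agent.R097
end

-- ▼ part R097/F6Fin

/-!
# Row 97: F6 from F5, and F3 without hypotheses (helper392)
-/

set_option autoImplicit false
open MeasureTheory Metric Set Filter Topology InnerProductSpace
open scoped RealInnerProductSpace NNReal ENNReal Gradient Laplacian

namespace Crest.Agent.R097

variable {d : ℕ}

theorem harmPos (d : ℕ) : HarmPos d := by
  intro u K hu x hx
  have hO : IsOpen {x | 0 < u x} := isOpen_lt continuous_const hu.lip.continuous
  have h := hu.harm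
  refine ⟨(h.1.contDiffAt (hO.mem_nhds hx)).of_le F6P.two_le_top', ?_⟩
  filter_upwards [hO.mem_nhds hx] with y hy
  exact h.2 y hy

/-- F3 -/
theorem f3_final (hd : 1 ≤ d) : F3Stmt d := f3_main (harmPos d) hd

/-- F6 from F5 -/
theorem f6_of_f5 (h5 : F5Stmt d) : F6Concl d := by
  obtain ⟨δ₁, hδ₁, C, hC, h⟩ := h5
  refine ⟨δ₁, hδ₁, fun u K e hu he hS y hy hyb => ?_⟩
  exact f56 d u C hC hu.nonneg hu.lip.continuous hu.harm.1 hu.harm.2
    (fun y hy hyb => h u K e hu he hS y hy hyb) y hy hyb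

end Crest.Agent.R097
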