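import Crest.Agent.R097.Base
import Crest.Agent.R077.Rep
import Crest.Agent.R077.Lap
import Crest.Agent.R097.Calc

-- ▼ part R097/HarmKer
section

/-!
# Row 97: radial mean value kernels
`ker k t x y = t^{-d} eta k (|y-x|^2/t^2)`, `pot k t x` with `∂ₜ ker k t x y = -(Δ (pot k t x)) y`.
-/

set_option autoImplicit false
open MeasureTheory Metric Set Laplacian InnerProductSpace Topology Filter
open scoped RealInnerProductSpace NNReal ENNReal ContDiff
open Crest.Agent.R077 (pdv ev lap_eq lap_radial contDiff_radial green_smooth)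

namespace Crest.Agent.R097.Hm
noncomputable section
variable {d : ℕ}

/-- radial profiles: zero on `[1,∞)`, converging to the indicator of `(-∞,1)` as `k → ∞` -/
def eta (k : ℕ) (s : ℝ) : ℝ := Real.smoothTransition ((k + 1) * (1 - s))

lemma contDiff_eta (k : ℕ) : ContDiff ℝ ∞ (eta k) := by
  unfold eta
  exact Real.smoothTransition.contDiff.comp (by fun_prop)

lemma continuous_eta (k : ℕ) : Continuous (eta k) := (contDiff_eta k).continuous

lemma eta_nonneg (k : ℕ) (s : ℝ) : 0 ≤ eta k s := Real.smoothTransition.nonneg _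
lemma eta_le_one (k : ℕ) (s : ℝ) : eta k s ≤ 1 := Real.smoothTransition.le_one _
lemma eta_zero (k : ℕ) {s : ℝ} (h : 1 ≤ s) : eta k s = 0 :=
  Real.smoothTransition.zero_of_nonpos
    (mul_nonpos_of_nonneg_of_nonpos (by positivity) (by linarith))
lemma eta_one_one {s : ℝ} (h : s ≤ 1 / 2) : eta 1 s = 1 :=
  Real.smoothTransition.one_of_one_le (by push_cast; linarith)
lemma eta_pos (k : ℕ) {s : ℝ} (h : s < 1) : 0 < eta k s :=
  Real.smoothTransition.pos_of_pos (mul_pos (by positivity) (by linarith))

lemma tendsto_eta {s : ℝ} (h : s < 1) : Tendsto (fun k : ℕ => eta k s) atTop (𝓝 1) := by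
  apply tendsto_const_nhds.congr'
  obtain ⟨N, hN⟩ := exists_nat_gt (1 / (1 - s))
  filter_upwards [eventually_ge_atTop N] with k hk
  symm
  apply Real.smoothTransition.one_of_one_le
  have h1 : 0 < 1 - s := by linarith
  have h2 : (N : ℝ) ≤ k := by exact_mod_cast hk
  rw [div_lt_iff₀ h1] at hN
  nlinarith

/-- potential profile -/
def phi0 (k : ℕ) (s : ℝ) : ℝ := ∫ r in (1:ℝ)..s, eta k r / 2

lemma hasDerivAt_phi0 (k : ℕ) (s : ℝ) : HasDerivAt (phi0 k) (eta k s / 2) s := by
  unfold phi0
  have hc : Continuous fun r => eta k r / 2 := (continuous_eta k).div_const 2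
  exact intervalIntegral.integral_hasDerivAt_right (hc.intervalIntegrable _ _)
    hc.stronglyMeasurable.stronglyMeasurableAtFilter hc.continuousAt

lemma phi0_zero (k : ℕ) {s : ℝ} (h : 1 ≤ s) : phi0 k s = 0 := by
  unfold phi0
  rw [intervalIntegral.integral_congr (g := fun _ => (0:ℝ))]
  · simp
  · intro r hr
    rw [uIcc_of_le h] at hr
    simp [eta_zero k hr.1]

lemma phi0_nonpos (k : ℕ) (s : ℝ) : phi0 k s ≤ 0 := by
  rcases le_total 1 s with h | h
  · rw [phi0_zero k h]
  · unfold phi0
    rw [intervalIntegral.integral_symm]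
    have := intervalIntegral.integral_nonneg (μ := volume) h
      (f := fun r => eta k r / 2) (fun r _ => by have := eta_nonneg k r; positivity)
    linarith

lemma neg_half_le_phi0 (k : ℕ) {s : ℝ} (h0 : 0 ≤ s) : -(1/2) ≤ phi0 k s := by
  rcases le_total 1 s with h | h
  · rw [phi0_zero k h]; norm_num
  · unfold phi0
    rw [intervalIntegral.integral_symm]
    have h1 : (∫ r in s..1, eta k r / 2) ≤ ∫ r in s..(1:ℝ), (1/2 : ℝ) := by
      apply intervalIntegral.integral_mono_on h
      · exact ((continuous_eta k).div_const 2).intervalIntegrable _ _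
      · exact intervalIntegrable_const
      · intro r _
        have := eta_le_one k r
        linarith
    have h2 : (∫ r in s..(1:ℝ), (1/2 : ℝ)) = (1 - s) * (1/2) := by simp
    rw [h2] at h1
    nlinarith

lemma contDiff_phi0 (k : ℕ) : ContDiff ℝ ∞ (phi0 k) := by
  rw [contDiff_infty_iff_deriv]
  refine ⟨fun s => (hasDerivAt_phi0 k s).differentiableAt, ?_⟩
  have : deriv (phi0 k) = fun s => eta k s / 2 := by
    funext s; exact (hasDerivAt_phi0 k s).deriv
  rw [this]
  exact (contDiff_eta k).div_const 2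

lemma hasDerivAt_eta (k : ℕ) (s : ℝ) : HasDerivAt (eta k) (deriv (eta k) s) s :=
  (((contDiff_eta k).differentiable (by simp)) s).hasDerivAt

lemma continuous_deriv_eta (k : ℕ) : Continuous (deriv (eta k)) :=
  (contDiff_eta k).continuous_deriv (by simp)

lemma deriv_eta_zero (k : ℕ) {s : ℝ} (h : 1 < s) : deriv (eta k) s = 0 := by
  have : eta k =ᶠ[𝓝 s] fun _ => (0:ℝ) := by
    filter_upwards [Ioi_mem_nhds h] with r hr
    exact eta_zero k (le_of_lt hr)
  rw [this.deriv_eq]
  simp

lemma exists_eta_bound (k : ℕ) :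
    ∃ C : ℝ, 0 ≤ C ∧ ∀ s : ℝ, 0 ≤ s → |2 * s * deriv (eta k) s| ≤ C := by
  have hc : Continuous fun s => 2 * s * deriv (eta k) s :=
    (continuous_const.mul continuous_id).mul (continuous_deriv_eta k)
  obtain ⟨C, hC⟩ := (isCompact_Icc (a := (0:ℝ)) (b := 1)).exists_bound_of_continuousOn
    hc.continuousOn
  refine ⟨max C 0, le_max_right _ _, fun s hs => ?_⟩
  rcases le_or_gt s 1 with h | h
  · exact (hC s ⟨hs, h⟩).trans (le_max_left _ _)
  · rw [deriv_eta_zero k h]
    simp

/-- mean value kernel centred at `x` of scale `t` -/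
def ker (k : ℕ) (t : ℝ) (x y : E d) : ℝ := (t ^ d)⁻¹ * eta k (‖y - x‖ ^ 2 / t ^ 2)

/-- its potential -/
def pot (k : ℕ) (t : ℝ) (x y : E d) : ℝ := t * (t ^ d)⁻¹ * phi0 k (‖y - x‖ ^ 2 / t ^ 2)

/-- minus the derivative of the kernel in `t` -/
def dker (k : ℕ) (t : ℝ) (x y : E d) : ℝ :=
  (t ^ (d + 1))⁻¹ * (d * eta k (‖y - x‖ ^ 2 / t ^ 2)
    + 2 * (‖y - x‖ ^ 2 / t ^ 2) * deriv (eta k) (‖y - x‖ ^ 2 / t ^ 2))

variable (k : ℕ)

lemma ker_nonneg {t : ℝ} (ht : 0 ≤ t) (x y : E d) : 0 ≤ ker k t x y := by
  unfold ker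
  have := eta_nonneg k (‖y - x‖ ^ 2 / t ^ 2)
  positivity

lemma ker_le {t : ℝ} (ht : 0 ≤ t) (x y : E d) : ker k t x y ≤ (t ^ d)⁻¹ := by
  unfold ker
  have := eta_le_one k (‖y - x‖ ^ 2 / t ^ 2)
  have h2 : 0 ≤ (t ^ d)⁻¹ := by positivity
  nlinarith

lemma pot_nonpos {t : ℝ} (ht : 0 ≤ t) (x y : E d) : pot k t x y ≤ 0 := by
  unfold pot
  have := phi0_nonpos k (‖y - x‖ ^ 2 / t ^ 2)
  have h2 : 0 ≤ t * (t ^ d)⁻¹ := by positivity
  exact mul_nonpos_of_nonneg_of_nonpos h2 this

lemma one_le_ratio {t : ℝ} (ht : 0 < t) {x y : E d} (h : t ≤ ‖y - x‖) :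
    1 ≤ ‖y - x‖ ^ 2 / t ^ 2 := by
  rw [le_div_iff₀ (by positivity), one_mul]
  exact pow_le_pow_left₀ ht.le h 2

lemma one_lt_ratio {t : ℝ} (ht : 0 < t) {x y : E d} (h : t < ‖y - x‖) :
    1 < ‖y - x‖ ^ 2 / t ^ 2 := by
  rw [lt_div_iff₀ (by positivity), one_mul]
  exact pow_lt_pow_left₀ h ht.le (by norm_num)

lemma ker_zero {t : ℝ} (ht : 0 < t) {x y : E d} (h : t ≤ ‖y - x‖) : ker k t x y = 0 := by
  unfold ker
  rw [eta_zero k (one_le_ratio ht h), mul_zero]

lemma pot_zero {t : ℝ} (ht : 0 < t) {x y : E d} (h : t ≤ ‖y - x‖) : pot k t x y = 0 := by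
  unfold pot
  rw [phi0_zero k (one_le_ratio ht h), mul_zero]

lemma dker_zero {t : ℝ} (ht : 0 < t) {x y : E d} (h : t < ‖y - x‖) : dker k t x y = 0 := by
  unfold dker
  rw [eta_zero k (one_lt_ratio ht h).le, deriv_eta_zero k (one_lt_ratio ht h)]
  simp

lemma contDiff_normsq (x : E d) : ContDiff ℝ ∞ fun y : E d => ‖y - x‖ ^ 2 :=
  (contDiff_id.sub contDiff_const).norm_sq ℝ

lemma continuous_ratio (t : ℝ) (x : E d) : Continuous fun y : E d => ‖y - x‖ ^ 2 / t ^ 2 :=
  (contDiff_normsq x).continuous.div_const _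

lemma contDiff_ker (t : ℝ) (x : E d) : ContDiff ℝ ∞ (ker k t x) := by
  unfold ker
  exact contDiff_const.mul ((contDiff_eta k).comp ((contDiff_normsq x).div_const _))

lemma contDiff_pot (t : ℝ) (x : E d) : ContDiff ℝ ∞ (pot k t x) := by
  unfold pot
  exact contDiff_const.mul ((contDiff_phi0 k).comp ((contDiff_normsq x).div_const _))

lemma continuous_dker (t : ℝ) (x : E d) : Continuous (dker k t x) := by
  unfold dker
  have h := continuous_ratio t x
  exact continuous_const.mul ((continuous_const.mul ((continuous_eta k).comp h)).add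
    ((continuous_const.mul h).mul ((continuous_deriv_eta k).comp h)))

lemma tsupport_ker_subset {t : ℝ} (ht : 0 < t) (x : E d) :
    tsupport (ker k t x) ⊆ closedBall x t := by
  apply closure_minimal _ isClosed_closedBall
  intro y hy
  rw [mem_closedBall, dist_eq_norm]
  by_contra hcon
  exact hy (ker_zero k ht (le_of_lt (not_le.mp hcon)))

lemma tsupport_pot_subset {t : ℝ} (ht : 0 < t) (x : E d) :
    tsupport (pot k t x) ⊆ closedBall x t := by
  apply closure_minimal _ isClosed_closedBall
  intro y hy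
  rw [mem_closedBall, dist_eq_norm]
  by_contra hcon
  exact hy (pot_zero k ht (le_of_lt (not_le.mp hcon)))

lemma hasCompactSupport_ker {t : ℝ} (ht : 0 < t) (x : E d) : HasCompactSupport (ker k t x) :=
  HasCompactSupport.of_support_subset_isCompact (isCompact_closedBall x t)
    ((subset_tsupport _).trans (tsupport_ker_subset k ht x))

lemma hasCompactSupport_pot {t : ℝ} (ht : 0 < t) (x : E d) : HasCompactSupport (pot k t x) :=
  HasCompactSupport.of_support_subset_isCompact (isCompact_closedBall x t)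
    ((subset_tsupport _).trans (tsupport_pot_subset k ht x))

/-- the Laplacian of the potential -/
lemma lap_pot {t : ℝ} (ht : 0 < t) (x y : E d) : (Δ (pot k t x)) y = dker k t x y := by
  have h0 : ∀ s : ℝ, 0 ≤ s → HasDerivAt (fun s => t * (t ^ d)⁻¹ * phi0 k (s / t ^ 2))
      (t * (t ^ d)⁻¹ * (eta k (s / t ^ 2) / 2 * (1 / t ^ 2))) s := by
    intro s _
    have h := (hasDerivAt_phi0 k (s / t ^ 2)).comp s ((hasDerivAt_id s).div_const (t ^ 2))
    exact h.const_mul _
  have h1 : ∀ s : ℝ, 0 ≤ s → HasDerivAt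
      (fun s => t * (t ^ d)⁻¹ * (eta k (s / t ^ 2) / 2 * (1 / t ^ 2)))
      (t * (t ^ d)⁻¹ * (deriv (eta k) (s / t ^ 2) * (1 / t ^ 2) / 2 * (1 / t ^ 2))) s := by
    intro s _
    have h := (hasDerivAt_eta k (s / t ^ 2)).comp s ((hasDerivAt_id s).div_const (t ^ 2))
    exact ((h.div_const 2).mul_const _).const_mul _
  have h2 : Continuous fun y : E d =>
      (fun s => t * (t ^ d)⁻¹ * (deriv (eta k) (s / t ^ 2) * (1 / t ^ 2) / 2 * (1 / t ^ 2)))
        (‖y - x‖ ^ 2) := by
    have h := continuous_ratio t x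
    exact continuous_const.mul (((((continuous_deriv_eta k).comp h).mul
      continuous_const).div_const 2).mul continuous_const)
  have h3 := lap_radial (x := x) h0 h1 h2 y
  have h4 : (fun y : E d => (fun s => t * (t ^ d)⁻¹ * phi0 k (s / t ^ 2)) (‖y - x‖ ^ 2))
      = pot k t x := rfl
  rw [h4] at h3
  rw [h3]
  unfold dker
  field_simp
  ring

/-- the derivative of the kernel in the scale -/
lemma hasDerivAt_ker {t : ℝ} (ht : 0 < t) (x y : E d) :
    HasDerivAt (fun t => ker k t x y) (-(dker k t x y)) t := by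
  unfold ker dker
  generalize ha : ‖y - x‖ ^ 2 = a
  have ht' : t ≠ 0 := ht.ne'
  have h1 : HasDerivAt (fun t : ℝ => a / t ^ 2) (-(2 * a / t ^ 3)) t := by
    have h := (hasDerivAt_const t a).div (hasDerivAt_pow 2 t) (by positivity)
    refine h.congr_deriv ?_
    push_cast
    field_simp
    ring
  have h2 : HasDerivAt (fun t : ℝ => eta k (a / t ^ 2))
      (deriv (eta k) (a / t ^ 2) * -(2 * a / t ^ 3)) t :=
    HasDerivAt.comp (h₂ := eta k) (h := fun t : ℝ => a / t ^ 2) t (hasDerivAt_eta k _) h1
  have h3 : HasDerivAt (fun t : ℝ => (t ^ d)⁻¹) (-(d * t ^ (d - 1)) / (t ^ d) ^ 2) t :=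
    (hasDerivAt_pow d t).inv (by positivity)
  have h4 := h3.mul h2
  refine h4.congr_deriv ?_
  rcases Nat.eq_zero_or_pos d with h | h
  · subst h
    simp
    field_simp
  · obtain ⟨e, rfl⟩ : ∃ e, d = e + 1 := ⟨d - 1, by omega⟩
    simp only [Nat.add_sub_cancel]
    field_simp
    ring

lemma exists_dker_bound : ∃ C : ℝ, 0 ≤ C ∧ ∀ (t : ℝ) (x y : E d), 0 < t →
    |dker k t x y| ≤ (t ^ (d + 1))⁻¹ * C := by
  obtain ⟨C, hC0, hC⟩ := exists_eta_bound k
  refine ⟨d + C, by positivity, fun t x y ht => ?_⟩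
  unfold dker
  rw [abs_mul, abs_of_nonneg (by positivity : (0:ℝ) ≤ (t ^ (d + 1))⁻¹)]
  apply mul_le_mul_of_nonneg_left _ (by positivity)
  refine (abs_add_le _ _).trans ?_
  apply add_le_add
  · rw [abs_mul, abs_of_nonneg (by positivity : (0:ℝ) ≤ (d:ℝ)), abs_of_nonneg (eta_nonneg k _)]
    have := eta_le_one k (‖y - x‖ ^ 2 / t ^ 2)
    nlinarith [(by positivity : (0:ℝ) ≤ (d:ℝ))]
  · exact hC _ (by positivity)

/-- total mass of the profile -/
def kap (d : ℕ) (k : ℕ) : ℝ := ∫ z : E d, eta k (‖z‖ ^ 2)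


lemma kap_pos : 0 < kap d k := by
  unfold kap
  have hc : Continuous fun z : E d => eta k (‖z‖ ^ 2) :=
    (continuous_eta k).comp (continuous_norm.pow 2)
  have hs : HasCompactSupport fun z : E d => eta k (‖z‖ ^ 2) := by
    have h := hasCompactSupport_ker (d := d) k one_pos 0
    have h2 : ker k 1 (0 : E d) = fun z : E d => eta k (‖z‖ ^ 2) := by
      funext z; simp [ker]
    rwa [h2] at h
  have h1 : Integrable fun z : E d => eta k (‖z‖ ^ 2) := hc.integrable_of_hasCompactSupport hs
  rw [integral_pos_iff_support_of_nonneg (fun z => eta_nonneg k _) h1]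
  refine (Continuous.isOpen_support hc).measure_pos volume ?_
  exact ⟨0, by simpa using (eta_pos k (show (0:ℝ) < 1 by norm_num)).ne'⟩

end
end Crest.Agent.R097.Hm
end

-- ▼ part R097/HarmMV
section

/-!
# Row 97: mean value inequalities (radial kernels and balls)
-/

set_option autoImplicit false
open MeasureTheory Metric Set Laplacian InnerProductSpace Topology Filter
open scoped RealInnerProductSpace NNReal ENNReal ContDiff
open Crest.Agent.R077 (pdv ev lap_eq lap_radial contDiff_radial green_smooth)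

namespace Crest.Agent.R097.Hm
noncomputable section
variable {d : ℕ}

/-- product of an integrable function on `S` with a bounded continuous function vanishing off `S` -/
lemma integrable_mul_of_supp {u g : E d → ℝ} {S : Set (E d)} {C : ℝ} (hS : MeasurableSet S)
    (hu : IntegrableOn u S) (hg : Continuous g) (hgb : ∀ y, |g y| ≤ C)
    (hg0 : ∀ y, y ∉ S → g y = 0) : Integrable (fun y => u y * g y) := by
  have h1 : Integrable (S.indicator u) := hu.integrable_indicator hS
  have h2 : Integrable (fun y => S.indicator u y * g y) :=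
    h1.mul_bdd (c := C) hg.aestronglyMeasurable (Filter.Eventually.of_forall fun y => hgb y)
  refine h2.congr (Filter.Eventually.of_forall fun y => ?_)
  by_cases hy : y ∈ S
  · simp [hy]
  · simp [hy, hg0 y hy]

/-- smooth mean (not normalised) -/
def MM (k : ℕ) (t : ℝ) (u : E d → ℝ) (x : E d) : ℝ := ∫ y, u y * ker k t x y

variable (k : ℕ)

lemma abs_ker_le {t : ℝ} (ht : 0 ≤ t) (x y : E d) : |ker k t x y| ≤ (t ^ d)⁻¹ := by
  rw [abs_of_nonneg (ker_nonneg k ht x y)]
  exact ker_le k ht x y

lemma integrable_mul_ker {u : E d → ℝ} {x : E d} {t : ℝ} (ht : 0 < t)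
    (hu : IntegrableOn u (closedBall x t)) : Integrable (fun y => u y * ker k t x y) := by
  refine integrable_mul_of_supp isClosed_closedBall.measurableSet hu (contDiff_ker k t x).continuous
    (C := (t ^ d)⁻¹) (fun y => abs_ker_le k ht.le x y) (fun y hy => ?_)
  apply ker_zero k ht
  rw [mem_closedBall, dist_eq_norm, not_le] at hy
  exact hy.le

lemma integrable_mul_dker {u : E d → ℝ} {x : E d} {t : ℝ} (ht : 0 < t)
    (hu : IntegrableOn u (closedBall x t)) : Integrable (fun y => u y * dker k t x y) := by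
  obtain ⟨C, hC0, hC⟩ := exists_dker_bound (d := d) k
  refine integrable_mul_of_supp isClosed_closedBall.measurableSet hu (continuous_dker k t x)
    (C := (t ^ (d + 1))⁻¹ * C) (fun y => hC t x y ht) (fun y hy => ?_)
  apply dker_zero k ht
  rw [mem_closedBall, dist_eq_norm, not_le] at hy
  exact hy

lemma hasDerivAt_MM {u : E d → ℝ} {x : E d} {t R : ℝ} (ht : 0 < t) (htR : t < R)
    (hu : IntegrableOn u (ball x R)) :
    HasDerivAt (fun t => MM k t u x) (-∫ y, u y * dker k t x y) t := by
  obtain ⟨C, hC0, hC⟩ := exists_dker_bound (d := d) k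
  set b := (t + R) / 2 with hb
  have htb : t < b := by rw [hb]; linarith
  have hbR : b < R := by rw [hb]; linarith
  have hub : IntegrableOn u (closedBall x b) := hu.mono_set (closedBall_subset_ball hbR)
  have hs : Ioo (t / 2) b ∈ 𝓝 t := Ioo_mem_nhds (by linarith) htb
  have key := hasDerivAt_integral_of_dominated_loc_of_deriv_le (μ := (volume : Measure (E d)))
    (F := fun t y => u y * ker k t x y) (F' := fun t y => u y * (-dker k t x y)) (x₀ := t)
    (s := Ioo (t / 2) b)
    (bound := fun y => (closedBall x b).indicator (fun y => |u y| * (((t / 2) ^ (d + 1))⁻¹ * C)) y)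
    hs ?_ ?_ ?_ ?_ ?_ ?_
  · have h := key.2
    have h2 : (∫ y, u y * (-dker k t x y)) = -∫ y, u y * dker k t x y := by
      rw [← integral_neg]
      congr 1
      funext y
      ring
    rw [h2] at h
    exact h
  · filter_upwards [hs] with s hs'
    have hs0 : 0 < s := by have := hs'.1; linarith
    exact (integrable_mul_ker k hs0
      (hub.mono_set (closedBall_subset_closedBall hs'.2.le))).aestronglyMeasurable
  · exact integrable_mul_ker k ht (hub.mono_set (closedBall_subset_closedBall htb.le))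
  · have h := (integrable_mul_dker k ht
      (hub.mono_set (closedBall_subset_closedBall htb.le))).aestronglyMeasurable.neg
    refine h.congr (Filter.Eventually.of_forall fun y => ?_)
    simp
  · refine Filter.Eventually.of_forall fun y s hs' => ?_
    have hs0 : 0 < s := by have := hs'.1; linarith
    by_cases hy : y ∈ closedBall x b
    · rw [indicator_of_mem hy, norm_mul, Real.norm_eq_abs, Real.norm_eq_abs, abs_neg]
      apply mul_le_mul_of_nonneg_left _ (abs_nonneg _)
      refine (hC s x y hs0).trans ?_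
      apply mul_le_mul_of_nonneg_right _ hC0
      apply inv_anti₀ (by positivity)
      apply pow_le_pow_left₀ (by positivity) hs'.1.le
    · rw [indicator_of_notMem hy]
      rw [mem_closedBall, dist_eq_norm, not_le] at hy
      rw [dker_zero k hs0 (hs'.2.trans hy)]
      simp
  · have hI : IntegrableOn (fun y => |u y| * (((t / 2) ^ (d + 1))⁻¹ * C)) (closedBall x b) :=
      hub.abs.mul_const _
    exact hI.integrable_indicator isClosed_closedBall.measurableSet
  · refine Filter.Eventually.of_forall fun y s hs' => ?_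
    have hs0 : 0 < s := by have := hs'.1; linarith
    exact (hasDerivAt_ker k hs0 x y).const_mul _

lemma integral_ker {t : ℝ} (ht : 0 < t) (x : E d) : ∫ y, ker k t x y = kap d k := by
  have h1 : ∫ y, ker k t x y = ∫ y : E d, ker k t 0 y := by
    rw [← integral_sub_right_eq_self (fun y : E d => ker k t 0 y) x]
    congr 1
    funext y
    simp [ker]
  rw [h1]
  have h2 : (fun y : E d => ker k t 0 y)
      = fun y : E d => (t ^ d)⁻¹ * (fun z : E d => eta k (‖z‖ ^ 2)) (t⁻¹ • y) := by
    funext y
    simp only [ker, sub_zero, norm_smul, norm_inv, Real.norm_eq_abs, abs_of_pos ht]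
    congr 2
    field_simp
  rw [h2, integral_const_mul,
    Measure.integral_comp_smul volume (fun z : E d => eta k (‖z‖ ^ 2)) t⁻¹]
  simp only [finrank_euclideanSpace, Fintype.card_fin, smul_eq_mul]
  rw [abs_of_pos (by positivity)]
  unfold kap
  field_simp
  rw [← mul_pow, mul_one_div_cancel ht.ne', one_pow, one_mul]

lemma integrable_ker {t : ℝ} (ht : 0 < t) (x : E d) : Integrable (ker k t x) :=
  (contDiff_ker k t x).continuous.integrable_of_hasCompactSupport (hasCompactSupport_ker k ht x)

lemma tendsto_MM {u : E d → ℝ} {x : E d} {R : ℝ} (hR : 0 < R) (hu : IntegrableOn u (ball x R))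
    (hc : ContinuousAt u x) :
    Tendsto (fun t => MM k t u x) (𝓝[>] 0) (𝓝 (kap d k * u x)) := by
  rw [Metric.tendsto_nhds]
  intro ε hε
  have hκ : 0 < kap d k := kap_pos k
  obtain ⟨δ, hδ, hδ2⟩ := Metric.continuousAt_iff.mp hc (ε / (2 * kap d k)) (by positivity)
  have hm : Ioo (0:ℝ) (min δ R) ∈ 𝓝[>] (0:ℝ) := Ioo_mem_nhdsGT (lt_min hδ hR)
  filter_upwards [hm] with t ht
  have ht0 : 0 < t := ht.1
  have htδ : t < δ := ht.2.trans_le (min_le_left _ _)
  have htR : t < R := ht.2.trans_le (min_le_right _ _)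
  have hut : IntegrableOn u (closedBall x t) := hu.mono_set (closedBall_subset_ball htR)
  have h1 : MM k t u x - kap d k * u x = ∫ y, (u y - u x) * ker k t x y := by
    have h2 : ∫ y, (u y - u x) * ker k t x y
        = (∫ y, u y * ker k t x y) - ∫ y, u x * ker k t x y := by
      rw [← integral_sub (integrable_mul_ker k ht0 hut) ((integrable_ker k ht0 x).const_mul _)]
      congr 1
      funext y
      ring
    rw [h2, integral_const_mul, integral_ker k ht0]
    unfold MM
    ring
  rw [Real.dist_eq, h1]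
  have h3 : |∫ y, (u y - u x) * ker k t x y| ≤ ∫ y, ε / (2 * kap d k) * ker k t x y := by
    rw [← Real.norm_eq_abs]
    refine norm_integral_le_of_norm_le ((integrable_ker k ht0 x).const_mul _)
      (Filter.Eventually.of_forall fun y => ?_)
    rw [norm_mul, Real.norm_eq_abs, Real.norm_eq_abs, abs_of_nonneg (ker_nonneg k ht0.le x y)]
    by_cases hy : t ≤ ‖y - x‖
    · rw [ker_zero k ht0 hy]; simp
    · apply mul_le_mul_of_nonneg_right _ (ker_nonneg k ht0.le x y)
      have hy2 : dist y x < δ := by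
        rw [dist_eq_norm]; push Not at hy; linarith
      have := hδ2 hy2
      rw [Real.dist_eq] at this
      exact this.le
  refine h3.trans_lt ?_
  rw [integral_const_mul, integral_ker k ht0]
  rw [div_mul_eq_mul_div, mul_div_mul_right _ _ hκ.ne']
  linarith

/-- the volume of the unit ball -/
def omg (d : ℕ) : ℝ := (volume (ball (0 : E d) 1)).toReal

lemma omg_pos : 0 < omg d :=
  ENNReal.toReal_pos (measure_ball_pos volume _ one_pos).ne' measure_ball_lt_top.ne

lemma volume_ball_real (x : E d) {t : ℝ} (ht : 0 < t) :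
    (volume (ball x t)).toReal = t ^ d * omg d := by
  rw [Measure.addHaar_ball_of_pos volume x ht, ENNReal.toReal_mul]
  simp [omg, finrank_euclideanSpace, ENNReal.toReal_ofReal (by positivity : 0 ≤ t ^ d)]

lemma volume_closedBall_real (x : E d) {t : ℝ} (ht : 0 < t) :
    (volume (closedBall x t)).toReal = t ^ d * omg d := by
  rw [Measure.addHaar_closedBall volume x ht.le, ENNReal.toReal_mul]
  simp [omg, finrank_euclideanSpace, ENNReal.toReal_ofReal (by positivity : 0 ≤ t ^ d)]

lemma neg_pot_le {t : ℝ} (ht : 0 < t) (x y : E d) :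
    -pot k t x y ≤ (closedBall x t).indicator (fun _ => t * (t ^ d)⁻¹ * (1 / 2)) y := by
  by_cases hy : y ∈ closedBall x t
  · rw [indicator_of_mem hy]
    unfold pot
    have h := neg_half_le_phi0 k (s := ‖y - x‖ ^ 2 / t ^ 2) (by positivity)
    have h2 : 0 ≤ t * (t ^ d)⁻¹ := by positivity
    nlinarith
  · rw [indicator_of_notMem hy]
    rw [mem_closedBall, dist_eq_norm, not_le] at hy
    rw [pot_zero k ht hy.le]
    simp

lemma integral_neg_pot_le {t : ℝ} (ht : 0 < t) (x : E d) :
    ∫ y, -pot k t x y ≤ t * omg d / 2 := by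
  have h1 : Integrable ((closedBall x t).indicator (fun _ => t * (t ^ d)⁻¹ * (1 / 2) : E d → ℝ)) := by
    rw [integrable_indicator_iff isClosed_closedBall.measurableSet]
    exact integrableOn_const measure_closedBall_lt_top.ne
  have h2 : Integrable (fun y => -pot k t x y) :=
    ((contDiff_pot k t x).continuous.integrable_of_hasCompactSupport
      (hasCompactSupport_pot k ht x)).neg
  refine (integral_mono h2 h1 (fun y => neg_pot_le k ht x y)).trans ?_
  rw [integral_indicator isClosed_closedBall.measurableSet, setIntegral_const, measureReal_def,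
    volume_closedBall_real x ht, smul_eq_mul]
  apply le_of_eq
  field_simp

/-- a global `C^m` function agreeing with `h` near a closed ball -/
lemma exists_cut {h : E d → ℝ} {x : E d} {t R : ℝ} {m : ℕ∞} (ht : 0 < t) (htR : t < R)
    (hh : ContDiffOn ℝ m h (ball x R)) :
    ∃ g : E d → ℝ, ContDiff ℝ m g ∧ HasCompactSupport g ∧ ∀ y ∈ ball x ((t + R) / 2), g y = h y := by
  have hb1 : t < (t + R) / 2 := by linarith
  have hb2 : (t + R) / 2 < (t + 3 * R) / 4 := by linarith
  have hb3 : (t + 3 * R) / 4 < R := by linarith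
  let f : ContDiffBump x := ⟨(t + R) / 2, (t + 3 * R) / 4, by linarith, hb2⟩
  refine ⟨fun y => f y * h y, ?_, ?_, ?_⟩
  · rw [contDiff_iff_contDiffAt]
    intro y
    by_cases hy : y ∈ ball x R
    · exact f.contDiff.contDiffAt.mul (hh.contDiffAt (isOpen_ball.mem_nhds hy))
    · have hy2 : y ∉ tsupport f := by
        rw [f.tsupport_eq]
        intro hcon
        apply hy
        have : dist y x ≤ (t + 3 * R) / 4 := hcon
        rw [mem_ball]
        linarith
      have h0 : (fun y => f y * h y) =ᶠ[𝓝 y] fun _ => (0:ℝ) := by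
        have := (isClosed_tsupport f).isOpen_compl.mem_nhds hy2
        filter_upwards [this] with z hz
        rw [image_eq_zero_of_notMem_tsupport hz, zero_mul]
      exact contDiffAt_const.congr_of_eventuallyEq h0
  · exact f.hasCompactSupport.mul_right
  · intro y hy
    have : f y = 1 := f.one_of_mem_closedBall (ball_subset_closedBall hy)
    simp [this]

lemma lap_congr_at {f g : E d → ℝ} {x : E d} (h : f =ᶠ[𝓝 x] g) : (Δ f) x = (Δ g) x :=
  Crest.Agent.R077.lap_congr_at h

lemma green_dker {h : E d → ℝ} {x : E d} {t R : ℝ} (ht : 0 < t) (htR : t < R)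
    (hh : ContDiffOn ℝ 2 h (ball x R)) :
    ∫ y, h y * dker k t x y = ∫ y, (Δ h) y * pot k t x y := by
  obtain ⟨g, hg, hgc, hgh⟩ := exists_cut (m := 2) ht htR hh
  have h1 := green_smooth hg (contDiff_infty.mp (contDiff_pot k t x) 2)
    (hasCompactSupport_pot k ht x)
  have hnear : ∀ y, ‖y - x‖ ≤ t → g =ᶠ[𝓝 y] h := by
    intro y hy
    have : ball x ((t + R) / 2) ∈ 𝓝 y := by
      apply isOpen_ball.mem_nhds
      rw [mem_ball, dist_eq_norm]
      linarith
    filter_upwards [this] with z hz using hgh z hz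
  have h2 : ∫ y, h y * dker k t x y = ∫ y, g y * (Δ (pot k t x)) y := by
    congr 1
    funext y
    rw [lap_pot k ht]
    by_cases hy : ‖y - x‖ ≤ t
    · rw [(hnear y hy).eq_of_nhds]
    · rw [dker_zero k ht (not_le.mp hy)]; simp
  have h3 : ∫ y, (Δ h) y * pot k t x y = ∫ y, (Δ g) y * pot k t x y := by
    congr 1
    funext y
    by_cases hy : ‖y - x‖ ≤ t
    · rw [lap_congr_at (hnear y hy)]
    · rw [pot_zero k ht (not_le.mp hy).le]; simp
  rw [h2, h3, h1]

/-- derivative of the smooth means of a `C²` function -/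
lemma hasDerivAt_MM_C2 {h : E d → ℝ} {x : E d} {t R : ℝ} (ht : 0 < t) (htR : t < R)
    (hh : ContDiffOn ℝ 2 h (ball x R)) :
    HasDerivAt (fun t => MM k t h x) (∫ y, (Δ h) y * (-pot k t x y)) t := by
  have hc : ContinuousOn h (closedBall x ((t + R) / 2)) :=
    hh.continuousOn.mono (closedBall_subset_ball (by linarith))
  have hI : IntegrableOn h (ball x ((t + R) / 2)) :=
    (hc.integrableOn_compact (isCompact_closedBall _ _)).mono_set ball_subset_closedBall
  have h1 := hasDerivAt_MM k ht (show t < (t + R) / 2 by linarith) hI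
  rw [green_dker k ht htR hh, ← integral_neg] at h1
  refine h1.congr_deriv ?_
  congr 1
  funext y
  ring

/-- sub mean value property with radial smooth kernels -/
theorem sub_mean_ker {h : E d → ℝ} {x : E d} {t R A : ℝ} (ht : 0 < t) (htR : t < R)
    (hh : ContDiffOn ℝ 2 h (ball x R)) (hA : 0 ≤ A) (hΔ : ∀ y ∈ ball x t, -A ≤ (Δ h) y) :
    kap d k * h x ≤ MM k t h x + A * omg d * t ^ 2 / 4 := by
  -- `F s = MM s + A ω s²/4` is monotone on `(0,t]`
  have hder : ∀ s, 0 < s → s ≤ t → HasDerivAt (fun s => MM k s h x + A * omg d * s ^ 2 / 4)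
      ((∫ y, (Δ h) y * (-pot k s x y)) + A * omg d * s / 2) s := by
    intro s hs hst
    have h1 := hasDerivAt_MM_C2 k hs (hst.trans_lt htR) hh
    have h2 : HasDerivAt (fun s : ℝ => A * omg d * s ^ 2 / 4) (A * omg d * s / 2) s := by
      have := ((hasDerivAt_pow 2 s).const_mul (A * omg d)).div_const 4
      refine this.congr_deriv ?_
      push_cast
      ring
    exact h1.add h2
  have hpos : ∀ s, 0 < s → s < t → 0 ≤ (∫ y, (Δ h) y * (-pot k s x y)) + A * omg d * s / 2 := by
    intro s hs hst
    have hI2 : Integrable (fun y => -pot k s x y) :=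
      ((contDiff_pot k s x).continuous.integrable_of_hasCompactSupport
        (hasCompactSupport_pot k hs x)).neg
    have h1 : -A * ∫ y, -pot k s x y ≤ ∫ y, (Δ h) y * (-pot k s x y) := by
      rw [← integral_const_mul]
      by_cases hI : Integrable (fun y => (Δ h) y * (-pot k s x y))
      · apply integral_mono (hI2.const_mul _) hI
        intro y
        simp only
        by_cases hy : s ≤ ‖y - x‖
        · rw [pot_zero k hs hy]; simp
        · apply mul_le_mul_of_nonneg_right _ (by linarith [pot_nonpos k hs.le x y])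
          apply hΔ
          rw [mem_ball, dist_eq_norm]
          push Not at hy
          linarith
      · exfalso
        apply hI
        have hco : ContinuousOn (Δ h) (ball x R) := by
          have h5 : ContinuousOn (fun y => iteratedFDeriv ℝ 2 h y) (ball x R) := by
            have h6 := hh.continuousOn_iteratedFDerivWithin (m := 2) le_rfl isOpen_ball.uniqueDiffOn
            refine h6.congr fun y hy => ?_
            exact (iteratedFDerivWithin_of_isOpen 2 isOpen_ball hy).symm
          rw [laplacian_eq_iteratedFDeriv_orthonormalBasis h (EuclideanSpace.basisFun (Fin d) ℝ)]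
          apply continuousOn_finsetSum
          intro i _
          exact (ContinuousMultilinearMap.apply ℝ (fun _ : Fin 2 => E d) ℝ
            ![(EuclideanSpace.basisFun (Fin d) ℝ) i, (EuclideanSpace.basisFun (Fin d) ℝ) i]).continuous.comp_continuousOn h5
        have h7 : IntegrableOn (Δ h) (closedBall x s) :=
          (hco.mono (closedBall_subset_ball (hst.trans htR))).integrableOn_compact
            (isCompact_closedBall _ _)
        refine integrable_mul_of_supp isClosed_closedBall.measurableSet h7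
          (contDiff_pot k s x).continuous.neg (C := s * (s ^ d)⁻¹ * (1 / 2)) (fun y => ?_)
          (fun y hy => ?_)
        · rw [abs_of_nonneg (by linarith [pot_nonpos k hs.le x y])]
          refine (neg_pot_le k hs x y).trans ?_
          apply indicator_le_self'
          intro _ _
          positivity
        · rw [mem_closedBall, dist_eq_norm, not_le] at hy
          rw [pot_zero k hs hy.le]; simp
    have h2 := integral_neg_pot_le k hs x
    nlinarith
  have hmono : MonotoneOn (fun s => MM k s h x + A * omg d * s ^ 2 / 4) (Ioc 0 t) := by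
    apply monotoneOn_of_deriv_nonneg (convex_Ioc 0 t)
    · intro s hs
      exact (hder s hs.1 hs.2).continuousAt.continuousWithinAt
    · intro s hs
      rw [interior_Ioc] at hs
      exact (hder s hs.1 hs.2.le).differentiableAt.differentiableWithinAt
    · intro s hs
      rw [interior_Ioc] at hs
      rw [(hder s hs.1 hs.2.le).deriv]
      exact hpos s hs.1 hs.2
  have hR : 0 < R := ht.trans htR
  have hI : IntegrableOn h (ball x t) :=
    ((hh.continuousOn.mono (closedBall_subset_ball htR)).integrableOn_compact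
      (isCompact_closedBall _ _)).mono_set ball_subset_closedBall
  have hcx : ContinuousAt h x := hh.continuousOn.continuousAt (ball_mem_nhds x hR)
  have hlim : Tendsto (fun s => MM k s h x + A * omg d * s ^ 2 / 4) (𝓝[>] 0)
      (𝓝 (kap d k * h x + 0)) := by
    apply (tendsto_MM k ht hI hcx).add
    have : Tendsto (fun s : ℝ => A * omg d * s ^ 2 / 4) (𝓝 0) (𝓝 (A * omg d * 0 ^ 2 / 4)) :=
      Continuous.tendsto (by fun_prop) 0
    simpa using this.mono_left nhdsWithin_le_nhds
  rw [add_zero] at hlim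
  apply le_of_tendsto hlim
  filter_upwards [Ioo_mem_nhdsGT ht] with s hs
  exact hmono ⟨hs.1, hs.2.le⟩ ⟨ht, le_rfl⟩ hs.2.le

lemma lap_neg {h : E d → ℝ} (y : E d) : (Δ (fun y => -h y)) y = -(Δ h) y := by
  have : (fun y => -h y) = -h := rfl
  rw [this, laplacian_neg]
  rfl

/-- super mean value property with radial smooth kernels -/
theorem super_mean_ker {h : E d → ℝ} {x : E d} {t R A : ℝ} (ht : 0 < t) (htR : t < R)
    (hh : ContDiffOn ℝ 2 h (ball x R)) (hA : 0 ≤ A) (hΔ : ∀ y ∈ ball x t, (Δ h) y ≤ A) :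
    MM k t h x - A * omg d * t ^ 2 / 4 ≤ kap d k * h x := by
  have h1 := sub_mean_ker k (h := fun y => -h y) ht htR hh.neg hA
    (fun y hy => by rw [lap_neg]; linarith [hΔ y hy])
  have h2 : MM k t (fun y => -h y) x = - MM k t h x := by
    unfold MM
    rw [← integral_neg]
    congr 1
    funext y
    ring
  rw [h2] at h1
  linarith

theorem mean_ker {h : E d → ℝ} {x : E d} {t R : ℝ} (ht : 0 < t) (htR : t < R)
    (hh : ContDiffOn ℝ 2 h (ball x R)) (hΔ : ∀ y ∈ ball x t, (Δ h) y = 0) :
    MM k t h x = kap d k * h x := by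
  have h1 := sub_mean_ker k ht htR hh le_rfl (fun y hy => by rw [hΔ y hy]; simp)
  have h2 := super_mean_ker k ht htR hh le_rfl (fun y hy => by rw [hΔ y hy])
  linarith

/-! ### means over balls -/

lemma tendsto_kap : Tendsto (fun k => kap d k) atTop (𝓝 (omg d)) := by
  have h1 : omg d = ∫ z : E d, (ball (0 : E d) 1).indicator (fun _ => (1:ℝ)) z := by
    rw [integral_indicator isOpen_ball.measurableSet, setIntegral_const]
    simp [omg, measureReal_def]
  rw [h1]
  unfold kap
  refine tendsto_integral_of_dominated_convergence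
    ((closedBall (0 : E d) 1).indicator (fun _ => (1:ℝ))) (fun k => ?_) ?_ (fun k => ?_) ?_
  · exact ((continuous_eta k).comp (continuous_norm.pow 2)).aestronglyMeasurable
  · rw [integrable_indicator_iff isClosed_closedBall.measurableSet]
    exact integrableOn_const measure_closedBall_lt_top.ne
  · refine Filter.Eventually.of_forall fun z => ?_
    rw [Real.norm_eq_abs, abs_of_nonneg (eta_nonneg k _)]
    by_cases hz : z ∈ closedBall (0 : E d) 1
    · rw [indicator_of_mem hz]; exact eta_le_one k _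
    · rw [indicator_of_notMem hz]
      rw [mem_closedBall, dist_zero_right, not_le] at hz
      rw [eta_zero k (by nlinarith)]
  · refine Filter.Eventually.of_forall fun z => ?_
    by_cases hz : z ∈ ball (0 : E d) 1
    · rw [indicator_of_mem hz]
      rw [mem_ball, dist_zero_right] at hz
      exact tendsto_eta (by nlinarith [norm_nonneg z])
    · rw [indicator_of_notMem hz]
      rw [mem_ball, dist_zero_right, not_lt] at hz
      have : ∀ k : ℕ, eta k (‖z‖ ^ 2) = 0 := fun k => eta_zero k (by nlinarith)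
      simp [this]

lemma tendsto_MM_k {u : E d → ℝ} {x : E d} {t : ℝ} (ht : 0 < t)
    (hu : IntegrableOn u (closedBall x t)) :
    Tendsto (fun k => MM k t u x) atTop (𝓝 ((t ^ d)⁻¹ * ∫ y in ball x t, u y)) := by
  have h1 : (t ^ d)⁻¹ * ∫ y in ball x t, u y
      = ∫ y, (ball x t).indicator (fun y => u y * (t ^ d)⁻¹) y := by
    rw [integral_indicator isOpen_ball.measurableSet, integral_mul_const, mul_comm]
  rw [h1]
  unfold MM
  refine tendsto_integral_of_dominated_convergence
    ((closedBall x t).indicator (fun y => |u y| * (t ^ d)⁻¹)) (fun k => ?_) ?_ (fun k => ?_) ?_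
  · exact (integrable_mul_ker k ht hu).aestronglyMeasurable
  · have hI : IntegrableOn (fun y => |u y| * (t ^ d)⁻¹) (closedBall x t) := hu.abs.mul_const _
    exact hI.integrable_indicator isClosed_closedBall.measurableSet
  · refine Filter.Eventually.of_forall fun z => ?_
    rw [norm_mul, Real.norm_eq_abs, Real.norm_eq_abs]
    by_cases hz : z ∈ closedBall x t
    · rw [indicator_of_mem hz]
      exact mul_le_mul_of_nonneg_left (abs_ker_le k ht.le x z) (abs_nonneg _)
    · rw [indicator_of_notMem hz]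
      rw [mem_closedBall, dist_eq_norm, not_le] at hz
      rw [ker_zero k ht hz.le]; simp
  · refine Filter.Eventually.of_forall fun z => ?_
    by_cases hz : z ∈ ball x t
    · rw [indicator_of_mem hz]
      rw [mem_ball, dist_eq_norm] at hz
      have h2 : ‖z - x‖ ^ 2 / t ^ 2 < 1 := by
        rw [div_lt_one (by positivity)]
        exact pow_lt_pow_left₀ hz (norm_nonneg _) (by norm_num)
      have h3 := ((tendsto_eta h2).const_mul ((t ^ d)⁻¹)).const_mul (u z)
      rw [mul_one] at h3
      exact h3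
    · rw [indicator_of_notMem hz]
      rw [mem_ball, dist_eq_norm, not_lt] at hz
      have : ∀ k : ℕ, ker k t x z = 0 := fun k => ker_zero k ht hz
      simp [this]

/-- sub mean value property on balls -/
theorem sub_mean {h : E d → ℝ} {x : E d} {t R A : ℝ} (ht : 0 < t) (htR : t < R)
    (hh : ContDiffOn ℝ 2 h (ball x R)) (hA : 0 ≤ A) (hΔ : ∀ y ∈ ball x t, -A ≤ (Δ h) y) :
    h x ≤ (⨍ y in ball x t, h y) + A * t ^ 2 / 4 := by
  have hI : IntegrableOn h (closedBall x t) :=
    (hh.continuousOn.mono (closedBall_subset_ball htR)).integrableOn_compact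
      (isCompact_closedBall _ _)
  have h1 := le_of_tendsto_of_tendsto' ((tendsto_kap (d := d)).mul_const (h x))
    ((tendsto_MM_k ht hI).add_const (A * omg d * t ^ 2 / 4))
    (fun k => sub_mean_ker k ht htR hh hA hΔ)
  have h2 : (⨍ y in ball x t, h y) = (t ^ d * omg d)⁻¹ * ∫ y in ball x t, h y := by
    rw [setAverage_eq, measureReal_def, volume_ball_real x ht, smul_eq_mul]
  rw [h2]
  have h3 : 0 < omg d := omg_pos
  have h4 : 0 < t ^ d := by positivity
  have h5 : omg d * h x ≤ omg d * ((t ^ d * omg d)⁻¹ * (∫ y in ball x t, h y) + A * t ^ 2 / 4) := by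
    refine h1.trans (le_of_eq ?_)
    field_simp
  exact le_of_mul_le_mul_left h5 h3

theorem super_mean {h : E d → ℝ} {x : E d} {t R A : ℝ} (ht : 0 < t) (htR : t < R)
    (hh : ContDiffOn ℝ 2 h (ball x R)) (hA : 0 ≤ A) (hΔ : ∀ y ∈ ball x t, (Δ h) y ≤ A) :
    (⨍ y in ball x t, h y) - A * t ^ 2 / 4 ≤ h x := by
  have h1 := sub_mean (h := fun y => -h y) ht htR hh.neg hA
    (fun y hy => by rw [lap_neg]; linarith [hΔ y hy])
  rw [setAverage_eq, integral_neg, smul_neg] at h1
  rw [setAverage_eq]
  linarith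

theorem mean_ball {h : E d → ℝ} {x : E d} {t R : ℝ} (ht : 0 < t) (htR : t < R)
    (hh : ContDiffOn ℝ 2 h (ball x R)) (hΔ : ∀ y ∈ ball x t, (Δ h) y = 0) :
    h x = ⨍ y in ball x t, h y := by
  have h1 := sub_mean ht htR hh le_rfl (fun y hy => by rw [hΔ y hy]; simp)
  have h2 := super_mean ht htR hh le_rfl (fun y hy => by rw [hΔ y hy])
  linarith

end
end Crest.Agent.R097.Hm
end

-- ▼ part R097/HarmMax
section

/-!
# Row 97: the weak maximum principle
-/

set_option autoImplicit false
open MeasureTheory Metric Set Laplacian InnerProductSpace Topology Filter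
open scoped RealInnerProductSpace NNReal ENNReal ContDiff
open Crest.Agent.R077 (pdv ev lap_eq lap_radial contDiff_radial green_smooth)

namespace Crest.Agent.R097.Hm
noncomputable section
variable {d : ℕ}

lemma lap_normsq (x : E d) : (Δ (fun y : E d => ‖y‖ ^ 2)) x = 2 * (d : ℝ) := by
  have h := lap_radial (n := d) (φ0 := fun t => t) (φ1 := fun _ => 1) (φ2 := fun _ => 0)
    (x := (0 : E d)) (fun t _ => hasDerivAt_id t) (fun t _ => hasDerivAt_const t 1)
    continuous_const x
  simpa using h

lemma lap_add_at {f g : E d → ℝ} {x : E d} (hf : ContDiffAt ℝ 2 f x) (hg : ContDiffAt ℝ 2 g x) :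
    (Δ (fun y => f y + g y)) x = (Δ f) x + (Δ g) x := by
  have h := hf.laplacian_add hg
  exact h

lemma lap_const_mul_at {f : E d → ℝ} {x : E d} (c : ℝ) (hf : ContDiffAt ℝ 2 f x) :
    (Δ (fun y => c * f y)) x = c * (Δ f) x := by
  have h := laplacian_smul c hf
  exact h

/-- weak maximum principle -/
theorem max_principle (hd : 0 < d) {D : Set (E d)} (hD : IsOpen D) (hb : Bornology.IsBounded D)
    {h : E d → ℝ} (hc : ContinuousOn h (closure D)) (h2 : ContDiffOn ℝ 2 h D)
    (hΔ : ∀ x ∈ D, 0 ≤ (Δ h) x) {M : ℝ} (hM : ∀ x ∈ frontier D, h x ≤ M) :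
    ∀ x ∈ closure D, h x ≤ M := by
  have hcomp : IsCompact (closure D) := hb.isCompact_closure
  obtain ⟨R, hR0, hR⟩ : ∃ R : ℝ, 0 < R ∧ ∀ x ∈ closure D, ‖x‖ ≤ R := by
    obtain ⟨R, hR⟩ := hcomp.isBounded.exists_norm_le
    exact ⟨max R 1, by positivity, fun x hx => (hR x hx).trans (le_max_left _ _)⟩
  intro x hx
  by_contra hcon
  push Not at hcon
  -- choose ε
  set ε : ℝ := (h x - M) / (2 * R ^ 2) with hε
  have hε0 : 0 < ε := by
    rw [hε]
    have : 0 < h x - M := by linarith
    positivity
  have hwc : ContinuousOn (fun y => h y + ε * ‖y‖ ^ 2) (closure D) :=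
    hc.add (continuousOn_const.mul (continuous_norm.pow 2).continuousOn)
  obtain ⟨z, hz, hzmax⟩ := hcomp.exists_isMaxOn ⟨x, hx⟩ hwc
  have hzx : h x + ε * ‖x‖ ^ 2 ≤ h z + ε * ‖z‖ ^ 2 := hzmax hx
  by_cases hzD : z ∈ D
  · have hza : ContDiffAt ℝ 2 h z := h2.contDiffAt (hD.mem_nhds hzD)
    have hn : ContDiffAt ℝ 2 (fun y : E d => ‖y‖ ^ 2) z := (contDiff_norm_sq ℝ).contDiffAt
    have hloc : IsLocalMin (fun y => -(h y + ε * ‖y‖ ^ 2)) z := by
      filter_upwards [hD.mem_nhds hzD] with y hy
      have := hzmax (subset_closure hy)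
      simp only [mem_ofPred_eq] at this ⊢
      linarith
    have h3 := Crest.Agent.R077.laplacian_nonneg_of_isLocalMin
      ((hza.add (contDiffAt_const.mul hn)).neg) hloc
    rw [lap_neg, lap_add_at hza (contDiffAt_const.mul hn), lap_const_mul_at ε hn, lap_normsq] at h3
    have h4 := hΔ z hzD
    have h5 : (0:ℝ) < d := by exact_mod_cast hd
    nlinarith
  · have hzf : z ∈ frontier D := by
      rw [frontier, hD.interior_eq]
      exact ⟨hz, hzD⟩
    have h3 := hM z hzf
    have h4 := hR z hz
    have h5 : ε * ‖z‖ ^ 2 ≤ (h x - M) / 2 := by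
      have : ‖z‖ ^ 2 ≤ R ^ 2 := pow_le_pow_left₀ (norm_nonneg _) h4 2
      calc ε * ‖z‖ ^ 2 ≤ ε * R ^ 2 := mul_le_mul_of_nonneg_left this hε0.le
        _ = (h x - M) / 2 := by rw [hε]; field_simp
    have h6 : 0 ≤ ε * ‖x‖ ^ 2 := by positivity
    linarith


end
end Crest.Agent.R097.Hm
end

-- ▼ part R097/HarmLip

/-!
# Row 97: Green's formula for Lipschitz functions, sub mean value property of weak subsolutions
-/

set_option autoImplicit false
open MeasureTheory Metric Set Laplacian InnerProductSpace Topology Filter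
open scoped RealInnerProductSpace NNReal ENNReal ContDiff Gradient

namespace Crest.Agent.R097.Hm
noncomputable section
variable {d : ℕ}

/-- Green's formula: Lipschitz function against a smooth test function -/
theorem lip_green {K : ℝ≥0} {u : E d → ℝ} (hu : LipschitzWith K u) {ψ : E d → ℝ}
    (hψ : ContDiff ℝ ∞ ψ) (hc : HasCompactSupport ψ) :
    ∫ x, u x * (Δ ψ) x = -∫ x, ⟪∇ u x, ∇ ψ x⟫_ℝ := by
  have hψ2 : ContDiff ℝ 2 ψ := contDiff_infty.mp hψ 2
  have hp : ∀ i : Fin d, ContDiff ℝ 1 (fun y => fderiv ℝ ψ y (bv i)) := fun i =>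
    (hψ2.fderiv_right (m := 1) (by norm_num)).clm_apply contDiff_const
  have hpc : ∀ i : Fin d, HasCompactSupport (fun y => fderiv ℝ ψ y (bv i)) := fun i =>
    hc.fderiv_apply (𝕜 := ℝ) (bv i)
  have hpp : ∀ i : Fin d, Continuous (fun y => fderiv ℝ (fun z => fderiv ℝ ψ z (bv i)) y (bv i)) :=
    fun i => ((hp i).continuous_fderiv (by norm_num)).clm_apply continuous_const
  have e1 : ∀ x, u x * (Δ ψ) x
      = ∑ i, u x * fderiv ℝ (fun z => fderiv ℝ ψ z (bv i)) x (bv i) := by
    intro x
    rw [laplacian_eq_sum hψ2.contDiffAt, Finset.mul_sum]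
  have e2 : ∀ x, ⟪∇ u x, ∇ ψ x⟫_ℝ = ∑ i, fderiv ℝ u x (bv i) * fderiv ℝ ψ x (bv i) := by
    intro x
    rw [PiLp.inner_apply]
    apply Finset.sum_congr rfl
    intro i _
    rw [gradient_coord, gradient_coord]
    simp [mul_comm]
  simp_rw [e1, e2]
  rw [integral_finsetSum, integral_finsetSum, ← Finset.sum_neg_distrib]
  · apply Finset.sum_congr rfl
    intro i _
    obtain ⟨L, hL⟩ := lip_of_contDiff_compact (hp i) (hpc i)
    have key := LipschitzWith.integral_lineDeriv_mul_eq (μ := volume) hu hL (hpc i) (bv i)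
    have h1 : ∫ x, lineDeriv ℝ u x (bv i) * fderiv ℝ ψ x (bv i)
        = ∫ x, fderiv ℝ u x (bv i) * fderiv ℝ ψ x (bv i) := by
      apply integral_congr_ae
      filter_upwards [hu.ae_differentiableAt] with x hx
      rw [hx.lineDeriv_eq_fderiv]
    have h2 : ∫ x, lineDeriv ℝ (fun y => fderiv ℝ ψ y (bv i)) x (-bv i) * u x
        = -∫ x, u x * fderiv ℝ (fun z => fderiv ℝ ψ z (bv i)) x (bv i) := by
      rw [← integral_neg]
      congr 1
      funext x
      rw [((hp i).differentiable (by norm_num)).differentiableAt.lineDeriv_eq_fderiv, map_neg]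
      ring
    rw [h1, h2] at key
    linarith
  · intro i _
    obtain ⟨M, hM⟩ := (hpc i).isCompact.exists_bound_of_continuousOn (hp i).continuous.continuousOn
    refine integrable_of_bdd (C := (K * ‖bv i‖) * M) (hpc i).isCompact
      ((measurable_fd u (bv i)).mul (hp i).continuous.measurable).aestronglyMeasurable ?_ ?_
    · intro x hx
      have : fderiv ℝ ψ x (bv i) = 0 :=
        image_eq_zero_of_notMem_tsupport (f := fun y => fderiv ℝ ψ y (bv i)) hx
      simp [this]
    · intro x hx
      rw [abs_mul]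
      refine mul_le_mul ?_ (hM x hx) (abs_nonneg _) (by positivity)
      exact (ContinuousLinearMap.le_opNorm _ _).trans
        (mul_le_mul_of_nonneg_right (norm_fderiv_le_of_lip hu x) (norm_nonneg _))
  · intro i _
    exact (hu.continuous.mul (hpp i)).integrable_of_hasCompactSupport
      ((hpc i).fderiv_apply (𝕜 := ℝ) (bv i)).mul_left

/-- weak subsolutions have monotone smooth means -/
theorem submvp_lip_ker (k : ℕ) {K : ℝ≥0} {u : E d → ℝ} (hu : LipschitzWith K u)
    {x : E d} {r : ℝ} (hr : 0 < r)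
    (hs : ∀ t, 0 < t → t ≤ r → 0 ≤ ∫ y, ⟪∇ u y, ∇ (pot k t x) y⟫_ℝ) :
    kap d k * u x ≤ MM k r u x := by
  have hI : ∀ R, IntegrableOn u (ball x R) := fun R =>
    (hu.continuous.continuousOn.integrableOn_compact (isCompact_closedBall x R)).mono_set
      ball_subset_closedBall
  have hder : ∀ s, 0 < s → HasDerivAt (fun s => MM k s u x) (∫ y, ⟪∇ u y, ∇ (pot k s x) y⟫_ℝ) s := by
    intro s hs0
    have h1 := hasDerivAt_MM k hs0 (lt_add_one s) (hI (s + 1))
    refine h1.congr_deriv ?_
    have h2 := lip_green hu (contDiff_pot k s x) (hasCompactSupport_pot k hs0 x)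
    simp_rw [lap_pot k hs0] at h2
    rw [h2, neg_neg]
  have hmono : MonotoneOn (fun s => MM k s u x) (Ioc 0 r) := by
    apply monotoneOn_of_deriv_nonneg (convex_Ioc 0 r)
    · intro s hs'
      exact (hder s hs'.1).continuousAt.continuousWithinAt
    · intro s hs'
      rw [interior_Ioc] at hs'
      exact (hder s hs'.1).differentiableAt.differentiableWithinAt
    · intro s hs'
      rw [interior_Ioc] at hs'
      rw [(hder s hs'.1).deriv]
      exact hs s hs'.1 hs'.2.le
  have hlim := tendsto_MM k hr (hI r) hu.continuous.continuousAt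
  apply le_of_tendsto hlim
  filter_upwards [Ioo_mem_nhdsGT hr] with s hs'
  exact hmono ⟨hs'.1, hs'.2.le⟩ ⟨hr, le_rfl⟩ hs'.2.le

theorem submvp_lip {K : ℝ≥0} {u : E d → ℝ} (hu : LipschitzWith K u)
    (hs : ∀ (φ : E d → ℝ) (L : ℝ≥0), LipschitzWith L φ → HasCompactSupport φ → (∀ x, 0 ≤ φ x) →
      ∫ x, inner ℝ (∇ u x) (∇ φ x) ≤ 0) (x : E d) {r : ℝ} (hr : 0 < r) :
    u x ≤ ⨍ y in ball x r, u y := by
  have h1 : ∀ k, kap d k * u x ≤ MM k r u x := by
    intro k
    apply submvp_lip_ker k hu hr
    intro t ht _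
    have hc : ContDiff ℝ 1 (fun y => -pot k t x y) := (contDiff_infty.mp (contDiff_pot k t x) 1).neg
    have hcs : HasCompactSupport (fun y => -pot k t x y) := (hasCompactSupport_pot k ht x).neg
    obtain ⟨L, hL⟩ := lip_of_contDiff_compact hc hcs
    have h2 := hs _ L hL hcs (fun y => by linarith [pot_nonpos k ht.le x y])
    have h3 : ∀ y, ∇ (fun y => -pot k t x y) y = -∇ (pot k t x) y := by
      intro y
      have h4 : fderiv ℝ (fun y => -pot k t x y) y = -fderiv ℝ (pot k t x) y := by
        have := fderiv_neg (𝕜 := ℝ) (f := pot k t x) (x := y)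
        exact this
      simp [gradient, h4]
    simp_rw [h3, inner_neg_right, integral_neg] at h2
    linarith
  have hI : IntegrableOn u (closedBall x r) :=
    hu.continuous.continuousOn.integrableOn_compact (isCompact_closedBall x r)
  have h2 := le_of_tendsto_of_tendsto' ((tendsto_kap (d := d)).mul_const (u x))
    (tendsto_MM_k hr hI) h1
  rw [setAverage_eq, measureReal_def, volume_ball_real x hr, smul_eq_mul]
  have h3 : 0 < omg d := omg_pos
  have h4 : 0 < r ^ d := by positivity
  have h5 : omg d * u x ≤ omg d * ((r ^ d * omg d)⁻¹ * (∫ y in ball x r, u y)) := by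
    refine h2.trans (le_of_eq ?_)
    field_simp
  exact le_of_mul_le_mul_left h5 h3

/-- mean value property for functions harmonic in an open ball only -/
theorem mvp_ball_open {f : E d → ℝ} {x : E d} {r : ℝ} (hr : 0 < r)
    (hf2 : ContDiffOn ℝ 2 f (ball x r)) (hf0 : ∀ y ∈ ball x r, (Δ f) y = 0)
    (hi : IntegrableOn f (ball x r)) : f x = ⨍ y in ball x r, f y := by
  set s : ℕ → Set (E d) := fun n => ball x (r * (1 - 1 / (n + 2 : ℝ))) with hs
  have hlt : ∀ n : ℕ, 0 < r * (1 - 1 / (n + 2 : ℝ)) ∧ r * (1 - 1 / (n + 2 : ℝ)) < r := by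
    intro n
    have h1 : (0:ℝ) < n + 2 := by positivity
    have h2 : (1:ℝ) / (n + 2) < 1 := by rw [div_lt_one h1]; linarith [(Nat.cast_nonneg n : (0:ℝ) ≤ n)]
    have h3 : (0:ℝ) < 1 / (n + 2) := by positivity
    constructor
    · apply mul_pos hr; linarith
    · nlinarith
  have hmono : Monotone s := by
    intro m n hmn
    apply ball_subset_ball
    apply mul_le_mul_of_nonneg_left _ hr.le
    have : (1:ℝ) / (n + 2) ≤ 1 / (m + 2) := by
      apply one_div_le_one_div_of_le (by positivity)
      have : (m:ℝ) ≤ n := by exact_mod_cast hmn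
      linarith
    linarith
  have hlimr : Tendsto (fun n : ℕ => r * (1 - 1 / (n + 2 : ℝ))) atTop (𝓝 r) := by
    have h1 : Tendsto (fun n : ℕ => (1:ℝ) / (n + 2 : ℝ)) atTop (𝓝 0) := by
      have := tendsto_one_div_add_atTop_nhds_zero_nat (𝕜 := ℝ)
      have h2 := (tendsto_add_atTop_iff_nat 1).mpr this
      refine h2.congr fun n => ?_
      push_cast
      ring_nf
    have h2 := (h1.const_sub 1).const_mul r
    simpa using h2
  have hU : (⋃ n, s n) = ball x r := by
    apply subset_antisymm
    · exact iUnion_subset fun n => ball_subset_ball (hlt n).2.le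
    · intro y hy
      rw [mem_ball] at hy
      have := hlimr.eventually (lt_mem_nhds hy)
      obtain ⟨n, hn⟩ := this.exists
      exact mem_iUnion.mpr ⟨n, hn⟩
  have hlim := tendsto_setIntegral_of_monotone (μ := volume) (f := f)
    (fun n => isOpen_ball.measurableSet (s := s n)) hmono (by rw [hU]; exact hi)
  rw [hU] at hlim
  have h1 : ∀ n : ℕ, ((r * (1 - 1 / (n + 2 : ℝ))) ^ d * omg d) * f x = ∫ y in s n, f y := by
    intro n
    have h := mean_ball (hlt n).1 (hlt n).2 hf2
      (fun y hy => hf0 y (ball_subset_ball (hlt n).2.le hy))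
    rw [setAverage_eq, measureReal_def, volume_ball_real x (hlt n).1, smul_eq_mul] at h
    have h3 : 0 < omg d := omg_pos
    have h4 : 0 < (r * (1 - 1 / (n + 2 : ℝ))) ^ d := pow_pos (hlt n).1 d
    rw [h]
    rw [← mul_assoc, mul_inv_cancel₀ (by positivity), one_mul]
  have hlim2 : Tendsto (fun n : ℕ => ((r * (1 - 1 / (n + 2 : ℝ))) ^ d * omg d) * f x) atTop
      (𝓝 ((r ^ d * omg d) * f x)) := ((hlimr.pow d).mul_const _).mul_const _
  have h2 : (r ^ d * omg d) * f x = ∫ y in ball x r, f y := by
    apply tendsto_nhds_unique hlim2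
    refine hlim.congr fun n => ?_
    rw [h1 n]
  rw [setAverage_eq, measureReal_def, volume_ball_real x hr, smul_eq_mul, ← h2]
  have h3 : 0 < omg d := omg_pos
  have h4 : 0 < r ^ d := by positivity
  field_simp

end
end Crest.Agent.R097.Hm
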