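import Crest.Agent.R097.HF3
import Crest.Prelude.Def_OnePhase

/-! Sob: the Sobolev toolkit on the whole space (definitions). -/
set_option autoImplicit false
open MeasureTheory Metric Set Filter Topology
open scoped NNReal RealInnerProductSpace Gradient ContDiff Laplacian ENNReal
open Crest.AnalysisR.PDE.OnePhase

namespace Crest.Agent.R097
variable {d : ℕ}

/-- `u ∈ W^{1,2}_loc` with weak gradient `G` (on the whole space) -/
def W2 (u : E d → ℝ) (G : E d → E d) : Prop :=
  IsWeakGradOn Set.univ u G ∧ LocallyIntegrable (fun x => u x ^ 2) ∧ LocallyIntegrable (fun x => ‖G x‖ ^ 2)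


end Crest.Agent.R097
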