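import Crest.Agent.R097.Iface
import Crest.Agent.R097.Defs
import Crest.Agent.R097.F5Def
import Crest.Agent.R097.DimRed

-- ▼ part R097/RegScale
section

/-!
# Row 97: regular points and scaling
-/

set_option autoImplicit false
open MeasureTheory Metric Set Filter Topology InnerProductSpace
open scoped RealInnerProductSpace NNReal ENNReal Gradient Laplacian ContDiff

namespace Crest.Agent.R097

variable {d : ℕ}

set_option synthInstance.maxHeartbeats 400000 in
noncomputable instance instAMBil : AddMonoid (E d →L[ℝ] E d →L[ℝ] ℝ) := inferInstance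
noncomputable instance instNACGTri : NormedAddCommGroup (E d →L[ℝ] E d →L[ℝ] E d →L[ℝ] ℝ) :=
  inferInstance
noncomputable instance instNSTri : NormedSpace ℝ (E d →L[ℝ] E d →L[ℝ] E d →L[ℝ] ℝ) :=
  inferInstance

lemma KK.scale {e : E d} {A : Bil d} {B : Tri d} (h : KK e A B) (s : ℝ) :
    KK e (s • A) ((s ^ 2) • B) where
  norm_e := h.norm_e
  stfA := ⟨fun x y => by simp [h.stfA.symm x y], by
    simp only [FunLike.coe_smul, Pi.smul_apply, smul_eq_mul, ← Finset.mul_sum,
      h.stfA.tr, mul_zero]⟩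
  stfB := ⟨fun x y z => by simp [h.stfB.symm12 x y z], fun x y z => by simp [h.stfB.symm23 x y z],
    fun x => by
      simp only [FunLike.coe_smul, Pi.smul_apply, smul_eq_mul, ← Finset.mul_sum,
        h.stfB.tr, mul_zero]⟩
  eig := fun t ht => by simp [h.eig t ht]
  bdry := fun t ht => by
    have := h.bdry t ht
    simp only [FunLike.coe_smul, Pi.smul_apply, smul_eq_mul, this]
    rw [mul_sub, Finset.mul_sum]
    congr 1
    · ring
    · refine Finset.sum_congr rfl fun i _ => ?_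
      ring

lemma fderiv_affine {F : Type*} [NormedAddCommGroup F] [NormedSpace ℝ F] (f : E d → F)
    (x0 : E d) (r : ℝ) (x : E d) :
    fderiv ℝ (fun x => f (x0 + r • x)) x = r • fderiv ℝ f (x0 + r • x) := by
  have h1 := fderiv_comp_smul (𝕜 := ℝ) (f := fun z => f (x0 + z)) (x := x) r
  rw [fderiv_comp_add_left] at h1
  exact h1

lemma fderiv_smul_gen {F : Type*} [NormedAddCommGroup F] [NormedSpace ℝ F] (g : E d → F)
    (r : ℝ) (x : E d) : fderiv ℝ (r • g) x = r • fderiv ℝ g x := by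
  rw [fderiv_const_smul_field]; rfl

lemma fderiv_blow (u : E d → ℝ) (x0 : E d) {r : ℝ} (hr : r ≠ 0) :
    fderiv ℝ (blow u x0 r) = fun x => fderiv ℝ u (x0 + r • x) := by
  ext1 x
  have h1 : blow u x0 r = r⁻¹ • (fun y => u (x0 + r • y)) := by
    ext y; simp [blow, div_eq_inv_mul]
  rw [h1, fderiv_const_smul_field, Pi.smul_apply, fderiv_affine, smul_smul, inv_mul_cancel₀ hr, one_smul]

lemma D2_blow (u : E d → ℝ) (x0 : E d) {r : ℝ} (hr : r ≠ 0) :
    D2 (blow u x0 r) = fun x => r • D2 u (x0 + r • x) := by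
  ext1 x
  unfold D2
  rw [fderiv_blow u x0 hr, fderiv_affine]

lemma D3_blow (u : E d → ℝ) (x0 : E d) {r : ℝ} (hr : r ≠ 0) :
    D3 (blow u x0 r) = fun x => (r ^ 2) • D3 u (x0 + r • x) := by
  ext1 x
  have h0 : fderiv ℝ (fderiv ℝ (blow u x0 r)) = r • (fun x => D2 u (x0 + r • x)) := D2_blow u x0 hr
  unfold D3
  rw [h0, fderiv_smul_gen, fderiv_affine, smul_smul, pow_two]
  rfl

lemma regPt_of_blow {u : E d → ℝ} {x0 : E d} {r : ℝ} (hr : 0 < r)
    (h : RegPt (blow u x0 r) 0) : RegPt u x0 := by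
  obtain ⟨e, A, B, hJ⟩ := h
  have hr0 : r ≠ 0 := hr.ne'
  set φ : E d → E d := fun z => r⁻¹ • (z - x0) with hφ
  have hφinv : ∀ z, x0 + r • φ z = z := by
    intro z
    simp only [hφ, smul_smul, mul_inv_cancel₀ hr0, one_smul]
    abel
  have hT : Tendsto φ (𝓝[Om u] x0) (𝓝[Om (blow u x0 r)] 0) := by
    refine tendsto_nhdsWithin_iff.2 ⟨?_, ?_⟩
    · have hc : Continuous φ := by fun_prop
      have h1 : Tendsto φ (𝓝 x0) (𝓝 (φ x0)) := hc.tendsto x0
      have h2 : φ x0 = 0 := by simp [hφ]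
      rw [h2] at h1
      exact h1.mono_left nhdsWithin_le_nhds
    · filter_upwards [self_mem_nhdsWithin] with z hz
      show 0 < blow u x0 r (φ z)
      unfold blow
      rw [hφinv]
      exact div_pos hz hr
  refine ⟨e, r⁻¹ • A, (r⁻¹ ^ 2) • B, hJ.kk.scale _, ?_, ?_, ?_⟩
  · have h1 := hJ.t1.comp hT
    refine h1.congr fun z => ?_
    simp only [Function.comp_apply, fderiv_blow u x0 hr0, hφinv]
  · have h1 := (hJ.t2.comp hT).const_smul r⁻¹
    refine h1.congr fun z => ?_
    simp only [Function.comp_apply, D2_blow u x0 hr0, hφinv, smul_smul, inv_mul_cancel₀ hr0,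
      one_smul]
  · have h1 := (hJ.t3.comp hT).const_smul (r⁻¹ ^ 2)
    refine h1.congr fun z => ?_
    simp only [Function.comp_apply, D3_blow u x0 hr0, hφinv, smul_smul]
    rw [← mul_pow, inv_mul_cancel₀ hr0, one_pow, one_smul]

end Crest.Agent.R097
end

-- ▼ part R097/RegCone

/-!
# Row 97: regularity of cones away from the vertex
-/

set_option autoImplicit false
open MeasureTheory Metric Set Filter Topology InnerProductSpace
open scoped RealInnerProductSpace NNReal ENNReal Gradient Laplacian ContDiff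

namespace Crest.Agent.R097

variable {d : ℕ}

/-- F6: regularity of all free boundary points near a flat one -/
abbrev F6Stmt (d : ℕ) : Prop := F6Concl d

lemma zero_mem_frontier_blow {u : E d → ℝ} {y : E d} {r : ℝ} (hr : 0 < r)
    (hy : y ∈ frontier (Om u)) : (0 : E d) ∈ frontier (Om (blow u y r)) := by
  set ψ : E d ≃ₜ E d := (Homeomorph.smulOfNeZero r hr.ne').trans (Homeomorph.addLeft y) with hψ
  have h1 : Om (blow u y r) = ψ ⁻¹' (Om u) := by
    ext x
    have e1 : ψ x = y + r • x := rfl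
    simp only [Om, mem_setOf_eq, mem_preimage, blow, e1]
    constructor
    · intro h
      by_contra h'
      exact absurd h (not_lt.2 (div_nonpos_of_nonpos_of_nonneg (not_lt.1 h') hr.le))
    · intro h; exact div_pos h hr
  rw [h1, ← ψ.preimage_frontier]
  have e2 : ψ 0 = y := by
    have : ψ 0 = y + r • (0 : E d) := rfl
    rw [this, smul_zero, add_zero]
  rw [mem_preimage, e2]
  exact hy

/-- flat free boundary points are regular, at any scale -/
theorem reg_of_sand (h6 : F6Stmt d) : ∃ δ0 : ℝ, 0 < δ0 ∧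
    ∀ (u : E d → ℝ) (K : ℝ≥0), LM u K → ∀ (y e : E d) (r : ℝ), 0 < r → ‖e‖ = 1 →
      y ∈ frontier (Om u) → Sand u (fun x => ⟪e, x - y⟫_ℝ) (-(δ0 * r)) (δ0 * r) (ball y r) →
      RegPt u y := by
  obtain ⟨δ1, hδ1, h6⟩ := h6
  refine ⟨δ1, hδ1, fun u K hu y e r hr he hy hS => ?_⟩
  refine regPt_of_blow hr ?_
  refine h6 (blow u y r) K e (hu.blow y hr) he ?_ 0 (zero_mem_frontier_blow hr hy)
    (mem_ball_self (by norm_num))
  intro x hx
  have hx' : y + r • x ∈ ball y r := by
    rw [mem_ball_iff_norm, add_sub_cancel_left, norm_smul, Real.norm_of_nonneg hr.le]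
    have : ‖x‖ < 1 := by simpa using hx
    nlinarith
  have h1 := hS (y + r • x) hx'
  simp only [add_sub_cancel_left, inner_smul_right] at h1
  have e1 : max (⟪e, x⟫_ℝ + -δ1) 0 = max (r * ⟪e, x⟫_ℝ + -(δ1 * r)) 0 / r := by
    rw [← max_div_div_right hr.le, zero_div]
    congr 1; field_simp
  have e2 : max (⟪e, x⟫_ℝ + δ1) 0 = max (r * ⟪e, x⟫_ℝ + δ1 * r) 0 / r := by
    rw [← max_div_div_right hr.le, zero_div]
    congr 1; field_simp
  rw [e1, e2]
  exact ⟨div_le_div_of_nonneg_right h1.1 hr.le, div_le_div_of_nonneg_right h1.2 hr.le⟩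

/-- every free boundary point of a cone, except the vertex, is regular -/
theorem cone_reg (h6 : F6Stmt (d + 1)) (hd : 1 ≤ d) (hc : Cls d) {K : ℝ≥0} {u : E (d + 1) → ℝ}
    (hu : LM u K) (hh : Hom1 u) {y : E (d + 1)} (hy : y ∈ frontier (Om u)) (hy0 : y ≠ 0) :
    RegPt u y := by
  obtain ⟨δ0, hδ0, hreg⟩ := reg_of_sand h6
  obtain ⟨r, e, hr, -, he, h⟩ := cone_flat hd hc hu hh hy hy0 hδ0
  refine hreg u K hu y e r hr he hy fun x hx => ?_
  have h1 := h x hx
  rw [real_inner_comm] at h1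
  exact h1

end Crest.Agent.R097
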