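import Crest.Agent.R097.S0Test
import Crest.Agent.R097.LapChain
import Crest.Agent.R097.Harm
import Crest.Agent.R097.Sob
import Crest.Agent.R097.Lip
import Crest.Agent.R097.S0LM
import Crest.Agent.R097.DimRed
import Crest.Agent.R097.FlatEnd
import Crest.Agent.R097.RegCone

-- ▼ part R097/S0Proj
section

/-!
# Row 97, part S0: Hilbert projection and harmonic replacement, Hardy inequality in `H¹₀` (helper887)
-/

set_option autoImplicit false
open MeasureTheory Metric Set Filter Topology
open scoped RealInnerProductSpace NNReal ENNReal ContDiff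

namespace Crest.Agent.R097

open Crest.AnalysisR.PDE.OnePhase

variable {d : ℕ}

/-- test functions in `B` -/
structure IsTest (φ : E d → ℝ) (B : Set (E d)) : Prop where
  smooth : ContDiff ℝ ∞ φ
  cs : HasCompactSupport φ
  sub : tsupport φ ⊆ B


theorem S0_grad_add {f g : E d → ℝ} {x : E d} (hf : DifferentiableAt ℝ f x)
    (hg : DifferentiableAt ℝ g x) :
    gradient (fun y => f y + g y) x = gradient f x + gradient g x := by
  unfold gradient
  rw [show (fun y => f y + g y) = f + g from rfl, fderiv_add hf hg, map_add]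

theorem S0_grad_sub {f g : E d → ℝ} {x : E d} (hf : DifferentiableAt ℝ f x)
    (hg : DifferentiableAt ℝ g x) :
    gradient (fun y => f y - g y) x = gradient f x - gradient g x := by
  unfold gradient
  rw [show (fun y => f y - g y) = f - g from rfl, fderiv_sub hf hg, map_sub]

theorem S0_grad_smul {f : E d → ℝ} {x : E d} (a : ℝ) (hf : DifferentiableAt ℝ f x) :
    gradient (fun y => a * f y) x = a • gradient f x := by
  unfold gradient
  have : (fun y => a * f y) = a • f := rfl
  rw [this, fderiv_const_smul hf a, map_smul]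

theorem IsTest.diff {φ : E d → ℝ} {B : Set (E d)} (h : IsTest φ B) : Differentiable ℝ φ :=
  h.smooth.differentiable (by simp)

theorem IsTest.add {φ ψ : E d → ℝ} {B : Set (E d)} (h : IsTest φ B) (k : IsTest ψ B) :
    IsTest (fun x => φ x + ψ x) B := by
  refine ⟨h.smooth.add k.smooth, h.cs.add k.cs, ?_⟩
  exact (tsupport_add φ ψ).trans (union_subset h.sub k.sub)

theorem IsTest.smul {φ : E d → ℝ} {B : Set (E d)} (h : IsTest φ B) (a : ℝ) :
    IsTest (fun x => a * φ x) B := by
  refine ⟨contDiff_const.mul h.smooth, ?_, ?_⟩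
  · exact h.cs.mul_left
  · refine (closure_mono ?_).trans h.sub
    intro x hx hx0
    exact hx (by simp [hx0])

theorem IsTest.sub' {φ ψ : E d → ℝ} {B : Set (E d)} (h : IsTest φ B) (k : IsTest ψ B) :
    IsTest (fun x => φ x - ψ x) B := by
  have := IsTest.add h (IsTest.smul k (-1))
  simpa [sub_eq_add_neg] using this

theorem isTest_zero (B : Set (E d)) : IsTest (fun _ : E d => (0 : ℝ)) B := by
  refine ⟨contDiff_const, HasCompactSupport.zero, ?_⟩
  simp [tsupport]

theorem IsTest.cont_grad {φ : E d → ℝ} {B : Set (E d)} (h : IsTest φ B) :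
    Continuous (gradient φ) := by
  unfold gradient
  exact (InnerProductSpace.toDual ℝ (E d)).symm.continuous.comp
    (h.smooth.continuous_fderiv (by simp))

theorem IsTest.cs_grad {φ : E d → ℝ} {B : Set (E d)} (h : IsTest φ B) :
    HasCompactSupport (gradient φ) := by
  have h1 := (h.cs.fderiv (𝕜 := ℝ)).comp_left (g := (InnerProductSpace.toDual ℝ (E d)).symm)
    (by simp)
  exact h1

theorem IsTest.memLp {φ : E d → ℝ} {B : Set (E d)} (h : IsTest φ B) (p : ℝ≥0∞)
    (μ : Measure (E d)) [IsFiniteMeasureOnCompacts μ] : MemLp φ p μ :=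
  h.smooth.continuous.memLp_of_hasCompactSupport h.cs

theorem IsTest.memLp_grad {φ : E d → ℝ} {B : Set (E d)} (h : IsTest φ B) (p : ℝ≥0∞)
    (μ : Measure (E d)) [IsFiniteMeasureOnCompacts μ] : MemLp (gradient φ) p μ :=
  h.cont_grad.memLp_of_hasCompactSupport h.cs_grad

theorem IsTest.partialD {φ : E d → ℝ} {B : Set (E d)} (h : IsTest φ B) (i : Fin d) :
    IsTest (partialD φ i) B := by
  refine ⟨?_, h.cs.fderiv_apply (𝕜 := ℝ) _, ?_⟩
  · exact (h.smooth.fderiv_right (m := ∞) (by simp)).clm_apply contDiff_const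
  · exact (tsupport_fderiv_apply_subset ℝ _).trans h.sub

/-- the space of gradients of test functions in `L²(μ)` -/
noncomputable def gradSub (B : Set (E d)) (μ : Measure (E d)) : Submodule ℝ (Lp (E d) 2 μ) where
  carrier := {f | ∃ φ, IsTest φ B ∧ f =ᵐ[μ] gradient φ}
  zero_mem' := by
    refine ⟨fun _ => 0, isTest_zero B, ?_⟩
    filter_upwards [Lp.coeFn_zero (E d) 2 μ] with x hx
    rw [hx]
    simp [gradient]
  add_mem' := by
    rintro f g ⟨φ, hφ, hf⟩ ⟨ψ, hψ, hg⟩
    refine ⟨fun x => φ x + ψ x, hφ.add hψ, ?_⟩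
    filter_upwards [Lp.coeFn_add f g, hf, hg] with x hx h1 h2
    rw [hx, Pi.add_apply, h1, h2, S0_grad_add (hφ.diff x) (hψ.diff x)]
  smul_mem' := by
    rintro a f ⟨φ, hφ, hf⟩
    refine ⟨fun x => a * φ x, hφ.smul a, ?_⟩
    filter_upwards [Lp.coeFn_smul a f, hf] with x hx h1
    rw [hx, Pi.smul_apply, h1, S0_grad_smul a (hφ.diff x)]


theorem S0_norm_sq {α F : Type*} [MeasurableSpace α] {μ : Measure α} [NormedAddCommGroup F]
    [InnerProductSpace ℝ F] (f : Lp F 2 μ) : ‖f‖ ^ 2 = ∫ x, ‖f x‖ ^ 2 ∂μ := by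
  rw [← real_inner_self_eq_norm_sq, L2.inner_def]
  simp only [real_inner_self_eq_norm_sq]

theorem S0_lintegral_sq {α F : Type*} [MeasurableSpace α] {μ : Measure α} [NormedAddCommGroup F]
    (f : α → F) : ∫⁻ x, ‖f x‖ₑ ^ 2 ∂μ = (eLpNorm f 2 μ) ^ 2 := by
  have h := eLpNorm_nnreal_pow_eq_lintegral (μ := μ) (f := f) (p := 2) (by norm_num)
  have h2 : ((2 : ℝ≥0) : ℝ) = ((2 : ℕ) : ℝ) := by norm_num
  rw [h2] at h
  simp only [ENNReal.rpow_natCast] at h
  rw [← h]
  norm_num

/-- Hilbert projection onto (the closure of) gradients of test functions. -/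
theorem S0_proj (hd : 1 ≤ d) {c : E d} {r : ℝ} (hr : 0 < r) {G : E d → E d}
    (hG : MemLp G 2 (volume.restrict (ball c r))) :
    ∃ (w : E d → ℝ) (g : E d → E d), MemLp w 2 (volume.restrict (ball c r)) ∧
      MemLp g 2 (volume.restrict (ball c r)) ∧
      HasZeroTrace (ball c r) w g ∧ IsWeakGradOn (ball c r) w g ∧
      (∀ φ, IsTest φ (ball c r) → ∫ x in ball c r, inner ℝ (G x - g x) (gradient φ x) = 0) ∧
      (∫ x in ball c r, inner ℝ (G x - g x) (g x) = 0) ∧
      (∫⁻ x in ball c r, ENNReal.ofReal (r ^ 2 * w x ^ 2 / (r ^ 2 - ‖x - c‖ ^ 2) ^ 2)) ≤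
        ∫⁻ x in ball c r, ‖g x‖ₑ ^ 2 := by
  set μ : Measure (E d) := volume.restrict (ball c r) with hμ
  set K := (gradSub (ball c r) μ).topologicalClosure with hK
  have : CompleteSpace K := (Submodule.isClosed_topologicalClosure _).completeSpace_coe
  set Gl := hG.toLp G with hGl
  set P : Lp (E d) 2 μ := K.starProjection Gl with hP
  have hPK : P ∈ K := Submodule.starProjection_apply_mem K Gl
  have hPc : P ∈ closure ((gradSub (ball c r) μ : Submodule ℝ (Lp (E d) 2 μ)) : Set (Lp (E d) 2 μ)) := by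
    rw [hK] at hPK
    exact hPK
  obtain ⟨t, htm, htl⟩ := mem_closure_iff_seq_limit.1 hPc
  choose φ hφ hφt using htm
  set F : ℕ → Lp ℝ 2 μ := fun n => ((hφ n).memLp 2 μ).toLp (φ n) with hF
  have hFc : ∀ n, (F n : E d → ℝ) =ᵐ[μ] φ n := fun n => MemLp.coeFn_toLp _
  have hdist : ∀ n m, ‖F n - F m‖ ≤ r * ‖t n - t m‖ := by
    intro n m
    have hψ := (hφ n).sub' (hφ m)
    have h1 := S0_poinc_test hd c hr (hψ.smooth.of_le (by simp)) hψ.cs hψ.sub
    have h2 : ‖F n - F m‖ ^ 2 = ∫ x, (φ n x - φ m x) ^ 2 := by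
      rw [S0_norm_sq]
      have e1 : ∫ x, ‖(F n - F m : Lp ℝ 2 μ) x‖ ^ 2 ∂μ =
          ∫ x, (φ n x - φ m x) ^ 2 ∂μ := by
        refine integral_congr_ae ?_
        filter_upwards [Lp.coeFn_sub (F n) (F m), hFc n, hFc m] with x h1 h2 h3
        rw [h1, Pi.sub_apply, h2, h3]
        simp
      rw [e1, hμ]
      refine setIntegral_eq_integral_of_forall_compl_eq_zero (fun x hx => ?_)
      have : x ∉ tsupport (fun x => φ n x - φ m x) := fun h => hx (hψ.sub h)
      rw [image_eq_zero_of_notMem_tsupport this]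
      simp
    have h3 : ‖t n - t m‖ ^ 2 = ∫ x, ‖gradient (fun x => φ n x - φ m x) x‖ ^ 2 := by
      rw [S0_norm_sq]
      have e1 : ∫ x, ‖(t n - t m : Lp (E d) 2 μ) x‖ ^ 2 ∂μ =
          ∫ x, ‖gradient (fun x => φ n x - φ m x) x‖ ^ 2 ∂μ := by
        refine integral_congr_ae ?_
        filter_upwards [Lp.coeFn_sub (t n) (t m), hφt n, hφt m] with x h1 h2 h3
        rw [h1, Pi.sub_apply, h2, h3, S0_grad_sub ((hφ n).diff x) ((hφ m).diff x)]
      rw [e1, hμ]
      refine setIntegral_eq_integral_of_forall_compl_eq_zero (fun x hx => ?_)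
      have : x ∉ tsupport (fun x => φ n x - φ m x) := fun h => hx (hψ.sub h)
      have h4 : (fun x => φ n x - φ m x) =ᶠ[𝓝 x] 0 := notMem_tsupport_iff_eventuallyEq.1 this
      rw [norm_gradient_s0, h4.fderiv_eq]
      simp
    rw [← h2, ← h3] at h1
    have h4 : ‖F n - F m‖ ^ 2 ≤ (r * ‖t n - t m‖) ^ 2 := by
      rw [mul_pow]; exact h1
    exact le_of_sq_le_sq h4 (by positivity)
  have hFcauchy : CauchySeq F := by
    have htc := htl.cauchySeq
    rw [Metric.cauchySeq_iff'] at htc ⊢
    intro ε hε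
    obtain ⟨N, hN⟩ := htc (ε / r) (by positivity)
    refine ⟨N, fun n hn => ?_⟩
    have h1 := hN n hn
    rw [dist_eq_norm] at h1 ⊢
    calc ‖F n - F N‖ ≤ r * ‖t n - t N‖ := hdist n N
      _ < r * (ε / r) := by gcongr
      _ = ε := by field_simp
  obtain ⟨W, hW⟩ := cauchySeq_tendsto_of_complete hFcauchy
  refine ⟨W, P, Lp.memLp W, Lp.memLp P, ?_, ?_, ?_, ?_, ?_⟩
  · -- zero trace
    intro ε hε
    have hε' : ∃ δ : ℝ≥0∞, 0 < δ ∧ δ ^ 2 < ε := by
      rcases eq_or_ne ε ⊤ with rfl | htop
      · exact ⟨1, one_pos, by simp⟩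
      · have h0 : 0 < ε.toReal := ENNReal.toReal_pos hε.ne' htop
        refine ⟨ENNReal.ofReal (Real.sqrt (ε.toReal / 2)), by positivity, ?_⟩
        rw [← ENNReal.ofReal_pow (Real.sqrt_nonneg _), Real.sq_sqrt (by positivity)]
        rw [ENNReal.ofReal_lt_iff_lt_toReal (by positivity) htop]
        linarith
    obtain ⟨δ, hδ, hδε⟩ := hε'
    have h1 := (Lp.tendsto_Lp_iff_tendsto_eLpNorm' F W).1 hW
    have h2 := (Lp.tendsto_Lp_iff_tendsto_eLpNorm' t P).1 htl
    have h3 := (h1.eventually (gt_mem_nhds hδ)).and (h2.eventually (gt_mem_nhds hδ))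
    obtain ⟨n, hn1, hn2⟩ := h3.exists
    refine ⟨φ n, (hφ n).smooth, (hφ n).cs, (hφ n).sub, ?_, ?_⟩
    · have e1 : ∫⁻ x in ball c r, ‖W x - φ n x‖ₑ ^ 2 = (eLpNorm (⇑(F n) - ⇑W) 2 μ) ^ 2 := by
        rw [← S0_lintegral_sq]
        refine lintegral_congr_ae ?_
        filter_upwards [hFc n] with x hx
        rw [Pi.sub_apply, hx, enorm_sub_rev]
      rw [e1]
      exact lt_of_le_of_lt (by gcongr) hδε
    · have e1 : ∫⁻ x in ball c r, ‖P x - gradient (φ n) x‖ₑ ^ 2 =
          (eLpNorm (⇑(t n) - ⇑P) 2 μ) ^ 2 := by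
        rw [← S0_lintegral_sq]
        refine lintegral_congr_ae ?_
        filter_upwards [hφt n] with x hx
        rw [Pi.sub_apply, hx, enorm_sub_rev]
      rw [e1]
      exact lt_of_le_of_lt (by gcongr) hδε
  · -- weak gradient
    have hfin : IsFiniteMeasure μ := ⟨by rw [hμ, Measure.restrict_apply_univ]; exact measure_ball_lt_top⟩
    refine ⟨?_, ?_, ?_⟩
    · exact IntegrableOn.locallyIntegrableOn ((Lp.memLp W).integrable one_le_two)
    · exact IntegrableOn.locallyIntegrableOn ((Lp.memLp P).integrable one_le_two)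
    · intro ψ hψ1 hψ2 hψ3 i
      have hψ : IsTest ψ (ball c r) := ⟨hψ1, hψ2, hψ3⟩
      have hψi := hψ.partialD i
      set A : Lp ℝ 2 μ := (hψi.memLp 2 μ).toLp _ with hA
      have hvm : MemLp (fun x => ψ x • ei i) 2 μ := by
        refine Continuous.memLp_of_hasCompactSupport (hψ1.continuous.smul continuous_const) ?_
        exact hψ2.smul_right
      set Bv : Lp (E d) 2 μ := hvm.toLp _ with hBv
      have hAc : (A : E d → ℝ) =ᵐ[μ] Crest.AnalysisR.PDE.OnePhase.partialD ψ i := MemLp.coeFn_toLp _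
      have hBc : (Bv : E d → E d) =ᵐ[μ] fun x => ψ x • ei i := MemLp.coeFn_toLp _
      have e1 : ∀ f : Lp ℝ 2 μ, inner ℝ A f = ∫ x in ball c r, f x *
          Crest.AnalysisR.PDE.OnePhase.partialD ψ i x := by
        intro f
        rw [L2.inner_def]
        refine integral_congr_ae ?_
        filter_upwards [hAc] with x hx
        rw [hx]
        simp [mul_comm]
      have e2 : ∀ f : Lp (E d) 2 μ, inner ℝ Bv f = ∫ x in ball c r, f x i * ψ x := by
        intro f
        rw [L2.inner_def]
        refine integral_congr_ae ?_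
        filter_upwards [hBc] with x hx
        rw [hx]
        simp [ei, inner_smul_left, EuclideanSpace.inner_single_left, mul_comm]
      have h1 : ∀ n, inner ℝ A (F n) = - inner ℝ Bv (t n) := by
        intro n
        rw [e1, e2]
        have e3 : ∫ x in ball c r, F n x * Crest.AnalysisR.PDE.OnePhase.partialD ψ i x =
            ∫ x, φ n x * fderiv ℝ ψ x (ei i) := by
          rw [← setIntegral_eq_integral_of_forall_compl_eq_zero (s := ball c r)
            (f := fun x => φ n x * fderiv ℝ ψ x (ei i)) (fun x hx => ?_)]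
          · refine integral_congr_ae ?_
            filter_upwards [hFc n] with x hx
            rw [hx]
            rfl
          · have : x ∉ tsupport (φ n) := fun h => hx ((hφ n).sub h)
            simp [image_eq_zero_of_notMem_tsupport this]
        have e4 : ∫ x in ball c r, (t n x) i * ψ x = ∫ x, fderiv ℝ (φ n) x (ei i) * ψ x := by
          rw [← setIntegral_eq_integral_of_forall_compl_eq_zero (s := ball c r)
            (f := fun x => fderiv ℝ (φ n) x (ei i) * ψ x) (fun x hx => ?_)]
          · refine integral_congr_ae ?_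
            filter_upwards [hφt n] with x hx
            rw [hx, gradient_apply']
            rfl
          · have : x ∉ tsupport ψ := fun h => hx (hψ.sub h)
            simp [image_eq_zero_of_notMem_tsupport this]
        rw [e3, e4]
        have hd1 := (hφ n).diff
        have hd2 := hψ.diff
        have c1 : Continuous fun x => fderiv ℝ (φ n) x (ei i) := ((hφ n).partialD i).smooth.continuous
        have c2 : Continuous fun x => fderiv ℝ ψ x (ei i) := hψi.smooth.continuous
        refine integral_mul_fderiv_eq_neg_fderiv_mul_of_integrable ?_ ?_ ?_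
          (fun x _ => hd1 x) (fun x _ => hd2 x)
        · exact (c1.mul hψ1.continuous).integrable_of_hasCompactSupport hψ2.mul_left
        · exact ((hφ n).smooth.continuous.mul c2).integrable_of_hasCompactSupport
            (hφ n).cs.mul_right
        · exact ((hφ n).smooth.continuous.mul hψ1.continuous).integrable_of_hasCompactSupport
            (hφ n).cs.mul_right
      have h2 : Tendsto (fun n => inner ℝ A (F n)) atTop (𝓝 (inner ℝ A W)) :=
        tendsto_const_nhds.inner hW
      have h3 : Tendsto (fun n => - inner ℝ Bv (t n)) atTop (𝓝 (- inner ℝ Bv P)) :=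
        (tendsto_const_nhds.inner htl).neg
      have h4 : inner ℝ A W = - inner ℝ Bv P := by
        refine tendsto_nhds_unique h2 ?_
        simp_rw [h1]
        exact h3
      rw [e1, e2] at h4
      exact h4
  · -- orthogonality
    intro ψ hψ
    set Q : Lp (E d) 2 μ := (hψ.memLp_grad 2 μ).toLp _ with hQ
    have hQc : (Q : E d → E d) =ᵐ[μ] gradient ψ := MemLp.coeFn_toLp _
    have hQK : Q ∈ K := by
      refine Submodule.le_topologicalClosure _ ?_
      exact ⟨ψ, hψ, hQc⟩
    have h1 := Submodule.starProjection_inner_eq_zero (K := K) Gl Q hQK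
    rw [L2.inner_def] at h1
    rw [← h1]
    refine integral_congr_ae ?_
    filter_upwards [hQc, Lp.coeFn_sub Gl P, MemLp.coeFn_toLp hG] with x h2 h3 h4
    rw [h2, h3, Pi.sub_apply, ← hGl] at *
    rw [h4]
  · have h1 := Submodule.starProjection_inner_eq_zero (K := K) Gl P hPK
    rw [L2.inner_def] at h1
    rw [← h1]
    refine integral_congr_ae ?_
    filter_upwards [Lp.coeFn_sub Gl P, MemLp.coeFn_toLp hG] with x h3 h4
    rw [h3, Pi.sub_apply, ← hGl] at *
    rw [h4]
  · -- Hardy
    have hmeas : TendstoInMeasure μ (fun n => (F n : E d → ℝ)) atTop (W : E d → ℝ) :=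
      tendstoInMeasure_of_tendsto_Lp hW
    obtain ⟨ns, hns, hae⟩ := hmeas.exists_seq_tendsto_ae
    have hpos : ∀ x ∈ ball c r, 0 < r ^ 2 - ‖x - c‖ ^ 2 := by
      intro x hx
      rw [mem_ball, dist_eq_norm] at hx
      have h0 := norm_nonneg (x - c)
      nlinarith
    have hallF : ∀ᵐ x ∂μ, ∀ n, F n x = φ n x := ae_all_iff.2 hFc
    have hmball : ∀ᵐ x ∂μ, x ∈ ball c r := ae_restrict_mem measurableSet_ball
    -- the densities converge
    have h1 : ∀ᵐ x ∂μ, Tendsto (fun k => ENNReal.ofReal (r ^ 2 * φ (ns k) x ^ 2 /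
        (r ^ 2 - ‖x - c‖ ^ 2) ^ 2)) atTop
        (𝓝 (ENNReal.ofReal (r ^ 2 * W x ^ 2 / (r ^ 2 - ‖x - c‖ ^ 2) ^ 2))) := by
      filter_upwards [hae, hallF] with x hx hF
      refine ENNReal.tendsto_ofReal ?_
      have h2 : Tendsto (fun k => φ (ns k) x) atTop (𝓝 (W x)) := by
        refine hx.congr (fun k => hF (ns k))
      exact ((h2.pow 2).const_mul _).div_const _
    have h2 : ∀ n, ∫⁻ x, ENNReal.ofReal (r ^ 2 * φ n x ^ 2 / (r ^ 2 - ‖x - c‖ ^ 2) ^ 2) ∂μ ≤
        ENNReal.ofReal (‖t n‖ ^ 2) := by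
      intro n
      have hI := S0_hardy_int c hr ((hφ n).smooth.of_le (by simp)) (hφ n).cs (hφ n).sub
      have h3 := hardy_test hd c hr ((hφ n).smooth.of_le (by simp)) (hφ n).cs (hφ n).sub
      have h4 : ‖t n‖ ^ 2 = ∫ x, ‖gradient (φ n) x‖ ^ 2 := by
        rw [S0_norm_sq]
        have e1 : ∫ x, ‖(t n : Lp (E d) 2 μ) x‖ ^ 2 ∂μ = ∫ x, ‖gradient (φ n) x‖ ^ 2 ∂μ := by
          refine integral_congr_ae ?_
          filter_upwards [hφt n] with x h1
          rw [h1]
        rw [e1, hμ]
        refine setIntegral_eq_integral_of_forall_compl_eq_zero (fun x hx => ?_)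
        have : x ∉ tsupport (φ n) := fun h => hx ((hφ n).sub h)
        have h4 : φ n =ᶠ[𝓝 x] 0 := notMem_tsupport_iff_eventuallyEq.1 this
        rw [norm_gradient_s0, h4.fderiv_eq]
        simp
      rw [h4, ← ofReal_integral_eq_lintegral_ofReal hI.restrict
        (Eventually.of_forall fun x => by positivity)]
      refine ENNReal.ofReal_le_ofReal (le_trans ?_ h3)
      exact setIntegral_le_integral hI (Eventually.of_forall fun x => by positivity)
    calc ∫⁻ x, ENNReal.ofReal (r ^ 2 * W x ^ 2 / (r ^ 2 - ‖x - c‖ ^ 2) ^ 2) ∂μ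
        = ∫⁻ x, liminf (fun k => ENNReal.ofReal (r ^ 2 * φ (ns k) x ^ 2 /
          (r ^ 2 - ‖x - c‖ ^ 2) ^ 2)) atTop ∂μ := by
          refine lintegral_congr_ae ?_
          filter_upwards [h1] with x hx
          exact hx.liminf_eq.symm
      _ ≤ liminf (fun k => ∫⁻ x, ENNReal.ofReal (r ^ 2 * φ (ns k) x ^ 2 /
          (r ^ 2 - ‖x - c‖ ^ 2) ^ 2) ∂μ) atTop := by
          refine lintegral_liminf_le' (fun k => ?_)
          refine AEMeasurable.ennreal_ofReal ?_
          have := (S0_hardy_int c hr ((hφ (ns k)).smooth.of_le (by simp)) (hφ (ns k)).cs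
            (hφ (ns k)).sub).restrict (s := ball c r)
          exact this.1.aemeasurable
      _ ≤ liminf (fun k => ENNReal.ofReal (‖t (ns k)‖ ^ 2)) atTop :=
          liminf_le_liminf (Eventually.of_forall fun k => h2 (ns k))
      _ = ENNReal.ofReal (‖P‖ ^ 2) := by
          refine Tendsto.liminf_eq ?_
          refine ENNReal.tendsto_ofReal ?_
          exact ((htl.comp hns.tendsto_atTop).norm).pow 2
      _ = ∫⁻ x, ‖P x‖ₑ ^ 2 ∂μ := by
          rw [S0_lintegral_sq, Lp.norm_def, ENNReal.ofReal_pow ENNReal.toReal_nonneg,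
            ENNReal.ofReal_toReal (Lp.eLpNorm_ne_top P)]

end Crest.Agent.R097
-- keep-prune
end

-- ▼ part R097/S0Bar
section

/-!
# Row 97, S0-d: Hopf type lower bound for nonnegative harmonic functions in a ball
-/

set_option autoImplicit false
open MeasureTheory Metric Set Filter Topology Laplacian InnerProductSpace
open scoped RealInnerProductSpace NNReal ContDiff Gradient

namespace Crest.Agent.R097
noncomputable section
variable {d : ℕ}

lemma bar_contDiff (c : E d) (β : ℝ) : ContDiff ℝ 2 (fun y : E d => Real.exp (-β * ‖y - c‖ ^ 2)) :=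
  Real.contDiff_exp.comp (contDiff_const.mul ((contDiff_id.sub contDiff_const).norm_sq ℝ))

lemma bar_lap (c : E d) (β : ℝ) (x : E d) :
    (Δ (fun y : E d => Real.exp (-β * ‖y - c‖ ^ 2))) x
      = Real.exp (-β * ‖x - c‖ ^ 2) * (2 * β) * (2 * β * ‖x - c‖ ^ 2 - d) := by
  have h := Crest.Agent.R077.lap_radial (n := d) (φ0 := fun t => Real.exp (-β * t))
    (φ1 := fun t => Real.exp (-β * t) * (-β)) (φ2 := fun t => Real.exp (-β * t) * (-β) * (-β))
    (x := c)
    (fun t _ => by
      have h1 : HasDerivAt (fun t => -β * t) (-β) t := by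
        simpa using (hasDerivAt_id t).const_mul (-β)
      exact h1.exp)
    (fun t _ => by
      have h1 : HasDerivAt (fun t => -β * t) (-β) t := by
        simpa using (hasDerivAt_id t).const_mul (-β)
      exact h1.exp.mul_const (-β))
    (by fun_prop) x
  rw [h]
  ring

theorem harm_barrier (d : ℕ) (hd : 0 < d) : ∃ c0 : ℝ, 0 < c0 ∧ ∀ (c : E d) (r : ℝ), 0 < r →
    ∀ V : E d → ℝ, Harm V (ball c r) → (∀ x ∈ ball c r, 0 ≤ V x) →
    ∀ x ∈ ball c r, c0 * V c * (r ^ 2 - ‖x - c‖ ^ 2) / r ^ 2 ≤ V x := by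
  obtain ⟨C, hC1, hC⟩ := harnack d
  have hC0 : 0 < C := by linarith
  have hd' : (1:ℝ) ≤ d := by exact_mod_cast hd
  set α : ℝ := 8 * d with hα
  have hα0 : 0 < α := by positivity
  have hαe : α * Real.exp (-α) ≤ 1 := by
    have h1 := Real.add_one_le_exp α
    rw [Real.exp_neg, mul_inv_le_iff₀ (Real.exp_pos α)]
    linarith
  refine ⟨α * Real.exp (-α) / C, by positivity, ?_⟩
  intro c r hr V hV hV0 x hx
  set a : ℝ := V c / C with ha
  have hVc : 0 ≤ V c := hV0 c (mem_ball_self hr)
  have ha0 : 0 ≤ a := by positivity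
  have hxr : ‖x - c‖ < r := by rwa [mem_ball, dist_eq_norm] at hx
  have hin : ∀ y ∈ ball c (r / 2), a ≤ V y := by
    intro y hy
    have := (hC V c r hr hV hV0 y hy).2
    rw [ha, div_le_iff₀ hC0]
    linarith
  set s : ℝ := ‖x - c‖ ^ 2 / r ^ 2 with hs
  have hs0 : 0 ≤ s := by positivity
  have hs1 : s < 1 := by
    rw [hs, div_lt_one (by positivity)]
    exact pow_lt_pow_left₀ hxr (norm_nonneg _) (by norm_num)
  have hgoal : α * Real.exp (-α) / C * V c * (r ^ 2 - ‖x - c‖ ^ 2) / r ^ 2
      = a * (α * Real.exp (-α)) * (1 - s) := by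
    rw [ha, hs]
    field_simp
  rw [hgoal]
  by_cases hx4 : ‖x - c‖ ≤ r / 4
  · have h1 := hin x (by rw [mem_ball, dist_eq_norm]; linarith)
    have h2 : a * (α * Real.exp (-α)) * (1 - s) ≤ a * 1 * 1 := by
      apply mul_le_mul _ (by linarith) (by linarith) (by positivity)
      exact mul_le_mul_of_nonneg_left hαe ha0
    linarith
  push Not at hx4
  -- the barrier in the annulus
  have hann : ∀ ρ, ‖x - c‖ < ρ → ρ < r →
      a * (Real.exp (-(α / r ^ 2) * ‖x - c‖ ^ 2) - Real.exp (-(α / r ^ 2) * ρ ^ 2)) ≤ V x := by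
    intro ρ hxρ hρr
    set β : ℝ := α / r ^ 2 with hβ
    have hβ0 : 0 < β := by positivity
    set D : Set (E d) := ball c ρ \ closedBall c (r / 4) with hD
    have hDo : IsOpen D := isOpen_ball.sdiff isClosed_closedBall
    have hDb : Bornology.IsBounded D := isBounded_ball.subset sdiff_subset
    have hclos : closure D ⊆ {y : E d | r / 4 ≤ ‖y - c‖ ∧ ‖y - c‖ ≤ ρ} := by
      have hcn : Continuous fun y : E d => ‖y - c‖ := by fun_prop
      apply closure_minimal
      · rintro y ⟨h1, h2⟩
        rw [mem_ball, dist_eq_norm] at h1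
        rw [mem_closedBall, dist_eq_norm, not_le] at h2
        exact ⟨h2.le, h1.le⟩
      · exact (isClosed_le continuous_const hcn).inter (isClosed_le hcn continuous_const)
    have hsub : closure D ⊆ ball c r := by
      intro y hy
      rw [mem_ball, dist_eq_norm]
      exact (hclos hy).2.trans_lt hρr
    have hVc : ContinuousOn V (closure D) := hV.1.continuousOn.mono hsub
    set w : E d → ℝ := fun y => a * Real.exp (-β * ‖y - c‖ ^ 2) + (-(a * Real.exp (-β * ρ ^ 2)))
      with hw
    have hwC : ContDiff ℝ 2 w := (contDiff_const.mul (bar_contDiff c β)).add contDiff_const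
    have hmax := Hm.max_principle hd hDo hDb (h := fun y => w y + -V y) (M := 0)
      (hwC.continuous.continuousOn.add hVc.neg)
      (hwC.contDiffOn.add (hV.contDiffOn_two.mono (subset_closure.trans hsub)).neg)
      (by
        intro y hy
        have hyr : y ∈ ball c r := hsub (subset_closure hy)
        have hV2 : ContDiffAt ℝ 2 V y := hV.contDiffOn_two.contDiffAt (isOpen_ball.mem_nhds hyr)
        rw [Hm.lap_add_at hwC.contDiffAt hV2.neg, Hm.lap_neg, hV.2 y hyr]
        have h1 : (Δ w) y = a * (Δ (fun y : E d => Real.exp (-β * ‖y - c‖ ^ 2))) y := by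
          rw [hw, Hm.lap_add_at (contDiff_const.mul (bar_contDiff c β)).contDiffAt contDiffAt_const,
            Hm.lap_const_mul_at a (bar_contDiff c β).contDiffAt]
          simp
        rw [h1, bar_lap]
        have h2 : r / 4 ≤ ‖y - c‖ := (hclos (subset_closure hy)).1
        have h3 : (r / 4) ^ 2 ≤ ‖y - c‖ ^ 2 := pow_le_pow_left₀ (by positivity) h2 2
        have h4 : (0:ℝ) ≤ 2 * β * ‖y - c‖ ^ 2 - d := by
          have h5 : 2 * β * (r / 4) ^ 2 = d := by
            rw [hβ, hα]
            field_simp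
            norm_num
          have h6 := mul_le_mul_of_nonneg_left h3 (show (0:ℝ) ≤ 2 * β by positivity)
          linarith
        have h7 : 0 ≤ Real.exp (-β * ‖y - c‖ ^ 2) * (2 * β) * (2 * β * ‖y - c‖ ^ 2 - d) :=
          mul_nonneg (by positivity) h4
        have h8 := mul_nonneg ha0 h7
        linarith)
      (by
        intro y hy
        have hyc := hclos (frontier_subset_closure hy)
        have hyD : y ∉ D := by
          intro h
          rw [hDo.frontier_eq] at hy
          exact hy.2 h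
        have hVy : 0 ≤ V y := hV0 y (hsub (frontier_subset_closure hy))
        rw [hw]
        simp only
        by_cases hρ : ‖y - c‖ < ρ
        · have h1 : ‖y - c‖ = r / 4 := by
            apply le_antisymm _ hyc.1
            by_contra hcon
            push Not at hcon
            exact hyD ⟨by rw [mem_ball, dist_eq_norm]; exact hρ,
              by rw [mem_closedBall, dist_eq_norm, not_le]; exact hcon⟩
          have h2 := hin y (by rw [mem_ball, dist_eq_norm]; linarith)
          have h3 : Real.exp (-β * ‖y - c‖ ^ 2) ≤ 1 := by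
            rw [Real.exp_le_one_iff]
            nlinarith [sq_nonneg ‖y - c‖, hβ0]
          have h4 : 0 ≤ a * Real.exp (-β * ρ ^ 2) := by positivity
          have h5 := mul_le_mul_of_nonneg_left h3 ha0
          linarith
        · have h1 : ‖y - c‖ = ρ := le_antisymm hyc.2 (not_lt.mp hρ)
          rw [h1]
          linarith)
    have hxD : x ∈ closure D := subset_closure
      ⟨by rw [mem_ball, dist_eq_norm]; exact hxρ, by rw [mem_closedBall, dist_eq_norm, not_le]; exact hx4⟩
    have := hmax x hxD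
    simp only [hw] at this
    linarith
  -- let ρ → r
  have hlim : a * (Real.exp (-(α / r ^ 2) * ‖x - c‖ ^ 2) - Real.exp (-(α / r ^ 2) * r ^ 2)) ≤ V x := by
    have h1 : Tendsto (fun ρ : ℝ => a * (Real.exp (-(α / r ^ 2) * ‖x - c‖ ^ 2)
        - Real.exp (-(α / r ^ 2) * ρ ^ 2))) (𝓝[<] r)
        (𝓝 (a * (Real.exp (-(α / r ^ 2) * ‖x - c‖ ^ 2) - Real.exp (-(α / r ^ 2) * r ^ 2)))) := by
      apply Tendsto.mono_left _ nhdsWithin_le_nhds
      apply Continuous.tendsto
      fun_prop
    refine le_of_tendsto h1 ?_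
    filter_upwards [Ioo_mem_nhdsLT hxr] with ρ hρ
    exact hann ρ hρ.1 hρ.2
  have e1 : -(α / r ^ 2) * ‖x - c‖ ^ 2 = -α + α * (1 - s) := by
    rw [hs]; field_simp; ring
  have e2 : -(α / r ^ 2) * r ^ 2 = -α := by
    field_simp
  rw [e1, e2, Real.exp_add] at hlim
  have h3 := Real.add_one_le_exp (α * (1 - s))
  have h4 : Real.exp (-α) * (α * (1 - s)) ≤ Real.exp (-α) * Real.exp (α * (1 - s)) - Real.exp (-α) := by
    have := mul_le_mul_of_nonneg_left h3 (Real.exp_pos (-α)).le
    linarith
  have h5 := mul_le_mul_of_nonneg_left h4 ha0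
  linarith

end
end Crest.Agent.R097
end

-- ▼ part R097/S0Neg
section

/-!
# Row 97, S0-c: a harmonic function whose negative part has finite Hardy integral is nonnegative
-/

set_option autoImplicit false
open MeasureTheory Metric Set Filter Topology Laplacian InnerProductSpace
open scoped RealInnerProductSpace NNReal ContDiff Gradient

namespace Crest.Agent.R097
noncomputable section
variable {d : ℕ}

/-! ### monotonicity of ball averages of `C²` subharmonic functions -/

lemma Hm.MM_mono (k : ℕ) {h : E d → ℝ} {x : E d} {s t R : ℝ} (hs : 0 < s) (hst : s ≤ t) (htR : t < R)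
    (hh : ContDiffOn ℝ 2 h (ball x R)) (hΔ : ∀ y ∈ ball x t, 0 ≤ (Δ h) y) :
    Hm.MM k s h x ≤ Hm.MM k t h x := by
  have ht : 0 < t := hs.trans_le hst
  have hmono : MonotoneOn (fun s => Hm.MM k s h x) (Ioc 0 t) := by
    apply monotoneOn_of_deriv_nonneg (convex_Ioc 0 t)
    · intro a ha
      exact (Hm.hasDerivAt_MM_C2 k ha.1 (ha.2.trans_lt htR) hh).continuousAt.continuousWithinAt
    · intro a ha
      rw [interior_Ioc] at ha
      exact (Hm.hasDerivAt_MM_C2 k ha.1 (ha.2.trans htR) hh).differentiableAt.differentiableWithinAt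
    · intro a ha
      rw [interior_Ioc] at ha
      rw [(Hm.hasDerivAt_MM_C2 k ha.1 (ha.2.trans htR) hh).deriv]
      apply integral_nonneg
      intro y
      change 0 ≤ (Δ h) y * (-Hm.pot k a x y)
      by_cases hy : a ≤ ‖y - x‖
      · rw [Hm.pot_zero k ha.1 hy]; simp
      · apply mul_nonneg _ (by linarith [Hm.pot_nonpos k ha.1.le x y])
        apply hΔ
        rw [mem_ball, dist_eq_norm]
        push Not at hy
        linarith [ha.2]
  exact hmono ⟨hs, hst⟩ ⟨ht, le_rfl⟩ hst

lemma Hm.ball_mono {h : E d → ℝ} {x : E d} {s t R : ℝ} (hs : 0 < s) (hst : s ≤ t) (htR : t < R)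
    (hh : ContDiffOn ℝ 2 h (ball x R)) (hΔ : ∀ y ∈ ball x t, 0 ≤ (Δ h) y) :
    (s ^ d)⁻¹ * ∫ y in ball x s, h y ≤ (t ^ d)⁻¹ * ∫ y in ball x t, h y := by
  have ht : 0 < t := hs.trans_le hst
  have hI : ∀ a, a < R → IntegrableOn h (closedBall x a) := fun a ha =>
    (hh.continuousOn.mono (closedBall_subset_ball ha)).integrableOn_compact
      (isCompact_closedBall _ _)
  exact le_of_tendsto_of_tendsto' (Hm.tendsto_MM_k hs (hI s (hst.trans_lt htR)))
    (Hm.tendsto_MM_k ht (hI t htR)) (fun k => Hm.MM_mono k hs hst htR hh hΔ)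

/-! ### the truncation -/

/-- `t⁴/(1+t²)` for `t < 0` -/
def gam (t : ℝ) : ℝ := (min t 0) ^ 2 - 1 + (1 + (min t 0) ^ 2)⁻¹

lemma hasDerivAt_min_comp {F F' : ℝ → ℝ} (hF : ∀ t, HasDerivAt F (F' t) t) (h0 : F' 0 = 0) (t : ℝ) :
    HasDerivAt (fun t => F (min t 0)) (F' (min t 0)) t := by
  rcases lt_trichotomy t 0 with ht | ht | ht
  · rw [min_eq_left ht.le]
    refine (hF t).congr_of_eventuallyEq ?_
    filter_upwards [Iio_mem_nhds ht] with s hs
    rw [min_eq_left (le_of_lt hs)]
  · subst ht
    rw [min_self, ← hasDerivWithinAt_univ, ← Iic_union_Ici (a := (0:ℝ))]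
    apply HasDerivWithinAt.union
    · refine (hF 0).hasDerivWithinAt.congr (fun s hs => ?_) (by simp)
      rw [min_eq_left hs]
    · rw [h0]
      refine (hasDerivWithinAt_const (0:ℝ) (Ici (0:ℝ)) (F 0)).congr (fun s hs => ?_) (by simp)
      rw [min_eq_right hs]
  · rw [min_eq_right ht.le, h0]
    refine (hasDerivAt_const t (F 0)).congr_of_eventuallyEq ?_
    filter_upwards [Ioi_mem_nhds ht] with s hs
    rw [min_eq_right (le_of_lt hs)]

/-- first derivative -/
def gam1 (t : ℝ) : ℝ := 2 * (min t 0) - 2 * (min t 0) * ((1 + (min t 0) ^ 2) ^ 2)⁻¹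
/-- second derivative -/
def gam2 (t : ℝ) : ℝ := 2 - (2 - 6 * (min t 0) ^ 2) * ((1 + (min t 0) ^ 2) ^ 3)⁻¹

lemma hasDerivAt_gam (t : ℝ) : HasDerivAt gam (gam1 t) t := by
  refine hasDerivAt_min_comp (F := fun s => s ^ 2 - 1 + (1 + s ^ 2)⁻¹)
    (F' := fun s => 2 * s - 2 * s * ((1 + s ^ 2) ^ 2)⁻¹) (fun s => ?_) (by simp) t
  have h0 : (1 + s ^ 2) ≠ 0 := by positivity
  have h1 : HasDerivAt (fun s : ℝ => 1 + s ^ 2) (2 * s) s := by
    simpa using (hasDerivAt_pow 2 s).const_add 1
  have h2 : HasDerivAt (fun s : ℝ => s ^ 2 - 1) (2 * s) s := by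
    simpa using (hasDerivAt_pow 2 s).sub_const 1
  refine (h2.add (h1.inv h0)).congr_deriv ?_
  field_simp
  ring

lemma hasDerivAt_gam1 (t : ℝ) : HasDerivAt gam1 (gam2 t) t := by
  refine hasDerivAt_min_comp (F := fun s => 2 * s - 2 * s * ((1 + s ^ 2) ^ 2)⁻¹)
    (F' := fun s => 2 - (2 - 6 * s ^ 2) * ((1 + s ^ 2) ^ 3)⁻¹) (fun s => ?_) (by norm_num) t
  have h0 : (1 + s ^ 2) ≠ 0 := by positivity
  have h00 : (1 + s ^ 2) ^ 2 ≠ 0 := by positivity
  have h1 : HasDerivAt (fun s : ℝ => 1 + s ^ 2) (2 * s) s := by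
    simpa using (hasDerivAt_pow 2 s).const_add 1
  have h2 : HasDerivAt (fun s : ℝ => 2 * s) 2 s := by
    simpa using (hasDerivAt_id s).const_mul 2
  have h3 := (h1.pow 2).inv h00
  refine (h2.sub (h2.mul h3)).congr_deriv ?_
  simp
  field_simp
  ring

lemma continuous_gam2 : Continuous gam2 := by
  have hm : Continuous fun t : ℝ => min t 0 := continuous_id.min continuous_const
  unfold gam2
  apply continuous_const.sub
  apply Continuous.mul (by fun_prop)
  apply Continuous.inv₀ (by fun_prop)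
  intro t
  positivity

lemma contDiff_gam : ContDiff ℝ 2 gam := by
  rw [show (2 : WithTop ℕ∞) = 1 + 1 by norm_num, contDiff_succ_iff_deriv]
  refine ⟨fun t => (hasDerivAt_gam t).differentiableAt, by simp, ?_⟩
  have h1 : deriv gam = gam1 := funext fun t => (hasDerivAt_gam t).deriv
  rw [h1, contDiff_one_iff_deriv]
  refine ⟨fun t => (hasDerivAt_gam1 t).differentiableAt, ?_⟩
  have h2 : deriv gam1 = gam2 := funext fun t => (hasDerivAt_gam1 t).deriv
  rw [h2]
  exact continuous_gam2

lemma gam2_nonneg (t : ℝ) : 0 ≤ gam2 t := by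
  unfold gam2
  set m := (min t 0) ^ 2 with hm
  have h0 : 0 ≤ m := by positivity
  rw [sub_nonneg, mul_inv_le_iff₀ (by positivity)]
  nlinarith [pow_nonneg h0 2, pow_nonneg h0 3]

lemma gam_eq (t : ℝ) : gam t = (min t 0) ^ 4 / (1 + (min t 0) ^ 2) := by
  unfold gam
  have h0 : 1 + (min t 0) ^ 2 ≠ 0 := by positivity
  field_simp
  ring

lemma gam_nonneg (t : ℝ) : 0 ≤ gam t := by
  rw [gam_eq]; positivity

lemma gam_le (t : ℝ) : gam t ≤ (min t 0) ^ 2 := by
  rw [gam_eq, div_le_iff₀ (by positivity)]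
  nlinarith [sq_nonneg (min t 0)]

lemma gam_pos {t : ℝ} (ht : t < 0) : 0 < gam t := by
  rw [gam_eq, min_eq_left ht.le]
  have h1 : 0 < t ^ 4 := by
    have h2 : 0 < t ^ 2 := by nlinarith
    nlinarith
  positivity

theorem harm_nonneg_of_hardy (hd : 0 < d) {c : E d} {r : ℝ} (hr : 0 < r) {V : E d → ℝ}
    (hV : Harm V (ball c r))
    (hI : IntegrableOn (fun x => (min (V x) 0) ^ 2 / (r ^ 2 - ‖x - c‖ ^ 2) ^ 2) (ball c r)) :
    ∀ x ∈ ball c r, 0 ≤ V x := by
  intro x0 hx0
  by_contra hcon
  push Not at hcon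
  set f : E d → ℝ := fun x => gam (V x) with hf
  have hfC : ContDiffOn ℝ 2 f (ball c r) := contDiff_gam.comp_contDiffOn hV.contDiffOn_two
  have hf0 : ∀ x, 0 ≤ f x := fun x => gam_nonneg _
  have hfΔ : ∀ x ∈ ball c r, 0 ≤ (Δ f) x := by
    intro x hx
    have hVx : ContDiffAt ℝ 2 V x := hV.contDiffOn_two.contDiffAt (isOpen_ball.mem_nhds hx)
    rw [hf, Hm.lap_comp contDiff_gam.contDiffAt hVx, hV.2 x hx]
    have h1 : deriv gam = gam1 := funext fun t => (hasDerivAt_gam t).deriv
    rw [h1, (hasDerivAt_gam1 _).deriv, mul_zero, add_zero]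
    exact mul_nonneg (gam2_nonneg _) (by positivity)
  have hx0r : ‖x0 - c‖ < r := by rwa [mem_ball, dist_eq_norm] at hx0
  obtain ⟨s0, hs0, hs0r⟩ := exists_between hx0r
  have hs0p : 0 < s0 := (norm_nonneg _).trans_lt hs0
  have hIf : ∀ t, t < r → IntegrableOn f (ball c t) := fun t ht =>
    ((hfC.continuousOn.mono (closedBall_subset_ball ht)).integrableOn_compact
      (isCompact_closedBall _ _)).mono_set ball_subset_closedBall
  set m0 : ℝ := (s0 ^ d)⁻¹ * ∫ y in ball c s0, f y with hm0
  have hm0p : 0 < m0 := by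
    apply mul_pos (by positivity)
    rw [setIntegral_pos_iff_support_of_nonneg_ae (Eventually.of_forall fun x => hf0 x) (hIf s0 hs0r)]
    have hcf : ContinuousAt f x0 := hfC.continuousOn.continuousAt (isOpen_ball.mem_nhds hx0)
    have h1 : ∀ᶠ y in 𝓝 x0, 0 < f y := by
      apply hcf.eventually
      exact Ioi_mem_nhds (gam_pos hcon)
    have h2 : ∀ᶠ y in 𝓝 x0, y ∈ ball c s0 :=
      isOpen_ball.mem_nhds (by rwa [mem_ball, dist_eq_norm])
    obtain ⟨U, hU1, hU2, hU3⟩ := _root_.mem_nhds_iff.mp (h1.and h2)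
    exact (hU2.measure_pos volume ⟨x0, hU3⟩).trans_le
      (measure_mono fun y hy => ⟨(hU1 hy).1.ne', (hU1 hy).2⟩)
  set J : ℝ := ∫ x in ball c r, (min (V x) 0) ^ 2 / (r ^ 2 - ‖x - c‖ ^ 2) ^ 2 with hJ
  have hJ0 : 0 ≤ J := integral_nonneg fun x => by positivity
  have key : ∀ s t, s0 ≤ s → s < t → t < r → (t ^ d - s ^ d) * m0 ≤ (r ^ 2 - s ^ 2) ^ 2 * J := by
    intro s t hs hst htr
    have hsp : 0 < s := hs0p.trans_le hs
    have htp : 0 < t := hsp.trans hst
    have a1 := Hm.ball_mono hs0p hs (hst.trans htr) hfC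
      (fun y hy => hfΔ y (ball_subset_ball (hst.trans htr).le hy))
    have a2 := Hm.ball_mono hsp hst.le htr hfC
      (fun y hy => hfΔ y (ball_subset_ball htr.le hy))
    rw [← hm0] at a1
    set Is := ∫ y in ball c s, f y with hIs
    set It := ∫ y in ball c t, f y with hIt
    have hsd : 0 < s ^ d := by positivity
    have htd : 0 < t ^ d := by positivity
    have a3 : s ^ d * m0 ≤ Is := by
      have := mul_le_mul_of_nonneg_left a1 hsd.le
      rwa [mul_inv_cancel_left₀ hsd.ne'] at this
    have a4 : t ^ d * ((s ^ d)⁻¹ * Is) ≤ It := by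
      have := mul_le_mul_of_nonneg_left a2 htd.le
      rwa [mul_inv_cancel_left₀ htd.ne'] at this
    have hpow : s ^ d ≤ t ^ d := pow_le_pow_left₀ hsp.le hst.le d
    have a5 : (t ^ d - s ^ d) * m0 ≤ It - Is := by
      have b1 : Is = s ^ d * ((s ^ d)⁻¹ * Is) := by rw [mul_inv_cancel_left₀ hsd.ne']
      have b2 : (t ^ d - s ^ d) * m0 ≤ (t ^ d - s ^ d) * ((s ^ d)⁻¹ * Is) :=
        mul_le_mul_of_nonneg_left a1 (sub_nonneg.mpr hpow)
      calc (t ^ d - s ^ d) * m0 ≤ (t ^ d - s ^ d) * ((s ^ d)⁻¹ * Is) := b2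
        _ = t ^ d * ((s ^ d)⁻¹ * Is) - s ^ d * ((s ^ d)⁻¹ * Is) := by ring
        _ ≤ It - Is := by rw [← b1]; linarith
    have hsub : ball c s ⊆ ball c t := ball_subset_ball hst.le
    have a6 : It - Is = ∫ y in ball c t \ ball c s, f y := by
      have := setIntegral_sdiff isOpen_ball.measurableSet (hIf t htr) hsub (μ := volume) (f := f)
        (t := ball c s) (s := ball c t)
      rw [this]
    have hannr : ball c t \ ball c s ⊆ ball c r := sdiff_subset.trans (ball_subset_ball htr.le)
    have hmeas : MeasurableSet (ball c t \ ball c s) :=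
      measurableSet_ball.diff measurableSet_ball
    have a7 : (∫ y in ball c t \ ball c s, f y) ≤ ∫ y in ball c t \ ball c s,
        (r ^ 2 - s ^ 2) ^ 2 * ((min (V y) 0) ^ 2 / (r ^ 2 - ‖y - c‖ ^ 2) ^ 2) := by
      apply setIntegral_mono_on ((hIf t htr).mono_set sdiff_subset)
        ((hI.mono_set hannr).const_mul _) hmeas
      intro y hy
      have hys : s ≤ ‖y - c‖ := by
        have := hy.2
        rwa [mem_ball, dist_eq_norm, not_lt] at this
      have hyt : ‖y - c‖ < t := by
        have := hy.1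
        rwa [mem_ball, dist_eq_norm] at this
      have h1 : 0 < r ^ 2 - ‖y - c‖ ^ 2 := by nlinarith [norm_nonneg (y - c)]
      have h2 : r ^ 2 - ‖y - c‖ ^ 2 ≤ r ^ 2 - s ^ 2 := by nlinarith
      have h3 : (r ^ 2 - ‖y - c‖ ^ 2) ^ 2 ≤ (r ^ 2 - s ^ 2) ^ 2 := pow_le_pow_left₀ h1.le h2 2
      have h4 : f y ≤ (min (V y) 0) ^ 2 := gam_le _
      rw [mul_div_assoc', le_div_iff₀ (by positivity)]
      calc f y * (r ^ 2 - ‖y - c‖ ^ 2) ^ 2 ≤ (min (V y) 0) ^ 2 * (r ^ 2 - s ^ 2) ^ 2 :=
            mul_le_mul h4 h3 (by positivity) (by positivity)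
        _ = _ := by ring
    have a8 : (∫ y in ball c t \ ball c s,
        (r ^ 2 - s ^ 2) ^ 2 * ((min (V y) 0) ^ 2 / (r ^ 2 - ‖y - c‖ ^ 2) ^ 2))
        ≤ (r ^ 2 - s ^ 2) ^ 2 * J := by
      rw [integral_const_mul]
      apply mul_le_mul_of_nonneg_left _ (by positivity)
      exact setIntegral_mono_set hI (Eventually.of_forall fun x => by positivity)
        (LE.le.eventuallyLE hannr)
    linarith
  have key2 : ∀ s, s0 ≤ s → s < r → r ^ (d - 1) * m0 ≤ (r - s) * (4 * r ^ 2 * J) := by
    intro s hs hsr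
    have hsp : 0 < s := hs0p.trans_le hs
    have hlim : (r ^ d - s ^ d) * m0 ≤ (r ^ 2 - s ^ 2) ^ 2 * J := by
      have h1 : Tendsto (fun t : ℝ => (t ^ d - s ^ d) * m0) (𝓝[<] r) (𝓝 ((r ^ d - s ^ d) * m0)) := by
        apply Tendsto.mono_left _ nhdsWithin_le_nhds
        apply Continuous.tendsto
        fun_prop
      refine le_of_tendsto h1 ?_
      filter_upwards [Ioo_mem_nhdsLT hsr] with t ht
      exact key s t hs ht.1 ht.2
    have e1 : r ^ d = r * r ^ (d - 1) := by
      rw [← pow_succ']; congr 1; omega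
    have e2 : s ^ d ≤ s * r ^ (d - 1) := by
      rw [show s ^ d = s * s ^ (d - 1) by rw [← pow_succ']; congr 1; omega]
      exact mul_le_mul_of_nonneg_left (pow_le_pow_left₀ hsp.le hsr.le _) hsp.le
    have e3 : (r - s) * (r ^ (d - 1) * m0) ≤ (r - s) * ((r - s) * (4 * r ^ 2 * J)) := by
      have h1 : (r - s) * (r ^ (d - 1) * m0) ≤ (r ^ d - s ^ d) * m0 := by
        rw [← mul_assoc]
        apply mul_le_mul_of_nonneg_right _ hm0p.le
        rw [e1]
        linarith
      have h2 : (r ^ 2 - s ^ 2) ^ 2 * J ≤ (r - s) * ((r - s) * (4 * r ^ 2 * J)) := by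
        have h3 : (r ^ 2 - s ^ 2) ^ 2 = (r - s) ^ 2 * (r + s) ^ 2 := by ring
        have h4 : (r + s) ^ 2 ≤ 4 * r ^ 2 := by nlinarith
        rw [h3]
        calc (r - s) ^ 2 * (r + s) ^ 2 * J ≤ (r - s) ^ 2 * (4 * r ^ 2) * J := by
              apply mul_le_mul_of_nonneg_right _ hJ0
              exact mul_le_mul_of_nonneg_left h4 (by positivity)
          _ = _ := by ring
      linarith
    exact le_of_mul_le_mul_left e3 (by linarith)
  have hfin : r ^ (d - 1) * m0 ≤ 0 := by
    have h1 : Tendsto (fun s : ℝ => (r - s) * (4 * r ^ 2 * J)) (𝓝[<] r)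
        (𝓝 ((r - r) * (4 * r ^ 2 * J))) := by
      apply Tendsto.mono_left _ nhdsWithin_le_nhds
      apply Continuous.tendsto
      fun_prop
    rw [sub_self, zero_mul] at h1
    refine ge_of_tendsto h1 ?_
    filter_upwards [Ioo_mem_nhdsLT hs0r] with s hs
    exact key2 s hs.1.le hs.2
  have : 0 < r ^ (d - 1) * m0 := by positivity
  linarith

end
end Crest.Agent.R097
end

-- ▼ part R097/S0Key
section

/-!
# Row 97, part S0: a large mean implies that a Sobolev minimiser is harmonic and positive (helper887)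
-/

set_option autoImplicit false
open MeasureTheory Metric Set Filter Topology
open scoped RealInnerProductSpace NNReal ENNReal ContDiff Gradient

namespace Crest.Agent.R097

open Crest.AnalysisR.PDE.OnePhase

variable {d : ℕ}

theorem S0_lint_eq {α F : Type*} [MeasurableSpace α] {μ : Measure α} [NormedAddCommGroup F]
    {f : α → F} (hf : MemLp f 2 μ) : ∫⁻ x, ‖f x‖ₑ ^ 2 ∂μ = ENNReal.ofReal (∫ x, ‖f x‖ ^ 2 ∂μ) := by
  have h1 : Integrable (fun x => ‖f x‖ ^ 2) μ := hf.integrable_norm_pow (by norm_num)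
  rw [ofReal_integral_eq_lintegral_ofReal h1 (Eventually.of_forall fun x => by positivity)]
  refine lintegral_congr fun x => ?_
  rw [← ofReal_norm, ENNReal.ofReal_pow (norm_nonneg _)]

theorem S0_trace_congr {B : Set (E d)} {w w' : E d → ℝ} {g g' : E d → E d}
    (h : HasZeroTrace B w g) (h1 : w' =ᵐ[volume.restrict B] fun x => - w x)
    (h2 : g' =ᵐ[volume.restrict B] fun x => - g x) : HasZeroTrace B w' g' := by
  intro ε hε
  obtain ⟨φ, hφ, hc, hs, e1, e2⟩ := h ε hε
  refine ⟨fun x => - φ x, hφ.neg, hc.comp_left (g := fun t : ℝ => -t) (by simp), ?_, ?_, ?_⟩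
  · have : tsupport (fun x => - φ x) = tsupport φ := by
      unfold tsupport
      congr 1
      ext x
      simp
    rw [this]
    exact hs
  · refine lt_of_eq_of_lt (lintegral_congr_ae ?_) e1
    filter_upwards [h1] with x hx
    rw [hx, show - w x - - φ x = -(w x - φ x) by ring, enorm_neg]
  · refine lt_of_eq_of_lt (lintegral_congr_ae ?_) e2
    filter_upwards [h2] with x hx
    have : ∇ (fun x => - φ x) x = - ∇ φ x := by
      unfold gradient
      rw [show (fun x => - φ x) = - φ from rfl, fderiv_neg, map_neg]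
    rw [hx, this, show - g x - - ∇ φ x = -(g x - ∇ φ x) by abel, enorm_neg]

theorem S0_w_le {c x : E d} {r w : ℝ} (hx : x ∈ ball c r) (hr : 0 < r) :
    w ^ 2 ≤ r ^ 2 * (r ^ 2 * w ^ 2 / (r ^ 2 - ‖x - c‖ ^ 2) ^ 2) := by
  have hk : 0 < r ^ 2 - ‖x - c‖ ^ 2 := by
    rw [mem_ball, dist_eq_norm] at hx
    have h0 := norm_nonneg (x - c)
    nlinarith
  have h3 : (r ^ 2 - ‖x - c‖ ^ 2) ^ 2 ≤ (r ^ 2) ^ 2 := by
    have h4 := sq_nonneg ‖x - c‖
    exact pow_le_pow_left₀ hk.le (by linarith) 2
  rw [← mul_div_assoc, le_div_iff₀ (pow_pos hk 2)]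
  calc w ^ 2 * (r ^ 2 - ‖x - c‖ ^ 2) ^ 2 ≤ w ^ 2 * (r ^ 2) ^ 2 :=
        mul_le_mul_of_nonneg_left h3 (sq_nonneg _)
    _ = r ^ 2 * (r ^ 2 * w ^ 2) := by ring

/-- `L²` bounds on balls for minimisers -/
theorem S0_memLp {u : E d → ℝ} {G : E d → E d} (hu : IsGlobalMinimizer u G)
    (h2 : LocallyIntegrable (fun x => u x ^ 2)) (c : E d) (r : ℝ) :
    MemLp u 2 (volume.restrict (ball c r)) ∧ MemLp G 2 (volume.restrict (ball c r)) := by
  have hm1 : AEStronglyMeasurable u volume := by
    have := hu.2.1.1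
    rw [locallyIntegrableOn_univ] at this
    exact this.aestronglyMeasurable
  have hm2 : AEStronglyMeasurable G volume := by
    have := hu.2.1.2.1
    rw [locallyIntegrableOn_univ] at this
    exact this.aestronglyMeasurable
  constructor
  · rw [memLp_two_iff_integrable_sq hm1.restrict]
    exact (h2.integrableOn_isCompact (isCompact_closedBall c r)).mono_set ball_subset_closedBall
  · rw [memLp_two_iff_integrable_sq_norm hm2.restrict]
    exact (hu.2.2.1.integrableOn_isCompact (isCompact_closedBall c r)).mono_set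
      ball_subset_closedBall

theorem S0_wg_restrict {u : E d → ℝ} {G : E d → E d} (h : IsWeakGradOn Set.univ u G) (c : E d)
    (r : ℝ) : IsWeakGradOn (ball c r) u G := by
  refine ⟨h.1.mono_set (subset_univ _), h.2.1.mono_set (subset_univ _), ?_⟩
  intro φ h1 h2 h3 i
  have h4 := h.2.2 φ h1 h2 (subset_univ _) i
  rw [Measure.restrict_univ] at h4
  have e1 : ∫ x in ball c r, u x * partialD φ i x = ∫ x, u x * partialD φ i x := by
    refine setIntegral_eq_integral_of_forall_compl_eq_zero (fun x hx => ?_)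
    have : x ∉ tsupport (partialD φ i) := fun h => hx (h3 (tsupport_fderiv_apply_subset ℝ _ h))
    rw [image_eq_zero_of_notMem_tsupport this, mul_zero]
  have e2 : ∫ x in ball c r, G x i * φ x = ∫ x, G x i * φ x := by
    refine setIntegral_eq_integral_of_forall_compl_eq_zero (fun x hx => ?_)
    have : x ∉ tsupport φ := fun h => hx (h3 h)
    rw [image_eq_zero_of_notMem_tsupport this, mul_zero]
  rw [e1, e2, h4]

theorem S0_coord_memLp {μ : Measure (E d)} {G : E d → E d} (hG : MemLp G 2 μ) (i : Fin d) :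
    MemLp (fun x => G x i) 2 μ :=
  hG.continuousLinearMap_comp (EuclideanSpace.proj i : E d →L[ℝ] ℝ)

theorem S0_wg_sub {u w : E d → ℝ} {G g : E d → E d} {c : E d} {r : ℝ}
    (hu : MemLp u 2 (volume.restrict (ball c r))) (hw : MemLp w 2 (volume.restrict (ball c r)))
    (hG : MemLp G 2 (volume.restrict (ball c r))) (hg : MemLp g 2 (volume.restrict (ball c r)))
    (h1 : IsWeakGradOn (ball c r) u G) (h2 : IsWeakGradOn (ball c r) w g) :
    IsWeakGradOn (ball c r) (fun x => u x - w x) (fun x => G x - g x) := by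
  refine ⟨h1.1.sub h2.1, h1.2.1.sub h2.2.1, ?_⟩
  intro φ a1 a2 a3 i
  have hφ : IsTest φ (ball c r) := ⟨a1, a2, a3⟩
  have m1 : MemLp φ 2 (volume.restrict (ball c r)) := hφ.memLp 2 _
  have m2 : MemLp (partialD φ i) 2 (volume.restrict (ball c r)) := (hφ.partialD i).memLp 2 _
  have e1 : ∫ x in ball c r, (u x - w x) * partialD φ i x =
      (∫ x in ball c r, u x * partialD φ i x) - ∫ x in ball c r, w x * partialD φ i x := by
    have i1 : Integrable (fun x => u x * partialD φ i x) (volume.restrict (ball c r)) :=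
      hu.integrable_mul m2
    have i2 : Integrable (fun x => w x * partialD φ i x) (volume.restrict (ball c r)) :=
      hw.integrable_mul m2
    rw [← integral_sub i1 i2]
    refine integral_congr_ae (Eventually.of_forall fun x => ?_)
    simp only
    ring
  have e2 : ∫ x in ball c r, (G x - g x) i * φ x =
      (∫ x in ball c r, G x i * φ x) - ∫ x in ball c r, g x i * φ x := by
    have i1 : Integrable (fun x => G x i * φ x) (volume.restrict (ball c r)) :=
      (S0_coord_memLp hG i).integrable_mul m1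
    have i2 : Integrable (fun x => g x i * φ x) (volume.restrict (ball c r)) :=
      (S0_coord_memLp hg i).integrable_mul m1
    rw [← integral_sub i1 i2]
    refine integral_congr_ae (Eventually.of_forall fun x => ?_)
    simp only [PiLp.sub_apply]
    ring
  have e3 := h1.2.2 φ a1 a2 a3 i
  have e4 := h2.2.2 φ a1 a2 a3 i
  show ∫ x in ball c r, (u x - w x) * partialD φ i x = -∫ x in ball c r, (G x - g x) i * φ x
  rw [e1, e2]
  linarith

/-- energy bound for the harmonic replacement -/
theorem S0_replace (hd : 1 ≤ d) {u : E d → ℝ} {G : E d → E d} (hu : IsGlobalMinimizer u G)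
    (h2 : LocallyIntegrable (fun x => u x ^ 2)) (c : E d) {r : ℝ} (hr : 0 < r) :
    ∃ (h w : E d → ℝ) (q : E d → ℝ), Harm h (ball c r) ∧ (∀ x ∈ ball c r, 0 ≤ h x) ∧
      (∀ᵐ x ∂(volume.restrict (ball c r)), u x = h x + w x) ∧
      MemLp w 2 (volume.restrict (ball c r)) ∧
      (∀ x, q x = r ^ 2 * w x ^ 2 / (r ^ 2 - ‖x - c‖ ^ 2) ^ 2) ∧
      IntegrableOn q (ball c r) ∧
      ∫ x in ball c r, q x ≤ ∫ x in ball c r, (1 - pos (u x)) := by
  obtain ⟨hu2, hG2⟩ := S0_memLp hu h2 c r
  obtain ⟨w, g, hw, hg, hzt, hwg, horth, horth2, hhardy⟩ := S0_proj hd hr hG2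
  set μ : Measure (E d) := volume.restrict (ball c r) with hμ
  have hfin : IsFiniteMeasure μ := ⟨by rw [hμ, Measure.restrict_apply_univ]; exact measure_ball_lt_top⟩
  have hmball : ∀ᵐ x ∂μ, x ∈ ball c r := ae_restrict_mem measurableSet_ball
  -- the weak gradient of u - w
  have hug : IsWeakGradOn (ball c r) (fun x => u x - w x) (fun x => G x - g x) :=
    S0_wg_sub hu2 hw hG2 hg (S0_wg_restrict hu.2.1 c r) hwg
  obtain ⟨h, hH, hae, -⟩ := weyl_grad isOpen_ball hug (fun φ h1 h3 h4 => horth φ ⟨h1, h3, h4⟩)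
  -- real form of Hardy
  have hden : Measurable (fun x : E d => (r ^ 2 - ‖x - c‖ ^ 2) ^ 2) := by fun_prop
  have hqm : AEStronglyMeasurable (fun x => r ^ 2 * w x ^ 2 / (r ^ 2 - ‖x - c‖ ^ 2) ^ 2) μ := by
    have h1 : AEMeasurable w μ := hw.1.aemeasurable
    exact (((h1.pow_const 2).const_mul _).div hden.aemeasurable).aestronglyMeasurable
  have hglt : ∫⁻ x, ‖g x‖ₑ ^ 2 ∂μ < ⊤ := by
    rw [S0_lint_eq hg]; exact ENNReal.ofReal_lt_top
  have hq0 : ∀ x, 0 ≤ r ^ 2 * w x ^ 2 / (r ^ 2 - ‖x - c‖ ^ 2) ^ 2 := fun x => by positivity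
  have hqi : Integrable (fun x => r ^ 2 * w x ^ 2 / (r ^ 2 - ‖x - c‖ ^ 2) ^ 2) μ := by
    refine ⟨hqm, ?_⟩
    rw [hasFiniteIntegral_iff_ofReal (Eventually.of_forall hq0)]
    exact lt_of_le_of_lt hhardy hglt
  have hqle : ∫ x, r ^ 2 * w x ^ 2 / (r ^ 2 - ‖x - c‖ ^ 2) ^ 2 ∂μ ≤ ∫ x, ‖g x‖ ^ 2 ∂μ := by
    rw [S0_lint_eq hg, ← ofReal_integral_eq_lintegral_ofReal hqi (Eventually.of_forall hq0)] at hhardy
    exact (ENNReal.ofReal_le_ofReal_iff (by positivity)).1 hhardy
  -- nonnegativity
  have hhc : ContinuousOn h (ball c r) := hH.1.continuousOn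
  have hhm : AEStronglyMeasurable h μ := hhc.aestronglyMeasurable measurableSet_ball
  have hnn : ∀ x ∈ ball c r, 0 ≤ h x := by
    refine harm_nonneg_of_hardy (by omega) hr hH ?_
    refine Integrable.mono' (g := fun x => (r ^ 2)⁻¹ * (r ^ 2 * w x ^ 2 / (r ^ 2 - ‖x - c‖ ^ 2) ^ 2))
      (hqi.const_mul _) ?_ ?_
    · have h1 : AEMeasurable h μ := hhm.aemeasurable
      exact (((h1.min aemeasurable_const).pow_const 2).div hden.aemeasurable).aestronglyMeasurable
    · filter_upwards [hae] with x hx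
      have hu0 := hu.1 x
      have h3 : (min (h x) 0) ^ 2 ≤ w x ^ 2 := by
        rcases le_total (h x) 0 with h4 | h4
        · rw [min_eq_left h4]
          nlinarith
        · rw [min_eq_right h4, zero_pow two_ne_zero]
          exact sq_nonneg _
      rw [Real.norm_of_nonneg (div_nonneg (sq_nonneg _) (sq_nonneg _))]
      have h5 : (r ^ 2)⁻¹ * (r ^ 2 * w x ^ 2 / (r ^ 2 - ‖x - c‖ ^ 2) ^ 2) =
          w x ^ 2 / (r ^ 2 - ‖x - c‖ ^ 2) ^ 2 := by
        rw [← mul_div_assoc, ← mul_assoc, inv_mul_cancel₀ (by positivity), one_mul]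
      rw [h5]
      gcongr
  refine ⟨h, w, fun x => r ^ 2 * w x ^ 2 / (r ^ 2 - ‖x - c‖ ^ 2) ^ 2, hH, hnn, ?_, hw,
    fun x => rfl, hqi, ?_⟩
  · filter_upwards [hae] with x hx
    rw [← hx]; ring
  -- minimality
  refine hqle.trans ?_
  classical
  set vB : E d → ℝ := fun x => if x ∈ ball c r then h x else 0 with hvB
  have hvB0 : ∀ x, 0 ≤ vB x := by
    intro x
    by_cases hx : x ∈ ball c r
    · simp only [hvB, hx, if_true]; exact hnn x hx
    · simp only [hvB, hx, if_false]; exact le_rfl
  have hvae : vB =ᵐ[μ] fun x => u x - w x := by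
    filter_upwards [hae, hmball] with x hx hx2
    simp only [hvB, hx2, if_true]
    exact hx.symm
  have hvB2 : MemLp vB 2 μ := (hu2.sub hw).ae_eq hvae.symm
  have hvg : IsWeakGradOn (ball c r) vB (fun x => G x - g x) := by
    refine ⟨IntegrableOn.locallyIntegrableOn (hvB2.integrable one_le_two), hug.2.1, ?_⟩
    intro φ a1 a2 a3 i
    rw [← hug.2.2 φ a1 a2 a3 i]
    refine integral_congr_ae ?_
    filter_upwards [hvae] with x hx
    rw [hx]
  have hGv2 : MemLp (fun x => G x - g x) 2 μ := hG2.sub hg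
  have hmin := hu.2.2.2 c r hr vB (fun x => G x - g x) hvB0 hvg
    (by rw [S0_lint_eq hvB2]; exact ENNReal.ofReal_lt_top)
    (by rw [S0_lint_eq hGv2]; exact ENNReal.ofReal_lt_top)
    (S0_trace_congr hzt (by filter_upwards [hvae] with x hx; rw [hx]; ring)
      (Eventually.of_forall fun x => by simp only; abel))
  unfold onePhaseEnergy at hmin
  rw [← hμ, S0_lint_eq hG2, S0_lint_eq hGv2] at hmin
  have hpyth : ∫ x, ‖G x‖ ^ 2 ∂μ = ∫ x, ‖G x - g x‖ ^ 2 ∂μ + ∫ x, ‖g x‖ ^ 2 ∂μ := by
    have i1 : Integrable (fun x => ‖G x - g x‖ ^ 2) μ := hGv2.integrable_norm_pow (by norm_num)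
    have i2 : Integrable (fun x => ‖g x‖ ^ 2) μ := hg.integrable_norm_pow (by norm_num)
    have i0 : Integrable (fun x => ‖G x‖ ^ 2) μ := hG2.integrable_norm_pow (by norm_num)
    have i3 : Integrable (fun x => inner ℝ (G x - g x) (g x)) μ := by
      refine (((i0.sub i1).sub i2).div_const 2).congr (Eventually.of_forall fun x => ?_)
      simp only [Pi.sub_apply]
      have : G x = (G x - g x) + g x := by abel
      have h6 : ‖G x‖ ^ 2 = ‖(G x - g x) + g x‖ ^ 2 := by rw [← this]
      rw [norm_add_sq_real] at h6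
      linarith
    have e1 : ∀ x, ‖G x‖ ^ 2 = (‖G x - g x‖ ^ 2 + ‖g x‖ ^ 2) + 2 * inner ℝ (G x - g x) (g x) := by
      intro x
      have : G x = (G x - g x) + g x := by abel
      conv_lhs => rw [this]
      rw [norm_add_sq_real]
      ring
    simp_rw [e1]
    have i12 : Integrable (fun x => ‖G x - g x‖ ^ 2 + ‖g x‖ ^ 2) μ := i1.add i2
    rw [integral_add i12 (i3.const_mul 2), integral_add i1 i2, integral_const_mul, horth2]
    ring
  have hum : AEMeasurable u μ := hu2.1.aemeasurable
  have hset : NullMeasurableSet {x | 0 < u x} μ :=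
    nullMeasurableSet_lt aemeasurable_const hum
  have hposm : AEMeasurable (fun x => pos (u x)) μ := measurable_pos.comp_aemeasurable hum
  have hposi : Integrable (fun x => pos (u x)) μ := by
    refine Integrable.mono' (integrable_const (1 : ℝ)) hposm.aestronglyMeasurable
      (Eventually.of_forall fun x => ?_)
    rw [Real.norm_of_nonneg (pos_nonneg _)]
    exact pos_le_one _
  have hpos : (volume ({x | 0 < u x} ∩ ball c r)).toReal = ∫ x, pos (u x) ∂μ := by
    have e1 : volume ({x | 0 < u x} ∩ ball c r) = μ {x | 0 < u x} := by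
      rw [hμ, Measure.restrict_apply₀ (by rw [← hμ]; exact hset)]
    have e2 : (fun x => pos (u x)) = Set.indicator {x | 0 < u x} (fun _ => (1 : ℝ)) := by
      ext x
      by_cases hx : 0 < u x
      · simp [pos, hx]
      · simp [pos, hx]
    rw [e1, e2, integral_indicator₀ hset]
    simp [Measure.real]
  have hle1 : ∫ x, ‖G x‖ ^ 2 ∂μ + ∫ x, pos (u x) ∂μ ≤
      ∫ x, ‖G x - g x‖ ^ 2 ∂μ + (volume (ball c r)).toReal := by
    have e1 : volume ({x | 0 < u x} ∩ ball c r) = ENNReal.ofReal (∫ x, pos (u x) ∂μ) := by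
      rw [← hpos, ENNReal.ofReal_toReal]
      exact (measure_mono inter_subset_right |>.trans_lt measure_ball_lt_top).ne
    have e2 : volume ({x | 0 < vB x} ∩ ball c r) ≤ ENNReal.ofReal (volume (ball c r)).toReal := by
      rw [ENNReal.ofReal_toReal measure_ball_lt_top.ne]
      exact measure_mono inter_subset_right
    have e3 := hmin.trans (add_le_add_right e2 _)
    rw [e1, ← ENNReal.ofReal_add (by positivity) (integral_nonneg fun x => pos_nonneg _),
      ← ENNReal.ofReal_add (by positivity) (by positivity)] at e3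
    exact (ENNReal.ofReal_le_ofReal_iff (by positivity)).1 e3
  have h1 : ∫ x, (1 - pos (u x)) ∂μ = (volume (ball c r)).toReal - ∫ x, pos (u x) ∂μ := by
    rw [integral_sub (integrable_const _) hposi]
    simp [hμ, Measure.real]
  rw [h1]
  linarith

/-- a large mean implies that the minimiser is a positive harmonic function -/
theorem S0_key (d : ℕ) (hd : 1 ≤ d) : ∃ C : ℝ, 0 < C ∧ ∀ (u : E d → ℝ) (G : E d → E d),
    IsGlobalMinimizer u G → LocallyIntegrable (fun x => u x ^ 2) → ∀ (c : E d) (r : ℝ), 0 < r →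
    C * r ≤ ⨍ x in ball c r, u x →
    ∃ h : E d → ℝ, Harm h (ball c r) ∧ (∀ x ∈ ball c r, 0 < h x) ∧
      u =ᵐ[volume.restrict (ball c r)] h := by
  obtain ⟨c0, hc0, hbar⟩ := harm_barrier d (by omega)
  refine ⟨1 + 2 / c0, by positivity, ?_⟩
  intro u G hu h2 c r hr hmean
  obtain ⟨h, w, q, hH, hnn, hae, hw, hq, hqi, hqle⟩ := S0_replace hd hu h2 c hr
  obtain ⟨hu2, hG2⟩ := S0_memLp hu h2 c r
  set μ : Measure (E d) := volume.restrict (ball c r) with hμ
  have hfin : IsFiniteMeasure μ := ⟨by rw [hμ, Measure.restrict_apply_univ]; exact measure_ball_lt_top⟩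
  have hmball : ∀ᵐ x ∂μ, x ∈ ball c r := ae_restrict_mem measurableSet_ball
  have hvol : 0 < (volume (ball c r)).toReal :=
    ENNReal.toReal_pos (measure_ball_pos _ _ hr).ne' measure_ball_lt_top.ne
  set v := (volume (ball c r)).toReal with hv
  have hμv : μ.real univ = v := by simp [hμ, Measure.real, hv]
  set z := ∫ x, (1 - pos (u x)) ∂μ with hz
  have hum : AEMeasurable u μ := hu2.1.aemeasurable
  have hposm : AEMeasurable (fun x => pos (u x)) μ := measurable_pos.comp_aemeasurable hum
  have hposi : Integrable (fun x => 1 - pos (u x)) μ := by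
    refine Integrable.mono' (integrable_const (1 : ℝ)) (aemeasurable_const.sub hposm).aestronglyMeasurable
      (Eventually.of_forall fun x => ?_)
    rw [Real.norm_of_nonneg (by linarith [pos_le_one (u x)])]
    linarith [pos_nonneg (u x)]
  have hzv : z ≤ v := by
    have : z ≤ ∫ x, (1 : ℝ) ∂μ :=
      integral_mono hposi (integrable_const _) (fun x => by
        simp only; linarith [pos_nonneg (u x)])
    simpa [hμv] using this
  have hz0 : 0 ≤ z := integral_nonneg (fun x => by simp only [Pi.zero_apply]; linarith [pos_le_one (u x)])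
  -- lower bound of h c
  have hhae : h =ᵐ[μ] fun x => u x - w x := by
    filter_upwards [hae] with x hx
    rw [hx]; ring
  have hh2 : MemLp h 2 μ := (hu2.sub hw).ae_eq hhae.symm
  have hmv : h c = ⨍ x in ball c r, h x := mvp_ball' hr hH (hh2.integrable one_le_two)
  have hmv2 : h c = (⨍ x in ball c r, u x) - ⨍ x in ball c r, w x := by
    rw [hmv]
    simp only [average_eq]
    rw [← smul_sub, ← integral_sub (hu2.integrable one_le_two) (hw.integrable one_le_two)]
    congr 1
    exact integral_congr_ae hhae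
  have hw2 : ∫ x, w x ^ 2 ∂μ ≤ r ^ 2 * v := by
    calc ∫ x, w x ^ 2 ∂μ ≤ ∫ x, r ^ 2 * q x ∂μ := by
          refine integral_mono_ae ?_ (hqi.const_mul _) ?_
          · have := hw.integrable_norm_pow (by norm_num) (p := 2)
            simpa using this
          · filter_upwards [hmball] with x hx
            rw [hq]
            exact S0_w_le hx hr
      _ = r ^ 2 * ∫ x, q x ∂μ := integral_const_mul _ _
      _ ≤ r ^ 2 * v := mul_le_mul_of_nonneg_left (hqle.trans hzv) (by positivity)
  have hwm : ⨍ x in ball c r, w x ≤ r := by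
    have i1 : Integrable w μ := hw.integrable one_le_two
    have i2 : Integrable (fun x => w x ^ 2) μ := by
      have := hw.integrable_norm_pow (by norm_num) (p := 2)
      simpa using this
    -- w ≤ (w^2/r + r)/2
    have e1 : ∫ x, w x ∂μ ≤ ∫ x, ((2 * r)⁻¹ * w x ^ 2 + r / 2) ∂μ := by
      refine integral_mono i1 ((i2.const_mul _).add (integrable_const _)) (fun x => ?_)
      simp only
      have : (2 * r)⁻¹ * w x ^ 2 + r / 2 - w x = (2 * r)⁻¹ * (w x - r) ^ 2 := by
        field_simp
        ring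
      have h3 : 0 ≤ (2 * r)⁻¹ * (w x - r) ^ 2 := by positivity
      linarith
    rw [integral_add (i2.const_mul _) (integrable_const _), integral_const_mul, integral_const,
      hμv] at e1
    have e2 : ∫ x, w x ∂μ ≤ r * v := by
      have e3 : (2 * r)⁻¹ * ∫ x, w x ^ 2 ∂μ ≤ (2 * r)⁻¹ * (r ^ 2 * v) :=
        mul_le_mul_of_nonneg_left hw2 (by positivity)
      have e4 : (2 * r)⁻¹ * (r ^ 2 * v) = r * v / 2 := by field_simp
      rw [smul_eq_mul] at e1
      nlinarith
    rw [setAverage_eq, smul_eq_mul]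
    have e5 : (volume.real (ball c r)) = v := rfl
    rw [e5, inv_mul_le_iff₀ hvol]
    linarith
  have hhc : 2 / c0 * r ≤ h c := by
    rw [hmv2]
    have : (1 + 2 / c0) * r - r = 2 / c0 * r := by ring
    linarith
  -- z = 0
  have hkey : ∀ᵐ x ∂μ, 4 * (1 - pos (u x)) ≤ q x := by
    filter_upwards [hae, hmball] with x hx hxb
    by_cases hu0 : 0 < u x
    · rw [pos_of_pos hu0, hq]
      have : 0 ≤ r ^ 2 * w x ^ 2 / (r ^ 2 - ‖x - c‖ ^ 2) ^ 2 := by positivity
      linarith
    · have hu00 : u x = 0 := le_antisymm (not_lt.1 hu0) (hu.1 x)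
      rw [pos_of_nonpos (not_lt.1 hu0), hq]
      have h3 := hbar c r hr h hH hnn x hxb
      have hk : 0 < r ^ 2 - ‖x - c‖ ^ 2 := by
        rw [mem_ball, dist_eq_norm] at hxb
        have h0 := norm_nonneg (x - c)
        nlinarith
      have h4 : w x = - h x := by linarith
      have h5 : 2 * (r ^ 2 - ‖x - c‖ ^ 2) / r ≤ h x := by
        refine le_trans ?_ h3
        have h6 : 2 * r ≤ c0 * h c := by
          have := mul_le_mul_of_nonneg_left hhc hc0.le
          have h7 : c0 * (2 / c0 * r) = 2 * r := by field_simp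
          linarith
        have h8 : 2 * (r ^ 2 - ‖x - c‖ ^ 2) / r = 2 * r * (r ^ 2 - ‖x - c‖ ^ 2) / r ^ 2 := by
          field_simp
        rw [h8]
        gcongr
      rw [h4, le_div_iff₀ (by positivity)]
      have h9 : 0 ≤ 2 * (r ^ 2 - ‖x - c‖ ^ 2) / r := by positivity
      have h10 : (2 * (r ^ 2 - ‖x - c‖ ^ 2) / r) ^ 2 ≤ h x ^ 2 := pow_le_pow_left₀ h9 h5 2
      have h11 : r ^ 2 * (2 * (r ^ 2 - ‖x - c‖ ^ 2) / r) ^ 2 = 4 * (r ^ 2 - ‖x - c‖ ^ 2) ^ 2 := by
        field_simp
        ring
      have h12 := mul_le_mul_of_nonneg_left h10 (sq_nonneg r)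
      nlinarith
  have h4z : 4 * z ≤ z := by
    have e1 : ∫ x, 4 * (1 - pos (u x)) ∂μ ≤ ∫ x, q x ∂μ :=
      integral_mono_ae (hposi.const_mul 4) hqi hkey
    rw [integral_const_mul] at e1
    exact e1.trans hqle
  have hz00 : z = 0 := by linarith
  have hq00 : ∫ x, q x ∂μ = 0 := by
    have : 0 ≤ ∫ x, q x ∂μ := integral_nonneg (fun x => by
      simp only [Pi.zero_apply, hq]; positivity)
    linarith [hqle]
  have hw0 : ∀ᵐ x ∂μ, w x = 0 := by
    have e1 := (integral_eq_zero_iff_of_nonneg (fun x => by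
      simp only [Pi.zero_apply, hq]; positivity) hqi).1 hq00
    filter_upwards [e1, hmball] with x hx hxb
    have e2 := S0_w_le (w := w x) hxb hr
    rw [← hq, hx] at e2
    simp only [Pi.zero_apply, mul_zero] at e2
    nlinarith [sq_nonneg (w x)]
  refine ⟨h, hH, ?_, ?_⟩
  · intro x hx
    have h3 := hbar c r hr h hH hnn x hx
    have hk : 0 < r ^ 2 - ‖x - c‖ ^ 2 := by
      rw [mem_ball, dist_eq_norm] at hx
      have h0 := norm_nonneg (x - c)
      nlinarith
    have h5 : 0 < h c := lt_of_lt_of_le (by positivity) hhc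
    exact lt_of_lt_of_le (by positivity) h3
  · filter_upwards [hae, hw0] with x hx hx0
    rw [hx, hx0, add_zero]

end Crest.Agent.R097
end

-- ▼ part R097/S0Lip
section

/-!
# Row 97, part S0: the Lipschitz representative (helper887)
-/

set_option autoImplicit false
open MeasureTheory Metric Set Filter Topology
open scoped RealInnerProductSpace NNReal ENNReal ContDiff Gradient Pointwise

namespace Crest.Agent.R097

open Crest.AnalysisR.PDE.OnePhase

variable {d : ℕ}

theorem S0_vol (x y : E d) {s : ℝ} (hs : 0 < s) (t : ℝ) (ht : 0 < t) :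
    volume.real (ball x (t * s)) = t ^ d * volume.real (ball y s) := by
  have h1 := Measure.addHaar_ball_of_pos (volume : Measure (E d)) x (r := t * s) (by positivity)
  have h2 := Measure.addHaar_ball_of_pos (volume : Measure (E d)) y hs
  rw [finrank_euclideanSpace_fin] at h1 h2
  unfold Measure.real
  rw [h1, h2, ENNReal.toReal_mul, ENNReal.toReal_mul, ENNReal.toReal_ofReal (by positivity),
    ENNReal.toReal_ofReal (by positivity), mul_pow]
  ring

theorem S0_vol_pos (x : E d) {s : ℝ} (hs : 0 < s) : 0 < volume.real (ball x s) :=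
  ENNReal.toReal_pos (measure_ball_pos _ _ hs).ne' measure_ball_lt_top.ne

theorem S0_int {u : E d → ℝ} {G : E d → E d} (hu : IsGlobalMinimizer u G) : LocallyIntegrable u := by
  have := hu.2.1.1
  rwa [locallyIntegrableOn_univ] at this

theorem S0_int_ball {u : E d → ℝ} {G : E d → E d} (hu : IsGlobalMinimizer u G) (x : E d) (s : ℝ) :
    IntegrableOn u (ball x s) :=
  ((S0_int hu).integrableOn_isCompact (isCompact_closedBall x s)).mono_set ball_subset_closedBall

/-- comparison of means -/
theorem S0_mean_le {u : E d → ℝ} {G : E d → E d} (hu : IsGlobalMinimizer u G) {x z : E d} {s A : ℝ}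
    (hs : 0 < s) (hsub : ball x s ⊆ ball z (2 * s)) (hA : ⨍ y in ball z (2 * s), u y ≤ A) :
    ⨍ y in ball x s, u y ≤ 2 ^ d * A := by
  have h1 : ∫ y in ball x s, u y ≤ ∫ y in ball z (2 * s), u y :=
    setIntegral_mono_set (S0_int_ball hu z _) (Eventually.of_forall fun y => hu.1 y)
      (Eventually.of_forall hsub)
  have hv := S0_vol z x hs 2 two_pos
  have hp := S0_vol_pos x hs
  have hp2 : 0 < volume.real (ball z (2 * s)) := S0_vol_pos z (by positivity)
  rw [setAverage_eq, smul_eq_mul, inv_mul_le_iff₀ hp2] at hA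
  rw [setAverage_eq, smul_eq_mul, inv_mul_le_iff₀ hp]
  rw [hv] at hA
  nlinarith

theorem S0_mean_scale {u : E d → ℝ} (hh : IsOneHomogeneous u) {s : ℝ} (hs : 0 < s) :
    ⨍ y in ball (0 : E d) s, u y = s * ⨍ y in ball (0 : E d) 1, u y := by
  have h1 := Measure.setIntegral_comp_smul_of_pos (volume : Measure (E d)) (fun y => u y)
    (ball (0 : E d) 1) hs
  have h2 : s • ball (0 : E d) 1 = ball 0 s := by
    rw [_root_.smul_ball hs.ne', smul_zero, Real.norm_of_nonneg hs.le, mul_one]
  rw [h2, finrank_euclideanSpace_fin] at h1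
  have h3 : ∫ y in ball (0 : E d) 1, u (s • y) = s * ∫ y in ball (0 : E d) 1, u y := by
    rw [← integral_const_mul]
    exact integral_congr_ae (Eventually.of_forall fun y => hh s hs y)
  rw [h3, smul_eq_mul] at h1
  have hv := S0_vol (0 : E d) 0 (one_pos) s hs
  rw [mul_one] at hv
  rw [setAverage_eq, setAverage_eq, smul_eq_mul, smul_eq_mul, hv]
  have hp := S0_vol_pos (0 : E d) one_pos
  have hsd : 0 < s ^ d := by positivity
  have h4 : ∫ y in ball (0 : E d) s, u y = s ^ d * (s * ∫ y in ball (0 : E d) 1, u y) := by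
    rw [h1]; field_simp
  rw [h4]
  field_simp

/-- no good ball contains the origin -/
theorem S0_zero_notMem {u : E d → ℝ} (hh : IsOneHomogeneous u) {c : E d} {r : ℝ} {h : E d → ℝ}
    (hH : Harm h (ball c r)) (hp : ∀ x ∈ ball c r, 0 < h x)
    (hae : u =ᵐ[volume.restrict (ball c r)] h) : (0 : E d) ∉ ball c r := by
  intro h0
  set ρ := r - dist 0 c with hρ
  have hρ0 : 0 < ρ := by rw [mem_ball] at h0; linarith
  have hsub : ball (0 : E d) ρ ⊆ ball c r := by
    intro y hy
    rw [mem_ball] at hy ⊢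
    calc dist y c ≤ dist y 0 + dist 0 c := dist_triangle _ _ _
      _ < r := by linarith
  have key : ∀ s, 0 < s → s < ρ → h 0 = s * ⨍ y in ball (0 : E d) 1, u y := by
    intro s hs hsρ
    rw [mvp_ball hs hsρ (hH.mono hsub), ← S0_mean_scale hh hs]
    simp only [setAverage_eq]
    congr 1
    refine integral_congr_ae ?_
    have h5 : u =ᵐ[volume.restrict (ball 0 s)] h :=
      ae_restrict_of_ae_restrict_of_subset ((ball_subset_ball hsρ.le).trans hsub) hae
    exact h5.symm
  have h1 := key (ρ / 2) (by positivity) (by linarith)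
  have h2 := key (ρ / 4) (by positivity) (by linarith)
  have h3 := hp 0 h0
  nlinarith

/-- Lipschitz representative -/
theorem S0_lip (hd : 1 ≤ d) {u : E d → ℝ} {G : E d → E d} (hu : IsGlobalMinimizer u G)
    (hh : IsOneHomogeneous u) (h2 : LocallyIntegrable (fun x => u x ^ 2)) :
    ∃ (K : ℝ≥0) (U : E d → ℝ), LipschitzWith K U ∧ (∀ x, 0 ≤ U x) ∧ u =ᵐ[volume] U := by
  obtain ⟨C, hC, hkey⟩ := S0_key d hd
  obtain ⟨C', hC', hgrad⟩ := harm_grad_mean d
  have hne : Nonempty (Fin d) := ⟨⟨0, hd⟩⟩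
  have hnt : Nontrivial (E d) := inferInstance
  classical
  -- the good balls
  set good : E d × ℝ → Prop := fun p => 0 < p.2 ∧ C * p.2 ≤ ⨍ x in ball p.1 p.2, u x with hgood
  set O : Set (E d) := {x | ∃ p, good p ∧ x ∈ ball p.1 p.2} with hO
  have hOo : IsOpen O := by
    have : O = ⋃ p ∈ {p | good p}, ball p.1 p.2 := by
      ext x; simp [hO]
    rw [this]
    exact isOpen_biUnion fun p _ => isOpen_ball
  have hgh : ∀ p, good p → ∃ h : E d → ℝ, Harm h (ball p.1 p.2) ∧ (∀ x ∈ ball p.1 p.2, 0 < h x) ∧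
      u =ᵐ[volume.restrict (ball p.1 p.2)] h := fun p hp => hkey u G hu h2 p.1 p.2 hp.1 hp.2
  choose! H hH1 hH2 hH3 using hgh
  have hOx : ∀ x ∈ O, ∃ p, good p ∧ x ∈ ball p.1 p.2 := fun x hx => hx
  choose! P hP1 hP2 using hOx
  set U : E d → ℝ := fun x => if x ∈ O then H (P x) x else 0 with hU
  -- consistency
  have hcons : ∀ p q, good p → good q → ∀ x ∈ ball p.1 p.2 ∩ ball q.1 q.2, H p x = H q x := by
    intro p q hp hq x hx
    have hopen : IsOpen (ball p.1 p.2 ∩ ball q.1 q.2) := isOpen_ball.inter isOpen_ball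
    have e1 : H p =ᵐ[volume.restrict (ball p.1 p.2 ∩ ball q.1 q.2)] H q := by
      have a1 : u =ᵐ[volume.restrict (ball p.1 p.2 ∩ ball q.1 q.2)] H p :=
        ae_restrict_of_ae_restrict_of_subset inter_subset_left (hH3 p hp)
      have a2 : u =ᵐ[volume.restrict (ball p.1 p.2 ∩ ball q.1 q.2)] H q :=
        ae_restrict_of_ae_restrict_of_subset inter_subset_right (hH3 q hq)
      exact a1.symm.trans a2
    exact Measure.eqOn_open_of_ae_eq e1 hopen ((hH1 p hp).1.continuousOn.mono inter_subset_left)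
      ((hH1 q hq).1.continuousOn.mono inter_subset_right) hx
  have hUp : ∀ p, good p → ∀ x ∈ ball p.1 p.2, U x = H p x := by
    intro p hp x hx
    have hxO : x ∈ O := ⟨p, hp, hx⟩
    simp only [hU, hxO, if_true]
    exact hcons (P x) p (hP1 x hxO) hp x ⟨hP2 x hxO, hx⟩
  have hUO : ∀ x ∈ O, ∃ p, good p ∧ x ∈ ball p.1 p.2 ∧ U =ᶠ[𝓝 x] H p := by
    intro x hx
    obtain ⟨p, hp, hxp⟩ := hx
    exact ⟨p, hp, hxp, (isOpen_ball.eventually_mem hxp).mono fun y hy => hUp p hp y hy⟩
  have hUpos : ∀ x ∈ O, 0 < U x := by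
    intro x hx
    obtain ⟨p, hp, hxp⟩ := hx
    rw [hUp p hp x hxp]
    exact hH2 p hp x hxp
  have hU0 : ∀ x, 0 ≤ U x := by
    intro x
    by_cases hx : x ∈ O
    · exact (hUpos x hx).le
    · simp [hU, hx]
  have hUharm : Harm U O := by
    constructor
    · intro x hx
      obtain ⟨p, hp, hxp, he⟩ := hUO x hx
      have h1 : ContDiffAt ℝ ∞ (H p) x := ((hH1 p hp).1 x hxp).contDiffAt (isOpen_ball.mem_nhds hxp)
      exact (h1.congr_of_eventuallyEq he).contDiffWithinAt
    · intro x hx
      obtain ⟨p, hp, hxp, he⟩ := hUO x hx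
      have h1 := (InnerProductSpace.laplacian_congr_nhds he).self_of_nhds
      rw [h1]
      exact (hH1 p hp).2 x hxp
  have hUae : ∀ᵐ x, x ∈ O → u x = U x := by
    have h1 : volume {x | x ∈ O ∧ u x ≠ U x} = 0 := by
      refine measure_null_of_locally_null _ (fun x hx => ?_)
      obtain ⟨p, hp, hxp⟩ := hx.1
      refine ⟨{y | y ∈ O ∧ u y ≠ U y} ∩ ball p.1 p.2, ?_, ?_⟩
      · exact inter_mem self_mem_nhdsWithin (mem_nhdsWithin_of_mem_nhds (isOpen_ball.mem_nhds hxp))
      · have h3 := hH3 p hp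
        rw [Filter.EventuallyEq, ae_restrict_iff' measurableSet_ball, ae_iff] at h3
        refine measure_mono_null ?_ h3
        intro y hy
        simp only [mem_ofPred_eq, Classical.not_imp]
        refine ⟨hy.2, ?_⟩
        rw [← hUp p hp y hy.2]
        exact hy.1.2
    rw [ae_iff]
    simpa only [Classical.not_imp] using h1
  have hzero : (0 : E d) ∉ O := by
    rintro ⟨p, hp, h0⟩
    exact S0_zero_notMem hh (hH1 p hp) (hH2 p hp) (hH3 p hp) h0
  have hbad : ∀ z ∉ O, ∀ s, 0 < s → ⨍ y in ball z s, u y ≤ C * s := by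
    intro z hz s hs
    by_contra hcon
    push Not at hcon
    exact hz ⟨(z, s), ⟨hs, hcon.le⟩, mem_ball_self hs⟩
  have hu0 : ∀ᵐ x, x ∉ O → u x = 0 := by
    filter_upwards [IsUnifLocDoublingMeasure.ae_tendsto_average (μ := (volume : Measure (E d)))
      (S0_int hu) 1] with x hx hxO
    have h1 := hx (fun _ : ℝ => x) (fun s : ℝ => s) (l := 𝓝[>] (0 : ℝ)) tendsto_id (by
      filter_upwards [self_mem_nhdsWithin] with s hs
      rw [one_mul]
      exact mem_closedBall_self (le_of_lt hs))
    have h2 : Tendsto (fun s : ℝ => 2 ^ d * (C * (2 * s))) (𝓝[>] (0 : ℝ)) (𝓝 0) := by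
      have : Tendsto (fun s : ℝ => 2 ^ d * (C * (2 * s))) (𝓝 0) (𝓝 (2 ^ d * (C * (2 * 0)))) := by
        apply Continuous.tendsto
        fun_prop
      rw [mul_zero, mul_zero, mul_zero] at this
      exact this.mono_left nhdsWithin_le_nhds
    have h3 : Tendsto (fun s : ℝ => ⨍ y in closedBall x s, u y) (𝓝[>] (0 : ℝ)) (𝓝 0) := by
      refine tendsto_of_tendsto_of_tendsto_of_le_of_le' tendsto_const_nhds h2 ?_ ?_
      · refine Eventually.of_forall fun s => ?_
        rw [setAverage_eq]
        exact mul_nonneg (by positivity) (integral_nonneg fun y => hu.1 y)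
      · filter_upwards [self_mem_nhdsWithin] with s hs
        have hs0 : (0 : ℝ) < s := hs
        have hv : volume.real (closedBall x s) = volume.real (ball x s) := by
          unfold Measure.real
          rw [Measure.addHaar_closedBall_eq_addHaar_ball]
        have hb := hbad x hxO (2 * s) (by positivity)
        have e1 : ∫ y in closedBall x s, u y ≤ ∫ y in ball x (2 * s), u y :=
          setIntegral_mono_set (S0_int_ball hu x _) (Eventually.of_forall fun y => hu.1 y)
            (Eventually.of_forall (closedBall_subset_ball (by linarith)))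
        have hp := S0_vol_pos x hs0
        have hv2 := S0_vol x x hs0 2 two_pos
        have hp2 : 0 < volume.real (ball x (2 * s)) := S0_vol_pos x (by positivity)
        rw [setAverage_eq, smul_eq_mul, inv_mul_le_iff₀ hp2, hv2] at hb
        rw [setAverage_eq, smul_eq_mul, hv, inv_mul_le_iff₀ hp]
        nlinarith
    exact tendsto_nhds_unique h1 h3
  -- estimates in the good set
  have hOc : IsClosed Oᶜ := hOo.isClosed_compl
  have hOne : (Oᶜ).Nonempty := ⟨0, hzero⟩
  set K1 : ℝ := 2 ^ d * (C * 2) with hK1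
  have hK10 : 0 < K1 := by positivity
  have hest : ∀ x ∈ O, 0 < infDist x Oᶜ ∧ ball x (infDist x Oᶜ) ⊆ O ∧
      U x ≤ K1 * infDist x Oᶜ ∧ ‖fderiv ℝ U x‖ ≤ C' * K1 := by
    intro x hx
    have hδ : 0 < infDist x Oᶜ := (hOc.notMem_iff_infDist_pos hOne).1 (by simpa using hx)
    set δ := infDist x Oᶜ with hδdef
    have hsub : ball x δ ⊆ O := ball_infDist_compl_subset
    obtain ⟨z, hz, hxz⟩ := hOc.exists_infDist_eq_dist hOne x
    have hsub2 : ball x δ ⊆ ball z (2 * δ) := by
      intro y hy
      rw [mem_ball] at hy ⊢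
      have : dist y z ≤ dist y x + dist x z := dist_triangle _ _ _
      rw [← hxz, ← hδdef] at this
      linarith
    have hm := S0_mean_le hu hδ hsub2 (hbad z hz (2 * δ) (by positivity))
    have hae : u =ᵐ[volume.restrict (ball x δ)] U := by
      rw [Filter.EventuallyEq, ae_restrict_iff' measurableSet_ball]
      filter_upwards [hUae] with y hy hyb
      exact hy (hsub hyb)
    have hUi : IntegrableOn U (ball x δ) := (S0_int_ball hu x δ).congr hae
    have hav : ⨍ y in ball x δ, U y = ⨍ y in ball x δ, u y := by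
      simp only [setAverage_eq]
      congr 1
      exact (integral_congr_ae hae).symm
    have hav2 : ⨍ y in ball x δ, |U y| = ⨍ y in ball x δ, U y := by
      simp only [setAverage_eq]
      congr 1
      exact integral_congr_ae (Eventually.of_forall fun y => abs_of_nonneg (hU0 y))
    have e1 : U x ≤ K1 * δ := by
      rw [mvp_ball' hδ (hUharm.mono hsub) hUi, hav]
      refine hm.trans (le_of_eq ?_)
      rw [hK1]; ring
    refine ⟨hδ, hsub, e1, ?_⟩
    have e2 := hgrad U x δ hδ (hUharm.mono hsub) hUi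
    rw [norm_grad, hav2, hav] at e2
    refine e2.trans ?_
    calc C' / δ * ⨍ y in ball x δ, u y ≤ C' / δ * (2 ^ d * (C * (2 * δ))) :=
          mul_le_mul_of_nonneg_left hm (by positivity)
      _ = C' * K1 := by rw [hK1]; field_simp
  have hout : ∀ x ∉ O, U x = 0 := fun x hx => by simp [hU, hx]
  -- Lipschitz on balls inside
  have hin : ∀ x ∈ O, ∀ y, dist y x < infDist x Oᶜ → |U y - U x| ≤ C' * K1 * dist y x := by
    intro x hx y hy
    obtain ⟨hδ, hsub, -, -⟩ := hest x hx
    have h1 := Convex.norm_image_sub_le_of_norm_fderiv_le (𝕜 := ℝ) (f := U) (C := C' * K1)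
      (s := ball x (infDist x Oᶜ)) (x := x) (y := y)
      (fun z hz => ((hUharm.1 z (hsub hz)).contDiffAt (hOo.mem_nhds (hsub hz))).differentiableAt
        (by simp)) (fun z hz => (hest z (hsub hz)).2.2.2) (convex_ball _ _)
      (mem_ball_self hδ) hy
    rw [dist_eq_norm]
    exact h1
  have hval : ∀ x, U x ≤ K1 * infDist x Oᶜ := by
    intro x
    by_cases hx : x ∈ O
    · exact (hest x hx).2.2.1
    · rw [hout x hx]
      exact mul_nonneg hK10.le infDist_nonneg
  set K : ℝ := C' * K1 + K1 with hK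
  have hK0 : 0 ≤ K := by positivity
  refine ⟨Real.toNNReal K, U, ?_, hU0, ?_⟩
  · refine LipschitzWith.of_dist_le_mul (fun x y => ?_)
    rw [Real.dist_eq, Real.coe_toNNReal K hK0]
    by_cases h1 : dist x y < infDist x Oᶜ
    · have hx : x ∈ O := by
        by_contra hx
        have : infDist x Oᶜ = 0 := infDist_zero_of_mem hx
        rw [this] at h1
        exact absurd h1 (not_lt.2 dist_nonneg)
      have h3 := hin x hx y (by rw [dist_comm]; exact h1)
      rw [abs_sub_comm, dist_comm x y]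
      refine h3.trans ?_
      rw [hK]
      have : 0 ≤ K1 * dist y x := by positivity
      nlinarith
    · by_cases h2 : dist x y < infDist y Oᶜ
      · have hy : y ∈ O := by
          by_contra hy
          have : infDist y Oᶜ = 0 := infDist_zero_of_mem hy
          rw [this] at h2
          exact absurd h2 (not_lt.2 dist_nonneg)
        have h3 := hin y hy x h2
        refine h3.trans ?_
        rw [hK]
        have : 0 ≤ K1 * dist x y := by positivity
        nlinarith
      · push Not at h1 h2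
        have a1 := hval x
        have a2 := hval y
        have a3 := hU0 x
        have a4 := hU0 y
        have a5 : K1 * infDist x Oᶜ ≤ K1 * dist x y := mul_le_mul_of_nonneg_left h1 hK10.le
        have a6 : K1 * infDist y Oᶜ ≤ K1 * dist x y := mul_le_mul_of_nonneg_left h2 hK10.le
        have a7 : 0 ≤ C' * K1 * dist x y := by positivity
        rw [hK, abs_le]
        constructor <;> nlinarith
  · filter_upwards [hUae, hu0] with x h1 h2
    by_cases hx : x ∈ O
    · exact h1 hx
    · rw [h2 hx, hout x hx]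

end Crest.Agent.R097
end

-- ▼ part R097/Sob2
section

/-! Sob2: linear combinations, uniqueness of the weak gradient, Lipschitz functions. -/
set_option autoImplicit false
open MeasureTheory Metric Set Filter Topology
open scoped NNReal RealInnerProductSpace Gradient ContDiff Laplacian ENNReal
open Crest.AnalysisR.PDE.OnePhase

namespace Crest.Agent.R097
variable {d : ℕ}

/-- weak gradients on the whole space -/
theorem isWeakGradOn_univ {u : E d → ℝ} {G : E d → E d} : IsWeakGradOn Set.univ u G ↔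
    LocallyIntegrable u ∧ LocallyIntegrable G ∧ ∀ φ : E d → ℝ, ContDiff ℝ ∞ φ → HasCompactSupport φ →
      ∀ i : Fin d, ∫ x, u x * partialD φ i x = - ∫ x, G x i * φ x := by
  unfold IsWeakGradOn
  rw [locallyIntegrableOn_univ, locallyIntegrableOn_univ]
  simp only [subset_univ, forall_const, Measure.restrict_univ]


theorem partialD_cont {φ : E d → ℝ} (hφ : ContDiff ℝ ∞ φ) (i : Fin d) : Continuous (partialD φ i) :=
  (hφ.continuous_fderiv (by norm_num)).clm_apply continuous_const

theorem partialD_cs {φ : E d → ℝ} (hc : HasCompactSupport φ) (i : Fin d) : HasCompactSupport (partialD φ i) :=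
  hc.fderiv_apply ℝ _

theorem int_mul_cs {v φ : E d → ℝ} (hv : LocallyIntegrable v) (hφ : Continuous φ) (hc : HasCompactSupport φ) :
    Integrable (fun x => v x * φ x) := by
  simpa [smul_eq_mul] using hv.integrable_smul_right_of_hasCompactSupport hφ hc

theorem locInt_apply {G : E d → E d} (hG : LocallyIntegrable G) (i : Fin d) : LocallyIntegrable (fun x => G x i) := by
  intro x
  obtain ⟨s, hs, h⟩ := hG x
  exact ⟨s, hs, (EuclideanSpace.proj (𝕜 := ℝ) i : E d →L[ℝ] ℝ).integrable_comp h⟩

theorem locInt_sq_add {F : Type*} [NormedAddCommGroup F] [MeasurableSpace F] [BorelSpace F] {f g : E d → F}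
    (hf : AEStronglyMeasurable f) (hg : AEStronglyMeasurable g)
    (h1 : LocallyIntegrable (fun x => ‖f x‖ ^ 2)) (h2 : LocallyIntegrable (fun x => ‖g x‖ ^ 2)) :
    LocallyIntegrable (fun x => ‖f x + g x‖ ^ 2) := by
  have h3 : LocallyIntegrable (fun x => 2 * ‖f x‖ ^ 2 + 2 * ‖g x‖ ^ 2) := by
    have e1 := (h1.smul (2 : ℝ)).add (h2.smul (2 : ℝ))
    exact e1.congr (Eventually.of_forall fun x => rfl)
  refine h3.mono ((hf.add hg).norm.pow 2) (Eventually.of_forall fun x => ?_)
  rw [Real.norm_of_nonneg (by positivity), Real.norm_of_nonneg (by positivity)]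
  have h4 := norm_add_le (f x) (g x)
  nlinarith [norm_nonneg (f x + g x), norm_nonneg (f x), norm_nonneg (g x), sq_nonneg (‖f x‖ - ‖g x‖)]

theorem W2.add {u v : E d → ℝ} {G H : E d → E d} (hu : W2 u G) (hv : W2 v H) :
    W2 (fun x => u x + v x) (fun x => G x + H x) := by
  obtain ⟨hu1, hu2, hu3⟩ := hu
  obtain ⟨hv1, hv2, hv3⟩ := hv
  rw [isWeakGradOn_univ] at hu1 hv1
  refine ⟨?_, ?_, ?_⟩
  · rw [isWeakGradOn_univ]
    refine ⟨hu1.1.add hv1.1, hu1.2.1.add hv1.2.1, fun φ hφ hc i => ?_⟩
    have e1 := hu1.2.2 φ hφ hc i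
    have e2 := hv1.2.2 φ hφ hc i
    have f1 : (∫ x, (u x + v x) * partialD φ i x) = (∫ x, u x * partialD φ i x) + ∫ x, v x * partialD φ i x := by
      rw [← integral_add (int_mul_cs hu1.1 (partialD_cont hφ i) (partialD_cs hc i))
        (int_mul_cs hv1.1 (partialD_cont hφ i) (partialD_cs hc i))]
      refine integral_congr_ae (Eventually.of_forall fun x => ?_)
      simp only; ring
    have f2 : (∫ x, (G x + H x) i * φ x) = (∫ x, G x i * φ x) + ∫ x, H x i * φ x := by
      rw [← integral_add (int_mul_cs (locInt_apply hu1.2.1 i) hφ.continuous hc)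
        (int_mul_cs (locInt_apply hv1.2.1 i) hφ.continuous hc)]
      refine integral_congr_ae (Eventually.of_forall fun x => ?_)
      simp only [PiLp.add_apply]; ring
    rw [f1, f2, e1, e2]; ring
  · have := locInt_sq_add hu1.1.aestronglyMeasurable hv1.1.aestronglyMeasurable
      (by simpa using hu2) (by simpa using hv2)
    simpa using this
  · exact locInt_sq_add hu1.2.1.aestronglyMeasurable hv1.2.1.aestronglyMeasurable hu3 hv3

theorem W2.smul {u : E d → ℝ} {G : E d → E d} (hu : W2 u G) (c : ℝ) :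
    W2 (fun x => c * u x) (fun x => c • G x) := by
  obtain ⟨hu1, hu2, hu3⟩ := hu
  rw [isWeakGradOn_univ] at hu1
  refine ⟨?_, ?_, ?_⟩
  · rw [isWeakGradOn_univ]
    refine ⟨(hu1.1.smul c).congr (Eventually.of_forall fun x => rfl), hu1.2.1.smul c, fun φ hφ hc i => ?_⟩
    have e1 := hu1.2.2 φ hφ hc i
    have f1 : (∫ x, (c * u x) * partialD φ i x) = c * ∫ x, u x * partialD φ i x := by
      rw [← integral_const_mul]
      refine integral_congr_ae (Eventually.of_forall fun x => ?_)
      simp only; ring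
    have f2 : (∫ x, (c • G x) i * φ x) = c * ∫ x, G x i * φ x := by
      rw [← integral_const_mul]
      refine integral_congr_ae (Eventually.of_forall fun x => ?_)
      simp only [PiLp.smul_apply, smul_eq_mul]; ring
    rw [f1, f2, e1]; ring
  · have := hu2.smul (c ^ 2)
    refine this.congr (Eventually.of_forall fun x => ?_)
    simp only [Pi.smul_apply, smul_eq_mul]; ring
  · have := hu3.smul (c ^ 2)
    refine this.congr (Eventually.of_forall fun x => ?_)
    simp only [Pi.smul_apply, smul_eq_mul, norm_smul, mul_pow, Real.norm_eq_abs, sq_abs]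







end Crest.Agent.R097
end

-- ▼ part R097/Sob3
section

/-! Sob3: a function with square integrable weak gradient is locally square integrable
(Hilbert projection + Weyl's lemma). -/
set_option autoImplicit false
open MeasureTheory Metric Set Filter Topology
open scoped NNReal RealInnerProductSpace Gradient ContDiff Laplacian ENNReal
open Crest.AnalysisR.PDE.OnePhase

namespace Crest.Agent.R097
variable {d : ℕ}

theorem sob_sq {u : E d → ℝ} {G : E d → E d} (h : IsWeakGradOn Set.univ u G)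
    (hG : LocallyIntegrable (fun x => ‖G x‖ ^ 2)) : LocallyIntegrable (fun x => u x ^ 2) := by
  rcases Nat.eq_zero_or_pos d with hd | hd
  · subst hd
    have hc : Continuous (fun x : E 0 => u x ^ 2) := by
      have : Subsingleton (E 0) := inferInstance
      exact continuous_of_const fun x y => by rw [Subsingleton.elim x y]
    exact hc.locallyIntegrable
  intro x₀
  set B := ball x₀ 2 with hB
  rw [isWeakGradOn_univ] at h
  obtain ⟨hu, hGl, hw⟩ := h
  have hG2 : MemLp G 2 (volume.restrict B) := by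
    rw [memLp_two_iff_integrable_sq_norm hGl.aestronglyMeasurable.restrict]
    exact (hG.integrableOn_isCompact (isCompact_closedBall x₀ 2)).mono_set ball_subset_closedBall
  obtain ⟨w, g, hw2, hg2, -, hwg, horth, -, -⟩ := S0_proj hd (c := x₀) (r := 2) (by norm_num) hG2
  have hv : IsWeakGradOn B (fun x => u x - w x) (fun x => G x - g x) := by
    obtain ⟨a1, a2, a3⟩ := hwg
    refine ⟨(hu.locallyIntegrableOn B).sub a1, (hGl.locallyIntegrableOn B).sub a2, fun φ hφ hc ht i => ?_⟩
    have e1 := hw φ hφ hc i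
    have e2 := a3 φ hφ hc ht i
    have hti : tsupport (fun x => partialD φ i x) ⊆ B := (tsupport_fderiv_apply_subset ℝ _).trans ht
    have hpc := partialD_cont hφ i
    have hps := partialD_cs hc i
    have f1 : (∫ x in B, (u x - w x) * partialD φ i x) =
        (∫ x in B, u x * partialD φ i x) - ∫ x in B, w x * partialD φ i x := by
      rw [← integral_sub (int_mul_cs hu hpc hps).integrableOn (int_mul_test a1 hpc hps hti).integrableOn]
      refine integral_congr_ae (Eventually.of_forall fun x => ?_)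
      simp only; ring
    have f2 : (∫ x in B, (G x - g x) i * φ x) = (∫ x in B, G x i * φ x) - ∫ x in B, g x i * φ x := by
      rw [← integral_sub (int_mul_cs (locInt_apply hGl i) hφ.continuous hc).integrableOn
        (int_mul_test (locInt_coord a2 i) hφ.continuous hc ht).integrableOn]
      refine integral_congr_ae (Eventually.of_forall fun x => ?_)
      simp only [PiLp.sub_apply]; ring
    rw [f1, f2, e2, setInt_test (f := u) hti, setInt_test (f := fun x => G x i) ht, e1]; ring
  obtain ⟨v, hv1, hv2, -⟩ := weyl_grad (Ω := B) isOpen_ball hv (fun φ hφ hc ht => horth φ ⟨hφ, hc, ht⟩)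
  refine ⟨ball x₀ 1, ball_mem_nhds x₀ one_pos, ?_⟩
  have hsub : ball x₀ 1 ⊆ B := ball_subset_ball (by norm_num)
  have hvc : ContinuousOn v (closedBall x₀ 1) :=
    hv1.1.continuousOn.mono (closedBall_subset_ball (by norm_num))
  have m1 : MemLp v 2 (volume.restrict (ball x₀ 1)) := by
    obtain ⟨M, hM⟩ := (isCompact_closedBall x₀ 1).exists_bound_of_continuousOn hvc
    have : IsFiniteMeasure (volume.restrict (ball x₀ 1)) :=
      ⟨by rw [Measure.restrict_apply_univ]; exact measure_ball_lt_top⟩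
    refine MemLp.of_bound (hvc.mono ball_subset_closedBall |>.aestronglyMeasurable measurableSet_ball) M ?_
    rw [ae_restrict_iff' measurableSet_ball]
    exact Eventually.of_forall fun x hx => hM x (ball_subset_closedBall hx)
  have m2 : MemLp w 2 (volume.restrict (ball x₀ 1)) := hw2.mono_measure (Measure.restrict_mono hsub le_rfl)
  have m3 : MemLp u 2 (volume.restrict (ball x₀ 1)) := by
    refine (m1.add m2).ae_eq ?_
    have h1 : ∀ᵐ x ∂(volume.restrict (ball x₀ 1)), u x - w x = v x :=
      ae_restrict_of_ae_restrict_of_subset hsub hv2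
    filter_upwards [h1] with x hx
    simp only [Pi.add_apply]; linarith
  exact (memLp_two_iff_integrable_sq hu.aestronglyMeasurable.restrict).1 m3

end Crest.Agent.R097
end

-- ▼ part R097/A3
section

/-! A3: a Sobolev minimiser has a Lipschitz representative, which is a Lipschitz minimiser (helper887). -/
set_option autoImplicit false
open MeasureTheory Metric Set Filter Topology
open scoped NNReal RealInnerProductSpace Gradient ContDiff Laplacian ENNReal
open Crest.AnalysisR.PDE.OnePhase

namespace Crest.Agent.R097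
variable {d : ℕ}

theorem sobolev_to_LM (hd : 1 ≤ d) {u : E d → ℝ} {G : E d → E d} (hu : IsGlobalMinimizer u G)
    (hh : IsOneHomogeneous u) (hne : ¬ (u =ᵐ[volume] 0)) :
    ∃ (K : ℝ≥0) (U : E d → ℝ), LM U K ∧ Hom1 U ∧ (∃ x, U x ≠ 0) ∧ u =ᵐ[volume] U := by
  have h2 : LocallyIntegrable (fun x => u x ^ 2) := sob_sq hu.2.1 hu.2.2.1
  obtain ⟨K, U, hU, hU0, hae⟩ := S0_lip hd hu hh h2
  refine ⟨K, U, LM_of_min hu hU hU0 hae, ?_, ?_, hae⟩
  · intro r hr
    have h1 : (fun x => U (r • x)) =ᵐ[volume] fun x => r * U x := by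
      have hq : Measure.QuasiMeasurePreserving (fun x : E d => r • x) volume volume :=
        ⟨by fun_prop, (Measure.quasiMeasurePreserving_smul (volume : Measure (E d)) hr.ne').2⟩
      have h3 := hq.ae_eq hae
      filter_upwards [h3, hae] with x h4 h5
      simp only [Function.comp_apply] at h4
      rw [← h4, ← h5, hh r hr x]
    have h2 : (fun x => U (r • x)) = fun x => r * U x := by
      refine (Continuous.ae_eq_iff_eq volume ?_ ?_).1 h1
      · exact hU.continuous.comp (continuous_const_smul r)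
      · exact continuous_const.mul hU.continuous
    exact fun x => congrFun h2 x
  · by_contra hcon
    push Not at hcon
    apply hne
    filter_upwards [hae] with x hx
    rw [hx, hcon x]
    rfl

end Crest.Agent.R097
end

-- ▼ part R097/Main
section

/-! Main: assembly of S0128 from the classification of Lipschitz minimising cones. -/
set_option autoImplicit false
open MeasureTheory Metric Set Filter Topology
open scoped NNReal RealInnerProductSpace Gradient ContDiff Laplacian
open Crest.AnalysisR.PDE.OnePhase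

namespace Crest.Agent.R097

/-- the final assembly: the induction step is a hypothesis here -/
theorem final (hstep : ∀ d : ℕ, 2 ≤ d → d ≤ 5 → Cls d → Cls (d + 1)) (d : ℕ) (hd1 : 1 ≤ d) (hd6 : d ≤ 6)
    (u : EuclideanSpace ℝ (Fin d) → ℝ) (G : EuclideanSpace ℝ (Fin d) → EuclideanSpace ℝ (Fin d))
    (hmin : IsGlobalMinimizer u G) (hhom : IsOneHomogeneous u)
    (hne : ¬ (u =ᵐ[volume] 0)) :
    ∃ e : EuclideanSpace ℝ (Fin d), ‖e‖ = 1 ∧ u =ᵐ[volume] fun x => max (inner ℝ x e) 0 := by
  have hC : Cls d := by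
    have h1 := cls_one
    have h2 := cls_two
    obtain rfl | rfl | rfl | rfl | rfl | rfl : d = 1 ∨ d = 2 ∨ d = 3 ∨ d = 4 ∨ d = 5 ∨ d = 6 := by omega
    · exact h1
    · exact h2
    · exact hstep 2 le_rfl (by norm_num) h2
    · exact hstep 3 (by norm_num) (by norm_num) (hstep 2 le_rfl (by norm_num) h2)
    · exact hstep 4 (by norm_num) (by norm_num) (hstep 3 (by norm_num) (by norm_num) (hstep 2 le_rfl (by norm_num) h2))
    · exact hstep 5 (by norm_num) (by norm_num) (hstep 4 (by norm_num) (by norm_num)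
        (hstep 3 (by norm_num) (by norm_num) (hstep 2 le_rfl (by norm_num) h2)))
  obtain ⟨K, U, hU, hh, hne', hae⟩ := sobolev_to_LM hd1 hmin hhom hne
  obtain ⟨e, he, h⟩ := hC K U hU hh hne'
  exact ⟨e, he, hae.trans (Filter.Eventually.of_forall fun x => h x)⟩

end Crest.Agent.R097
end

-- ▼ part R097/Hstep

/-!
# Row 97: the induction step, from the regularity theory and the stability certificate
-/

set_option autoImplicit false
open MeasureTheory Metric Set Filter Topology InnerProductSpace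
open scoped RealInnerProductSpace NNReal ENNReal Gradient Laplacian ContDiff

namespace Crest.Agent.R097

variable {d : ℕ}

/-- the conclusion of the certificate part in `E d`: a Lipschitz minimising cone all of whose free
boundary points (except the vertex) are regular has vanishing Hessian in its positivity set -/
def RedStmt (d : ℕ) : Prop := ∀ (K : ℝ≥0) (u : E d → ℝ), LM u K → Hom1 u →
  (∀ y ∈ frontier (Om u), y ≠ 0 → RegPt u y) → ∀ x ∈ Om u, D2 u x = 0

theorem cls_succ (hd : 1 ≤ d) (h6 : F6Stmt (d + 1)) (hred : RedStmt (d + 1)) (hc : Cls d) :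
    Cls (d + 1) := by
  intro K u hu hh hne
  exact flat_of_hess (Nat.succ_le_succ (Nat.zero_le d)) hu hh hne
    (hred K u hu hh fun y hy hy0 => cone_reg h6 hd hc hu hh hy hy0)

end Crest.Agent.R097
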