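import Crest.Agent.R097.KP4

/-!
# Row 97, KBA checker: chart data (helper141)

`flipS sx sp p` is `p (sx t₀, sp t₁, t₂, t₃, 2 t₄)`.  `CD` are the fourteen base polynomials and the
four constraints in nested form; `CD.chk` compares them with the base of a data set (kernel
evaluation, once for each sign chart); `dsok_pp`, …, `dsok_mm` are its consequences.
-/

set_option autoImplicit false

namespace Crest.Agent.R097.KA

open Crest.Agent.R097.CP Crest.Agent.R097.CQ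

/-- the polynomial in the coordinates of the sign chart `(sx, sp)`, `v = 2 t₄` -/
def flipS (sx sp : ℤ) (p : SP) : SP :=
  p.map fun m => (m.1 * sx ^ (m.2.getD 0 0) * sp ^ (m.2.getD 1 0) * 2 ^ (m.2.getD 4 0), m.2)

/-- all exponent lists have at most five entries -/
def len5 (p : SP) : Bool := p.all fun m => Nat.ble m.2.length 5

lemma mon_flip (sx sp : ℝ) (t : ℕ → ℝ) (e : List ℕ) (h : e.length ≤ 5) :
    mon (fn5 (sx * t 0) (sp * t 1) (t 2) (t 3) (2 * t 4)) 0 e =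
      sx ^ (e.getD 0 0) * sp ^ (e.getD 1 0) * 2 ^ (e.getD 4 0) * mon t 0 e := by
  match e, h with
  | [], _ => simp [mon]
  | [e0], _ => simp [mon, fn5, mul_pow]
  | [e0, e1], _ => simp [mon, fn5, mul_pow]; ring
  | [e0, e1, e2], _ => simp [mon, fn5, mul_pow]; ring
  | [e0, e1, e2, e3], _ => simp [mon, fn5, mul_pow]; ring
  | [e0, e1, e2, e3, e4], _ => simp [mon, fn5, mul_pow]; ring
  | _ :: _ :: _ :: _ :: _ :: _ :: _, h => exact absurd h (by simp only [List.length_cons]; omega)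

theorem ev_flipS (sx sp : ℤ) (t : ℕ → ℝ) (p : SP) (h : len5 p = true) :
    ev t (flipS sx sp p) = ev (fn5 (sx * t 0) (sp * t 1) (t 2) (t 3) (2 * t 4)) p := by
  induction p with
  | nil => rfl
  | cons m p ih =>
    simp only [len5, List.all_cons, Bool.and_eq_true, Nat.ble_eq] at h
    have ih' := ih h.2
    simp only [flipS, List.map_cons, ev] at ih' ⊢
    rw [ih', mon_flip _ _ _ _ h.1]
    push_cast
    ring


/-! ## merge sort -/

/-- deal into two lists -/
def deal : SP → SP × SP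
  | [] => ([], [])
  | m :: p => (m :: (deal p).2, (deal p).1)

lemma ev_deal (t : ℕ → ℝ) (p : SP) : ev t (deal p).1 + ev t (deal p).2 = ev t p := by
  induction p with
  | nil => simp [deal, ev]
  | cons m p ih => simp only [deal, ev]; rw [← ih]; ring

/-- merge sort (with fuel; always correct for the value) -/
def msort : ℕ → SP → SP
  | 0, p => p
  | _ + 1, [] => []
  | _ + 1, [m] => [(m.1, padE 5 m.2)]
  | n + 1, m :: m' :: p => add (msort n (deal (m :: m' :: p)).1) (msort n (deal (m :: m' :: p)).2)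

lemma ev_msort (t : ℕ → ℝ) : ∀ (n : ℕ) (p : SP), ev t (msort n p) = ev t p
  | 0, p => rfl
  | n + 1, [] => rfl
  | n + 1, [m] => by simp only [msort, ev, mon_padE]
  | n + 1, m :: m' :: p => by
    simp only [msort]
    rw [ev_add, ev_msort t n, ev_msort t n, ev_deal]

/-! ## the constraints -/

/-- `an Q - ad v² (1 - s²)` -/
def GP1 (P : Par) : SP := [((P.an : ℤ), [0, 0, 0, 1]), (-(P.ad : ℤ), [0, 0, 0, 0, 2]), ((P.ad : ℤ), [0, 0, 2, 0, 2])]

/-- `n (1 - Q²) - 2 (n + 2) v² s²` -/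
def GP2 (P : Par) : SP :=
  [((P.n : ℤ), []), (-(P.n : ℤ), [0, 0, 0, 2]), (-(2 * ((P.n : ℤ) + 2)), [0, 0, 2, 0, 2])]

/-- `(n - 1) - n x²` -/
def GP4 (P : Par) : SP := [((P.n : ℤ) - 1, []), (-(P.n : ℤ), [2])]

/-- `9 k₃` or `8 k₃` -/
def KP (P : Par) : SP :=
  if P.n = 4 then [(9, [0, 1]), (9, [1]), (-20, [3])] else [(8, [0, 1]), (6, [1]), (-15, [3])]

/-- the region: `rr³ - 2 (9 k₃)²` (`n = 4`), `rr³ - 3 (8 k₃)²` (`n = 5`) -/
def GP3 (P : Par) : SP :=
  sub (pw (GP4 P) 3) (smul (if P.n = 4 then 2 else 3) (pw (KP P) 2))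

/-- four or five -/
def n45 (n : ℕ) : Prop := n = 4 ∨ n = 5

lemma GP1_nonneg {P : Par} (hP : Pars P) {x p s Q v : ℝ} (h : DomS P.n P.A0 x p s Q v) :
    0 ≤ ev (fn5 x p s Q v) (GP1 P) := by
  have h1 := h.q0
  have han : (0 : ℝ) < P.an := by exact_mod_cast hP.an
  have had : (0 : ℝ) < P.ad := by exact_mod_cast hP.ad
  unfold Par.A0 at h1
  have h2 := mul_nonneg han.le h1
  have h3 : (P.an : ℝ) * (Q - v ^ 2 * ((1 - s ^ 2) / ((P.an : ℝ) / P.ad))) = P.an * Q - P.ad * v ^ 2 * (1 - s ^ 2) := by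
    field_simp
  rw [h3] at h2
  simp only [GP1, ev, mon, fn5]
  push_cast
  linarith

lemma GP2_nonneg {P : Par} {x p s Q v : ℝ} (h : DomS P.n P.A0 x p s Q v) :
    0 ≤ ev (fn5 x p s Q v) (GP2 P) := by
  have h1 := h.ap
  have hn : (0 : ℝ) < 2 * ((P.n : ℝ) + 2) := by positivity
  have h2 : (P.n : ℝ) / (2 * (P.n + 2)) * (1 - Q ^ 2) = (P.n : ℝ) * (1 - Q ^ 2) / (2 * (P.n + 2)) := by ring
  rw [h2, le_div_iff₀ hn] at h1
  simp only [GP2, ev, mon, fn5]
  push_cast
  linarith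

lemma GP4_nonneg {P : Par} (hn : n45 P.n) {x p s Q v : ℝ} (h : DomS P.n P.A0 x p s Q v) :
    0 ≤ ev (fn5 x p s Q v) (GP4 P) := by
  have h1 := h.rn
  unfold rr at h1
  rcases hn with hn | hn
  · rw [hn] at h1
    simp only [GP4, ev, mon, fn5, hn]
    norm_num at h1 ⊢
    linarith
  · rw [hn] at h1
    simp only [GP4, ev, mon, fn5, hn]
    norm_num at h1 ⊢
    linarith

lemma GP3_nonneg {P : Par} (hn : n45 P.n) {x p s Q v : ℝ} (h : DomS P.n P.A0 x p s Q v) :
    0 ≤ ev (fn5 x p s Q v) (GP3 P) := by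
  have h1 := h.reg
  unfold rr k3 at h1
  unfold GP3
  rw [ev_sub, ev_pw, ev_smul, ev_pw]
  rcases hn with hn | hn
  · have eK : ev (fn5 x p s Q v) (KP P) = 9 * p + 9 * x - 20 * x ^ 3 := by
      unfold KP
      rw [if_pos hn]
      simp only [ev, mon, fn5]
      push_cast
      ring
    have eR : ev (fn5 x p s Q v) (GP4 P) = 3 - 4 * x ^ 2 := by
      simp only [GP4, ev, mon, fn5, hn]
      push_cast
      ring
    rw [eK, eR, if_pos hn]
    rw [hn] at h1
    push_cast at h1 ⊢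
    have e1 : ((4 : ℝ) - 1) * (4 - 2) * (p - x ^ 3 + 3 * x / (4 - 1) * (1 - x ^ 2) - 2 * x ^ 3 / (4 - 1) ^ 2) ^ 2 =
        6 / 81 * (9 * p + 9 * x - 20 * x ^ 3) ^ 2 := by ring
    have e2 : ((4 : ℝ) - 3) ^ 2 * (1 - 4 / (4 - 1) * x ^ 2) ^ 3 = 1 / 27 * (3 - 4 * x ^ 2) ^ 3 := by ring
    rw [e1, e2] at h1
    linarith
  · have hn4 : ¬ P.n = 4 := by omega
    have eK : ev (fn5 x p s Q v) (KP P) = 8 * p + 6 * x - 15 * x ^ 3 := by
      unfold KP
      rw [if_neg hn4]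
      simp only [ev, mon, fn5]
      push_cast
      ring
    have eR : ev (fn5 x p s Q v) (GP4 P) = 4 - 5 * x ^ 2 := by
      simp only [GP4, ev, mon, fn5, hn]
      push_cast
      ring
    rw [eK, eR, if_neg hn4]
    rw [hn] at h1
    push_cast at h1 ⊢
    have e1 : ((5 : ℝ) - 1) * (5 - 2) * (p - x ^ 3 + 3 * x / (5 - 1) * (1 - x ^ 2) - 2 * x ^ 3 / (5 - 1) ^ 2) ^ 2 =
        12 / 64 * (8 * p + 6 * x - 15 * x ^ 3) ^ 2 := by ring
    have e2 : ((5 : ℝ) - 3) ^ 2 * (1 - 5 / (5 - 1) * x ^ 2) ^ 3 = 4 / 64 * (4 - 5 * x ^ 2) ^ 3 := by ring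
    rw [e1, e2] at h1
    linarith

/-! ## chart data -/

/-- values of the base polynomials -/
noncomputable def CD.ev (t : ℕ → ℝ) (N : CD) : TEl.Base where
  g := CQ.ev t (flat N.g)
  k11 := CQ.ev t (flat N.k11)
  k12 := CQ.ev t (flat N.k12)
  k22 := CQ.ev t (flat N.k22)
  C0 := CQ.ev t (flat N.C0)
  Ck := CQ.ev t (flat N.Ck)
  L1 := CQ.ev t (flat N.L1)
  L2 := CQ.ev t (flat N.L2)
  Lw := CQ.ev t (flat N.Lw)
  A11 := CQ.ev t (flat N.A11)
  A12 := CQ.ev t (flat N.A12)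
  W1 := CQ.ev t (flat N.W1)
  W2 := CQ.ev t (flat N.W2)
  psi := CQ.ev t (flat N.psi)

/-- comparison of one polynomial -/
def eqN (sx sp : ℤ) (p : SP) (N : NP) : Bool :=
  len5 p && decide (msort 12 (flat N) = norm 5 (flipS sx sp p))

lemma ev_eqN {sx sp : ℤ} {p : SP} {N : NP} (h : eqN sx sp p N = true) (t : ℕ → ℝ) :
    CQ.ev t (flat N) = CQ.ev (fn5 (sx * t 0) (sp * t 1) (t 2) (t 3) (2 * t 4)) p := by
  simp only [eqN, Bool.and_eq_true, decide_eq_true_eq] at h
  rw [← ev_msort t 12, h.2, ev_norm, ev_flipS sx sp t p h.1]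

/-- comparison of the fourteen base polynomials -/
def CD.chkB (sx sp : ℤ) (B : BaseP) (N : CD) : Bool :=
  eqN sx sp B.g N.g && (eqN sx sp B.k11 N.k11 && (eqN sx sp B.k12 N.k12 && (eqN sx sp B.k22 N.k22 && (
    eqN sx sp B.C0 N.C0 && (eqN sx sp B.Ck N.Ck && (eqN sx sp B.L1 N.L1 && (eqN sx sp B.L2 N.L2 && (
    eqN sx sp B.Lw N.Lw && (eqN sx sp B.A11 N.A11 && (eqN sx sp B.A12 N.A12 && (eqN sx sp B.W1 N.W1 && (
    eqN sx sp B.W2 N.W2 && (eqN sx sp B.psi N.psi)))))))))))))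

lemma CD.chkB_spec {sx sp : ℤ} {B : BaseP} {N : CD} (h : N.chkB sx sp B = true) (t : ℕ → ℝ) :
    N.ev t = B.ev (fn5 (sx * t 0) (sp * t 1) (t 2) (t 3) (2 * t 4)) := by
  simp only [CD.chkB, Bool.and_eq_true] at h
  obtain ⟨h1, h2, h3, h4, h5, h6, h7, h8, h9, h10, h11, h12, h13, h14⟩ := h
  simp only [CD.ev, BaseP.ev, ev_eqN h1, ev_eqN h2, ev_eqN h3, ev_eqN h4, ev_eqN h5, ev_eqN h6,
    ev_eqN h7, ev_eqN h8, ev_eqN h9, ev_eqN h10, ev_eqN h11, ev_eqN h12, ev_eqN h13, ev_eqN h14]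

/-- comparison of the constraints -/
def CD.chkG (sx sp : ℤ) (P : Par) (N : CD) : Bool :=
  eqN sx sp (GP1 P) N.G1 && (eqN sx sp (GP2 P) N.G2 && (eqN sx sp (GP3 P) N.G3 && eqN sx sp (GP4 P) N.G4))

/-- comparison of the bases -/
def eqB (o : Option BaseP) (B : BaseP) : Bool :=
  match o with
  | some B' =>
    decide (B'.g = B.g) && (decide (B'.k11 = B.k11) && (decide (B'.k12 = B.k12) && (decide (B'.k22 = B.k22) && (
    decide (B'.C0 = B.C0) && (decide (B'.Ck = B.Ck) && (decide (B'.L1 = B.L1) && (decide (B'.L2 = B.L2) && (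
    decide (B'.Lw = B.Lw) && (decide (B'.A11 = B.A11) && (decide (B'.A12 = B.A12) && (decide (B'.W1 = B.W1) && (
    decide (B'.W2 = B.W2) && (decide (B'.psi = B.psi))))))))))))))
  | none => false

theorem eqB_spec {o : Option BaseP} {B : BaseP} (h : eqB o B = true) : o = some B := by
  cases o with
  | none => exact absurd h (by simp [eqB])
  | some B' =>
    simp only [eqB, Bool.and_eq_true, decide_eq_true_eq] at h
    obtain ⟨h1, h2, h3, h4, h5, h6, h7, h8, h9, h10, h11, h12, h13, h14⟩ := h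
    cases B'; cases B
    simp only at h1 h2 h3 h4 h5 h6 h7 h8 h9 h10 h11 h12 h13 h14
    rw [h1, h2, h3, h4, h5, h6, h7, h8, h9, h10, h11, h12, h13, h14]

/-- comparison of the chart data with the base `B` and with the constraints -/
def CD.chk (sx sp : ℤ) (P : Par) (B : BaseP) (N : CD) : Bool :=
  N.chkB sx sp B && N.chkG sx sp P

/-- **the constraints of a sign chart** -/
theorem CD.con {sx sp : ℤ} {P : Par} {B : BaseP} {N : CD} (hP : Pars P) (hn : n45 P.n)
    (h : N.chk sx sp P B = true) {t : ℕ → ℝ}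
    (hd : DomS P.n P.A0 (sx * t 0) (sp * t 1) (t 2) (t 3) (2 * t 4)) :
    0 ≤ CQ.ev t (flat N.G1) ∧ 0 ≤ CQ.ev t (flat N.G2) ∧ 0 ≤ CQ.ev t (flat N.G3) ∧
      0 ≤ CQ.ev t (flat N.G4) := by
  simp only [CD.chk, CD.chkG, Bool.and_eq_true] at h
  obtain ⟨_, h1, h2, h3, h4⟩ := h
  rw [ev_eqN h1, ev_eqN h2, ev_eqN h3, ev_eqN h4]
  exact ⟨GP1_nonneg hP hd, GP2_nonneg hd, GP3_nonneg hn hd, GP4_nonneg hn hd⟩

/-- **the data of a chart are correct** -/
theorem dsok_of_chk {S : DS} {P : Par} {D : Dat} {B : BaseP} {sx sp : ℤ} (hP : Pars P) (hn : n45 P.n)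
    (hB : BS P D = some B)
    (ha : S.an = P.an) (hd : S.ad = P.ad) (hst : S.static = true) (h : S.X.chk sx sp P B = true) :
    DSok S P D (sx : ℝ) (sp : ℝ) where
  pars := hP
  an := ha
  ad := hd
  st := hst
  base := by
    have h' := h
    simp only [CD.chk, Bool.and_eq_true] at h'
    exact ⟨B, hB, fun t => CD.chkB_spec h'.1 t⟩
  gs := fun _ hd' => CD.con hP hn h hd'

/-- parameter check -/
def parOK (P : Par) : Bool :=
  (Nat.beq P.n 4 || Nat.beq P.n 5) && (Nat.blt 0 P.an && (Nat.blt 0 P.ad && (Nat.blt 0 P.ld &&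
    Nat.beq P.N4 (N4of P.n))))

lemma parOK_spec {P : Par} (h : parOK P = true) : Pars P ∧ n45 P.n := by
  simp only [parOK, Bool.and_eq_true, Bool.or_eq_true, Nat.beq_eq, Nat.blt_eq] at h
  obtain ⟨h1, h2, h3, h4, h5⟩ := h
  exact ⟨⟨by rcases h1 with h | h <;> simp [nOK, h], h2, h3, h4, h5⟩, h1⟩

theorem dsok_pp {S : DS} {P : Par} {D : Dat} {B : BaseP} (hP : parOK P = true) (hB : BS P D = some B)
    (ha : S.an = P.an) (hd : S.ad = P.ad) (hst : S.static = true) (h : S.X.chk 1 1 P B = true) :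
    DSok S P D 1 1 := by
  have := dsok_of_chk (parOK_spec hP).1 (parOK_spec hP).2 hB ha hd hst h
  simpa using this

theorem dsok_pm {S : DS} {P : Par} {D : Dat} {B : BaseP} (hP : parOK P = true) (hB : BS P D = some B)
    (ha : S.an = P.an) (hd : S.ad = P.ad) (hst : S.static = true) (h : S.X.chk 1 (-1) P B = true) :
    DSok S P D 1 (-1) := by
  have := dsok_of_chk (parOK_spec hP).1 (parOK_spec hP).2 hB ha hd hst h
  simpa using this

theorem dsok_mp {S : DS} {P : Par} {D : Dat} {B : BaseP} (hP : parOK P = true) (hB : BS P D = some B)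
    (ha : S.an = P.an) (hd : S.ad = P.ad) (hst : S.static = true) (h : S.X.chk (-1) 1 P B = true) :
    DSok S P D (-1) 1 := by
  have := dsok_of_chk (parOK_spec hP).1 (parOK_spec hP).2 hB ha hd hst h
  simpa using this

theorem dsok_mm {S : DS} {P : Par} {D : Dat} {B : BaseP} (hP : parOK P = true) (hB : BS P D = some B)
    (ha : S.an = P.an) (hd : S.ad = P.ad) (hst : S.static = true)
    (h : S.X.chk (-1) (-1) P B = true) : DSok S P D (-1) (-1) := by
  have := dsok_of_chk (parOK_spec hP).1 (parOK_spec hP).2 hB ha hd hst h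
  simpa using this

end Crest.Agent.R097.KA
private theorem rz_b869395b29 : type_of% @_root_.Crest.Agent.R097.KA.deal.eq_def := @_root_.Crest.Agent.R097.KA.deal.eq_def -- L55
private theorem rz_5cd4c14453 : type_of% @_root_.Crest.Agent.R097.KA.deal.eq_1 := @_root_.Crest.Agent.R097.KA.deal.eq_1 -- L55
private theorem rz_12d6211d50 : type_of% @_root_.Crest.Agent.R097.KA.eqB.eq_1 := @_root_.Crest.Agent.R097.KA.eqB.eq_1 -- L232
private theorem rz_764fd94784 : type_of% @_root_.Crest.Agent.R097.KA.msort.eq_def := @_root_.Crest.Agent.R097.KA.msort.eq_def -- L65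
private theorem rz_270e8562eb : type_of% @_root_.Crest.Agent.R097.KA.msort.eq_1 := @_root_.Crest.Agent.R097.KA.msort.eq_1 -- L65
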