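import Mathlib
import Crest.Agent.R097.CQ1
import Crest.Agent.Tools.KB

-- ▼ part R097/KA0
section

/-!
# Row 97, KBA checker: generic rows of an affine-response leaf (helper351)

All quantities are polynomials in `T_0, …, T_4`, built from the base polynomials by addition,
integer multiples and multiplication by `T_i`.  The same function is used for packed naturals,
for `MvPolynomial ℕ ℤ`, for norms, for degrees and for real values.
-/

set_option autoImplicit false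

namespace Crest.Agent.R097.KA

/-- operations -/
structure Ops (α : Type) where
  zero : α
  add : α → α → α
  smul : ℤ → α → α
  mulT : ℕ → α → α

/-- a relation respected by the operations -/
structure ORel {α β : Type} (O : Ops α) (O' : Ops β) (R : α → β → Prop) : Prop where
  zero : R O.zero O'.zero
  add : ∀ {x y x' y'}, R x x' → R y y' → R (O.add x y) (O'.add x' y')
  smul : ∀ (a : ℤ) {x x'}, R x x' → R (O.smul a x) (O'.smul a x')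
  mulT : ∀ (i : ℕ) {x x'}, R x x' → R (O.mulT i x) (O'.mulT i x')

/-- affine function in the local coordinates: `f0 + ∑ f_{i+1} λ_i` -/
structure Aff where
  f0 : ℤ
  f1 : ℤ
  f2 : ℤ
  f3 : ℤ
  f4 : ℤ
  f5 : ℤ

/-- data of a leaf -/
structure Lf where
  B1 : Aff
  B2 : Aff
  B3 : Aff
  Y1 : Aff
  Y2 : Aff
  (S11 S12 S13 S21 S22 S23 : ℤ)
  (P11 P12 P13 P21 P22 P23 P31 P32 P33 : ℤ)
  m : ℤ
  (mu1 mu2 mu3 mu4 : ℤ)
  (n11 n12 n13 n14 n21 n22 n23 n24 n31 n32 n33 n34 : ℤ)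

/-- base polynomials: `L1 … K22` have degree `d`, `Ck` has degree `d+2`, `C0, G_j` have the degree of
row (a), `F_j` (the same constraints) the degree `d+1+(1,0,0,0,0)` of rows (b) -/
structure BaseA (α : Type) where
  L1 : α
  L2 : α
  Lw : α
  A11 : α
  A12 : α
  W1 : α
  W2 : α
  psi : α
  g : α
  K11 : α
  K12 : α
  K22 : α
  Ck : α
  C0 : α
  G1 : α
  G2 : α
  G3 : α
  G4 : α
  F1 : α
  F2 : α
  F3 : α
  F4 : α

/-- relation between bases -/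
structure BRel {α β : Type} (R : α → β → Prop) (b : BaseA α) (b' : BaseA β) : Prop where
  L1 : R b.L1 b'.L1
  L2 : R b.L2 b'.L2
  Lw : R b.Lw b'.Lw
  A11 : R b.A11 b'.A11
  A12 : R b.A12 b'.A12
  W1 : R b.W1 b'.W1
  W2 : R b.W2 b'.W2
  psi : R b.psi b'.psi
  g : R b.g b'.g
  K11 : R b.K11 b'.K11
  K12 : R b.K12 b'.K12
  K22 : R b.K22 b'.K22
  Ck : R b.Ck b'.Ck
  C0 : R b.C0 b'.C0
  G1 : R b.G1 b'.G1
  G2 : R b.G2 b'.G2
  G3 : R b.G3 b'.G3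
  G4 : R b.G4 b'.G4
  F1 : R b.F1 b'.F1
  F2 : R b.F2 b'.F2
  F3 : R b.F3 b'.F3
  F4 : R b.F4 b'.F4

section gen
variable {α : Type} (O : Ops α)

/-- multiplication by `1 + T_i` -/
def up (i : ℕ) (x : α) : α := O.add x (O.mulT i x)

/-- multiplication by `a + b T_i` -/
def lin (a b : ℤ) (i : ℕ) (x : α) : α := O.add (O.smul a x) (O.smul b (O.mulT i x))

/-- multiplication by `∏ (1 + T_i)` -/
def ones (x : α) : α := up O 4 (up O 3 (up O 2 (up O 1 (up O 0 x))))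

/-- integer combination of two, three, four, five terms -/
def c2 (a : ℤ) (x : α) (b : ℤ) (y : α) : α := O.add (O.smul a x) (O.smul b y)
def c3 (a : ℤ) (x : α) (b : ℤ) (y : α) (c : ℤ) (z : α) : α := O.add (c2 O a x b y) (O.smul c z)

/-- terms `c * f * A` -/
abbrev Tms (α : Type) := List (ℤ × Aff × α)

/-- accumulate with the constants of the affine functions -/
def acc0 (l : Tms α) (B : α) : α :=
  l.foldr (fun x acc => O.add acc (O.smul (x.1 * x.2.1.f0) x.2.2)) B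

/-- accumulate `c * f_{i+1} * T_i * A` -/
def accT (sel : Aff → ℤ) (i : ℕ) (l : Tms α) (B : α) : α :=
  l.foldr (fun x acc => O.add acc (O.smul (x.1 * sel x.2.1) (O.mulT i x.2.2))) B

/-- multiply the polynomials by `1 + T_i` -/
def upT (i : ℕ) (l : Tms α) : Tms α := l.map fun x => (x.1, x.2.1, up O i x.2.2)

/-- one step -/
def affStep (sel : Aff → ℤ) (i : ℕ) (s : Tms α × α) : Tms α × α :=
  (upT O i s.1, accT O sel i s.1 (up O i s.2))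

/-- `∏ (1+T_i) * (B0 + ∑ c * A * f(λ))` -/
def affSum (l : Tms α) (B0 : α) : α :=
  (affStep O Aff.f5 4 (affStep O Aff.f4 3 (affStep O Aff.f3 2 (affStep O Aff.f2 1
    (affStep O Aff.f1 0 (l, acc0 O l B0)))))).2

/-- first level quantities -/
structure G5 (α : Type) where
  G1 : α
  G2 : α
  G3 : α
  H1 : α
  H2 : α

/-- `Ĝ_j, Ĥ_j` (degree `d+1`) -/
def g5 (β2 : ℤ) (b : BaseA α) (c : Lf) : G5 α where
  G1 := affSum O [(2, c.B1, b.A11), (1, c.B2, b.A12), (1, c.B3, b.W1), (2, c.Y1, b.g)] (O.smul β2 b.L1)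
  G2 := affSum O [(1, c.B1, b.A12), (1, c.B3, b.W2), (2, c.Y2, b.g)] (O.smul β2 b.L2)
  G3 := affSum O [(1, c.B1, b.W1), (1, c.B2, b.W2), (2, c.B3, b.psi)] (O.smul β2 b.Lw)
  H1 := affSum O [(2, c.B1, b.g), (-2, c.Y1, b.K11), (-2, c.Y2, b.K12)] O.zero
  H2 := affSum O [(2, c.B2, b.g), (-2, c.Y1, b.K12), (-2, c.Y2, b.K22)] O.zero

/-- `ê_j` -/
def ej (γ2 : ℤ) (Gj H1 H2 : α) (s1 s2 : ℤ) : α := c3 O γ2 Gj s1 H1 s2 H2

/-- `D̂` (degree `d+2`) -/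
def dd (β2 : ℤ) (b : BaseA α) (c : Lf) (G : G5 α) : α :=
  affSum O [(1, c.B1, O.add (O.smul β2 (ones O b.L1)) G.G1),
    (1, c.B2, O.add (O.smul β2 (ones O b.L2)) G.G2),
    (1, c.B3, O.add (O.smul β2 (ones O b.Lw)) G.G3), (1, c.Y1, G.H1), (1, c.Y2, G.H2)] O.zero

/-- second level quantities -/
structure R9 (α : Type) where
  R11 : α
  R12 : α
  R13 : α
  R22 : α
  R23 : α
  R33 : α

/-- `-2 (x x' K11 + (x y' + y x') K12 + y y' K22)` -/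
def sks (b : BaseA α) (x y x' y' : ℤ) : α :=
  c3 O (-2 * (x * x')) b.K11 (-2 * (x * y' + y * x')) b.K12 (-2 * (y * y')) b.K22

/-- `R̂` (degree `d`) -/
def r9 (γ2 : ℤ) (b : BaseA α) (c : Lf) : R9 α where
  R11 := O.add (c2 O (2 * γ2 * γ2) b.A11 (4 * γ2 * c.S11) b.g) (sks O b c.S11 c.S21 c.S11 c.S21)
  R22 := O.add (O.smul (4 * γ2 * c.S22) b.g) (sks O b c.S12 c.S22 c.S12 c.S22)
  R33 := O.add (O.smul (2 * γ2 * γ2) b.psi) (sks O b c.S13 c.S23 c.S13 c.S23)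
  R12 := O.add (c2 O (γ2 * γ2) b.A12 (2 * γ2 * (c.S12 + c.S21)) b.g) (sks O b c.S11 c.S21 c.S12 c.S22)
  R13 := O.add (c2 O (γ2 * γ2) b.W1 (2 * γ2 * c.S13) b.g) (sks O b c.S11 c.S21 c.S13 c.S23)
  R23 := O.add (c2 O (γ2 * γ2) b.W2 (2 * γ2 * c.S23) b.g) (sks O b c.S12 c.S22 c.S13 c.S23)

/-- the bilinear form of `R̂` -/
def rbil (r : R9 α) (x1 x2 x3 y1 y2 y3 : ℤ) : α :=
  O.add (c3 O (x1 * y1) r.R11 (x1 * y2 + x2 * y1) r.R12 (x1 * y3 + x3 * y1) r.R13)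
    (c3 O (x2 * y2) r.R22 (x2 * y3 + x3 * y2) r.R23 (x3 * y3) r.R33)

/-- box constants: `1 - s = (u + u' T)/(Ds(1+T))`, ... -/
structure BoxC where
  (as bs Ds : ℤ)
  (aQ bQ DQ : ℤ)
  (av bv Dv : ℤ)
  (an ad : ℤ)

/-- `q̂ X`: multiplication by `an Q - 4 ad t₄² (1 - s²)` (homogenised, degree `(0,0,2,1,2)`) -/
def mulq (k : BoxC) (x : α) : α :=
  O.add
    (lin O (k.an * k.aQ) (k.an * k.bQ) 3 (lin O k.Dv k.Dv 4 (lin O k.Dv k.Dv 4
      (lin O k.Ds k.Ds 2 (lin O k.Ds k.Ds 2 x)))))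
    (lin O (-4 * k.ad * k.DQ) (-4 * k.ad * k.DQ) 3 (lin O k.av k.bv 4 (lin O k.av k.bv 4
      (lin O (k.Ds - k.as) (k.Ds - k.bs) 2 (lin O (k.Ds + k.as) (k.Ds + k.bs) 2 x)))))

/-- elevation of degree `(0,0,2,1,2)` with the denominators -/
def elq (k : BoxC) (x : α) : α :=
  O.smul (k.Ds * k.Ds * k.DQ * k.Dv * k.Dv) (up O 4 (up O 4 (up O 3 (up O 2 (up O 2 x)))))

/-- the eight sign combinations `X ± a ± b ± c` -/
def signs (X a b c : α) : List α :=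
  let u := O.add a b
  let v := O.add a (O.smul (-1) b)
  let x1 := O.add X u
  let x2 := O.add X (O.smul (-1) u)
  let x3 := O.add X v
  let x4 := O.add X (O.smul (-1) v)
  let c' := O.smul (-1) c
  [O.add x1 c, O.add x1 c', O.add x2 c, O.add x2 c', O.add x3 c, O.add x3 c', O.add x4 c, O.add x4 c']

/-- combination of the constraints -/
def gcomb (m1 m2 m3 m4 : ℤ) (g1 g2 g3 g4 : α) : α :=
  O.add (c2 O (-m1) g1 (-m2) g2) (c2 O (-m3) g3 (-m4) g4)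

/-- elevation of the entries of `R̂'` to the degree of rows (b) -/
def bup (x : α) : α := up O 0 (ones O x)

/-- the 32 tests; `β2 = 2^β`, `γ2 = 2^γ`, `q1 = q1n/q1d` -/
def tests (β2 γ2 q1n q1d : ℤ) (k : BoxC) (b : BaseA α) (c : Lf) : List α :=
  let G := g5 O β2 b c
  let e1 := ej O γ2 G.G1 G.H1 G.H2 c.S11 c.S21
  let e2 := ej O γ2 G.G2 G.H1 G.H2 c.S12 c.S22
  let e3 := ej O γ2 G.G3 G.H1 G.H2 c.S13 c.S23
  let l1 := c3 O c.P11 e1 c.P21 e2 c.P31 e3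
  let l2 := c3 O c.P12 e1 c.P22 e2 c.P32 e3
  let l3 := c3 O c.P13 e1 c.P23 e2 c.P33 e3
  let D := O.add (O.smul (2 * β2 * β2) b.Ck) (dd O β2 b c G)
  let X := O.add (O.add (O.smul (c.m * γ2 * (2 * β2 * β2) * k.an) b.C0) (O.smul (c.m * γ2) (mulq O k D)))
    (gcomb O c.mu1 c.mu2 c.mu3 c.mu4 b.G1 b.G2 b.G3 b.G4)
  let w := k.an * β2
  let X1 := O.smul w (elq O k (ones O l1))
  let X2 := O.smul w (elq O k (ones O l2))
  let X3 := O.smul w (elq O k (ones O l3))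
  let r := r9 O γ2 b c
  let z := β2 * q1d
  let q11 := O.smul z (bup O (rbil O r c.P11 c.P21 c.P31 c.P11 c.P21 c.P31))
  let q22 := O.smul z (bup O (rbil O r c.P12 c.P22 c.P32 c.P12 c.P22 c.P32))
  let q33 := O.smul z (bup O (rbil O r c.P13 c.P23 c.P33 c.P13 c.P23 c.P33))
  let q12 := O.smul z (bup O (rbil O r c.P11 c.P21 c.P31 c.P12 c.P22 c.P32))
  let q13 := O.smul z (bup O (rbil O r c.P11 c.P21 c.P31 c.P13 c.P23 c.P33))
  let q23 := O.smul z (bup O (rbil O r c.P12 c.P22 c.P32 c.P13 c.P23 c.P33))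
  let y := q1n * c.m * γ2
  signs O X X1 X2 X3 ++ (signs O (O.add q11 (gcomb O c.n11 c.n12 c.n13 c.n14 b.F1 b.F2 b.F3 b.F4))
      (O.smul y (up O 0 l1)) q12 q13 ++
    (signs O (O.add q22 (gcomb O c.n21 c.n22 c.n23 c.n24 b.F1 b.F2 b.F3 b.F4))
      (O.smul y (up O 0 l2)) q12 q23 ++
    signs O (O.add q33 (gcomb O c.n31 c.n32 c.n33 c.n34 b.F1 b.F2 b.F3 b.F4))
      (O.smul y (up O 0 l3)) q13 q23))

end gen

/-! ### relations -/

section rel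
variable {α β : Type} {O : Ops α} {O' : Ops β} {R : α → β → Prop} (h : ORel O O' R)
include h

lemma rel_up (i : ℕ) {x x'} (hx : R x x') : R (up O i x) (up O' i x') := h.add hx (h.mulT i hx)

lemma rel_lin (a b : ℤ) (i : ℕ) {x x'} (hx : R x x') : R (lin O a b i x) (lin O' a b i x') :=
  h.add (h.smul a hx) (h.smul b (h.mulT i hx))

lemma rel_ones {x x'} (hx : R x x') : R (ones O x) (ones O' x') :=
  rel_up h _ (rel_up h _ (rel_up h _ (rel_up h _ (rel_up h _ hx))))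

lemma rel_c2 (a b : ℤ) {x x' y y'} (hx : R x x') (hy : R y y') : R (c2 O a x b y) (c2 O' a x' b y') :=
  h.add (h.smul a hx) (h.smul b hy)

lemma rel_c3 (a b c : ℤ) {x x' y y' z z'} (hx : R x x') (hy : R y y') (hz : R z z') :
    R (c3 O a x b y c z) (c3 O' a x' b y' c z') :=
  h.add (rel_c2 h a b hx hy) (h.smul c hz)

/-- related terms -/
def TRel (R : α → β → Prop) (x : ℤ × Aff × α) (y : ℤ × Aff × β) : Prop :=
  x.1 = y.1 ∧ x.2.1 = y.2.1 ∧ R x.2.2 y.2.2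

lemma rel_acc0 {l : Tms α} {l' : Tms β} (hl : List.Forall₂ (TRel R) l l') {B B'} (hB : R B B') :
    R (acc0 O l B) (acc0 O' l' B') := by
  induction hl with
  | nil => exact hB
  | cons hx _ ih =>
    simp only [acc0, List.foldr_cons] at ih ⊢
    rw [hx.1, hx.2.1]
    exact h.add ih (h.smul _ hx.2.2)

lemma rel_accT (sel : Aff → ℤ) (i : ℕ) {l : Tms α} {l' : Tms β} (hl : List.Forall₂ (TRel R) l l')
    {B B'} (hB : R B B') : R (accT O sel i l B) (accT O' sel i l' B') := by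
  induction hl with
  | nil => exact hB
  | cons hx _ ih =>
    simp only [accT, List.foldr_cons] at ih ⊢
    rw [hx.1, hx.2.1]
    exact h.add ih (h.smul _ (h.mulT i hx.2.2))

lemma rel_upT (i : ℕ) {l : Tms α} {l' : Tms β} (hl : List.Forall₂ (TRel R) l l') :
    List.Forall₂ (TRel R) (upT O i l) (upT O' i l') := by
  induction hl with
  | nil => exact List.Forall₂.nil
  | cons hx _ ih =>
    refine List.Forall₂.cons ⟨hx.1, hx.2.1, rel_up h i hx.2.2⟩ ih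

lemma rel_affSum {l : Tms α} {l' : Tms β} (hl : List.Forall₂ (TRel R) l l') {B B'} (hB : R B B') :
    R (affSum O l B) (affSum O' l' B') := by
  have key : ∀ (sel : Aff → ℤ) (i : ℕ) (s : Tms α × α) (s' : Tms β × β),
      List.Forall₂ (TRel R) s.1 s'.1 → R s.2 s'.2 →
      List.Forall₂ (TRel R) (affStep O sel i s).1 (affStep O' sel i s').1 ∧
        R (affStep O sel i s).2 (affStep O' sel i s').2 := fun sel i s s' h1 h2 =>
    ⟨rel_upT h i h1, rel_accT h sel i h1 (rel_up h i h2)⟩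
  obtain ⟨a1, b1⟩ := key Aff.f1 0 (l, acc0 O l B) (l', acc0 O' l' B') hl (rel_acc0 h hl hB)
  obtain ⟨a2, b2⟩ := key Aff.f2 1 _ _ a1 b1
  obtain ⟨a3, b3⟩ := key Aff.f3 2 _ _ a2 b2
  obtain ⟨a4, b4⟩ := key Aff.f4 3 _ _ a3 b3
  exact (key Aff.f5 4 _ _ a4 b4).2

lemma trel (c : ℤ) (f : Aff) {x x'} (hx : R x x') : TRel R (c, f, x) (c, f, x') := ⟨rfl, rfl, hx⟩

/-- related first level quantities -/
structure GRel (R : α → β → Prop) (G : G5 α) (G' : G5 β) : Prop where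
  G1 : R G.G1 G'.G1
  G2 : R G.G2 G'.G2
  G3 : R G.G3 G'.G3
  H1 : R G.H1 G'.H1
  H2 : R G.H2 G'.H2

lemma rel_g5 (β2 : ℤ) {b : BaseA α} {b' : BaseA β} (hb : BRel R b b') (c : Lf) :
    GRel R (g5 O β2 b c) (g5 O' β2 b' c) where
  G1 := rel_affSum h (.cons (trel h _ _ hb.A11) (.cons (trel h _ _ hb.A12) (.cons (trel h _ _ hb.W1)
    (.cons (trel h _ _ hb.g) .nil)))) (h.smul _ hb.L1)
  G2 := rel_affSum h (.cons (trel h _ _ hb.A12) (.cons (trel h _ _ hb.W2)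
    (.cons (trel h _ _ hb.g) .nil))) (h.smul _ hb.L2)
  G3 := rel_affSum h (.cons (trel h _ _ hb.W1) (.cons (trel h _ _ hb.W2)
    (.cons (trel h _ _ hb.psi) .nil))) (h.smul _ hb.Lw)
  H1 := rel_affSum h (.cons (trel h _ _ hb.g) (.cons (trel h _ _ hb.K11)
    (.cons (trel h _ _ hb.K12) .nil))) h.zero
  H2 := rel_affSum h (.cons (trel h _ _ hb.g) (.cons (trel h _ _ hb.K12)
    (.cons (trel h _ _ hb.K22) .nil))) h.zero

lemma rel_dd (β2 : ℤ) {b : BaseA α} {b' : BaseA β} (hb : BRel R b b') (c : Lf)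
    {G : G5 α} {G' : G5 β} (hG : GRel R G G') : R (dd O β2 b c G) (dd O' β2 b' c G') :=
  rel_affSum h (.cons (trel h _ _ (h.add (h.smul _ (rel_ones h hb.L1)) hG.G1))
    (.cons (trel h _ _ (h.add (h.smul _ (rel_ones h hb.L2)) hG.G2))
    (.cons (trel h _ _ (h.add (h.smul _ (rel_ones h hb.Lw)) hG.G3))
    (.cons (trel h _ _ hG.H1) (.cons (trel h _ _ hG.H2) .nil))))) h.zero

/-- related second level quantities -/
structure RRel (R : α → β → Prop) (r : R9 α) (r' : R9 β) : Prop where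
  R11 : R r.R11 r'.R11
  R12 : R r.R12 r'.R12
  R13 : R r.R13 r'.R13
  R22 : R r.R22 r'.R22
  R23 : R r.R23 r'.R23
  R33 : R r.R33 r'.R33

lemma rel_sks {b : BaseA α} {b' : BaseA β} (hb : BRel R b b') (x y x' y' : ℤ) :
    R (sks O b x y x' y') (sks O' b' x y x' y') := rel_c3 h _ _ _ hb.K11 hb.K12 hb.K22

lemma rel_r9 (γ2 : ℤ) {b : BaseA α} {b' : BaseA β} (hb : BRel R b b') (c : Lf) :
    RRel R (r9 O γ2 b c) (r9 O' γ2 b' c) where
  R11 := h.add (rel_c2 h _ _ hb.A11 hb.g) (rel_sks h hb _ _ _ _)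
  R12 := h.add (rel_c2 h _ _ hb.A12 hb.g) (rel_sks h hb _ _ _ _)
  R13 := h.add (rel_c2 h _ _ hb.W1 hb.g) (rel_sks h hb _ _ _ _)
  R22 := h.add (h.smul _ hb.g) (rel_sks h hb _ _ _ _)
  R23 := h.add (rel_c2 h _ _ hb.W2 hb.g) (rel_sks h hb _ _ _ _)
  R33 := h.add (h.smul _ hb.psi) (rel_sks h hb _ _ _ _)

lemma rel_rbil {r : R9 α} {r' : R9 β} (hr : RRel R r r') (x1 x2 x3 y1 y2 y3 : ℤ) :
    R (rbil O r x1 x2 x3 y1 y2 y3) (rbil O' r' x1 x2 x3 y1 y2 y3) :=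
  h.add (rel_c3 h _ _ _ hr.R11 hr.R12 hr.R13) (rel_c3 h _ _ _ hr.R22 hr.R23 hr.R33)

lemma rel_mulq (k : BoxC) {x x'} (hx : R x x') : R (mulq O k x) (mulq O' k x') :=
  h.add
    (rel_lin h _ _ _ (rel_lin h _ _ _ (rel_lin h _ _ _ (rel_lin h _ _ _ (rel_lin h _ _ _ hx)))))
    (rel_lin h _ _ _ (rel_lin h _ _ _ (rel_lin h _ _ _ (rel_lin h _ _ _ (rel_lin h _ _ _ hx)))))

lemma rel_elq (k : BoxC) {x x'} (hx : R x x') : R (elq O k x) (elq O' k x') :=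
  h.smul _ (rel_up h _ (rel_up h _ (rel_up h _ (rel_up h _ (rel_up h _ hx)))))

lemma rel_signs {X X' a a' b b' c c'} (hX : R X X') (ha : R a a') (hb : R b b') (hc : R c c') :
    List.Forall₂ R (signs O X a b c) (signs O' X' a' b' c') := by
  have hu := h.add ha hb
  have hv := h.add ha (h.smul (-1) hb)
  have h1 := h.add hX hu
  have h2 := h.add hX (h.smul (-1) hu)
  have h3 := h.add hX hv
  have h4 := h.add hX (h.smul (-1) hv)
  have hc' := h.smul (-1) hc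
  exact .cons (h.add h1 hc) (.cons (h.add h1 hc') (.cons (h.add h2 hc) (.cons (h.add h2 hc')
    (.cons (h.add h3 hc) (.cons (h.add h3 hc') (.cons (h.add h4 hc) (.cons (h.add h4 hc') .nil)))))))

lemma rel_gcomb (m1 m2 m3 m4 : ℤ) {g1 g2 g3 g4 : α} {g1' g2' g3' g4' : β} (h1 : R g1 g1')
    (h2 : R g2 g2') (h3 : R g3 g3') (h4 : R g4 g4') :
    R (gcomb O m1 m2 m3 m4 g1 g2 g3 g4) (gcomb O' m1 m2 m3 m4 g1' g2' g3' g4') :=
  h.add (rel_c2 h _ _ h1 h2) (rel_c2 h _ _ h3 h4)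

lemma rel_bup {x x'} (hx : R x x') : R (bup O x) (bup O' x') := rel_up h _ (rel_ones h hx)

lemma rel_tests (β2 γ2 q1n q1d : ℤ) (k : BoxC) {b : BaseA α} {b' : BaseA β} (hb : BRel R b b')
    (c : Lf) : List.Forall₂ R (tests O β2 γ2 q1n q1d k b c) (tests O' β2 γ2 q1n q1d k b' c) := by
  have hG := rel_g5 h β2 hb c
  have he1 : R (ej O γ2 (g5 O β2 b c).G1 (g5 O β2 b c).H1 (g5 O β2 b c).H2 c.S11 c.S21)
      (ej O' γ2 (g5 O' β2 b' c).G1 (g5 O' β2 b' c).H1 (g5 O' β2 b' c).H2 c.S11 c.S21) :=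
    rel_c3 h _ _ _ hG.G1 hG.H1 hG.H2
  have he2 : R (ej O γ2 (g5 O β2 b c).G2 (g5 O β2 b c).H1 (g5 O β2 b c).H2 c.S12 c.S22)
      (ej O' γ2 (g5 O' β2 b' c).G2 (g5 O' β2 b' c).H1 (g5 O' β2 b' c).H2 c.S12 c.S22) :=
    rel_c3 h _ _ _ hG.G2 hG.H1 hG.H2
  have he3 : R (ej O γ2 (g5 O β2 b c).G3 (g5 O β2 b c).H1 (g5 O β2 b c).H2 c.S13 c.S23)
      (ej O' γ2 (g5 O' β2 b' c).G3 (g5 O' β2 b' c).H1 (g5 O' β2 b' c).H2 c.S13 c.S23) :=
    rel_c3 h _ _ _ hG.G3 hG.H1 hG.H2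
  have hl1 := rel_c3 h c.P11 c.P21 c.P31 he1 he2 he3
  have hl2 := rel_c3 h c.P12 c.P22 c.P32 he1 he2 he3
  have hl3 := rel_c3 h c.P13 c.P23 c.P33 he1 he2 he3
  have hD := h.add (h.smul (2 * β2 * β2) hb.Ck) (rel_dd h β2 hb c hG)
  have hX := h.add (h.add (h.smul (c.m * γ2 * (2 * β2 * β2) * k.an) hb.C0)
    (h.smul (c.m * γ2) (rel_mulq h k hD)))
    (rel_gcomb h c.mu1 c.mu2 c.mu3 c.mu4 hb.G1 hb.G2 hb.G3 hb.G4)
  have hr := rel_r9 h γ2 hb c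
  have hz : ∀ x1 x2 x3 y1 y2 y3 : ℤ,
      R (O.smul (β2 * q1d) (bup O (rbil O (r9 O γ2 b c) x1 x2 x3 y1 y2 y3)))
        (O'.smul (β2 * q1d) (bup O' (rbil O' (r9 O' γ2 b' c) x1 x2 x3 y1 y2 y3))) :=
    fun x1 x2 x3 y1 y2 y3 => h.smul _ (rel_bup h (rel_rbil h hr _ _ _ _ _ _))
  have hX' : ∀ {l l'}, R l l' → R (O.smul (k.an * β2) (elq O k (ones O l)))
      (O'.smul (k.an * β2) (elq O' k (ones O' l'))) := fun hl => h.smul _ (rel_elq h k (rel_ones h hl))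
  have hF : ∀ m1 m2 m3 m4 : ℤ, R (gcomb O m1 m2 m3 m4 b.F1 b.F2 b.F3 b.F4)
      (gcomb O' m1 m2 m3 m4 b'.F1 b'.F2 b'.F3 b'.F4) := fun m1 m2 m3 m4 =>
    rel_gcomb h m1 m2 m3 m4 hb.F1 hb.F2 hb.F3 hb.F4
  exact List.rel_append (rel_signs h hX (hX' hl1) (hX' hl2) (hX' hl3))
    (List.rel_append (rel_signs h (h.add (hz _ _ _ _ _ _) (hF _ _ _ _)) (h.smul _ (rel_up h 0 hl1))
      (hz _ _ _ _ _ _) (hz _ _ _ _ _ _))
    (List.rel_append (rel_signs h (h.add (hz _ _ _ _ _ _) (hF _ _ _ _)) (h.smul _ (rel_up h 0 hl2))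
      (hz _ _ _ _ _ _) (hz _ _ _ _ _ _))
      (rel_signs h (h.add (hz _ _ _ _ _ _) (hF _ _ _ _)) (h.smul _ (rel_up h 0 hl3))
      (hz _ _ _ _ _ _) (hz _ _ _ _ _ _))))

end rel

end Crest.Agent.R097.KA
end

-- ▼ part R097/KP1

/-!
# Row 97, KBA checker: polynomial semantics (helper351)
-/

set_option autoImplicit false

namespace Crest.Agent.R097.KA

open MvPolynomial Crest.Agent.R097.CQ Crest.Agent.KB

/-- a function of the five indices -/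
def fn5 {α : Type} (a0 a1 a2 a3 a4 : α) : ℕ → α
  | 0 => a0
  | 1 => a1
  | 2 => a2
  | 3 => a3
  | _ => a4

/-- clamp to `{0,…,4}` -/
def cl : ℕ → ℕ
  | 0 => 0
  | 1 => 1
  | 2 => 2
  | 3 => 3
  | _ => 4

lemma cl_lt (i : ℕ) : cl i < 5 := by
  unfold cl; split <;> norm_num

/-- one variable factor -/
noncomputable def fac (a b D d f e i : ℕ) : MvPolynomial ℕ ℤ :=
  (C (a : ℤ) + C (b : ℤ) * X i) ^ e * C ((D : ℤ) ^ (d - e)) * (C (1 : ℤ) + C (1 : ℤ) * X i) ^ (f - e)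

/-- homogenised monomial -/
noncomputable def homM (a b D d f : ℕ → ℕ) (e : List ℕ) : MvPolynomial ℕ ℤ :=
  fac (a 0) (b 0) (D 0) (d 0) (f 0) (e.getD 0 0) 0 * fac (a 1) (b 1) (D 1) (d 1) (f 1) (e.getD 1 0) 1 *
    fac (a 2) (b 2) (D 2) (d 2) (f 2) (e.getD 2 0) 2 * fac (a 3) (b 3) (D 3) (d 3) (f 3) (e.getD 3 0) 3 *
    fac (a 4) (b 4) (D 4) (d 4) (f 4) (e.getD 4 0) 4

/-- homogenised polynomial on a box: `x_i = (a_i + b_i T_i)/(D_i (1+T_i))`, degree `d`, elevated to `f` -/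
noncomputable def hom (a b D d f : ℕ → ℕ) : SP → MvPolynomial ℕ ℤ
  | [] => 0
  | m :: p => C m.1 * homM a b D d f m.2 + hom a b D d f p

/-- exponents of a polynomial are at most `d` -/
def expOK (d : ℕ → ℕ) (p : SP) : Bool :=
  p.all fun m => Nat.ble m.2.length 5 && (Nat.ble (m.2.getD 0 0) (d 0) && (Nat.ble (m.2.getD 1 0) (d 1) &&
    (Nat.ble (m.2.getD 2 0) (d 2) && (Nat.ble (m.2.getD 3 0) (d 3) && Nat.ble (m.2.getD 4 0) (d 4)))))

lemma expOK_cons {d : ℕ → ℕ} {m : ℤ × List ℕ} {p : SP} (h : expOK d (m :: p) = true) :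
    (m.2.length ≤ 5 ∧ m.2.getD 0 0 ≤ d 0 ∧ m.2.getD 1 0 ≤ d 1 ∧ m.2.getD 2 0 ≤ d 2 ∧
      m.2.getD 3 0 ≤ d 3 ∧ m.2.getD 4 0 ≤ d 4) ∧ expOK d p = true := by
  simp only [expOK, List.all_cons, Bool.and_eq_true, Nat.ble_eq] at h ⊢
  tauto

/-! ### degrees -/

lemma degreeOf_fac (a b D d f e i j : ℕ) (h : e ≤ f) :
    degreeOf j (fac a b D d f e i) ≤ if j = i then f else 0 := by
  unfold fac
  refine (degreeOf_mul_le _ _ _).trans ?_
  refine (Nat.add_le_add (degreeOf_mul_le _ _ _) le_rfl).trans ?_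
  have h1 := degreeOf_lin j i (a : ℤ) (b : ℤ) e
  have h2 := degreeOf_lin j i (1 : ℤ) (1 : ℤ) (f - e)
  have h3 : degreeOf j (C ((D : ℤ) ^ (d - e)) : MvPolynomial ℕ ℤ) = 0 := degreeOf_C _ _
  rw [h3]
  split_ifs at h1 h2 ⊢ with hj
  · omega
  · omega

lemma degreeOf_homM (a b D d f : ℕ → ℕ) (e : List ℕ) (j : ℕ) (h0 : e.getD 0 0 ≤ f 0)
    (h1 : e.getD 1 0 ≤ f 1) (h2 : e.getD 2 0 ≤ f 2) (h3 : e.getD 3 0 ≤ f 3) (h4 : e.getD 4 0 ≤ f 4) :
    degreeOf j (homM a b D d f e) ≤ (if j < 5 then f j else 0) := by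
  unfold homM
  have k0 := degreeOf_fac (a 0) (b 0) (D 0) (d 0) (f 0) (e.getD 0 0) 0 j h0
  have k1 := degreeOf_fac (a 1) (b 1) (D 1) (d 1) (f 1) (e.getD 1 0) 1 j h1
  have k2 := degreeOf_fac (a 2) (b 2) (D 2) (d 2) (f 2) (e.getD 2 0) 2 j h2
  have k3 := degreeOf_fac (a 3) (b 3) (D 3) (d 3) (f 3) (e.getD 3 0) 3 j h3
  have k4 := degreeOf_fac (a 4) (b 4) (D 4) (d 4) (f 4) (e.getD 4 0) 4 j h4
  refine (degreeOf_mul_le _ _ _).trans ?_
  refine (Nat.add_le_add ((degreeOf_mul_le _ _ _).trans (Nat.add_le_add ((degreeOf_mul_le _ _ _).trans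
    (Nat.add_le_add (degreeOf_mul_le _ _ _) le_rfl)) le_rfl)) le_rfl).trans ?_
  rcases Nat.lt_or_ge j 5 with hj | hj
  · rw [if_pos hj]
    interval_cases j <;> simp only [reduceIte, OfNat.ofNat_ne_zero, OfNat.zero_ne_ofNat, OfNat.one_ne_ofNat,
      OfNat.ofNat_ne_one, one_ne_zero, zero_ne_one, Nat.reduceEqDiff] at k0 k1 k2 k3 k4 <;> omega
  · rw [if_neg (by omega)]
    rw [if_neg (by omega)] at k0 k1 k2 k3 k4
    omega

lemma degreeOf_hom (a b D d f : ℕ → ℕ) (hdf : ∀ i < 5, d i ≤ f i) (j : ℕ) :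
    ∀ p : SP, expOK d p = true → degreeOf j (hom a b D d f p) ≤ (if j < 5 then f j else 0)
  | [], _ => by simp [hom]
  | m :: p, h => by
    obtain ⟨⟨_, h0, h1, h2, h3, h4⟩, hp⟩ := expOK_cons h
    have ih := degreeOf_hom a b D d f hdf j p hp
    rw [hom]
    refine (degreeOf_add_le _ _ _).trans (max_le ?_ ih)
    refine (degreeOf_C_mul_le _ _ _).trans ?_
    exact degreeOf_homM a b D d f m.2 j (h0.trans (hdf 0 (by norm_num))) (h1.trans (hdf 1 (by norm_num)))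
      (h2.trans (hdf 2 (by norm_num))) (h3.trans (hdf 3 (by norm_num))) (h4.trans (hdf 4 (by norm_num)))

/-! ### norms -/

lemma maj_lin (u v : ℕ) (i : ℕ) : Maj (C (u : ℤ) + C (v : ℤ) * X i) ((u + v : ℕ) : ℤ) := by
  refine Maj.mono ((Maj.C (u : ℤ)).add ((Maj.C (v : ℤ)).mul (Maj.X i))) ?_
  push_cast
  rw [mul_one, abs_of_nonneg (by positivity), abs_of_nonneg (by positivity)]

lemma maj_fac (a b D d f e i : ℕ) (hab : a + b ≤ 2 * D) (h1 : e ≤ d) (h2 : d ≤ f) :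
    Maj (fac a b D d f e i) ((D ^ d * 2 ^ f : ℕ) : ℤ) := by
  unfold fac
  have k1 : Maj ((C (a : ℤ) + C (b : ℤ) * X i : MvPolynomial ℕ ℤ) ^ e) (((2 * D : ℕ) : ℤ) ^ e) :=
    Maj.pow (Maj.mono (maj_lin a b i) (by exact_mod_cast hab)) e
  have k2 : Maj (C ((D : ℤ) ^ (d - e)) : MvPolynomial ℕ ℤ) ((D : ℤ) ^ (d - e)) := by
    have := Maj.C ((D : ℤ) ^ (d - e))
    rwa [abs_of_nonneg (by positivity)] at this
  have k3 : Maj ((C (1 : ℤ) + C (1 : ℤ) * X i : MvPolynomial ℕ ℤ) ^ (f - e)) ((2 : ℤ) ^ (f - e)) := by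
    have := maj_lin 1 1 i
    exact Maj.pow (by simpa using this) _
  refine Maj.mono ((k1.mul k2).mul k3) (le_of_eq ?_)
  push_cast
  have e1 : (D : ℤ) ^ d = D ^ e * D ^ (d - e) := by rw [← pow_add]; congr 1; omega
  have e2 : (2 : ℤ) ^ f = 2 ^ e * 2 ^ (f - e) := by rw [← pow_add]; congr 1; omega
  rw [e1, e2, mul_pow]
  ring

/-- the common factor of the norms -/
def nfac (D d f : ℕ → ℕ) : ℕ :=
  D 0 ^ d 0 * 2 ^ f 0 * (D 1 ^ d 1 * 2 ^ f 1) * (D 2 ^ d 2 * 2 ^ f 2) * (D 3 ^ d 3 * 2 ^ f 3) *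
    (D 4 ^ d 4 * 2 ^ f 4)

/-- sum of the absolute values of the coefficients -/
def csum : SP → ℕ
  | [] => 0
  | m :: p => m.1.natAbs + csum p

lemma maj_homM (a b D d f : ℕ → ℕ) (hab : ∀ i < 5, a i + b i ≤ 2 * D i) (hdf : ∀ i < 5, d i ≤ f i)
    (e : List ℕ) (h0 : e.getD 0 0 ≤ d 0)
    (h1 : e.getD 1 0 ≤ d 1) (h2 : e.getD 2 0 ≤ d 2) (h3 : e.getD 3 0 ≤ d 3) (h4 : e.getD 4 0 ≤ d 4) :
    Maj (homM a b D d f e) (nfac D d f : ℤ) := by
  unfold homM nfac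
  push_cast
  have k0 := maj_fac (a 0) (b 0) (D 0) (d 0) (f 0) (e.getD 0 0) 0 (hab 0 (by norm_num)) h0 (hdf 0 (by norm_num))
  have k1 := maj_fac (a 1) (b 1) (D 1) (d 1) (f 1) (e.getD 1 0) 1 (hab 1 (by norm_num)) h1 (hdf 1 (by norm_num))
  have k2 := maj_fac (a 2) (b 2) (D 2) (d 2) (f 2) (e.getD 2 0) 2 (hab 2 (by norm_num)) h2 (hdf 2 (by norm_num))
  have k3 := maj_fac (a 3) (b 3) (D 3) (d 3) (f 3) (e.getD 3 0) 3 (hab 3 (by norm_num)) h3 (hdf 3 (by norm_num))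
  have k4 := maj_fac (a 4) (b 4) (D 4) (d 4) (f 4) (e.getD 4 0) 4 (hab 4 (by norm_num)) h4 (hdf 4 (by norm_num))
  push_cast at k0 k1 k2 k3 k4
  exact (((k0.mul k1).mul k2).mul k3).mul k4

lemma maj_hom (a b D d f : ℕ → ℕ) (hab : ∀ i < 5, a i + b i ≤ 2 * D i) (hdf : ∀ i < 5, d i ≤ f i) :
    ∀ p : SP, expOK d p = true → Maj (hom a b D d f p) ((csum p * nfac D d f : ℕ) : ℤ)
  | [], _ => by
    have := Maj.C 0
    simpa [hom, csum] using this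
  | m :: p, h => by
    obtain ⟨⟨_, h0, h1, h2, h3, h4⟩, hp⟩ := expOK_cons h
    have ih := maj_hom a b D d f hab hdf p hp
    rw [hom, csum]
    refine Maj.mono (((Maj.C m.1).mul (maj_homM a b D d f hab hdf m.2 h0 h1 h2 h3 h4)).add ih) ?_
    push_cast
    rw [add_mul]

/-! ### real values -/

lemma eval₂_fac (a b D d f e i : ℕ) (t : ℕ → ℝ) (x : ℝ) (hx : (a : ℝ) + b * t i = x * (D * (1 + t i)))
    (h1 : e ≤ d) (h2 : d ≤ f) :
    eval₂ (Int.castRingHom ℝ) t (fac a b D d f e i) = x ^ e * ((D : ℝ) ^ d * (1 + t i) ^ f) := by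
  unfold fac
  simp only [eval₂_mul, eval₂_pow, eval₂_add, eval₂_C, eval₂_X, Int.coe_castRingHom]
  push_cast
  rw [hx]
  have e1 : (D : ℝ) ^ d = D ^ e * D ^ (d - e) := by rw [← pow_add]; congr 1; omega
  have e2 : (1 + t i) ^ f = (1 + t i) ^ e * (1 + t i) ^ (f - e) := by rw [← pow_add]; congr 1; omega
  rw [e1, e2, mul_pow, mul_pow, one_mul]
  ring

/-- the positive factor of the real values -/
noncomputable def rfac (D d f : ℕ → ℕ) (t : ℕ → ℝ) : ℝ :=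
  (D 0 : ℝ) ^ d 0 * (1 + t 0) ^ f 0 * ((D 1 : ℝ) ^ d 1 * (1 + t 1) ^ f 1) *
    ((D 2 : ℝ) ^ d 2 * (1 + t 2) ^ f 2) * ((D 3 : ℝ) ^ d 3 * (1 + t 3) ^ f 3) *
    ((D 4 : ℝ) ^ d 4 * (1 + t 4) ^ f 4)

lemma mon_eq (x : ℕ → ℝ) (e : List ℕ) (h : e.length ≤ 5) :
    mon x 0 e = x 0 ^ e.getD 0 0 * x 1 ^ e.getD 1 0 * x 2 ^ e.getD 2 0 * x 3 ^ e.getD 3 0 *
      x 4 ^ e.getD 4 0 := by
  rcases e with _ | ⟨e0, _ | ⟨e1, _ | ⟨e2, _ | ⟨e3, _ | ⟨e4, _ | ⟨e5, e⟩⟩⟩⟩⟩⟩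
  all_goals first
    | (simp only [List.length_cons] at h; omega)
    | (simp [mon]; try ring)

lemma eval₂_hom (a b D d f : ℕ → ℕ) (t x : ℕ → ℝ)
    (hx : ∀ i < 5, (a i : ℝ) + b i * t i = x i * (D i * (1 + t i))) (hdf : ∀ i < 5, d i ≤ f i) :
    ∀ p : SP, expOK d p = true → eval₂ (Int.castRingHom ℝ) t (hom a b D d f p)
      = rfac D d f t * ev x p
  | [], _ => by simp [hom, ev]
  | m :: p, h => by
    obtain ⟨⟨hl, h0, h1, h2, h3, h4⟩, hp⟩ := expOK_cons h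
    have ih := eval₂_hom a b D d f t x hx hdf p hp
    rw [hom, ev, eval₂_add, ih, eval₂_mul, eval₂_C, mon_eq x m.2 hl]
    unfold homM
    simp only [eval₂_mul]
    rw [eval₂_fac _ _ _ _ _ _ _ t (x 0) (hx 0 (by norm_num)) h0 (hdf 0 (by norm_num)),
      eval₂_fac _ _ _ _ _ _ _ t (x 1) (hx 1 (by norm_num)) h1 (hdf 1 (by norm_num)),
      eval₂_fac _ _ _ _ _ _ _ t (x 2) (hx 2 (by norm_num)) h2 (hdf 2 (by norm_num)),
      eval₂_fac _ _ _ _ _ _ _ t (x 3) (hx 3 (by norm_num)) h3 (hdf 3 (by norm_num)),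
      eval₂_fac _ _ _ _ _ _ _ t (x 4) (hx 4 (by norm_num)) h4 (hdf 4 (by norm_num))]
    unfold rfac
    simp only [Int.coe_castRingHom]
    ring

end Crest.Agent.R097.KA
private theorem rz_cc20cdcc67 : type_of% @_root_.Crest.Agent.R097.KA.cl.eq_1 := @_root_.Crest.Agent.R097.KA.cl.eq_1 -- L24
private theorem rz_bf0b9ec1d0 : type_of% @_root_.Crest.Agent.R097.KA.csum.eq_def := @_root_.Crest.Agent.R097.KA.csum.eq_def -- L138
private theorem rz_825b1e6574 : type_of% @_root_.Crest.Agent.R097.KA.csum.eq_1 := @_root_.Crest.Agent.R097.KA.csum.eq_1 -- L138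
private theorem rz_be53eac42a : type_of% @_root_.Crest.Agent.R097.KA.fn5.eq_1 := @_root_.Crest.Agent.R097.KA.fn5.eq_1 -- L16
private theorem rz_c2e632c942 : type_of% @_root_.Crest.Agent.R097.KA.hom.eq_def := @_root_.Crest.Agent.R097.KA.hom.eq_def -- L45
private theorem rz_e6d5b2f9bc : type_of% @_root_.Crest.Agent.R097.KA.hom.eq_1 := @_root_.Crest.Agent.R097.KA.hom.eq_1 -- L45
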