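import Crest.Agent.R097.KP2
import Crest.Agent.R097.KP1
import Crest.Agent.R097.CQ4

-- ▼ part R097/KP3
section

/-!
# Row 97, KBA checker: the tests give a leaf at every state of the box (helper351)
-/

set_option autoImplicit false
set_option linter.unusedSimpArgs false

namespace Crest.Agent.R097.KA

open Crest.Agent.R097.CQ

section real
variable (t : ℕ → ℝ)

lemma OR_zero : (OR t).zero = 0 := rfl
lemma OR_add (x y : ℝ) : (OR t).add x y = x + y := rfl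
lemma OR_smul (a : ℤ) (x : ℝ) : (OR t).smul a x = a * x := rfl
lemma OR_mulT (i : ℕ) (x : ℝ) : (OR t).mulT i x = t (cl i) * x := rfl

/-- the real base of the rows: `ρ` times the base quantities -/
structure RB (t : ℕ → ℝ) (ρ θ : ℝ) (B : TEl.Base) (b : BaseA ℝ) : Prop where
  L1 : b.L1 = ρ * B.L1
  L2 : b.L2 = ρ * B.L2
  Lw : b.Lw = ρ * B.Lw
  A11 : b.A11 = ρ * B.A11
  A12 : b.A12 = ρ * B.A12
  W1 : b.W1 = ρ * B.W1
  W2 : b.W2 = ρ * B.W2
  psi : b.psi = ρ * B.psi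
  g : b.g = ρ * B.g
  K11 : b.K11 = ρ * B.k11
  K12 : b.K12 = ρ * B.k12
  K22 : b.K22 = ρ * B.k22
  Ck : b.Ck = ρ * om t ^ 2 * B.Ck
  C0 : b.C0 = ρ * om t ^ 2 * θ * B.C0
  G1 : 0 ≤ b.G1
  G2 : 0 ≤ b.G2
  G3 : 0 ≤ b.G3
  G4 : 0 ≤ b.G4
  F1 : 0 ≤ b.F1
  F2 : 0 ≤ b.F2
  F3 : 0 ≤ b.F3
  F4 : 0 ≤ b.F4

/-- the leaf with the values of the affine functions -/
noncomputable def aleaf (β2 γ2 : ℤ) (c : Lf) (lam : ℕ → ℝ) : TEl.ALeaf where
  bt := β2
  gm := γ2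
  B1 := c.B1.val lam
  B2 := c.B2.val lam
  B3 := c.B3.val lam
  Y1 := c.Y1.val lam
  Y2 := c.Y2.val lam
  S11 := c.S11
  S12 := c.S12
  S13 := c.S13
  S21 := c.S21
  S22 := c.S22
  S23 := c.S23
  p11 := c.P11
  p12 := c.P12
  p13 := c.P13
  p21 := c.P21
  p22 := c.P22
  p23 := c.P23
  p31 := c.P31
  p32 := c.P32
  p33 := c.P33
  m := c.m

variable {t} {ρ θ : ℝ} {B : TEl.Base} {b : BaseA ℝ} (hb : RB t ρ θ B b)
  {lam : ℕ → ℝ} (hl : ∀ i < 5, t i = lam i * (1 + t i)) (β2 γ2 : ℤ) (c : Lf)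
include hb hl

lemma g5_real1 : (g5 (OR t) β2 b c).G1 = om t * ρ * (aleaf β2 γ2 c lam).G1 B := by
  simp only [g5]
  rw [affSum_real t lam hl]
  simp only [List.map_cons, List.map_nil, List.sum_cons, List.sum_nil, OR_zero, OR_add, OR_smul, OR_mulT, hb.L1, hb.A11, hb.A12,
    hb.W1, hb.g, TEl.ALeaf.G1, aleaf]
  push_cast
  ring

lemma g5_real2 : (g5 (OR t) β2 b c).G2 = om t * ρ * (aleaf β2 γ2 c lam).G2 B := by
  simp only [g5]
  rw [affSum_real t lam hl]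
  simp only [List.map_cons, List.map_nil, List.sum_cons, List.sum_nil, OR_zero, OR_add, OR_smul, OR_mulT, hb.L2, hb.A12,
    hb.W2, hb.g, TEl.ALeaf.G2, aleaf]
  push_cast
  ring

lemma g5_real3 : (g5 (OR t) β2 b c).G3 = om t * ρ * (aleaf β2 γ2 c lam).G3 B := by
  simp only [g5]
  rw [affSum_real t lam hl]
  simp only [List.map_cons, List.map_nil, List.sum_cons, List.sum_nil, OR_zero, OR_add, OR_smul, OR_mulT, hb.Lw, hb.W1,
    hb.W2, hb.psi, TEl.ALeaf.G3, aleaf]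
  push_cast
  ring

lemma g5_realH1 : (g5 (OR t) β2 b c).H1 = om t * ρ * (aleaf β2 γ2 c lam).H1 B := by
  simp only [g5]
  rw [affSum_real t lam hl]
  simp only [List.map_cons, List.map_nil, List.sum_cons, List.sum_nil, OR_zero, OR_add, OR_smul, OR_mulT, hb.g, hb.K11,
    hb.K12, TEl.ALeaf.H1, aleaf]
  push_cast
  ring

lemma g5_realH2 : (g5 (OR t) β2 b c).H2 = om t * ρ * (aleaf β2 γ2 c lam).H2 B := by
  simp only [g5]
  rw [affSum_real t lam hl]
  simp only [List.map_cons, List.map_nil, List.sum_cons, List.sum_nil, OR_zero, OR_add, OR_smul, OR_mulT, hb.g, hb.K22,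
    hb.K12, TEl.ALeaf.H2, aleaf]
  push_cast
  ring

lemma dd_real : dd (OR t) β2 b c (g5 (OR t) β2 b c) = om t ^ 2 * ρ *
    ((aleaf β2 γ2 c lam).Dh B - 2 * (β2 : ℝ) ^ 2 * B.Ck) := by
  simp only [dd]
  rw [affSum_real t lam hl]
  simp only [List.map_cons, List.map_nil, List.sum_cons, List.sum_nil, ones_real,
    g5_real1 hb hl β2 γ2 c, g5_real2 hb hl β2 γ2 c, g5_real3 hb hl β2 γ2 c, g5_realH1 hb hl β2 γ2 c,
    g5_realH2 hb hl β2 γ2 c, OR_zero, OR_add, OR_smul, OR_mulT, hb.L1, hb.L2, hb.Lw, TEl.ALeaf.Dh]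
  simp only [aleaf]
  push_cast
  ring

lemma ej_real1 : ej (OR t) γ2 (g5 (OR t) β2 b c).G1 (g5 (OR t) β2 b c).H1 (g5 (OR t) β2 b c).H2 c.S11 c.S21
    = om t * ρ * (aleaf β2 γ2 c lam).E1 B := by
  rw [ej, c3_real, g5_real1 hb hl β2 γ2 c, g5_realH1 hb hl β2 γ2 c, g5_realH2 hb hl β2 γ2 c]
  simp only [TEl.ALeaf.E1]
  simp only [aleaf]
  ring

lemma ej_real2 : ej (OR t) γ2 (g5 (OR t) β2 b c).G2 (g5 (OR t) β2 b c).H1 (g5 (OR t) β2 b c).H2 c.S12 c.S22
    = om t * ρ * (aleaf β2 γ2 c lam).E2 B := by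
  rw [ej, c3_real, g5_real2 hb hl β2 γ2 c, g5_realH1 hb hl β2 γ2 c, g5_realH2 hb hl β2 γ2 c]
  simp only [TEl.ALeaf.E2]
  simp only [aleaf]
  ring

lemma ej_real3 : ej (OR t) γ2 (g5 (OR t) β2 b c).G3 (g5 (OR t) β2 b c).H1 (g5 (OR t) β2 b c).H2 c.S13 c.S23
    = om t * ρ * (aleaf β2 γ2 c lam).E3 B := by
  rw [ej, c3_real, g5_real3 hb hl β2 γ2 c, g5_realH1 hb hl β2 γ2 c, g5_realH2 hb hl β2 γ2 c]
  simp only [TEl.ALeaf.E3]
  simp only [aleaf]
  ring

omit hl in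
lemma rbil_real (x1 x2 x3 y1 y2 y3 : ℤ) : rbil (OR t) (r9 (OR t) γ2 b c) x1 x2 x3 y1 y2 y3
    = ρ * (aleaf β2 γ2 c lam).bil B x1 x2 x3 y1 y2 y3 := by
  simp only [rbil, r9, sks, c3_real, c2_real, TEl.ALeaf.bil, TEl.ALeaf.R11, TEl.ALeaf.R12,
    TEl.ALeaf.R13, TEl.ALeaf.R22, TEl.ALeaf.R23, TEl.ALeaf.R33]
  simp only [OR_add, OR_smul, hb.A11, hb.A12, hb.W1, hb.W2, hb.psi, hb.g, hb.K11, hb.K12, hb.K22, aleaf]
  push_cast
  ring

omit hb hl in
lemma bup_real (x : ℝ) : bup (OR t) x = (1 + t 0) * (om t * x) := by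
  simp only [bup, up_real, ones_real, cl]

omit hb hl in
lemma gcomb_real (m1 m2 m3 m4 : ℤ) (g1 g2 g3 g4 : ℝ) :
    gcomb (OR t) m1 m2 m3 m4 g1 g2 g3 g4 = -(m1 * g1 + m2 * g2 + m3 * g3 + m4 * g4) := by
  simp only [gcomb, c2_real, OR_add]
  push_cast
  ring

omit hb hl in
lemma mulq_real (k : BoxC) {s Q v' : ℝ} (hs : (k.as : ℝ) + k.bs * t 2 = s * (k.Ds * (1 + t 2)))
    (hQ : (k.aQ : ℝ) + k.bQ * t 3 = Q * (k.DQ * (1 + t 3)))
    (hv : (k.av : ℝ) + k.bv * t 4 = v' * (k.Dv * (1 + t 4))) (x : ℝ) :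
    mulq (OR t) k x = (k.an * Q - 4 * k.ad * v' ^ 2 * (1 - s ^ 2)) *
      ((k.Ds * (1 + t 2)) ^ 2 * (k.DQ * (1 + t 3)) * (k.Dv * (1 + t 4)) ^ 2) * x := by
  simp only [mulq, lin_real, cl]
  simp only [OR_add, OR_smul]
  push_cast
  have e1 : ((k.an : ℝ) * k.aQ + k.an * k.bQ * t 3) = k.an * (Q * (k.DQ * (1 + t 3))) := by
    rw [← hQ]; ring
  have e2 : ((k.Ds : ℝ) - k.as + (k.Ds - k.bs) * t 2) = (1 - s) * (k.Ds * (1 + t 2)) := by
    linear_combination -hs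
  have e3 : ((k.Ds : ℝ) + k.as + (k.Ds + k.bs) * t 2) = (1 + s) * (k.Ds * (1 + t 2)) := by
    linear_combination hs
  rw [e1, e2, e3, hv]
  ring

omit hb hl in
lemma elq_real (k : BoxC) (x : ℝ) : elq (OR t) k x =
    ((k.Ds * (1 + t 2)) ^ 2 * (k.DQ * (1 + t 3)) * (k.Dv * (1 + t 4)) ^ 2) * x := by
  simp only [elq, up_real, cl]
  simp only [OR_add, OR_smul]
  push_cast
  ring

end real

lemma abs_of_eq {x y K : ℝ} (h : x = K * y) (hK : 0 < K) : |x| = K * |y| := by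
  rw [h, abs_mul, abs_of_pos hK]

lemma row_a {K u l11 l12 l13 l1 l2 l3 X R r : ℝ} (hK : 0 < K) (hu : 0 < u) (h1 : l11 = K * u * l1)
    (h2 : l12 = K * u * l2) (h3 : l13 = K * u * l3) (hX : X = K * R) (hr : 0 ≤ r)
    (h : |l11| + |l12| + |l13| ≤ X + -r) : u * (|l1| + |l2| + |l3|) + 0 ≤ R := by
  have hKu : 0 < K * u := by positivity
  rw [abs_of_eq h1 hKu, abs_of_eq h2 hKu, abs_of_eq h3 hKu, hX] at h
  have h6 : K * (u * (|l1| + |l2| + |l3|) + 0) ≤ K * R := by nlinarith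
  exact le_of_mul_le_mul_left h6 hK

lemma row_b {z q1n q1d bt l11 l12 l13 K m g l a b d r1 : ℝ} (hz : 0 < z) (hq1d : 0 < q1d) (hmg : 0 ≤ m * g)
    (hK : K = z * q1d) (hr : 0 ≤ r1)
    (h1 : l11 = q1n * (z * (m * g) * l)) (h2 : l12 = K * (bt * a)) (h3 : l13 = K * (bt * b)) (hbt : 0 < bt)
    (h : |l11| + |l12| + |l13| ≤ K * (bt * d) + -r1) :
    q1n / q1d * m * g * |l| + bt * (|a| + |b|) ≤ bt * d := by
  have hKp : 0 < K := by rw [hK]; positivity
  have e2 : |l12| = K * (bt * |a|) := by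
    rw [h2, abs_mul, abs_of_pos hKp, abs_mul, abs_of_pos hbt]
  have e3 : |l13| = K * (bt * |b|) := by
    rw [h3, abs_mul, abs_of_pos hKp, abs_mul, abs_of_pos hbt]
  have e1 : K * (q1n / q1d * m * g * |l|) ≤ |l11| := by
    have h4 : |z * (m * g) * l| = z * (m * g) * |l| := by
      rw [abs_mul, abs_of_nonneg (by positivity)]
    have h5 : K * (q1n / q1d * m * g * |l|) = q1n * (z * (m * g) * |l|) := by
      rw [hK]; field_simp
    rw [h5, h1, abs_mul, h4]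
    exact mul_le_mul_of_nonneg_right (le_abs_self _) (by positivity)
  have h6 : K * (q1n / q1d * m * g * |l| + bt * (|a| + |b|)) ≤ K * (bt * d) := by
    rw [e2, e3] at h
    nlinarith
  exact le_of_mul_le_mul_left h6 hKp

set_option maxHeartbeats 1000000 in
/-- **the tests give a leaf** -/
theorem ok_of_tests {t lam : ℕ → ℝ} (hl : ∀ i < 5, t i = lam i * (1 + t i)) (h1 : ∀ i < 5, 0 < 1 + t i)
    {β2 γ2 q1n q1d : ℤ} (hβ : 0 < β2) (hγ : 0 < γ2) (hq1d : 0 < q1d) {k : BoxC} (han : 0 < k.an)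
    (hDs : 0 < k.Ds) (hDQ : 0 < k.DQ) (hDv : 0 < k.Dv)
    {s Q v' : ℝ} (hs : (k.as : ℝ) + k.bs * t 2 = s * (k.Ds * (1 + t 2)))
    (hQ : (k.aQ : ℝ) + k.bQ * t 3 = Q * (k.DQ * (1 + t 3)))
    (hv : (k.av : ℝ) + k.bv * t 4 = v' * (k.Dv * (1 + t 4)))
    {ρ : ℝ} (hρ : 0 < ρ) {B : TEl.Base} {b : BaseA ℝ}
    (hb : RB t ρ ((k.Ds * (1 + t 2)) ^ 2 * (k.DQ * (1 + t 3)) * (k.Dv * (1 + t 4)) ^ 2) B b)
    {c : Lf} (hm : 0 < c.m)
    (hdet : c.P11 * (c.P22 * c.P33 - c.P23 * c.P32) - c.P12 * (c.P21 * c.P33 - c.P23 * c.P31)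
      + c.P13 * (c.P21 * c.P32 - c.P22 * c.P31) ≠ 0)
    (hmu : 0 ≤ c.mu1 ∧ 0 ≤ c.mu2 ∧ 0 ≤ c.mu3 ∧ 0 ≤ c.mu4)
    (hn1 : 0 ≤ c.n11 ∧ 0 ≤ c.n12 ∧ 0 ≤ c.n13 ∧ 0 ≤ c.n14)
    (hn2 : 0 ≤ c.n21 ∧ 0 ≤ c.n22 ∧ 0 ≤ c.n23 ∧ 0 ≤ c.n24)
    (hn3 : 0 ≤ c.n31 ∧ 0 ≤ c.n32 ∧ 0 ≤ c.n33 ∧ 0 ≤ c.n34)
    {q : ℝ} (hq : k.an * q = k.an * Q - 4 * k.ad * v' ^ 2 * (1 - s ^ 2)) (hqq : q * q1d ≤ q1n)
    (hT : ∀ r ∈ tests (OR t) β2 γ2 q1n q1d k b c, 0 ≤ r) : ∃ L : TEl.Leaf, L.OK B q := by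
  set A := aleaf β2 γ2 c lam with hA
  set θ : ℝ := (k.Ds * (1 + t 2)) ^ 2 * (k.DQ * (1 + t 3)) * (k.Dv * (1 + t 4)) ^ 2 with hθ
  have hβ' : (0 : ℝ) < β2 := by exact_mod_cast hβ
  have hγ' : (0 : ℝ) < γ2 := by exact_mod_cast hγ
  have hq1d' : (0 : ℝ) < q1d := by exact_mod_cast hq1d
  have han' : (0 : ℝ) < k.an := by exact_mod_cast han
  have hm' : (0 : ℝ) < c.m := by exact_mod_cast hm
  have hθpos : 0 < θ := by
    have h2 := h1 2 (by norm_num)
    have h3 := h1 3 (by norm_num)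
    have h4 := h1 4 (by norm_num)
    have : (0 : ℝ) < k.Ds := by exact_mod_cast hDs
    have : (0 : ℝ) < k.DQ := by exact_mod_cast hDQ
    have : (0 : ℝ) < k.Dv := by exact_mod_cast hDv
    positivity
  have hω : 0 < om t := by
    have h0 := h1 0 (by norm_num)
    have h1' := h1 1 (by norm_num)
    have h2 := h1 2 (by norm_num)
    have h3 := h1 3 (by norm_num)
    have h4 := h1 4 (by norm_num)
    unfold om
    positivity
  simp only [tests, List.forall_mem_append] at hT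
  obtain ⟨ha, hb1, hb2, hb3⟩ := hT
  have ha := signs_real t ha
  have hb1 := signs_real t hb1
  have hb2 := signs_real t hb2
  have hb3 := signs_real t hb3
  rw [ej_real1 hb hl β2 γ2 c, ej_real2 hb hl β2 γ2 c, ej_real3 hb hl β2 γ2 c] at ha hb1 hb2 hb3
  rw [dd_real hb hl β2 γ2 c] at ha
  simp only [rbil_real hb β2 γ2 c (lam := lam), bup_real, gcomb_real, up_real, ones_real, c3_real,
    mulq_real k hs hQ hv, elq_real, OR_add, OR_smul] at ha hb1 hb2 hb3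
  rw [← hA, ← hθ] at ha
  rw [← hA] at hb1 hb2 hb3
  have h0 := h1 0 (by norm_num)
  have hL1 : A.l1 B = c.P11 * A.E1 B + c.P21 * A.E2 B + c.P31 * A.E3 B := rfl
  have hL2 : A.l2 B = c.P12 * A.E1 B + c.P22 * A.E2 B + c.P32 * A.E3 B := rfl
  have hL3 : A.l3 B = c.P13 * A.E1 B + c.P23 * A.E2 B + c.P33 * A.E3 B := rfl
  have hz : 0 < (1 + t 0) * om t * ρ := by positivity
  have hmg : (0 : ℝ) ≤ c.m * γ2 := by positivity
  have nn : ∀ {m1 m2 m3 m4 : ℤ} {g1 g2 g3 g4 : ℝ}, (0 ≤ m1 ∧ 0 ≤ m2 ∧ 0 ≤ m3 ∧ 0 ≤ m4) → 0 ≤ g1 →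
      0 ≤ g2 → 0 ≤ g3 → 0 ≤ g4 → (0 : ℝ) ≤ m1 * g1 + m2 * g2 + m3 * g3 + m4 * g4 := by
    intro m1 m2 m3 m4 g1 g2 g3 g4 hmm k1 k2 k3 k4
    obtain ⟨a1, a2, a3, a4⟩ := hmm
    have a1' : (0 : ℝ) ≤ m1 := by exact_mod_cast a1
    have a2' : (0 : ℝ) ≤ m2 := by exact_mod_cast a2
    have a3' : (0 : ℝ) ≤ m3 := by exact_mod_cast a3
    have a4' : (0 : ℝ) ≤ m4 := by exact_mod_cast a4
    positivity
  have hnA := nn hmu hb.G1 hb.G2 hb.G3 hb.G4
  have hn1' := nn hn1 hb.F1 hb.F2 hb.F3 hb.F4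
  have hn2' := nn hn2 hb.F1 hb.F2 hb.F3 hb.F4
  have hn3' := nn hn3 hb.F1 hb.F2 hb.F3 hb.F4
  have eb : A.bt = β2 := rfl
  have eg : A.gm = γ2 := rfl
  have em : A.m = c.m := rfl
  refine TEl.ALeaf.exists_OK (c := A) (q := q) (q1 := q1n / q1d) (an := k.an) (qh := k.an * q) (sl := 0)
    hβ' hγ' hm' han' ?_ rfl ?_ le_rfl ?_ ?_ ?_ ?_
  · intro h
    apply hdet
    have : (((c.P11 * (c.P22 * c.P33 - c.P23 * c.P32) - c.P12 * (c.P21 * c.P33 - c.P23 * c.P31)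
      + c.P13 * (c.P21 * c.P32 - c.P22 * c.P31) : ℤ)) : ℝ) = 0 := by
      push_cast
      exact h
    exact_mod_cast this
  · rw [le_div_iff₀ hq1d']; exact hqq
  · refine row_a (K := ρ * om t ^ 2 * θ) (u := k.an * A.bt) (by positivity) (mul_pos han' hβ') ?_ ?_ ?_ ?_ hnA ha
    · rw [hL1]; simp only [hA, aleaf]; push_cast; ring
    · rw [hL2]; simp only [hA, aleaf]; push_cast; ring
    · rw [hL3]; simp only [hA, aleaf]; push_cast; ring
    · rw [← hq, hb.C0, hb.Ck]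
      rw [eb, eg, em]
      push_cast
      ring
  · refine row_b (z := (1 + t 0) * om t * ρ) (K := (1 + t 0) * om t * ρ * q1d) hz hq1d' hmg rfl hn1'
      ?_ ?_ ?_ hβ' (d := A.q11 B) (a := A.q12 B) (b := A.q13 B) ?_
      (l11 := ↑(q1n * c.m * γ2) * ((1 + t (cl 0)) *
              (↑c.P11 * (om t * ρ * A.E1 B) + ↑c.P21 * (om t * ρ * A.E2 B) + ↑c.P31 * (om t * ρ * A.E3 B))))
      (l12 := ↑(β2 * q1d) * ((1 + t 0) * (om t * (ρ * A.q12 B))))
      (l13 := ↑(β2 * q1d) * ((1 + t 0) * (om t * (ρ * A.q13 B))))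
    · rw [hL1]; simp only [cl, eb, eg, em]; push_cast; ring
    · rw [eb]; push_cast; ring
    · rw [eb]; push_cast; ring
    · refine hb1.trans (le_of_eq ?_)
      have e1 : A.q11 B = A.bil B ↑c.P11 ↑c.P21 ↑c.P31 ↑c.P11 ↑c.P21 ↑c.P31 := rfl
      rw [e1, eb]; push_cast; ring
  · refine row_b (z := (1 + t 0) * om t * ρ) (K := (1 + t 0) * om t * ρ * q1d) hz hq1d' hmg rfl hn2'
      ?_ ?_ ?_ hβ' (d := A.q22 B) (a := A.q12 B) (b := A.q23 B) ?_
      (l11 := ↑(q1n * c.m * γ2) * ((1 + t (cl 0)) *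
              (↑c.P12 * (om t * ρ * A.E1 B) + ↑c.P22 * (om t * ρ * A.E2 B) + ↑c.P32 * (om t * ρ * A.E3 B))))
      (l12 := ↑(β2 * q1d) * ((1 + t 0) * (om t * (ρ * A.q12 B))))
      (l13 := ↑(β2 * q1d) * ((1 + t 0) * (om t * (ρ * A.q23 B))))
    · rw [hL2]; simp only [cl, eb, eg, em]; push_cast; ring
    · rw [eb]; push_cast; ring
    · rw [eb]; push_cast; ring
    · refine hb2.trans (le_of_eq ?_)
      have e1 : A.q22 B = A.bil B ↑c.P12 ↑c.P22 ↑c.P32 ↑c.P12 ↑c.P22 ↑c.P32 := rfl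
      rw [e1, eb]; push_cast; ring
  · refine row_b (z := (1 + t 0) * om t * ρ) (K := (1 + t 0) * om t * ρ * q1d) hz hq1d' hmg rfl hn3'
      ?_ ?_ ?_ hβ' (d := A.q33 B) (a := A.q13 B) (b := A.q23 B) ?_
      (l11 := ↑(q1n * c.m * γ2) * ((1 + t (cl 0)) *
              (↑c.P13 * (om t * ρ * A.E1 B) + ↑c.P23 * (om t * ρ * A.E2 B) + ↑c.P33 * (om t * ρ * A.E3 B))))
      (l12 := ↑(β2 * q1d) * ((1 + t 0) * (om t * (ρ * A.q13 B))))
      (l13 := ↑(β2 * q1d) * ((1 + t 0) * (om t * (ρ * A.q23 B))))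
    · rw [hL3]; simp only [cl, eb, eg, em]; push_cast; ring
    · rw [eb]; push_cast; ring
    · rw [eb]; push_cast; ring
    · refine hb3.trans (le_of_eq ?_)
      have e1 : A.q33 B = A.bil B ↑c.P13 ↑c.P23 ↑c.P33 ↑c.P13 ↑c.P23 ↑c.P33 := rfl
      rw [e1, eb]; push_cast; ring

end Crest.Agent.R097.KA
end

-- ▼ part R097/KA2
section

/-!
# Row 97, KBA checker: evaluation of the base polynomials in the kernel

Nested sparse polynomials; the variables 0, 1, 2 are handled by products with tables, the two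
outer variables 3, 4 by small coefficient lists and shifts.
-/

set_option autoImplicit false

namespace Crest.Agent.R097.KA

open MvPolynomial Crest.Agent.R097.CQ

/-- terms in the variable 0 -/
abbrev NL0 := List (ℕ × ℤ)
/-- terms in the variables 1, 0 -/
abbrev NL1 := List (ℕ × NL0)
/-- terms in the variables 2, 1, 0 -/
abbrev NL2 := List (ℕ × NL1)
/-- terms in the variables 3, ..., 0 -/
abbrev NL3 := List (ℕ × NL2)
/-- nested polynomial: outermost exponent belongs to the variable 4 -/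
abbrev NP := List (ℕ × NL3)

/-! ## flat form -/

/-- concatenation -/
def fmp {α β : Type} (F : α → List β) (l : List α) : List β :=
  List.rec (motive := fun _ => List β) [] (fun x _ ih => List.append (F x) ih) l

/-- monomials -/
def flat0 (e1 e2 e3 e4 : ℕ) (l : NL0) : SP := fmp (fun x => [(x.2, [x.1, e1, e2, e3, e4])]) l
def flat1 (e2 e3 e4 : ℕ) (l : NL1) : SP := fmp (fun x => flat0 x.1 e2 e3 e4 x.2) l
def flat2 (e3 e4 : ℕ) (l : NL2) : SP := fmp (fun x => flat1 x.1 e3 e4 x.2) l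
def flat3 (e4 : ℕ) (l : NL3) : SP := fmp (fun x => flat2 x.1 e4 x.2) l
/-- the sparse polynomial -/
def flat (N : NP) : SP := fmp (fun x => flat3 x.1 x.2) N

/-! ## kernel functions -/

/-- factor of one variable -/
def FN (a b D d f T e : ℕ) : ℕ :=
  Nat.mul (Nat.mul (Nat.pow (Nat.add a (Nat.mul b T)) e) (Nat.pow D (Nat.sub d e)))
    (Nat.pow (Nat.add 1 T) (Nat.sub f e))

/-- innermost sum -/
def ev0 (F : ℕ → ℕ) (l : NL0) : ℕ × ℕ :=
  List.rec (motive := fun _ => ℕ × ℕ) (0, 0)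
    (fun x _ ih => Int.casesOn (motive := fun _ => ℕ × ℕ) x.2
      (fun k => (Nat.add ih.1 (Nat.mul k (F x.1)), ih.2))
      (fun k => (ih.1, Nat.add ih.2 (Nat.mul (Nat.succ k) (F x.1))))) l

/-- sum with table products -/
def evM {β : Type} (F : ℕ → ℕ) (G : β → ℕ × ℕ) (l : List (ℕ × β)) : ℕ × ℕ :=
  List.rec (motive := fun _ => ℕ × ℕ) (0, 0)
    (fun x _ ih => (Nat.add ih.1 (Nat.mul (F x.1) (G x.2).1), Nat.add ih.2 (Nat.mul (F x.1) (G x.2).2))) l

/-- product of a coefficient list with `u + v X` -/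
def lmC (u v : ℕ) (l : List ℕ) : ℕ → List ℕ :=
  List.rec (motive := fun _ => ℕ → List ℕ) (fun prev => [Nat.mul v prev])
    (fun x _ ih prev => Nat.add (Nat.mul u x) (Nat.mul v prev) :: ih x) l

/-- iteration -/
def lmI (u v n : ℕ) (l : List ℕ) : List ℕ :=
  Nat.rec (motive := fun _ => List ℕ) l (fun _ ih => lmC u v ih 0) n

/-- coefficients of `(a + b X)^e D^(d-e) (1+X)^(f-e)` -/
def cfl (a b D d f e : ℕ) : List ℕ := lmI 1 1 (Nat.sub f e) (lmI a b e [Nat.pow D (Nat.sub d e)])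

/-- head, tail -/
def hd0 (l : List ℕ) : ℕ := List.rec (motive := fun _ => ℕ) 0 (fun x _ _ => x) l
def tl0 (l : List ℕ) : List ℕ := List.rec (motive := fun _ => List ℕ) [] (fun _ l' _ => l') l

/-- sum of the heads times the numbers -/
def hdS (rows : List (List ℕ × ℕ)) : ℕ :=
  List.rec (motive := fun _ => ℕ) 0 (fun x _ ih => Nat.add ih (Nat.mul (hd0 x.1) x.2)) rows
/-- tails -/
def tlR (rows : List (List ℕ × ℕ)) : List (List ℕ × ℕ) :=
  List.rec (motive := fun _ => List (List ℕ × ℕ)) [] (fun x _ ih => (tl0 x.1, x.2) :: ih) rows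

/-- join -/
def jk (sh n : ℕ) : List (List ℕ × ℕ) → ℕ :=
  Nat.rec (motive := fun _ => List (List ℕ × ℕ) → ℕ) (fun _ => 0)
    (fun _ ih rows => Nat.add (hdS rows) (Nat.shiftLeft (ih (tlR rows)) sh)) n

/-- rows of an outer variable -/
def rws {β : Type} (C : ℕ → List ℕ) (G : β → ℕ) (l : List (ℕ × β)) : List (List ℕ × ℕ) :=
  List.rec (motive := fun _ => List (List ℕ × ℕ)) [] (fun x _ ih => (C x.1, G x.2) :: ih) l

/-- sum over an outer variable -/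
def evS {β : Type} (C : ℕ → List ℕ) (sh n : ℕ) (G : β → ℕ × ℕ) (l : List (ℕ × β)) : ℕ × ℕ :=
  (jk sh n (rws C (fun y => (G y).1) l), jk sh n (rws C (fun y => (G y).2) l))

/-- positive and negative part of the packed polynomial -/
def evalNP (w : ℕ) (σ a b D d f : ℕ → ℕ) (N : NP) : ℕ × ℕ :=
  evS (cfl (a 4) (b 4) (D 4) (d 4) (f 4)) (Nat.mul w (σ 4)) (Nat.succ (f 4))
    (fun l3 => evS (cfl (a 3) (b 3) (D 3) (d 3) (f 3)) (Nat.mul w (σ 3)) (Nat.succ (f 3))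
      (fun l2 => evM (FN (a 2) (b 2) (D 2) (d 2) (f 2) (Nat.pow 2 (Nat.mul w (σ 2))))
        (fun l1 => evM (FN (a 1) (b 1) (D 1) (d 1) (f 1) (Nat.pow 2 (Nat.mul w (σ 1))))
          (fun l0 => ev0 (FN (a 0) (b 0) (D 0) (d 0) (f 0) (Nat.pow 2 (Nat.mul w (σ 0)))) l0)
          l1) l2) l3) N

/-- the exponents of the outer variables fit -/
def okL {β : Type} (m : ℕ) (G : β → Bool) (l : List (ℕ × β)) : Bool :=
  List.rec (motive := fun _ => Bool) true (fun x _ ih => (Nat.ble x.1 m && G x.2) && ih) l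

/-- static check -/
def okNP (f : ℕ → ℕ) (N : NP) : Bool := okL (f 4) (fun l3 => okL (f 3) (fun _ => true) l3) N

/-! ## values -/

/-- value of a coefficient list -/
def vl (T : ℤ) : List ℕ → ℤ
  | [] => 0
  | x :: l => x + T * vl T l

theorem lmC_cons (u v x : ℕ) (l : List ℕ) (p : ℕ) :
    lmC u v (x :: l) p = (u * x + v * p) :: lmC u v l x := rfl

theorem vl_lmC (T : ℤ) (u v : ℕ) (l : List ℕ) (p : ℕ) :
    vl T (lmC u v l p) = v * p + (u + v * T) * vl T l := by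
  induction l generalizing p with
  | nil => change (((v * p : ℕ) : ℤ)) + T * 0 = _; simp [vl]
  | cons x l ih =>
    rw [lmC_cons, vl, ih, vl]; push_cast; ring

theorem len_lmC (u v : ℕ) (l : List ℕ) (p : ℕ) : (lmC u v l p).length = l.length + 1 := by
  induction l generalizing p with
  | nil => rfl
  | cons x l ih => rw [lmC_cons, List.length_cons, ih]; simp

theorem vl_lmI (T : ℤ) (u v n : ℕ) (l : List ℕ) :
    vl T (lmI u v n l) = (u + v * T) ^ n * vl T l := by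
  induction n with
  | zero => simp [lmI]
  | succ n ih =>
    change vl T (lmC u v (lmI u v n l) 0) = _
    rw [vl_lmC, ih, pow_succ]; push_cast; ring

theorem len_lmI (u v n : ℕ) (l : List ℕ) : (lmI u v n l).length = l.length + n := by
  induction n with
  | zero => rfl
  | succ n ih =>
    change (lmC u v (lmI u v n l) 0).length = _
    rw [len_lmC, ih]; ring

theorem vl_cfl (T : ℤ) (a b D d f e : ℕ) :
    vl T (cfl a b D d f e) = (a + b * T) ^ e * D ^ (d - e) * (1 + T) ^ (f - e) := by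
  unfold cfl
  rw [vl_lmI, vl_lmI]
  change ((1 : ℕ) + ((1 : ℕ) : ℤ) * T) ^ (f - e) * ((a + b * T) ^ e * (((D ^ (d - e) : ℕ) : ℤ) + T * 0)) = _
  push_cast; ring

theorem len_cfl (a b D d f e : ℕ) (h : e ≤ f) : (cfl a b D d f e).length = f + 1 := by
  unfold cfl
  rw [len_lmI, len_lmI]
  change 1 + e + (f - e) = _
  omega

/-- sum of the rows -/
def sR (T : ℤ) : List (List ℕ × ℕ) → ℤ
  | [] => 0
  | x :: l => vl T x.1 * x.2 + sR T l

theorem sR_step (T : ℤ) (rows : List (List ℕ × ℕ)) : sR T rows = hdS rows + T * sR T (tlR rows) := by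
  induction rows with
  | nil => simp [sR, hdS, tlR]
  | cons x l ih =>
    obtain ⟨c, y⟩ := x
    have e1 : ((hdS ((c, y) :: l) : ℕ) : ℤ) = hdS l + hd0 c * y := by
      change ((hdS l + hd0 c * y : ℕ) : ℤ) = _
      push_cast; rfl
    have e2 : tlR ((c, y) :: l) = (tl0 c, y) :: tlR l := rfl
    have e3 : vl T c = hd0 c + T * vl T (tl0 c) := by
      cases c with
      | nil => simp [vl, hd0, tl0]
      | cons z c => rfl
    simp only [sR]
    rw [e1, e2, ih, e3]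
    simp only [sR]
    ring

theorem jk_eq (sh n : ℕ) (rows : List (List ℕ × ℕ)) (h : ∀ x ∈ rows, x.1.length ≤ n) :
    ((jk sh n rows : ℕ) : ℤ) = sR (2 ^ sh) rows := by
  induction n generalizing rows with
  | zero =>
    change ((0 : ℕ) : ℤ) = _
    induction rows with
    | nil => simp [sR]
    | cons x l ih =>
      have h1 := h x (by simp)
      have h2 : x.1 = [] := List.length_eq_zero_iff.mp (by omega)
      simp only [sR]
      rw [h2, ← ih (fun y hy => h y (by simp [hy]))]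
      simp [vl]
  | succ n ih =>
    change ((hdS rows + (jk sh n (tlR rows)) <<< sh : ℕ) : ℤ) = _
    rw [sR_step, Nat.shiftLeft_eq]
    push_cast
    rw [ih]
    · ring
    · intro x hx
      clear ih
      induction rows with
      | nil => simp [tlR] at hx
      | cons y l ih2 =>
        have e2 : tlR (y :: l) = (tl0 y.1, y.2) :: tlR l := rfl
        rw [e2] at hx
        rcases List.mem_cons.mp hx with h1 | h1
        · rw [h1]
          have h3 := h y (by simp)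
          cases hy : y.1 with
          | nil => simp [tl0]
          | cons z c =>
            rw [hy] at h3
            change c.length ≤ n
            simpa using h3
        · exact ih2 (fun z hz => h z (by simp [hz])) h1

/-- value of a pair -/
def vp (x : ℕ × ℕ) : ℤ := (x.1 : ℤ) - x.2

/-- nested sum -/
def nsum {β : Type} (F : ℕ → ℤ) (G : β → ℤ) : List (ℕ × β) → ℤ
  | [] => 0
  | x :: l => F x.1 * G x.2 + nsum F G l

theorem vp_ev0 (F : ℕ → ℕ) (l : NL0) : vp (ev0 F l) = nsum (fun e => (F e : ℤ)) (fun c => c) l := by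
  induction l with
  | nil => rfl
  | cons x l ih =>
    obtain ⟨e, z⟩ := x
    simp only [nsum]
    rw [← ih]
    cases z with
    | ofNat k =>
      change (((ev0 F l).1 + k * F e : ℕ) : ℤ) - (ev0 F l).2 = _
      unfold vp
      push_cast; simp only [Int.ofNat_eq_natCast]; ring
    | negSucc k =>
      change ((ev0 F l).1 : ℤ) - (((ev0 F l).2 + (k + 1) * F e : ℕ) : ℤ) = _
      unfold vp
      rw [Int.negSucc_eq]; push_cast; ring

theorem vp_evM {β : Type} (F : ℕ → ℕ) (G : β → ℕ × ℕ) (l : List (ℕ × β)) :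
    vp (evM F G l) = nsum (fun e => (F e : ℤ)) (fun y => vp (G y)) l := by
  induction l with
  | nil => rfl
  | cons x l ih =>
    simp only [nsum]
    rw [← ih]
    change (((evM F G l).1 + F x.1 * (G x.2).1 : ℕ) : ℤ) - (((evM F G l).2 + F x.1 * (G x.2).2 : ℕ) : ℤ) = _
    unfold vp
    push_cast; ring

theorem sR_rws {β : Type} (T : ℤ) (C : ℕ → List ℕ) (G : β → ℕ) (l : List (ℕ × β)) :
    sR T (rws C G l) = nsum (fun e => vl T (C e)) (fun y => (G y : ℤ)) l := by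
  induction l with
  | nil => rfl
  | cons x l ih =>
    have e1 : rws C G (x :: l) = (C x.1, G x.2) :: rws C G l := rfl
    rw [e1]
    simp only [sR, nsum, ih]

theorem nsum_sub {β : Type} (F : ℕ → ℤ) (G H : β → ℤ) (l : List (ℕ × β)) :
    nsum F (fun y => G y - H y) l = nsum F G l - nsum F H l := by
  induction l with
  | nil => simp [nsum]
  | cons x l ih => simp only [nsum, ih]; ring

theorem vp_evS {β : Type} (a b D d f sh : ℕ) (G : β → ℕ × ℕ) (l : List (ℕ × β))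
    (h : ∀ x ∈ l, x.1 ≤ f) :
    vp (evS (cfl a b D d f) sh (Nat.succ f) G l) =
      nsum (fun e => (a + b * 2 ^ sh) ^ e * D ^ (d - e) * (1 + 2 ^ sh) ^ (f - e)) (fun y => vp (G y)) l := by
  have hl : ∀ (H : β → ℕ), ∀ x ∈ rws (cfl a b D d f) H l, x.1.length ≤ Nat.succ f := by
    intro H x hx
    induction l with
    | nil => simp [rws] at hx
    | cons y l ih =>
      have e1 : rws (cfl a b D d f) H (y :: l) = (cfl a b D d f y.1, H y.2) :: rws (cfl a b D d f) H l := rfl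
      rw [e1] at hx
      rcases List.mem_cons.mp hx with h1 | h1
      · rw [h1]
        change (cfl a b D d f y.1).length ≤ _
        rw [len_cfl _ _ _ _ _ _ (h y (by simp))]
      · exact ih (fun z hz => h z (by simp [hz])) h1
  change ((jk sh (Nat.succ f) (rws (cfl a b D d f) (fun y => (G y).1) l) : ℕ) : ℤ) -
    ((jk sh (Nat.succ f) (rws (cfl a b D d f) (fun y => (G y).2) l) : ℕ) : ℤ) = _
  rw [jk_eq _ _ _ (hl _), jk_eq _ _ _ (hl _), sR_rws, sR_rws, ← nsum_sub]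
  simp only [vl_cfl]
  rfl

theorem FN_cast (a b D d f T e : ℕ) :
    ((FN a b D d f T e : ℕ) : ℤ) = (a + b * T) ^ e * D ^ (d - e) * (1 + T) ^ (f - e) := by
  change (((a + b * T) ^ e * D ^ (d - e) * (1 + T) ^ (f - e) : ℕ) : ℤ) = _
  push_cast; rfl

/-! ## the polynomial -/

theorem hom_append (a b D d f : ℕ → ℕ) (p q : SP) :
    hom a b D d f (p ++ q) = hom a b D d f p + hom a b D d f q := by
  induction p with
  | nil => simp [hom]
  | cons m p ih => simp only [List.cons_append, hom, ih]; ring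

theorem eval_fmp {β : Type} (T : ℕ → ℤ) (a b D d f : ℕ → ℕ) (F : β → SP) (l : List β) :
    eval T (hom a b D d f (fmp F l)) = (l.map fun x => eval T (hom a b D d f (F x))).sum := by
  induction l with
  | nil => simp [fmp, hom]
  | cons x l ih =>
    have : fmp F (x :: l) = F x ++ fmp F l := rfl
    rw [this, hom_append, map_add, ih, List.map_cons, List.sum_cons]

theorem nsum_eq {β : Type} (F : ℕ → ℤ) (G : β → ℤ) (l : List (ℕ × β)) :
    nsum F G l = (l.map fun x => F x.1 * G x.2).sum := by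
  induction l with
  | nil => rfl
  | cons x l ih => simp only [nsum, ih, List.map_cons, List.sum_cons]

theorem sum_map_mul {β : Type} (c : ℤ) (H : β → ℤ) (l : List β) :
    (l.map fun x => c * H x).sum = c * (l.map H).sum := by
  induction l with
  | nil => simp
  | cons x l ih => simp only [List.map_cons, List.sum_cons, ih]; ring

theorem eval_fac (T : ℕ → ℤ) (a b D d f e i : ℕ) :
    eval T (fac a b D d f e i) = (a + b * T i) ^ e * D ^ (d - e) * (1 + T i) ^ (f - e) := by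
  unfold fac
  simp only [map_mul, map_pow, map_add, eval_C, eval_X]
  ring

theorem eval_homM (T : ℕ → ℤ) (a b D d f : ℕ → ℕ) (e0 e1 e2 e3 e4 : ℕ) :
    eval T (homM a b D d f [e0, e1, e2, e3, e4]) =
      ((a 0 + b 0 * T 0) ^ e0 * D 0 ^ (d 0 - e0) * (1 + T 0) ^ (f 0 - e0)) *
      ((a 1 + b 1 * T 1) ^ e1 * D 1 ^ (d 1 - e1) * (1 + T 1) ^ (f 1 - e1)) *
      ((a 2 + b 2 * T 2) ^ e2 * D 2 ^ (d 2 - e2) * (1 + T 2) ^ (f 2 - e2)) *
      ((a 3 + b 3 * T 3) ^ e3 * D 3 ^ (d 3 - e3) * (1 + T 3) ^ (f 3 - e3)) *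
      ((a 4 + b 4 * T 4) ^ e4 * D 4 ^ (d 4 - e4) * (1 + T 4) ^ (f 4 - e4)) := by
  unfold homM
  simp only [map_mul, eval_fac, List.getD_cons_zero, List.getD_cons_succ]

theorem okL_spec {β : Type} {m : ℕ} {G : β → Bool} {l : List (ℕ × β)} (h : okL m G l = true) :
    ∀ x ∈ l, x.1 ≤ m ∧ G x.2 = true := by
  induction l with
  | nil => simp
  | cons y l ih =>
    have h' : ((Nat.ble y.1 m && G y.2) && okL m G l) = true := h
    simp only [Bool.and_eq_true, Nat.ble_eq] at h'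
    intro x hx
    rcases List.mem_cons.mp hx with h1 | h1
    · rw [h1]; exact h'.1
    · exact ih h'.2 x h1

/-- **the evaluation is correct** -/
theorem evalNP_eq (w : ℕ) (σ a b D d f : ℕ → ℕ) (N : NP) (hok : okNP f N = true) :
    ((evalNP w σ a b D d f N).1 : ℤ) - (evalNP w σ a b D d f N).2 =
      eval (fun i => (2 : ℤ) ^ (w * σ i)) (hom a b D d f (flat N)) := by
  have hok4 := okL_spec hok
  change vp (evalNP w σ a b D d f N) = _
  unfold evalNP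
  rw [vp_evS _ _ _ _ _ _ _ _ (fun x hx => (hok4 x hx).1), nsum_eq]
  unfold flat
  rw [eval_fmp]
  congr 1
  refine List.map_congr_left fun x4 hx4 => ?_
  have hok3 := okL_spec (hok4 x4 hx4).2
  rw [vp_evS _ _ _ _ _ _ _ _ (fun x hx => (hok3 x hx).1), nsum_eq]
  unfold flat3
  rw [eval_fmp, ← sum_map_mul]
  congr 1
  refine List.map_congr_left fun x3 _ => ?_
  rw [vp_evM, nsum_eq]
  unfold flat2
  rw [eval_fmp, ← sum_map_mul, ← sum_map_mul]
  congr 1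
  refine List.map_congr_left fun x2 _ => ?_
  rw [vp_evM, nsum_eq]
  unfold flat1
  rw [eval_fmp, ← sum_map_mul, ← sum_map_mul, ← sum_map_mul]
  congr 1
  refine List.map_congr_left fun x1 _ => ?_
  rw [vp_ev0, nsum_eq]
  unfold flat0
  rw [eval_fmp, ← sum_map_mul, ← sum_map_mul, ← sum_map_mul, ← sum_map_mul]
  congr 1
  refine List.map_congr_left fun x0 _ => ?_
  simp only [hom, map_mul, eval_C, add_zero]
  rw [eval_homM, FN_cast, FN_cast, FN_cast]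
  have e2 : ((Nat.pow 2 (Nat.mul w (σ 2)) : ℕ) : ℤ) = 2 ^ (w * σ 2) := by
    change ((2 ^ (w * σ 2) : ℕ) : ℤ) = _; push_cast; rfl
  have e1 : ((Nat.pow 2 (Nat.mul w (σ 1)) : ℕ) : ℤ) = 2 ^ (w * σ 1) := by
    change ((2 ^ (w * σ 1) : ℕ) : ℤ) = _; push_cast; rfl
  have e0 : ((Nat.pow 2 (Nat.mul w (σ 0)) : ℕ) : ℤ) = 2 ^ (w * σ 0) := by
    change ((2 ^ (w * σ 0) : ℕ) : ℤ) = _; push_cast; rfl
  have e3 : Nat.mul w (σ 3) = w * σ 3 := rfl
  have e4 : Nat.mul w (σ 4) = w * σ 4 := rfl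
  rw [e0, e1, e2, e3, e4]
  ring

end Crest.Agent.R097.KA
private theorem rz_08beb1474e : type_of% @_root_.Crest.Agent.R097.KA.nsum.eq_def := @_root_.Crest.Agent.R097.KA.nsum.eq_def -- L226
private theorem rz_5f680176ad : type_of% @_root_.Crest.Agent.R097.KA.nsum.eq_1 := @_root_.Crest.Agent.R097.KA.nsum.eq_1 -- L226
private theorem rz_c3eba96f53 : type_of% @_root_.Crest.Agent.R097.KA.sR.eq_def := @_root_.Crest.Agent.R097.KA.sR.eq_def -- L163
private theorem rz_1bd5f7012d : type_of% @_root_.Crest.Agent.R097.KA.sR.eq_1 := @_root_.Crest.Agent.R097.KA.sR.eq_1 -- L163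
private theorem rz_1dd56cc27b : type_of% @_root_.Crest.Agent.R097.KA.vl.eq_def := @_root_.Crest.Agent.R097.KA.vl.eq_def -- L115
private theorem rz_88dd502ea5 : type_of% @_root_.Crest.Agent.R097.KA.vl.eq_1 := @_root_.Crest.Agent.R097.KA.vl.eq_1 -- L115
end

-- ▼ part R097/KA5

/-!
# Row 97: dyadic boxes, glue of the subdivision tree, the four sign charts (helper169)
-/

set_option autoImplicit false
open scoped BigOperators

namespace Crest.Agent.R097.KA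

open Crest.Agent.R097.CP Crest.Agent.R097.CQ

/-- dyadic half open boxes `∏ [k_i / 2^r_i, (k_i + 1) / 2^r_i)` -/
structure Bx where
  r0 : ℕ
  k0 : ℕ
  r1 : ℕ
  k1 : ℕ
  r2 : ℕ
  k2 : ℕ
  r3 : ℕ
  k3 : ℕ
  r4 : ℕ
  k4 : ℕ

/-- membership in a dyadic half open interval -/
def inD (r k : ℕ) (x : ℝ) : Prop := (k : ℝ) / 2 ^ r ≤ x ∧ x < ((k : ℝ) + 1) / 2 ^ r

/-- membership in a box -/
structure inBx (b : Bx) (t : ℕ → ℝ) : Prop where
  h0 : inD b.r0 b.k0 (t 0)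
  h1 : inD b.r1 b.k1 (t 1)
  h2 : inD b.r2 b.k2 (t 2)
  h3 : inD b.r3 b.k3 (t 3)
  h4 : inD b.r4 b.k4 (t 4)

/-- the assertion on a box -/
def Good (Φ : (ℕ → ℝ) → Prop) (b : Bx) : Prop := ∀ t, inBx b t → Φ t

theorem inD_split {r k : ℕ} {x : ℝ} (h : inD r k x) :
    inD (r + 1) (2 * k) x ∨ inD (r + 1) (2 * k + 1) x := by
  obtain ⟨h1, h2⟩ := h
  have hp : (0 : ℝ) < 2 ^ r := by positivity
  have hp1 : (0 : ℝ) < 2 ^ (r + 1) := by positivity
  rw [div_le_iff₀ hp] at h1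
  rw [lt_div_iff₀ hp] at h2
  have e : (2 : ℝ) ^ (r + 1) = 2 ^ r * 2 := pow_succ _ _
  rcases lt_or_ge (x * 2 ^ (r + 1)) (2 * k + 1) with h | h
  · left
    refine ⟨?_, ?_⟩
    · rw [div_le_iff₀ hp1, e]; push_cast; nlinarith
    · rw [lt_div_iff₀ hp1]; push_cast; linarith
  · right
    refine ⟨?_, ?_⟩
    · rw [div_le_iff₀ hp1]; push_cast; linarith
    · rw [lt_div_iff₀ hp1, e]; push_cast; nlinarith

section nodes

variable {Φ : (ℕ → ℝ) → Prop} {r0 k0 r1 k1 r2 k2 r3 k3 r4 k4 : ℕ}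

theorem Good.n0 (hl : Good Φ ⟨r0 + 1, 2 * k0, r1, k1, r2, k2, r3, k3, r4, k4⟩)
    (hr : Good Φ ⟨r0 + 1, 2 * k0 + 1, r1, k1, r2, k2, r3, k3, r4, k4⟩) :
    Good Φ ⟨r0, k0, r1, k1, r2, k2, r3, k3, r4, k4⟩ := by
  intro t h
  rcases inD_split h.h0 with h' | h'
  · exact hl t ⟨h', h.h1, h.h2, h.h3, h.h4⟩
  · exact hr t ⟨h', h.h1, h.h2, h.h3, h.h4⟩

theorem Good.n1 (hl : Good Φ ⟨r0, k0, r1 + 1, 2 * k1, r2, k2, r3, k3, r4, k4⟩)
    (hr : Good Φ ⟨r0, k0, r1 + 1, 2 * k1 + 1, r2, k2, r3, k3, r4, k4⟩) :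
    Good Φ ⟨r0, k0, r1, k1, r2, k2, r3, k3, r4, k4⟩ := by
  intro t h
  rcases inD_split h.h1 with h' | h'
  · exact hl t ⟨h.h0, h', h.h2, h.h3, h.h4⟩
  · exact hr t ⟨h.h0, h', h.h2, h.h3, h.h4⟩

theorem Good.n2 (hl : Good Φ ⟨r0, k0, r1, k1, r2 + 1, 2 * k2, r3, k3, r4, k4⟩)
    (hr : Good Φ ⟨r0, k0, r1, k1, r2 + 1, 2 * k2 + 1, r3, k3, r4, k4⟩) :
    Good Φ ⟨r0, k0, r1, k1, r2, k2, r3, k3, r4, k4⟩ := by
  intro t h
  rcases inD_split h.h2 with h' | h'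
  · exact hl t ⟨h.h0, h.h1, h', h.h3, h.h4⟩
  · exact hr t ⟨h.h0, h.h1, h', h.h3, h.h4⟩

theorem Good.n3 (hl : Good Φ ⟨r0, k0, r1, k1, r2, k2, r3 + 1, 2 * k3, r4, k4⟩)
    (hr : Good Φ ⟨r0, k0, r1, k1, r2, k2, r3 + 1, 2 * k3 + 1, r4, k4⟩) :
    Good Φ ⟨r0, k0, r1, k1, r2, k2, r3, k3, r4, k4⟩ := by
  intro t h
  rcases inD_split h.h3 with h' | h'
  · exact hl t ⟨h.h0, h.h1, h.h2, h', h.h4⟩
  · exact hr t ⟨h.h0, h.h1, h.h2, h', h.h4⟩

theorem Good.n4 (hl : Good Φ ⟨r0, k0, r1, k1, r2, k2, r3, k3, r4 + 1, 2 * k4⟩)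
    (hr : Good Φ ⟨r0, k0, r1, k1, r2, k2, r3, k3, r4 + 1, 2 * k4 + 1⟩) :
    Good Φ ⟨r0, k0, r1, k1, r2, k2, r3, k3, r4, k4⟩ := by
  intro t h
  rcases inD_split h.h4 with h' | h'
  · exact hl t ⟨h.h0, h.h1, h.h2, h.h3, h'⟩
  · exact hr t ⟨h.h0, h.h1, h.h2, h.h3, h'⟩

end nodes

/-- the root box `[0,1)^5` -/
abbrev rt : Bx := ⟨0, 0, 0, 0, 0, 0, 0, 0, 0, 0⟩

theorem inD_zero {x : ℝ} (h0 : 0 ≤ x) (h1 : x < 1) : inD 0 0 x := by
  refine ⟨by simpa using h0, by simpa using h1⟩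

/-- the assertion at the point `t` of the chart `(sx, sp)` -/
def Phi (P : Par) (D : Dat) (sx sp : ℝ) (t : ℕ → ℝ) : Prop :=
  DomS P.n P.A0 (sx * t 0) (sp * t 1) (t 2) (t 3) (2 * t 4) →
    ∃ (B' : TEl.Base) (L : TEl.Leaf),
      SRel (t 2) (nbS P D (sx * t 0) (sp * t 1) (t 2) (t 3) (2 * t 4)) B' ∧
        L.OK B' (t 3 - (2 * t 4) ^ 2 * ((1 - (t 2) ^ 2) / P.A0))

/-- cover of chart S by leaves for `Q < 1` -/
def CoverS1 (P : Par) (D : Dat) : Prop :=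
  ∀ x p s Q v : ℝ, DomS P.n P.A0 x p s Q v → Q < 1 → ∃ (B' : TEl.Base) (L : TEl.Leaf),
    SRel s (nbS P D x p s Q v) B' ∧ L.OK B' (Q - v ^ 2 * ((1 - s ^ 2) / P.A0))

/-- outside of the domain nothing has to be shown -/
theorem Good.of_not_dom {P : Par} {D : Dat} {sx sp : ℝ} {b : Bx}
    (h : ∀ t, inBx b t → ¬ DomS P.n P.A0 (sx * t 0) (sp * t 1) (t 2) (t 3) (2 * t 4)) :
    Good (Phi P D sx sp) b := fun t ht hd => absurd hd (h t ht)

lemma domS_x {n : ℕ} (hn : nOK n) {A0 x p s Q v : ℝ} (h : DomS n A0 x p s Q v) :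
    x ^ 2 ≤ 4 / 5 := by
  have h1 := h.rn
  unfold rr at h1
  rcases hn with rfl | rfl | rfl <;> norm_num at h1 <;> linarith

lemma p_lt_aux {y k r c : ℝ} (hk : k ^ 2 ≤ (c * r) ^ 2) (hc : 0 ≤ c * r)
    (h1 : c * r + y < 1) (h2 : c * r - y < 1) : |k + y| < 1 := by
  have hk' := abs_le_of_sq_le_sq' hk hc
  rw [abs_lt]
  constructor <;> linarith [hk'.1, hk'.2]

lemma domS_p {n : ℕ} (hn : nOK n) {A0 x p s Q v : ℝ} (h : DomS n A0 x p s Q v) :
    |p| < 1 := by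
  have h1 := h.rn
  have h2 := h.reg
  rcases hn with rfl | rfl | rfl
  · -- n = 3
    unfold rr k3 at *
    norm_num at h1 h2
    have hk : p - x ^ 3 + 3 * x / 2 * (1 - x ^ 2) - 2 * x ^ 3 / 4 = 0 := by
      have : (p - x ^ 3 + 3 * x / 2 * (1 - x ^ 2) - 2 * x ^ 3 / 4) ^ 2 ≤ 0 := by
        nlinarith
      exact pow_eq_zero_iff (two_ne_zero) |>.1 (le_antisymm this (sq_nonneg _))
    have hp : p = 3 * x ^ 3 - 3 / 2 * x := by linarith
    rw [hp, abs_lt]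
    have hx : x ^ 2 ≤ 2 / 3 := by linarith
    constructor
    · nlinarith [sq_nonneg (x - 1 / 2), sq_nonneg (x + 1 / 2), sq_nonneg x,
        mul_nonneg (sub_nonneg.2 hx) (sq_nonneg (x + 1)), mul_nonneg (sub_nonneg.2 hx) (sq_nonneg (x - 1))]
    · nlinarith [sq_nonneg (x - 1 / 2), sq_nonneg (x + 1 / 2), sq_nonneg x,
        mul_nonneg (sub_nonneg.2 hx) (sq_nonneg (x + 1)), mul_nonneg (sub_nonneg.2 hx) (sq_nonneg (x - 1))]
  · -- n = 4
    unfold rr k3 at *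
    norm_num at h1 h2
    have hx : x ^ 2 ≤ 3 / 4 := by linarith
    set r := 1 - 4 / 3 * x ^ 2 with hr
    have hr0 : 0 ≤ r := by rw [hr]; linarith
    have hr1 : r ≤ 1 := by rw [hr]; nlinarith [sq_nonneg x]
    set k := p - x ^ 3 + x * (1 - x ^ 2) - 2 * x ^ 3 / 9 with hkd
    have hk : k ^ 2 ≤ (1 / 2 * r) ^ 2 := by
      have : r ^ 3 ≤ r ^ 2 := by nlinarith [sq_nonneg r]
      nlinarith
    have hp : p = k + (20 / 9 * x ^ 3 - x) := by rw [hkd]; ring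
    rw [hp]
    refine p_lt_aux hk (by linarith) ?_ ?_
    · rcases le_total 0 x with h0 | h0
      · nlinarith [mul_nonneg h0 (sub_nonneg.2 hx), sq_nonneg (x - 1 / 2)]
      · nlinarith [mul_nonneg (neg_nonneg.2 h0) (sub_nonneg.2 hx), sq_nonneg (x + 1 / 2),
          mul_nonneg (neg_nonneg.2 h0) (sq_nonneg x)]
    · rcases le_total 0 x with h0 | h0
      · nlinarith [mul_nonneg h0 (sub_nonneg.2 hx), sq_nonneg (x - 1 / 2),
          mul_nonneg h0 (sq_nonneg x)]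
      · nlinarith [mul_nonneg (neg_nonneg.2 h0) (sub_nonneg.2 hx), sq_nonneg (x + 1 / 2)]
  · -- n = 5
    unfold rr k3 at *
    norm_num at h1 h2
    have hx : x ^ 2 ≤ 4 / 5 := by linarith
    set r := 1 - 5 / 4 * x ^ 2 with hr
    have hr0 : 0 ≤ r := by rw [hr]; linarith
    have hr1 : r ≤ 1 := by rw [hr]; nlinarith [sq_nonneg x]
    set k := p - x ^ 3 + 3 * x / 4 * (1 - x ^ 2) - 2 * x ^ 3 / 16 with hkd
    have hk : k ^ 2 ≤ (3 / 5 * r) ^ 2 := by
      have : r ^ 3 ≤ r ^ 2 := by nlinarith [sq_nonneg r]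
      nlinarith
    have hp : p = k + (15 / 8 * x ^ 3 - 3 / 4 * x) := by rw [hkd]; ring
    rw [hp]
    refine p_lt_aux hk (by linarith) ?_ ?_
    · rcases le_total 0 x with h0 | h0
      · nlinarith [mul_nonneg h0 (sub_nonneg.2 hx), sq_nonneg (x - 1 / 2)]
      · nlinarith [mul_nonneg (neg_nonneg.2 h0) (sub_nonneg.2 hx), sq_nonneg (x + 1 / 2),
          mul_nonneg (neg_nonneg.2 h0) (sq_nonneg x)]
    · rcases le_total 0 x with h0 | h0
      · nlinarith [mul_nonneg h0 (sub_nonneg.2 hx), sq_nonneg (x - 1 / 2),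
          mul_nonneg h0 (sq_nonneg x)]
      · nlinarith [mul_nonneg (neg_nonneg.2 h0) (sub_nonneg.2 hx), sq_nonneg (x + 1 / 2)]

lemma domS_v {n : ℕ} (hn : nOK n) {A0 x p s Q v : ℝ} (hA : 0 < A0) (hA3 : A0 ≤ 3)
    (h : DomS n A0 x p s Q v) : v < 2 := by
  have h1 := h.ap
  have h2 := h.q0
  have h3 : (n : ℝ) / (2 * (n + 2)) ≤ 1 / 2 := by
    rcases hn with rfl | rfl | rfl <;> norm_num
  have h4 : 0 ≤ (n : ℝ) / (2 * (n + 2)) := by positivity
  have h5 : (n : ℝ) / (2 * (n + 2)) * (1 - Q ^ 2) ≤ 1 / 2 := by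
    nlinarith [sq_nonneg Q]
  have h6 : v ^ 2 * (1 - s ^ 2) ≤ 3 := by
    have e : v ^ 2 * ((1 - s ^ 2) / A0) = v ^ 2 * (1 - s ^ 2) / A0 := by ring
    rw [e] at h2
    have : v ^ 2 * (1 - s ^ 2) / A0 ≤ 1 := by linarith [h.q1]
    rw [div_le_iff₀ hA] at this
    linarith
  have h7 : v ^ 2 < 2 ^ 2 := by nlinarith
  exact lt_of_pow_lt_pow_left₀ 2 (by norm_num) h7

lemma domS_Q {n : ℕ} {A0 x p s Q v : ℝ} (hA : 0 < A0) (h : DomS n A0 x p s Q v) : 0 ≤ Q := by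
  have h2 := h.q0
  have h3 : 0 ≤ 1 - s ^ 2 := by nlinarith [h.s0, h.s1]
  have : 0 ≤ v ^ 2 * ((1 - s ^ 2) / A0) := by positivity
  linarith

/-- **the four charts cover** -/
theorem coverS1_of_charts {P : Par} {D : Dat} (hn : nOK P.n) (hA : 0 < P.A0) (hA3 : P.A0 ≤ 3)
    (hpp : Good (Phi P D 1 1) rt) (hpm : Good (Phi P D 1 (-1)) rt)
    (hmp : Good (Phi P D (-1) 1) rt) (hmm : Good (Phi P D (-1) (-1)) rt) : CoverS1 P D := by
  intro x p s Q v h hQ
  have hx : |x| < 1 := by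
    have := domS_x hn h
    rw [abs_lt]
    constructor <;> nlinarith
  have hp := domS_p hn h
  have hv := domS_v hn hA hA3 h
  have hQ0 := domS_Q hA h
  -- the point
  have key : ∀ sx sp : ℝ, sx * |x| = x → sp * |p| = p → Good (Phi P D sx sp) rt →
      ∃ (B' : TEl.Base) (L : TEl.Leaf),
        SRel s (nbS P D x p s Q v) B' ∧ L.OK B' (Q - v ^ 2 * ((1 - s ^ 2) / P.A0)) := by
    intro sx sp ex ep hG
    set t : ℕ → ℝ := fun i => if i = 0 then |x| else if i = 1 then |p| else if i = 2 then s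
      else if i = 3 then Q else v / 2 with ht
    have t0 : t 0 = |x| := by simp [ht]
    have t1 : t 1 = |p| := by simp [ht]
    have t2 : t 2 = s := by simp [ht]
    have t3 : t 3 = Q := by simp [ht]
    have t4 : t 4 = v / 2 := by simp [ht]
    have hin : inBx rt t := by
      refine ⟨?_, ?_, ?_, ?_, ?_⟩
      · rw [t0]; exact inD_zero (abs_nonneg _) hx
      · rw [t1]; exact inD_zero (abs_nonneg _) hp
      · rw [t2]; exact inD_zero h.s0.le h.s1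
      · rw [t3]; exact inD_zero hQ0 hQ
      · rw [t4]; exact inD_zero (by linarith [h.v0]) (by linarith)
    have := hG t hin
    unfold Phi at this
    rw [t0, t1, t2, t3, t4, ex, ep] at this
    rw [show 2 * (v / 2) = v by ring] at this
    exact this h
  rcases le_total 0 x with h0 | h0 <;> rcases le_total 0 p with h1 | h1
  · exact key 1 1 (by rw [abs_of_nonneg h0, one_mul]) (by rw [abs_of_nonneg h1, one_mul]) hpp
  · exact key 1 (-1) (by rw [abs_of_nonneg h0, one_mul]) (by rw [abs_of_nonpos h1]; ring) hpm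
  · exact key (-1) 1 (by rw [abs_of_nonpos h0]; ring) (by rw [abs_of_nonneg h1, one_mul]) hmp
  · exact key (-1) (-1) (by rw [abs_of_nonpos h0]; ring) (by rw [abs_of_nonpos h1]; ring) hmm

end Crest.Agent.R097.KA
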