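import Crest.Agent.R097.TEl2
import Crest.Agent.R097.KP1

-- ▼ part R097/KA1
section

/-!
# Row 97: leaves with affine response, real-number part

At a state the affine functions of a leaf take real values `B1, B2, B3, Y1, Y2` (scale `β`), the
matrix `S'` has entries `Sij / γ`, the congruence `P` and the weight `m` are unscaled.
`ALeaf.OK_of` turns the scaled inequalities (a), (b) of the checker into `Leaf.OK`.
-/

set_option autoImplicit false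

namespace Crest.Agent.R097.TEl

/-- values of an affine leaf at a state -/
structure ALeaf where
  /-- scale of `B, Y` -/
  bt : ℝ
  /-- scale of `S` -/
  gm : ℝ
  /-- response -/
  (B1 B2 B3 Y1 Y2 : ℝ)
  /-- multiplier matrix -/
  (S11 S12 S13 S21 S22 S23 : ℝ)
  /-- congruence -/
  (p11 p12 p13 p21 p22 p23 p31 p32 p33 : ℝ)
  /-- weight -/
  m : ℝ

namespace ALeaf

variable (c : ALeaf) (B : Base)

/-- the leaf with real entries -/
noncomputable def toLeaf : Leaf where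
  a0 := c.Y1 / c.bt - (c.S11 * c.B1 + c.S12 * c.B2 + c.S13 * c.B3) / (c.gm * c.bt)
  a1 := c.S11 / c.gm
  a2 := c.S12 / c.gm
  a3 := c.S13 / c.gm
  b0 := c.Y2 / c.bt - (c.S21 * c.B1 + c.S22 * c.B2 + c.S23 * c.B3) / (c.gm * c.bt)
  b1 := c.S21 / c.gm
  b2 := c.S22 / c.gm
  b3 := c.S23 / c.gm
  h1 := c.B1 / c.bt
  h2 := c.B2 / c.bt
  h3 := c.B3 / c.bt
  p11 := c.p11
  p12 := c.p12
  p13 := c.p13
  p21 := c.p21
  p22 := c.p22
  p23 := c.p23
  p31 := c.p31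
  p32 := c.p32
  p33 := c.p33
  m := c.m

/-- `β ∂₁` -/
def G1 : ℝ := c.bt * B.L1 + 2 * B.A11 * c.B1 + B.A12 * c.B2 + B.W1 * c.B3 + 2 * B.g * c.Y1
/-- `β ∂₂` -/
def G2 : ℝ := c.bt * B.L2 + B.A12 * c.B1 + B.W2 * c.B3 + 2 * B.g * c.Y2
/-- `β ∂₃` -/
def G3 : ℝ := c.bt * B.Lw + B.W1 * c.B1 + B.W2 * c.B2 + 2 * B.psi * c.B3
/-- first multiplier defect -/
def H1 : ℝ := 2 * B.g * c.B1 - 2 * B.k11 * c.Y1 - 2 * B.k12 * c.Y2
/-- second multiplier defect -/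
def H2 : ℝ := 2 * B.g * c.B2 - 2 * B.k12 * c.Y1 - 2 * B.k22 * c.Y2
/-- scaled cross entries -/
def E1 : ℝ := c.gm * c.G1 B + c.S11 * c.H1 B + c.S21 * c.H2 B
/-- scaled cross entries -/
def E2 : ℝ := c.gm * c.G2 B + c.S12 * c.H1 B + c.S22 * c.H2 B
/-- scaled cross entries -/
def E3 : ℝ := c.gm * c.G3 B + c.S13 * c.H1 B + c.S23 * c.H2 B
/-- scaled coefficient of `q s₀²` -/
def Dh : ℝ := 2 * c.bt ^ 2 * B.Ck + c.B1 * (c.bt * B.L1 + c.G1 B) + c.B2 * (c.bt * B.L2 + c.G2 B)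
  + c.B3 * (c.bt * B.Lw + c.G3 B) + c.Y1 * c.H1 B + c.Y2 * c.H2 B
/-- scaled `l` -/
def l1 : ℝ := c.p11 * c.E1 B + c.p21 * c.E2 B + c.p31 * c.E3 B
/-- scaled `l` -/
def l2 : ℝ := c.p12 * c.E1 B + c.p22 * c.E2 B + c.p32 * c.E3 B
/-- scaled `l` -/
def l3 : ℝ := c.p13 * c.E1 B + c.p23 * c.E2 B + c.p33 * c.E3 B
/-- scaled `2R` -/
def R11 : ℝ := 2 * c.gm ^ 2 * B.A11 + 4 * c.gm * B.g * c.S11
  - 2 * (c.S11 ^ 2 * B.k11 + 2 * c.S11 * c.S21 * B.k12 + c.S21 ^ 2 * B.k22)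
/-- scaled `2R` -/
def R22 : ℝ := 4 * c.gm * B.g * c.S22
  - 2 * (c.S12 ^ 2 * B.k11 + 2 * c.S12 * c.S22 * B.k12 + c.S22 ^ 2 * B.k22)
/-- scaled `2R` -/
def R33 : ℝ := 2 * c.gm ^ 2 * B.psi
  - 2 * (c.S13 ^ 2 * B.k11 + 2 * c.S13 * c.S23 * B.k12 + c.S23 ^ 2 * B.k22)
/-- scaled `2R` -/
def R12 : ℝ := c.gm ^ 2 * B.A12 + 2 * c.gm * B.g * (c.S12 + c.S21)
  - 2 * (c.S11 * c.S12 * B.k11 + (c.S11 * c.S22 + c.S21 * c.S12) * B.k12 + c.S21 * c.S22 * B.k22)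
/-- scaled `2R` -/
def R13 : ℝ := c.gm ^ 2 * B.W1 + 2 * c.gm * B.g * c.S13
  - 2 * (c.S11 * c.S13 * B.k11 + (c.S11 * c.S23 + c.S21 * c.S13) * B.k12 + c.S21 * c.S23 * B.k22)
/-- scaled `2R` -/
def R23 : ℝ := c.gm ^ 2 * B.W2 + 2 * c.gm * B.g * c.S23
  - 2 * (c.S12 * c.S13 * B.k11 + (c.S12 * c.S23 + c.S22 * c.S13) * B.k12 + c.S22 * c.S23 * B.k22)

/-- bilinear form of the scaled `2R` -/
def bil (x1 x2 x3 y1 y2 y3 : ℝ) : ℝ :=
  x1 * (c.R11 B * y1 + c.R12 B * y2 + c.R13 B * y3)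
    + x2 * (c.R12 B * y1 + c.R22 B * y2 + c.R23 B * y3)
    + x3 * (c.R13 B * y1 + c.R23 B * y2 + c.R33 B * y3)

/-- scaled entries of `2 Pᵀ R P` -/
def q11 : ℝ := c.bil B c.p11 c.p21 c.p31 c.p11 c.p21 c.p31
/-- entry -/
def q22 : ℝ := c.bil B c.p12 c.p22 c.p32 c.p12 c.p22 c.p32
/-- entry -/
def q33 : ℝ := c.bil B c.p13 c.p23 c.p33 c.p13 c.p23 c.p33
/-- entry -/
def q12 : ℝ := c.bil B c.p11 c.p21 c.p31 c.p12 c.p22 c.p32
/-- entry -/
def q13 : ℝ := c.bil B c.p11 c.p21 c.p31 c.p13 c.p23 c.p33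
/-- entry -/
def q23 : ℝ := c.bil B c.p12 c.p22 c.p32 c.p13 c.p23 c.p33

/-- determinant of the congruence -/
def det : ℝ := c.p11 * (c.p22 * c.p33 - c.p23 * c.p32) - c.p12 * (c.p21 * c.p33 - c.p23 * c.p31)
  + c.p13 * (c.p21 * c.p32 - c.p22 * c.p31)

variable {c B}

theorem r11_eq (hg : c.gm ≠ 0) : c.R11 B = c.gm ^ 2 * c.toLeaf.r11 B := by
  simp only [R11, Leaf.r11, Leaf.SKS, toLeaf]; field_simp; ring
theorem r22_eq (hg : c.gm ≠ 0) : c.R22 B = c.gm ^ 2 * c.toLeaf.r22 B := by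
  simp only [R22, Leaf.r22, Leaf.SKS, toLeaf]; field_simp; ring
theorem r33_eq (hg : c.gm ≠ 0) : c.R33 B = c.gm ^ 2 * c.toLeaf.r33 B := by
  simp only [R33, Leaf.r33, Leaf.SKS, toLeaf]; field_simp; ring
theorem r12_eq (hg : c.gm ≠ 0) : c.R12 B = c.gm ^ 2 * c.toLeaf.r12 B := by
  simp only [R12, Leaf.r12, Leaf.SKS, toLeaf]; field_simp
theorem r13_eq (hg : c.gm ≠ 0) : c.R13 B = c.gm ^ 2 * c.toLeaf.r13 B := by
  simp only [R13, Leaf.r13, Leaf.SKS, toLeaf]; field_simp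
theorem r23_eq (hg : c.gm ≠ 0) : c.R23 B = c.gm ^ 2 * c.toLeaf.r23 B := by
  simp only [R23, Leaf.r23, Leaf.SKS, toLeaf]; field_simp

theorem f1_eq (hg : c.gm ≠ 0) (hb : c.bt ≠ 0) : c.E1 B = c.gm * c.bt * c.toLeaf.f1 B := by
  simp only [E1, G1, H1, H2, Leaf.f1, Leaf.e1, Leaf.Rh1, Leaf.r11, Leaf.r12, Leaf.r13, Leaf.SKS,
    toLeaf]
  field_simp
  ring
theorem f2_eq (hg : c.gm ≠ 0) (hb : c.bt ≠ 0) : c.E2 B = c.gm * c.bt * c.toLeaf.f2 B := by
  simp only [E2, G2, H1, H2, Leaf.f2, Leaf.e2, Leaf.Rh2, Leaf.r12, Leaf.r22, Leaf.r23, Leaf.SKS,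
    toLeaf]
  field_simp
  ring
theorem f3_eq (hg : c.gm ≠ 0) (hb : c.bt ≠ 0) : c.E3 B = c.gm * c.bt * c.toLeaf.f3 B := by
  simp only [E3, G3, H1, H2, Leaf.f3, Leaf.e3, Leaf.Rh3, Leaf.r13, Leaf.r23, Leaf.r33, Leaf.SKS,
    toLeaf]
  field_simp
  ring

theorem D_eq (hg : c.gm ≠ 0) (hb : c.bt ≠ 0) : c.Dh B = c.bt ^ 2 * c.toLeaf.D' B := by
  simp only [Dh, G1, G2, G3, H1, H2, Leaf.D', Leaf.D, Leaf.f1, Leaf.f2, Leaf.f3, Leaf.e1, Leaf.e2,
    Leaf.e3, Leaf.Rh1, Leaf.Rh2, Leaf.Rh3, Leaf.r11, Leaf.r12, Leaf.r13, Leaf.r22, Leaf.r23,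
    Leaf.r33, Leaf.SKS, toLeaf]
  field_simp
  ring

theorem l1_eq (hg : c.gm ≠ 0) (hb : c.bt ≠ 0) : c.l1 B = c.gm * c.bt * c.toLeaf.l1 B := by
  simp only [l1, f1_eq hg hb, f2_eq hg hb, f3_eq hg hb, Leaf.l1, toLeaf]; ring
theorem l2_eq (hg : c.gm ≠ 0) (hb : c.bt ≠ 0) : c.l2 B = c.gm * c.bt * c.toLeaf.l2 B := by
  simp only [l2, f1_eq hg hb, f2_eq hg hb, f3_eq hg hb, Leaf.l2, toLeaf]; ring
theorem l3_eq (hg : c.gm ≠ 0) (hb : c.bt ≠ 0) : c.l3 B = c.gm * c.bt * c.toLeaf.l3 B := by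
  simp only [l3, f1_eq hg hb, f2_eq hg hb, f3_eq hg hb, Leaf.l3, toLeaf]; ring

theorem bil_eq (hg : c.gm ≠ 0) (x1 x2 x3 y1 y2 y3 : ℝ) :
    c.bil B x1 x2 x3 y1 y2 y3 = c.gm ^ 2 * c.toLeaf.bil B x1 x2 x3 y1 y2 y3 := by
  simp only [bil, Leaf.bil, r11_eq hg, r22_eq hg, r33_eq hg, r12_eq hg, r13_eq hg, r23_eq hg]
  ring

/-- MAIN LEMMA: the scaled inequalities of the checker give `Leaf.OK`.
`an > 0` is the integer factor of `q` (`qh = an * q`), `sl ≥ 0` collects the domain multipliers. -/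
theorem OK_of {q q1 an qh sl : ℝ} (hbt : 0 < c.bt) (hgm : 0 < c.gm) (hm : 0 < c.m) (han : 0 < an)
    (hdet : c.det ≠ 0) (hqh : qh = an * q) (hq1 : q ≤ q1) (hsl : 0 ≤ sl)
    (ha : an * c.bt * (|c.l1 B| + |c.l2 B| + |c.l3 B|) + sl
      ≤ c.m * c.gm * (2 * c.bt ^ 2 * an * B.C0 + qh * c.Dh B))
    (hb1 : q1 * c.m * c.gm * |c.l1 B| + c.bt * (|c.q12 B| + |c.q13 B|) ≤ c.bt * c.q11 B)
    (hb2 : q1 * c.m * c.gm * |c.l2 B| + c.bt * (|c.q12 B| + |c.q23 B|) ≤ c.bt * c.q22 B)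
    (hb3 : q1 * c.m * c.gm * |c.l3 B| + c.bt * (|c.q13 B| + |c.q23 B|) ≤ c.bt * c.q33 B) :
    c.toLeaf.OK B q := by
  have hg := hgm.ne'
  have hb := hbt.ne'
  have hgb : 0 < c.gm * c.bt := mul_pos hgm hbt
  have hg2 : 0 < c.gm ^ 2 := by positivity
  have el1 : |c.l1 B| = c.gm * c.bt * |c.toLeaf.l1 B| := by
    rw [l1_eq hg hb, abs_mul, abs_of_pos hgb]
  have el2 : |c.l2 B| = c.gm * c.bt * |c.toLeaf.l2 B| := by
    rw [l2_eq hg hb, abs_mul, abs_of_pos hgb]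
  have el3 : |c.l3 B| = c.gm * c.bt * |c.toLeaf.l3 B| := by
    rw [l3_eq hg hb, abs_mul, abs_of_pos hgb]
  have e11 : c.q11 B = c.gm ^ 2 * c.toLeaf.q11 B := bil_eq hg _ _ _ _ _ _
  have e22 : c.q22 B = c.gm ^ 2 * c.toLeaf.q22 B := bil_eq hg _ _ _ _ _ _
  have e33 : c.q33 B = c.gm ^ 2 * c.toLeaf.q33 B := bil_eq hg _ _ _ _ _ _
  have e12 : |c.q12 B| = c.gm ^ 2 * |c.toLeaf.q12 B| := by
    rw [show c.q12 B = c.gm ^ 2 * c.toLeaf.q12 B from bil_eq hg _ _ _ _ _ _, abs_mul,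
      abs_of_pos hg2]
  have e13 : |c.q13 B| = c.gm ^ 2 * |c.toLeaf.q13 B| := by
    rw [show c.q13 B = c.gm ^ 2 * c.toLeaf.q13 B from bil_eq hg _ _ _ _ _ _, abs_mul,
      abs_of_pos hg2]
  have e23 : |c.q23 B| = c.gm ^ 2 * |c.toLeaf.q23 B| := by
    rw [show c.q23 B = c.gm ^ 2 * c.toLeaf.q23 B from bil_eq hg _ _ _ _ _ _, abs_mul,
      abs_of_pos hg2]
  have row : ∀ {l a b d : ℝ}, 0 ≤ l →
      q1 * c.m * c.gm * (c.gm * c.bt * l) + c.bt * (c.gm ^ 2 * a + c.gm ^ 2 * b)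
        ≤ c.bt * (c.gm ^ 2 * d) → q * c.m * l + a + b ≤ d := by
    intro l a b d hl h
    have h1 : q * c.m * l ≤ q1 * c.m * l :=
      mul_le_mul_of_nonneg_right (mul_le_mul_of_nonneg_right hq1 hm.le) hl
    have hK : 0 < c.bt * c.gm ^ 2 := by positivity
    have h2 : (c.bt * c.gm ^ 2) * (q1 * c.m * l + a + b) ≤ (c.bt * c.gm ^ 2) * d := by nlinarith
    have h3 := le_of_mul_le_mul_left h2 hK
    linarith
  refine ⟨hm, hdet, ?_, ?_, ?_, ?_⟩
  · rw [el1, el2, el3, D_eq hg hb, hqh] at ha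
    have hK : 0 < an * (c.gm * c.bt ^ 2) := by positivity
    have h2 : (an * (c.gm * c.bt ^ 2)) * (|c.toLeaf.l1 B| + |c.toLeaf.l2 B| + |c.toLeaf.l3 B|)
        ≤ (an * (c.gm * c.bt ^ 2)) * (c.toLeaf.m * (2 * B.C0 + q * c.toLeaf.D' B)) := by
      have hmm : c.toLeaf.m = c.m := rfl
      rw [hmm]
      nlinarith
    exact le_of_mul_le_mul_left h2 hK
  · rw [el1, e12, e13, e11] at hb1
    exact row (abs_nonneg _) hb1
  · rw [el2, e12, e23, e22] at hb2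
    exact row (abs_nonneg _) hb2
  · rw [el3, e13, e23, e33] at hb3
    exact row (abs_nonneg _) hb3

/-- the same, existential form -/
theorem exists_OK {q q1 an qh sl : ℝ} (hbt : 0 < c.bt) (hgm : 0 < c.gm) (hm : 0 < c.m)
    (han : 0 < an) (hdet : c.det ≠ 0) (hqh : qh = an * q) (hq1 : q ≤ q1) (hsl : 0 ≤ sl)
    (ha : an * c.bt * (|c.l1 B| + |c.l2 B| + |c.l3 B|) + sl
      ≤ c.m * c.gm * (2 * c.bt ^ 2 * an * B.C0 + qh * c.Dh B))
    (hb1 : q1 * c.m * c.gm * |c.l1 B| + c.bt * (|c.q12 B| + |c.q13 B|) ≤ c.bt * c.q11 B)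
    (hb2 : q1 * c.m * c.gm * |c.l2 B| + c.bt * (|c.q12 B| + |c.q23 B|) ≤ c.bt * c.q22 B)
    (hb3 : q1 * c.m * c.gm * |c.l3 B| + c.bt * (|c.q13 B| + |c.q23 B|) ≤ c.bt * c.q33 B) :
    ∃ L : Leaf, L.OK B q :=
  ⟨c.toLeaf, OK_of hbt hgm hm han hdet hqh hq1 hsl ha hb1 hb2 hb3⟩

end ALeaf

end Crest.Agent.R097.TEl
end

-- ▼ part R097/KP2

/-!
# Row 97, KBA checker: the five interpretations of the rows, and the real inequality (helper351)
-/

set_option autoImplicit false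

namespace Crest.Agent.R097.KA

open MvPolynomial Crest.Agent.R097.CQ Crest.Agent.KB

/-- polynomials -/
noncomputable def OM : Ops (MvPolynomial ℕ ℤ) where
  zero := 0
  add := fun P Q => P + Q
  smul := fun a P => C a * P
  mulT := fun i P => X (cl i) * P

/-- packed pairs: value `z.1 - z.2` -/
def OZ (w : ℕ) (σ : ℕ → ℕ) : Ops (ℕ × ℕ) where
  zero := (0, 0)
  add := fun x y => (Nat.add x.1 y.1, Nat.add x.2 y.2)
  smul := fun a x => match a with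
    | .ofNat k => (Nat.mul k x.1, Nat.mul k x.2)
    | .negSucc k => (Nat.mul (Nat.succ k) x.2, Nat.mul (Nat.succ k) x.1)
  mulT := fun i x => (Nat.shiftLeft x.1 (Nat.mul w (σ (cl i))), Nat.shiftLeft x.2 (Nat.mul w (σ (cl i))))

/-- norms -/
def ON : Ops ℕ where
  zero := 0
  add := fun x y => Nat.add x y
  smul := fun a x => Nat.mul a.natAbs x
  mulT := fun _ x => x

/-- degree in the variable `j` -/
def OD (j : ℕ) : Ops ℕ where
  zero := 0
  add := fun x y => if Nat.ble x y then y else x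
  smul := fun _ x => x
  mulT := fun i x => if Nat.beq (cl i) j then Nat.succ x else x

/-- real values -/
noncomputable def OR (t : ℕ → ℝ) : Ops ℝ where
  zero := 0
  add := fun x y => x + y
  smul := fun a x => (a : ℝ) * x
  mulT := fun i x => t (cl i) * x

/-- packed value -/
def RZ (w : ℕ) (σ : ℕ → ℕ) (P : MvPolynomial ℕ ℤ) (z : ℕ × ℕ) : Prop :=
  eval (fun i => (2 : ℤ) ^ (w * σ i)) P = (z.1 : ℤ) - z.2

lemma relZ (w : ℕ) (σ : ℕ → ℕ) : ORel OM (OZ w σ) (RZ w σ) where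
  zero := by simp [RZ, OM, OZ]
  add := by
    intro x y x' y' h1 h2
    show eval _ (x + y) = ((x'.1 + y'.1 : ℕ) : ℤ) - ((x'.2 + y'.2 : ℕ) : ℤ)
    unfold RZ at h1 h2
    rw [map_add, h1, h2]; push_cast; ring
  smul := by
    intro a x x' h1
    unfold RZ at h1
    cases a with
    | ofNat k =>
      show eval _ (C _ * x) = ((k * x'.1 : ℕ) : ℤ) - ((k * x'.2 : ℕ) : ℤ)
      rw [map_mul, eval_C, h1, Int.ofNat_eq_natCast]; push_cast; ring
    | negSucc k =>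
      show eval _ (C _ * x) = (((k + 1) * x'.2 : ℕ) : ℤ) - (((k + 1) * x'.1 : ℕ) : ℤ)
      rw [map_mul, eval_C, h1, Int.negSucc_eq]; push_cast; ring
  mulT := by
    intro i x x' h1
    unfold RZ at h1
    show eval _ (X (cl i) * x) = ((x'.1 <<< (w * σ (cl i)) : ℕ) : ℤ) - ((x'.2 <<< (w * σ (cl i)) : ℕ) : ℤ)
    rw [map_mul, eval_X, h1, Nat.shiftLeft_eq, Nat.shiftLeft_eq]; push_cast; ring

lemma relN : ORel OM ON (fun P n => Maj P (n : ℤ)) where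
  zero := by
    have := Maj.C 0
    simpa [OM, ON] using this
  add := by
    intro x y x' y' h1 h2
    show Maj (x + y) ((x' + y' : ℕ) : ℤ)
    push_cast
    exact h1.add h2
  smul := by
    intro a x x' h1
    show Maj (C a * x) ((a.natAbs * x' : ℕ) : ℤ)
    push_cast
    exact (Maj.C a).mul h1
  mulT := by
    intro i x x' h1
    show Maj (X (cl i) * x) (x' : ℤ)
    have := (Maj.X (cl i)).mul h1
    rwa [one_mul] at this

lemma relD (j : ℕ) : ORel OM (OD j) (fun P n => degreeOf j P ≤ n) where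
  zero := by simp [OM, OD]
  add := by
    intro x y x' y' h1 h2
    show degreeOf j (x + y) ≤ if Nat.ble x' y' = true then y' else x'
    refine (degreeOf_add_le _ _ _).trans ?_
    split_ifs with h
    · rw [Nat.ble_eq] at h; exact max_le (h1.trans h) h2
    · rw [Nat.ble_eq, not_le] at h; exact max_le h1 (h2.trans h.le)
  smul := by
    intro a x x' h1
    exact (degreeOf_C_mul_le _ _ _).trans h1
  mulT := by
    intro i x x' h1
    show degreeOf j (X (cl i) * x) ≤ if Nat.beq (cl i) j = true then Nat.succ x' else x'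
    refine (degreeOf_mul_le _ _ _).trans ?_
    rw [degreeOf_X]
    by_cases h : cl i = j
    · have h2 : Nat.beq (cl i) j = true := by simp [h]
      rw [if_pos h2, if_pos h.symm]
      omega
    · have h2 : ¬ Nat.beq (cl i) j = true := by simpa using h
      rw [if_neg h2, if_neg (Ne.symm h)]
      omega

lemma relR (t : ℕ → ℝ) : ORel OM (OR t) (fun P r => eval₂ (Int.castRingHom ℝ) t P = r) where
  zero := by simp [OM, OR]
  add := by
    intro x y x' y' h1 h2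
    show eval₂ _ _ (x + y) = x' + y'
    rw [eval₂_add, h1, h2]
  smul := by
    intro a x x' h1
    show eval₂ _ _ (C a * x) = (a : ℝ) * x'
    rw [eval₂_mul, eval₂_C, h1]; rfl
  mulT := by
    intro i x x' h1
    show eval₂ _ _ (X (cl i) * x) = t (cl i) * x'
    rw [eval₂_mul, eval₂_X, h1]

lemma forall₂_ex {α β : Type} {R : α → β → Prop} {l : List α} {l' : List β} (h : List.Forall₂ R l l')
    {p : β → Prop} (hp : ∀ z ∈ l', p z) : ∀ x ∈ l, ∃ z, R x z ∧ p z := by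
  induction h with
  | nil => intro x hx; simp at hx
  | cons h1 _ ih =>
    intro x hx
    rcases List.mem_cons.1 hx with rfl | hx
    · exact ⟨_, h1, hp _ List.mem_cons_self⟩
    · exact ih (fun z hz => hp z (List.mem_cons_of_mem _ hz)) x hx

lemma forall₂_ex' {α β : Type} {R : α → β → Prop} {l : List α} {l' : List β} (h : List.Forall₂ R l l')
    {p : α → Prop} (hp : ∀ z ∈ l, p z) : ∀ x ∈ l', ∃ z, R z x ∧ p z := by
  induction h with
  | nil => intro x hx; simp at hx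
  | cons h1 _ ih =>
    intro x hx
    rcases List.mem_cons.1 hx with rfl | hx
    · exact ⟨_, h1, hp _ List.mem_cons_self⟩
    · exact ih (fun z hz => hp z (List.mem_cons_of_mem _ hz)) x hx

/-- the sign test of a packed number -/
def dig (H : ℕ) (z : ℕ × ℕ) : Bool := Nat.beq (Nat.land (Nat.sub (Nat.add z.1 H) z.2) H) H

/-- the packed polynomial has non-negative coefficients -/
lemma coeff_nonneg_of_dig {w : ℕ} (hw : 0 < w) {Xs : ℕ → ℕ} {P : MvPolynomial ℕ ℤ} {z : ℕ × ℕ}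
    (hz : RZ w (sg Xs) P z) {N : ℕ} (hN : Maj P (N : ℤ)) (hNw : N < 2 ^ (w - 1))
    (hdeg : ∀ i, i < 5 → degreeOf i P < Xs i) (hvar : ∀ i, 5 ≤ i → degreeOf i P = 0)
    (hc : dig (Hm w (sg Xs 5)) z = true) : ∀ m, 0 ≤ coeff m P := by
  have hH : 0 < Hm w (sg Xs 5) := by
    rcases Nat.eq_zero_or_pos (sg Xs 5) with h | h
    · exfalso
      have h1 : ∀ i, i < 5 → 0 < Xs i := fun i hi => lt_of_le_of_lt (Nat.zero_le _) (hdeg i hi)
      have h2 : 0 < sg Xs 5 := Finset.prod_pos fun i hi => h1 i (Finset.mem_range.1 hi)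
      omega
    · rw [Hm_eq w _ hw]
      refine Finset.sum_pos (fun i _ => by positivity) ⟨0, Finset.mem_range.2 h⟩
  refine coeff_nonneg_of_land w hw 5 Xs P hdeg hvar (fun m => lt_of_le_of_lt (hN.bound m) (by exact_mod_cast hNw)) ?_
  have hz' : eval (fun i => (2 : ℤ) ^ (w * sg Xs i)) P = (z.1 : ℤ) - z.2 := hz
  rw [hz']
  simp only [dig, Nat.beq_eq] at hc
  have hle : z.2 ≤ z.1 + Hm w (sg Xs 5) := by
    by_contra hcon
    have h0 : Nat.sub (Nat.add z.1 (Hm w (sg Xs 5))) z.2 = 0 := Nat.sub_eq_zero_of_le (by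
      have := not_le.1 hcon
      exact this.le)
    rw [h0] at hc
    have h1 : Nat.land 0 (Hm w (sg Xs 5)) = 0 := Nat.zero_and _
    omega
  have e1 : ((z.1 : ℤ) - z.2 + (Hm w (sg Xs 5) : ℤ)).toNat = Nat.sub (Nat.add z.1 (Hm w (sg Xs 5))) z.2 := by
    show _ = z.1 + Hm w (sg Xs 5) - z.2
    omega
  rw [e1]
  exact hc

/-! ### real values of the rows -/

section real
variable (t : ℕ → ℝ)

/-- `∏ (1 + t_i)` -/
noncomputable def om : ℝ := (1 + t 0) * (1 + t 1) * (1 + t 2) * (1 + t 3) * (1 + t 4)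

lemma up_real (i : ℕ) (x : ℝ) : up (OR t) i x = (1 + t (cl i)) * x := by
  simp only [up, OR]; ring

lemma lin_real (a b : ℤ) (i : ℕ) (x : ℝ) : lin (OR t) a b i x = (a + b * t (cl i)) * x := by
  simp only [lin, OR]; ring

lemma ones_real (x : ℝ) : ones (OR t) x = om t * x := by
  simp only [ones, up_real, cl, om]; ring

lemma c2_real (a b : ℤ) (x y : ℝ) : c2 (OR t) a x b y = a * x + b * y := rfl
lemma c3_real (a b c : ℤ) (x y z : ℝ) : c3 (OR t) a x b y c z = a * x + b * y + c * z := rfl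

/-- real value of an affine function -/
noncomputable def Aff.val (f : Aff) (lam : ℕ → ℝ) : ℝ :=
  f.f0 + f.f1 * lam 0 + f.f2 * lam 1 + f.f3 * lam 2 + f.f4 * lam 3 + f.f5 * lam 4

/-- linear functional on terms -/
noncomputable def tsum (sel : Aff → ℤ) (l : Tms ℝ) : ℝ :=
  (l.map fun x => ((x.1 * sel x.2.1 : ℤ) : ℝ) * x.2.2).sum

lemma acc0_real (l : Tms ℝ) (B : ℝ) : acc0 (OR t) l B = B + tsum Aff.f0 l := by
  induction l with
  | nil => simp [acc0, tsum]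
  | cons x l ih =>
    simp only [acc0, List.foldr_cons] at ih ⊢
    rw [ih]
    simp only [OR, tsum, List.map_cons, List.sum_cons]
    ring

lemma accT_real (sel : Aff → ℤ) (i : ℕ) (l : Tms ℝ) (B : ℝ) :
    accT (OR t) sel i l B = B + t (cl i) * tsum sel l := by
  induction l with
  | nil => simp [accT, tsum]
  | cons x l ih =>
    simp only [accT, List.foldr_cons] at ih ⊢
    rw [ih]
    simp only [OR, tsum, List.map_cons, List.sum_cons]
    ring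

lemma tsum_upT (sel : Aff → ℤ) (i : ℕ) (l : Tms ℝ) :
    tsum sel (upT (OR t) i l) = (1 + t (cl i)) * tsum sel l := by
  induction l with
  | nil => simp [upT, tsum]
  | cons x l ih =>
    simp only [upT, tsum, List.map_cons, List.sum_cons] at ih ⊢
    rw [ih, up_real]
    ring

lemma affSum_real (lam : ℕ → ℝ) (hl : ∀ i < 5, t i = lam i * (1 + t i)) (l : Tms ℝ) (B0 : ℝ) :
    affSum (OR t) l B0 = om t * (B0 + (l.map fun x => (x.1 : ℝ) * x.2.1.val lam * x.2.2).sum) := by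
  have h0 := hl 0 (by norm_num)
  have h1 := hl 1 (by norm_num)
  have h2 := hl 2 (by norm_num)
  have h3 := hl 3 (by norm_num)
  have h4 := hl 4 (by norm_num)
  have key : affSum (OR t) l B0 = om t * B0 + (om t * tsum Aff.f0 l
      + t 0 * ((1 + t 1) * (1 + t 2) * (1 + t 3) * (1 + t 4)) * tsum Aff.f1 l
      + t 1 * ((1 + t 0) * (1 + t 2) * (1 + t 3) * (1 + t 4)) * tsum Aff.f2 l
      + t 2 * ((1 + t 0) * (1 + t 1) * (1 + t 3) * (1 + t 4)) * tsum Aff.f3 l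
      + t 3 * ((1 + t 0) * (1 + t 1) * (1 + t 2) * (1 + t 4)) * tsum Aff.f4 l
      + t 4 * ((1 + t 0) * (1 + t 1) * (1 + t 2) * (1 + t 3)) * tsum Aff.f5 l) := by
    simp only [affSum, affStep, accT_real, up_real, tsum_upT, acc0_real, cl, om]
    ring
  have key2 : om t * tsum Aff.f0 l
      + t 0 * ((1 + t 1) * (1 + t 2) * (1 + t 3) * (1 + t 4)) * tsum Aff.f1 l
      + t 1 * ((1 + t 0) * (1 + t 2) * (1 + t 3) * (1 + t 4)) * tsum Aff.f2 l
      + t 2 * ((1 + t 0) * (1 + t 1) * (1 + t 3) * (1 + t 4)) * tsum Aff.f3 l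
      + t 3 * ((1 + t 0) * (1 + t 1) * (1 + t 2) * (1 + t 4)) * tsum Aff.f4 l
      + t 4 * ((1 + t 0) * (1 + t 1) * (1 + t 2) * (1 + t 3)) * tsum Aff.f5 l
      = om t * (l.map fun x => (x.1 : ℝ) * x.2.1.val lam * x.2.2).sum := by
    clear key
    induction l with
    | nil => simp [tsum]
    | cons x l ih =>
      have hs : ∀ sel : Aff → ℤ, tsum sel (x :: l) = ((x.1 * sel x.2.1 : ℤ) : ℝ) * x.2.2 + tsum sel l :=
        fun sel => by simp [tsum]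
      simp only [List.map_cons, List.sum_cons, hs]
      generalize hS : (List.map (fun x => (x.1 : ℝ) * x.2.1.val lam * x.2.2) l).sum = S at ih
      simp only [Aff.val, om] at ih ⊢
      push_cast
      linear_combination ih + ((x.1 : ℝ) * x.2.1.f1 * x.2.2 * ((1 + t 1) * (1 + t 2) * (1 + t 3) * (1 + t 4))) * h0
        + ((x.1 : ℝ) * x.2.1.f2 * x.2.2 * ((1 + t 0) * (1 + t 2) * (1 + t 3) * (1 + t 4))) * h1
        + ((x.1 : ℝ) * x.2.1.f3 * x.2.2 * ((1 + t 0) * (1 + t 1) * (1 + t 3) * (1 + t 4))) * h2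
        + ((x.1 : ℝ) * x.2.1.f4 * x.2.2 * ((1 + t 0) * (1 + t 1) * (1 + t 2) * (1 + t 4))) * h3
        + ((x.1 : ℝ) * x.2.1.f5 * x.2.2 * ((1 + t 0) * (1 + t 1) * (1 + t 2) * (1 + t 3))) * h4
  rw [key, key2]
  ring

lemma signs_real {X a b c : ℝ} (h : ∀ r ∈ signs (OR t) X a b c, 0 ≤ r) : |a| + |b| + |c| ≤ X := by
  simp only [signs, OR, List.mem_cons, List.not_mem_nil, or_false, forall_eq_or_imp, forall_eq] at h
  obtain ⟨h1, h2, h3, h4, h5, h6, h7, h8⟩ := h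
  push_cast at h1 h2 h3 h4 h5 h6 h7 h8
  rcases abs_cases a with ⟨ha, _⟩ | ⟨ha, _⟩ <;> rcases abs_cases b with ⟨hb, _⟩ | ⟨hb, _⟩ <;>
    rcases abs_cases c with ⟨hc, _⟩ | ⟨hc, _⟩ <;> rw [ha, hb, hc] <;> linarith

end real

end Crest.Agent.R097.KA
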