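import Crest.Agent.R097.KA5_Mg

/-!
# Row 97, KBA checker: the check of a leaf and its soundness (helper351)
-/

set_option autoImplicit false

namespace Crest.Agent.R097.KA

open MvPolynomial Crest.Agent.R097.CP Crest.Agent.R097.CQ Crest.Agent.KB

/-- polynomials of a chart -/
structure CD where
  g : NP
  k11 : NP
  k12 : NP
  k22 : NP
  C0 : NP
  Ck : NP
  L1 : NP
  L2 : NP
  Lw : NP
  A11 : NP
  A12 : NP
  W1 : NP
  W2 : NP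
  psi : NP
  G1 : NP
  G2 : NP
  G3 : NP
  G4 : NP

/-- bounds of the sums of the absolute values of the coefficients -/
structure CN where
  g : ℕ
  k11 : ℕ
  k12 : ℕ
  k22 : ℕ
  C0 : ℕ
  Ck : ℕ
  L1 : ℕ
  L2 : ℕ
  Lw : ℕ
  A11 : ℕ
  A12 : ℕ
  W1 : ℕ
  W2 : ℕ
  psi : ℕ
  G1 : ℕ
  G2 : ℕ
  G3 : ℕ
  G4 : ℕ

/-- data of a chart: `A₀ = an/ad`, degrees `d` -/
structure DS where
  an : ℕ
  ad : ℕ
  d0 : ℕ
  d1 : ℕ
  d2 : ℕ
  d3 : ℕ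
  d4 : ℕ
  X : CD
  N : CN

/-- one field: power of the denominators, degree, polynomial, norm -/
structure Fld where
  d : ℕ → ℕ
  f : ℕ → ℕ
  N : NP
  M : ℕ

namespace DS
variable (S : DS)

def d : ℕ → ℕ := fn5 S.d0 S.d1 S.d2 S.d3 S.d4
def d2' : ℕ → ℕ := fn5 (S.d0 + 2) (S.d1 + 2) (S.d2 + 2) (S.d3 + 2) (S.d4 + 2)
def dC : ℕ → ℕ := fn5 S.d0 S.d1 (S.d2 + 2) (S.d3 + 1) (S.d4 + 2)
def dA : ℕ → ℕ := fn5 (S.d0 + 2) (S.d1 + 2) (S.d2 + 4) (S.d3 + 3) (S.d4 + 4)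
def dB : ℕ → ℕ := fn5 (S.d0 + 2) (S.d1 + 1) (S.d2 + 1) (S.d3 + 1) (S.d4 + 1)
def Xs : ℕ → ℕ := fn5 (S.d0 + 3) (S.d1 + 3) (S.d2 + 5) (S.d3 + 4) (S.d4 + 5)
/-- strides -/
def σ : ℕ → ℕ := fn5 1 (S.d0 + 3) ((S.d0 + 3) * (S.d1 + 3)) ((S.d0 + 3) * (S.d1 + 3) * (S.d2 + 5))
  ((S.d0 + 3) * (S.d1 + 3) * (S.d2 + 5) * (S.d3 + 4))
/-- number of digits -/
def K : ℕ := (S.d0 + 3) * (S.d1 + 3) * (S.d2 + 5) * (S.d3 + 4) * (S.d4 + 5)

end DS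

def dG1 : ℕ → ℕ := fn5 0 0 2 1 2
def dG2 : ℕ → ℕ := fn5 0 0 2 2 2
def dG3 : ℕ → ℕ := fn5 6 2 0 0 0
def dG4 : ℕ → ℕ := fn5 2 0 0 0 0

/-- the base of the rows from a function of the fields -/
def DS.mapB (S : DS) {α : Type} (F : Fld → α) : BaseA α where
  L1 := F ⟨S.d, S.d, S.X.L1, S.N.L1⟩
  L2 := F ⟨S.d, S.d, S.X.L2, S.N.L2⟩
  Lw := F ⟨S.d, S.d, S.X.Lw, S.N.Lw⟩
  A11 := F ⟨S.d, S.d, S.X.A11, S.N.A11⟩
  A12 := F ⟨S.d, S.d, S.X.A12, S.N.A12⟩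
  W1 := F ⟨S.d, S.d, S.X.W1, S.N.W1⟩
  W2 := F ⟨S.d, S.d, S.X.W2, S.N.W2⟩
  psi := F ⟨S.d, S.d, S.X.psi, S.N.psi⟩
  g := F ⟨S.d, S.d, S.X.g, S.N.g⟩
  K11 := F ⟨S.d, S.d, S.X.k11, S.N.k11⟩
  K12 := F ⟨S.d, S.d, S.X.k12, S.N.k12⟩
  K22 := F ⟨S.d, S.d, S.X.k22, S.N.k22⟩
  Ck := F ⟨S.d, S.d2', S.X.Ck, S.N.Ck⟩
  C0 := F ⟨S.dC, S.dA, S.X.C0, S.N.C0⟩
  G1 := F ⟨dG1, S.dA, S.X.G1, S.N.G1⟩
  G2 := F ⟨dG2, S.dA, S.X.G2, S.N.G2⟩
  G3 := F ⟨dG3, S.dA, S.X.G3, S.N.G3⟩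
  G4 := F ⟨dG4, S.dA, S.X.G4, S.N.G4⟩
  F1 := F ⟨dG1, S.dB, S.X.G1, S.N.G1⟩
  F2 := F ⟨dG2, S.dB, S.X.G2, S.N.G2⟩
  F3 := F ⟨dG3, S.dB, S.X.G3, S.N.G3⟩
  F4 := F ⟨dG4, S.dB, S.X.G4, S.N.G4⟩

/-- all fields -/
def DS.flds (S : DS) : List Fld :=
  [⟨S.d, S.d, S.X.L1, S.N.L1⟩, ⟨S.d, S.d, S.X.L2, S.N.L2⟩, ⟨S.d, S.d, S.X.Lw, S.N.Lw⟩,
  ⟨S.d, S.d, S.X.A11, S.N.A11⟩, ⟨S.d, S.d, S.X.A12, S.N.A12⟩, ⟨S.d, S.d, S.X.W1, S.N.W1⟩,
  ⟨S.d, S.d, S.X.W2, S.N.W2⟩, ⟨S.d, S.d, S.X.psi, S.N.psi⟩, ⟨S.d, S.d, S.X.g, S.N.g⟩,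
  ⟨S.d, S.d, S.X.k11, S.N.k11⟩, ⟨S.d, S.d, S.X.k12, S.N.k12⟩, ⟨S.d, S.d, S.X.k22, S.N.k22⟩,
  ⟨S.d, S.d2', S.X.Ck, S.N.Ck⟩, ⟨S.dC, S.dA, S.X.C0, S.N.C0⟩, ⟨dG1, S.dA, S.X.G1, S.N.G1⟩,
  ⟨dG2, S.dA, S.X.G2, S.N.G2⟩, ⟨dG3, S.dA, S.X.G3, S.N.G3⟩, ⟨dG4, S.dA, S.X.G4, S.N.G4⟩,
  ⟨dG1, S.dB, S.X.G1, S.N.G1⟩, ⟨dG2, S.dB, S.X.G2, S.N.G2⟩, ⟨dG3, S.dB, S.X.G3, S.N.G3⟩,
  ⟨dG4, S.dB, S.X.G4, S.N.G4⟩]

lemma brel_map {S : DS} {α β : Type} {R : α → β → Prop} {F : Fld → α} {G : Fld → β}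
    (h : ∀ x ∈ S.flds, R (F x) (G x)) : BRel R (S.mapB F) (S.mapB G) := by
  constructor <;> exact h _ (by simp [DS.flds])

/-- static test of a field -/
def Fld.ok (x : Fld) : Bool :=
  expOK x.d (flat x.N) && (okNP x.f x.N && (Nat.ble (csum (flat x.N)) x.M &&
    (Nat.ble (x.d 0) (x.f 0) && (Nat.ble (x.d 1) (x.f 1) && (Nat.ble (x.d 2) (x.f 2) &&
    (Nat.ble (x.d 3) (x.f 3) && Nat.ble (x.d 4) (x.f 4)))))))

/-- a leaf for the degree check -/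
def lf0 : Lf := ⟨⟨0, 0, 0, 0, 0, 0⟩, ⟨0, 0, 0, 0, 0, 0⟩, ⟨0, 0, 0, 0, 0, 0⟩, ⟨0, 0, 0, 0, 0, 0⟩,
  ⟨0, 0, 0, 0, 0, 0⟩, 0, 0, 0, 0, 0, 0, 0, 0, 0, 0, 0, 0, 0, 0, 0, 0, 0, 0, 0, 0, 0, 0, 0, 0, 0, 0, 0, 0,
  0, 0, 0, 0⟩

def bc0 : BoxC := ⟨0, 0, 0, 0, 0, 0, 0, 0, 0, 0, 0⟩

lemma tests_OD (j : ℕ) (β2 γ2 q1n q1d β2' γ2' q1n' q1d' : ℤ) (k k' : BoxC) (b : BaseA ℕ) (c c' : Lf) :
    tests (OD j) β2 γ2 q1n q1d k b c = tests (OD j) β2' γ2' q1n' q1d' k' b c' := rfl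

/-- degree check in the variable `j` -/
def DS.degOK (S : DS) (j : ℕ) : Bool :=
  (tests (OD j) 0 0 0 0 bc0 (S.mapB fun x => x.f j) lf0).all fun n => Nat.blt n (S.Xs j)

/-- static test of the data of a chart -/
def DS.static (S : DS) : Bool :=
  S.flds.all Fld.ok && (S.degOK 0 && (S.degOK 1 && (S.degOK 2 && (S.degOK 3 && S.degOK 4))))

/-! ### the check of a leaf -/

def bxa (b : Bx) : ℕ → ℕ := fn5 b.k0 b.k1 b.k2 b.k3 b.k4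
def bxb (b : Bx) : ℕ → ℕ := fn5 (b.k0 + 1) (b.k1 + 1) (b.k2 + 1) (b.k3 + 1) (b.k4 + 1)
def bxD (b : Bx) : ℕ → ℕ := fn5 (2 ^ b.r0) (2 ^ b.r1) (2 ^ b.r2) (2 ^ b.r3) (2 ^ b.r4)

/-- box constants -/
def boxC (an ad : ℕ) (b : Bx) : BoxC where
  as := Int.ofNat b.k2
  bs := Int.ofNat (b.k2 + 1)
  Ds := Int.ofNat (2 ^ b.r2)
  aQ := Int.ofNat b.k3
  bQ := Int.ofNat (b.k3 + 1)
  DQ := Int.ofNat (2 ^ b.r3)
  av := Int.ofNat b.k4
  bv := Int.ofNat (b.k4 + 1)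
  Dv := Int.ofNat (2 ^ b.r4)
  an := Int.ofNat an
  ad := Int.ofNat ad

/-- denominator of the bound of `q` -/
def q1d (k : BoxC) : ℤ := k.an * k.DQ * k.Dv ^ 2 * k.Ds ^ 2
/-- numerator of the bound of `q` -/
def q1n (k : BoxC) : ℤ := k.an * k.bQ * k.Dv ^ 2 * k.Ds ^ 2 - 4 * k.ad * k.av ^ 2 * (k.Ds ^ 2 - k.bs ^ 2) * k.DQ

def isPos (a : ℤ) : Bool := match a with
  | .ofNat k => Nat.blt 0 k
  | .negSucc _ => false

def isNn (a : ℤ) : Bool := match a with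
  | .ofNat _ => true
  | .negSucc _ => false

def isNz (a : ℤ) : Bool := match a with
  | .ofNat k => Nat.blt 0 k
  | .negSucc _ => true

/-- signs of the data of a leaf -/
def Lf.ok (c : Lf) : Bool :=
  isPos c.m && (isNz (c.P11 * (c.P22 * c.P33 - c.P23 * c.P32) - c.P12 * (c.P21 * c.P33 - c.P23 * c.P31)
      + c.P13 * (c.P21 * c.P32 - c.P22 * c.P31)) &&
  ((isNn c.mu1 && (isNn c.mu2 && (isNn c.mu3 && isNn c.mu4))) &&
  ((isNn c.n11 && (isNn c.n12 && (isNn c.n13 && isNn c.n14))) &&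
  ((isNn c.n21 && (isNn c.n22 && (isNn c.n23 && isNn c.n24))) &&
  (isNn c.n31 && (isNn c.n32 && (isNn c.n33 && isNn c.n34)))))))

/-- packed base -/
def DS.bZ (S : DS) (b : Bx) (w : ℕ) (σ : ℕ → ℕ) : BaseA (ℕ × ℕ) :=
  S.mapB fun x => evalNP w σ (bxa b) (bxb b) (bxD b) x.d x.f x.N

/-- norms of the base -/
def DS.bN (S : DS) (b : Bx) : BaseA ℕ := S.mapB fun x => Nat.mul x.M (nfac (bxD b) x.d x.f)

/-- norm test -/
def DS.chkN (S : DS) (b : Bx) (w : ℕ) (c : Lf) : Bool :=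
  (tests ON 1024 256 (q1n (boxC S.an S.ad b)) (q1d (boxC S.an S.ad b)) (boxC S.an S.ad b) (S.bN b) c).all
    fun n => Nat.blt n (2 ^ (w - 1))

/-- digit test -/
def DS.chkZ (S : DS) (b : Bx) (w : ℕ) (c : Lf) : Bool :=
  (tests (OZ w S.σ) 1024 256 (q1n (boxC S.an S.ad b)) (q1d (boxC S.an S.ad b)) (boxC S.an S.ad b)
    (S.bZ b w S.σ) c).all (dig (Hm w S.K))

/-- the box is in the unit box -/
def bxOK (b : Bx) : Bool :=
  Nat.blt b.k0 (2 ^ b.r0) && (Nat.blt b.k1 (2 ^ b.r1) && (Nat.blt b.k2 (2 ^ b.r2) &&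
    (Nat.blt b.k3 (2 ^ b.r3) && Nat.blt b.k4 (2 ^ b.r4))))

/-- **the check of a leaf** -/
def DS.leafCheck (S : DS) (b : Bx) (w : ℕ) (c : Lf) : Bool :=
  (Nat.blt 0 w && bxOK b) && (c.ok && (S.chkN b w c && S.chkZ b w c))

/-! ### soundness -/

lemma fld_ok {x : Fld} (h : x.ok = true) : expOK x.d (flat x.N) = true ∧ okNP x.f x.N = true ∧
    csum (flat x.N) ≤ x.M ∧ ∀ i < 5, x.d i ≤ x.f i := by
  simp only [Fld.ok, Bool.and_eq_true, Nat.ble_eq] at h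
  obtain ⟨h1, h2, h3, h4, h5, h6, h7, h8⟩ := h
  refine ⟨h1, h2, h3, ?_⟩
  intro i hi
  interval_cases i <;> assumption

/-- everything that is used about a data set -/
structure DSok (S : DS) (P : Par) (D : Dat) (sx sp : ℝ) : Prop where
  pars : Pars P
  an : S.an = P.an
  ad : S.ad = P.ad
  st : S.static = true
  base : ∃ B' : BaseP, BS P D = some B' ∧ ∀ t : ℕ → ℝ,
    (⟨ev t (flat S.X.g), ev t (flat S.X.k11), ev t (flat S.X.k12), ev t (flat S.X.k22),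
      ev t (flat S.X.C0), ev t (flat S.X.Ck), ev t (flat S.X.L1), ev t (flat S.X.L2),
      ev t (flat S.X.Lw), ev t (flat S.X.A11), ev t (flat S.X.A12), ev t (flat S.X.W1),
      ev t (flat S.X.W2), ev t (flat S.X.psi)⟩ : TEl.Base)
      = B'.ev (fn5 (sx * t 0) (sp * t 1) (t 2) (t 3) (2 * t 4))
  gs : ∀ t : ℕ → ℝ, DomS P.n P.A0 (sx * t 0) (sp * t 1) (t 2) (t 3) (2 * t 4) →
    0 ≤ ev t (flat S.X.G1) ∧ 0 ≤ ev t (flat S.X.G2) ∧ 0 ≤ ev t (flat S.X.G3) ∧ 0 ≤ ev t (flat S.X.G4)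

lemma σ_eq (S : DS) (i : ℕ) (hi : i < 5) : S.σ i = sg S.Xs i := by
  unfold sg
  interval_cases i <;>
    simp only [DS.σ, DS.Xs, fn5, Finset.prod_range_succ, Finset.prod_range_zero, one_mul]

lemma K_eq (S : DS) : S.K = sg S.Xs 5 := by
  unfold sg
  simp only [DS.K, DS.Xs, fn5, Finset.prod_range_succ, Finset.prod_range_zero, one_mul]

lemma evalNP_congr (w : ℕ) {σ σ' : ℕ → ℕ} (h : ∀ i < 5, σ i = σ' i) (a b D d f : ℕ → ℕ) (N : NP) :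
    evalNP w σ a b D d f N = evalNP w σ' a b D d f N := by
  unfold evalNP
  rw [h 0 (by norm_num), h 1 (by norm_num), h 2 (by norm_num), h 3 (by norm_num), h 4 (by norm_num)]

lemma OZ_congr (w : ℕ) {σ σ' : ℕ → ℕ} (h : ∀ i < 5, σ i = σ' i) : OZ w σ = OZ w σ' := by
  unfold OZ
  have : ∀ i, σ (cl i) = σ' (cl i) := fun i => h _ (cl_lt i)
  simp only [this]

/-- polynomials of the base -/
noncomputable def DS.bM (S : DS) (b : Bx) : BaseA (MvPolynomial ℕ ℤ) :=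
  S.mapB fun x => hom (bxa b) (bxb b) (bxD b) x.d x.f (flat x.N)

lemma static_fld {S : DS} (h : S.static = true) {x : Fld} (hx : x ∈ S.flds) : x.ok = true := by
  simp only [DS.static, Bool.and_eq_true, List.all_eq_true] at h
  exact h.1 x hx

/-- degrees in the variables `≥ 5` -/
def OU : Ops Unit where
  zero := ()
  add := fun _ _ => ()
  smul := fun _ _ => ()
  mulT := fun _ _ => ()

lemma relU : ORel OM OU (fun P _ => ∀ j, 5 ≤ j → degreeOf j P = 0) where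
  zero := by intro j _; simp [OM]
  add := by
    intro x y x' y' h1 h2 j hj
    have := degreeOf_add_le j x y
    rw [h1 j hj, h2 j hj] at this
    exact Nat.le_zero.1 this
  smul := by
    intro a x x' h1 j hj
    have := degreeOf_C_mul_le x j a
    rw [h1 j hj] at this
    exact Nat.le_zero.1 this
  mulT := by
    intro i x x' h1 j hj
    have := degreeOf_mul_le j (X (cl i)) x
    have hne : ¬ (cl i = j) := by have := cl_lt i; omega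
    rw [h1 j hj, degreeOf_X, if_neg (Ne.symm hne)] at this
    exact Nat.le_zero.1 this

lemma bxOK_spec {b : Bx} (h : bxOK b = true) : ∀ i < 5, bxa b i + bxb b i ≤ 2 * bxD b i := by
  simp only [bxOK, Bool.and_eq_true, Nat.blt_eq] at h
  obtain ⟨h0, h1, h2, h3, h4⟩ := h
  intro i hi
  interval_cases i <;> simp only [bxa, bxb, bxD, fn5] <;> omega

/-- **non-negative coefficients** -/
theorem coeffs_nonneg {S : DS} (hst : S.static = true) {b : Bx} (hb : bxOK b = true) {w : ℕ} (hw : 0 < w)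
    {c : Lf} (hN : S.chkN b w c = true) (hZ : S.chkZ b w c = true) :
    ∀ p ∈ tests OM 1024 256 (q1n (boxC S.an S.ad b)) (q1d (boxC S.an S.ad b)) (boxC S.an S.ad b)
      (S.bM b) c, ∀ m, 0 ≤ coeff m p := by
  intro p hp
  have FZ := rel_tests (relZ w (sg S.Xs)) 1024 256 (q1n (boxC S.an S.ad b)) (q1d (boxC S.an S.ad b))
    (boxC S.an S.ad b) (b := S.bM b) (b' := S.bZ b w S.σ) (brel_map fun x hx => by
      obtain ⟨_, h2, _, _⟩ := fld_ok (static_fld hst hx)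
      unfold RZ
      rw [← evalNP_eq w _ _ _ _ _ _ _ h2, evalNP_congr w (σ_eq S)]) c
  rw [← OZ_congr w (σ_eq S)] at FZ
  have FN := rel_tests relN 1024 256 (q1n (boxC S.an S.ad b)) (q1d (boxC S.an S.ad b))
    (boxC S.an S.ad b) (b := S.bM b) (b' := S.bN b) (brel_map fun x hx => by
      obtain ⟨h1, _, h3, h4⟩ := fld_ok (static_fld hst hx)
      refine Maj.mono (maj_hom _ _ _ _ _ (bxOK_spec hb) h4 _ h1) ?_
      show ((csum (flat x.N) * nfac (bxD b) x.d x.f : ℕ) : ℤ) ≤ ((x.M * nfac (bxD b) x.d x.f : ℕ) : ℤ)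
      exact_mod_cast Nat.mul_le_mul_right _ h3) c
  have FD : ∀ j < 5, List.Forall₂ (fun P n => degreeOf j P ≤ n) (tests OM 1024 256
      (q1n (boxC S.an S.ad b)) (q1d (boxC S.an S.ad b)) (boxC S.an S.ad b) (S.bM b) c)
      (tests (OD j) 1024 256 (q1n (boxC S.an S.ad b)) (q1d (boxC S.an S.ad b)) (boxC S.an S.ad b)
        (S.mapB fun x => x.f j) c) := fun j hj =>
    rel_tests (relD j) 1024 256 (q1n (boxC S.an S.ad b)) (q1d (boxC S.an S.ad b))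
      (boxC S.an S.ad b) (b := S.bM b) (b' := S.mapB fun x => x.f j) (brel_map fun x hx => by
      obtain ⟨h1, _, _, h4⟩ := fld_ok (static_fld hst hx)
      have := degreeOf_hom (bxa b) (bxb b) (bxD b) x.d x.f h4 j _ h1
      rwa [if_pos hj] at this) c
  have FU := rel_tests relU 1024 256 (q1n (boxC S.an S.ad b)) (q1d (boxC S.an S.ad b))
    (boxC S.an S.ad b) (b := S.bM b) (b' := S.mapB fun _ => ()) (brel_map fun x hx => by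
      obtain ⟨h1, _, _, h4⟩ := fld_ok (static_fld hst hx)
      intro j hj
      have := degreeOf_hom (bxa b) (bxb b) (bxD b) x.d x.f h4 j _ h1
      rw [if_neg (by omega)] at this
      exact Nat.le_zero.1 this) c
  obtain ⟨z, hz, hdig⟩ := forall₂_ex FZ (p := fun z => dig (Hm w S.K) z = true)
    (fun z hz' => List.all_eq_true.1 hZ z hz') p hp
  obtain ⟨N, hNp, hNlt⟩ := forall₂_ex FN (p := fun n => Nat.blt n (2 ^ (w - 1)) = true)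
    (fun z hz' => List.all_eq_true.1 hN z hz') p hp
  obtain ⟨_, hv, _⟩ := forall₂_ex FU (p := fun _ => True) (fun _ _ => trivial) p hp
  have hdeg : ∀ j < 5, degreeOf j p < S.Xs j := by
    intro j hj
    have hst' : S.degOK j = true := by
      simp only [DS.static, Bool.and_eq_true] at hst
      obtain ⟨_, k0, k1, k2, k3, k4⟩ := hst
      interval_cases j
      · exact k0
      · exact k1
      · exact k2
      · exact k3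
      · exact k4
    obtain ⟨n, h1, h2⟩ := forall₂_ex (FD j hj) (p := fun n => Nat.blt n (S.Xs j) = true) (fun z hz' => by
      rw [tests_OD j _ _ _ _ 0 0 0 0 _ bc0 _ _ lf0] at hz'
      exact List.all_eq_true.1 hst' z hz') p hp
    rw [Nat.blt_eq] at h2
    omega
  rw [K_eq] at hdig
  exact coeff_nonneg_of_dig hw hz hNp (by rwa [Nat.blt_eq] at hNlt) hdeg hv hdig

/-- real base -/
noncomputable def DS.bR (S : DS) (b : Bx) (T t : ℕ → ℝ) : BaseA ℝ :=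
  S.mapB fun x => rfac (bxD b) x.d x.f T * ev t (flat x.N)

theorem reals_nonneg {S : DS} (hst : S.static = true) {b : Bx} (hb : bxOK b = true) {w : ℕ} (hw : 0 < w)
    {c : Lf} (hN : S.chkN b w c = true) (hZ : S.chkZ b w c = true) {T t : ℕ → ℝ} (hT : ∀ i, 0 ≤ T i)
    (hx : ∀ i < 5, (bxa b i : ℝ) + bxb b i * T i = t i * (bxD b i * (1 + T i))) :
    ∀ r ∈ tests (OR T) 1024 256 (q1n (boxC S.an S.ad b)) (q1d (boxC S.an S.ad b)) (boxC S.an S.ad b)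
      (S.bR b T t) c, 0 ≤ r := by
  intro r hr
  have FR := rel_tests (relR T) 1024 256 (q1n (boxC S.an S.ad b)) (q1d (boxC S.an S.ad b))
    (boxC S.an S.ad b) (b := S.bM b) (b' := S.bR b T t) (brel_map fun x hx' => by
      obtain ⟨h1, _, _, h4⟩ := fld_ok (static_fld hst hx')
      exact eval₂_hom _ _ _ _ _ T t hx h4 _ h1) c
  obtain ⟨p, h1, h2⟩ := forall₂_ex' FR (p := fun p => ∀ m, 0 ≤ coeff m p) (coeffs_nonneg hst hb hw hN hZ) r hr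
  rw [← h1]
  exact eval₂_nonneg_of_coeff p h2 T hT

/-! ### the theorem for a leaf -/

lemma isPos_spec {a : ℤ} (h : isPos a = true) : 0 < a := by
  cases a with
  | ofNat k =>
    simp only [isPos, Nat.blt_eq] at h
    rw [Int.ofNat_eq_natCast]
    exact_mod_cast h
  | negSucc k => simp [isPos] at h

lemma isNn_spec {a : ℤ} (h : isNn a = true) : 0 ≤ a := by
  cases a with
  | ofNat k => exact Int.natCast_nonneg k
  | negSucc k => simp [isNn] at h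

lemma isNz_spec {a : ℤ} (h : isNz a = true) : a ≠ 0 := by
  cases a with
  | ofNat k =>
    simp only [isNz, Nat.blt_eq] at h
    intro h0
    have : (k : ℤ) = 0 := h0
    omega
  | negSucc k => exact Int.negSucc_ne_zero k

lemma Lf.ok_spec {c : Lf} (h : c.ok = true) : 0 < c.m ∧
    c.P11 * (c.P22 * c.P33 - c.P23 * c.P32) - c.P12 * (c.P21 * c.P33 - c.P23 * c.P31)
      + c.P13 * (c.P21 * c.P32 - c.P22 * c.P31) ≠ 0 ∧
    (0 ≤ c.mu1 ∧ 0 ≤ c.mu2 ∧ 0 ≤ c.mu3 ∧ 0 ≤ c.mu4) ∧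
    (0 ≤ c.n11 ∧ 0 ≤ c.n12 ∧ 0 ≤ c.n13 ∧ 0 ≤ c.n14) ∧
    (0 ≤ c.n21 ∧ 0 ≤ c.n22 ∧ 0 ≤ c.n23 ∧ 0 ≤ c.n24) ∧
    (0 ≤ c.n31 ∧ 0 ≤ c.n32 ∧ 0 ≤ c.n33 ∧ 0 ≤ c.n34) := by
  simp only [Lf.ok, Bool.and_eq_true] at h
  obtain ⟨h1, h2, ⟨a1, a2, a3, a4⟩, ⟨b1, b2, b3, b4⟩, ⟨c1, c2, c3, c4⟩, d1, d2, d3, d4⟩ := h
  exact ⟨isPos_spec h1, isNz_spec h2, ⟨isNn_spec a1, isNn_spec a2, isNn_spec a3, isNn_spec a4⟩,
    ⟨isNn_spec b1, isNn_spec b2, isNn_spec b3, isNn_spec b4⟩,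
    ⟨isNn_spec c1, isNn_spec c2, isNn_spec c3, isNn_spec c4⟩,
    ⟨isNn_spec d1, isNn_spec d2, isNn_spec d3, isNn_spec d4⟩⟩

/-- local coordinate in `[0,1)` -/
noncomputable def lmb (b : Bx) (t : ℕ → ℝ) (i : ℕ) : ℝ := bxD b (cl i) * t (cl i) - bxa b (cl i)

/-- `T = λ / (1 - λ)` -/
noncomputable def Tb (b : Bx) (t : ℕ → ℝ) (i : ℕ) : ℝ := lmb b t i / (1 - lmb b t i)

lemma lmb_mem {b : Bx} {t : ℕ → ℝ} (h : inBx b t) (i : ℕ) : 0 ≤ lmb b t i ∧ lmb b t i < 1 := by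
  have key : ∀ {r k : ℕ} {x : ℝ}, inD r k x → 0 ≤ ((2 ^ r : ℕ) : ℝ) * x - k ∧ ((2 ^ r : ℕ) : ℝ) * x - k < 1 := by
    intro r k x hx
    obtain ⟨h1, h2⟩ := hx
    have hp : (0 : ℝ) < 2 ^ r := by positivity
    rw [div_le_iff₀ hp] at h1
    rw [lt_div_iff₀ hp] at h2
    push_cast
    constructor <;> nlinarith
  unfold lmb
  have := cl_lt i
  generalize cl i = j at this
  interval_cases j
  · exact key h.h0
  · exact key h.h1
  · exact key h.h2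
  · exact key h.h3
  · exact key h.h4

lemma Tb_spec {b : Bx} {t : ℕ → ℝ} (h : inBx b t) (i : ℕ) : 0 ≤ Tb b t i ∧
    Tb b t i = lmb b t i * (1 + Tb b t i) ∧ 1 + Tb b t i = 1 / (1 - lmb b t i) := by
  obtain ⟨h1, h2⟩ := lmb_mem h i
  have h3 : 0 < 1 - lmb b t i := by linarith
  refine ⟨div_nonneg h1 h3.le, ?_, ?_⟩
  · unfold Tb; field_simp; ring
  · unfold Tb; field_simp; ring

lemma cl_eq {i : ℕ} (h : i < 5) : cl i = i := by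
  interval_cases i <;> rfl

lemma Tb_x {b : Bx} {t : ℕ → ℝ} (h : inBx b t) : ∀ i < 5,
    (bxa b i : ℝ) + bxb b i * Tb b t i = t i * (bxD b i * (1 + Tb b t i)) := by
  intro i hi
  obtain ⟨_, h2, _⟩ := Tb_spec h i
  have e1 : (bxb b i : ℝ) = bxa b i + 1 := by
    interval_cases i <;> simp [bxa, bxb, fn5]
  have e2 : lmb b t i = bxD b i * t i - bxa b i := by rw [lmb, cl_eq hi]
  rw [e1]
  rw [e2] at h2
  linear_combination h2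

lemma rfac_d2 (S : DS) (b : Bx) (T : ℕ → ℝ) : rfac (bxD b) S.d S.d2' T = rfac (bxD b) S.d S.d T * om T ^ 2 := by
  simp only [rfac, DS.d, DS.d2', fn5, om]
  ring

lemma rfac_dC (S : DS) (b : Bx) (T : ℕ → ℝ) : rfac (bxD b) S.dC S.dA T = rfac (bxD b) S.d S.d T * om T ^ 2 *
    ((bxD b 2 * (1 + T 2)) ^ 2 * (bxD b 3 * (1 + T 3)) * (bxD b 4 * (1 + T 4)) ^ 2) := by
  simp only [rfac, DS.d, DS.dC, DS.dA, fn5, om]
  ring

lemma rfac_pos' (b : Bx) (d f : ℕ → ℕ) {T : ℕ → ℝ} (hT : ∀ i, 0 ≤ T i) : 0 < rfac (bxD b) d f T := by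
  have h : ∀ i < 5, (0 : ℝ) < (bxD b i : ℝ) ^ d i * (1 + T i) ^ f i := by
    intro i hi
    have h1 : (0 : ℝ) < bxD b i := by
      interval_cases i <;> simp [bxD, fn5]
    have h2 := hT i
    positivity
  unfold rfac
  have h0 := h 0 (by norm_num)
  have h1 := h 1 (by norm_num)
  have h2 := h 2 (by norm_num)
  have h3 := h 3 (by norm_num)
  have h4 := h 4 (by norm_num)
  exact mul_pos (mul_pos (mul_pos (mul_pos h0 h1) h2) h3) h4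

/-- bound of `q` on the box -/
lemma q_le {an ad : ℕ} {b : Bx} {t : ℕ → ℝ} (h : inBx b t) (hs0 : 0 ≤ t 2)
    (hb : bxOK b = true) {q : ℝ} (hq : (an : ℝ) * q = an * t 3 - 4 * ad * t 4 ^ 2 * (1 - t 2 ^ 2)) :
    q * (q1d (boxC an ad b) : ℝ) ≤ (q1n (boxC an ad b) : ℝ) := by
  obtain ⟨_, u2⟩ := h.h3
  obtain ⟨_, s2⟩ := h.h2
  obtain ⟨v1, _⟩ := h.h4
  have p2 : (0 : ℝ) < 2 ^ b.r2 := by positivity
  have p3 : (0 : ℝ) < 2 ^ b.r3 := by positivity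
  have p4 : (0 : ℝ) < 2 ^ b.r4 := by positivity
  rw [lt_div_iff₀ p3] at u2
  rw [lt_div_iff₀ p2] at s2
  rw [div_le_iff₀ p4] at v1
  have hk2 : b.k2 + 1 ≤ 2 ^ b.r2 := by
    simp only [bxOK, Bool.and_eq_true, Nat.blt_eq] at hb
    omega
  have hk2' : (b.k2 : ℝ) + 1 ≤ 2 ^ b.r2 := by exact_mod_cast hk2
  have e1 : (q1d (boxC an ad b) : ℝ) = an * 2 ^ b.r3 * (2 ^ b.r4) ^ 2 * (2 ^ b.r2) ^ 2 := by
    simp only [q1d, boxC, Int.ofNat_eq_natCast]; push_cast; ring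
  have e2 : (q1n (boxC an ad b) : ℝ) = an * (b.k3 + 1) * (2 ^ b.r4) ^ 2 * (2 ^ b.r2) ^ 2
      - 4 * ad * b.k4 ^ 2 * ((2 ^ b.r2) ^ 2 - (b.k2 + 1) ^ 2) * 2 ^ b.r3 := by
    simp only [q1n, boxC, Int.ofNat_eq_natCast]; push_cast; ring
  rw [e1, e2]
  have hk4 : (0 : ℝ) ≤ b.k4 := Nat.cast_nonneg _
  have hk4' : (b.k4 : ℝ) ^ 2 ≤ (t 4 * 2 ^ b.r4) ^ 2 := pow_le_pow_left₀ hk4 v1 2
  have hs2' : (t 2 * 2 ^ b.r2) ^ 2 ≤ (b.k2 + 1) ^ 2 := pow_le_pow_left₀ (by positivity) s2.le 2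
  have f1 : 0 ≤ ((2 : ℝ) ^ b.r2) ^ 2 - (b.k2 + 1) ^ 2 := by
    have := pow_le_pow_left₀ (by positivity : (0 : ℝ) ≤ b.k2 + 1) hk2' 2
    linarith
  have f2 : ((2 : ℝ) ^ b.r2) ^ 2 - (b.k2 + 1) ^ 2 ≤ (1 - t 2 ^ 2) * (2 ^ b.r2) ^ 2 := by nlinarith
  have f3 : (b.k4 : ℝ) ^ 2 * ((2 ^ b.r2) ^ 2 - (b.k2 + 1) ^ 2)
      ≤ (t 4 * 2 ^ b.r4) ^ 2 * ((1 - t 2 ^ 2) * (2 ^ b.r2) ^ 2) :=
    mul_le_mul hk4' f2 f1 (by positivity)
  have f4 : (an : ℝ) * t 3 * (2 ^ b.r3 * (2 ^ b.r4) ^ 2 * (2 ^ b.r2) ^ 2)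
      ≤ an * (b.k3 + 1) * ((2 ^ b.r4) ^ 2 * (2 ^ b.r2) ^ 2) := by
    have : (0 : ℝ) ≤ an * ((2 ^ b.r4) ^ 2 * (2 ^ b.r2) ^ 2) := by positivity
    nlinarith
  have f5 : (0 : ℝ) ≤ 4 * ad * 2 ^ b.r3 := by positivity
  have f6 := mul_le_mul_of_nonneg_left f3 f5
  have f7 : q * (an * 2 ^ b.r3 * (2 ^ b.r4) ^ 2 * (2 ^ b.r2) ^ 2)
      = (an * t 3 - 4 * ad * t 4 ^ 2 * (1 - t 2 ^ 2)) * (2 ^ b.r3 * (2 ^ b.r4) ^ 2 * (2 ^ b.r2) ^ 2) := by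
    rw [← hq]; ring
  rw [f7]
  nlinarith

/-- **soundness of the check of a leaf** -/
theorem leaf_sound {S : DS} {P : Par} {D : Dat} {sx sp : ℝ} (hS : DSok S P D sx sp) {b : Bx} {w : ℕ}
    {c : Lf} (h : S.leafCheck b w c = true) : Good (Phi P D sx sp) b := by
  intro t ht hd
  simp only [DS.leafCheck, Bool.and_eq_true, Nat.blt_eq] at h
  obtain ⟨⟨hw, hbx⟩, hc, hN, hZ⟩ := h
  have hT0 : ∀ i, 0 ≤ Tb b t i := fun i => (Tb_spec ht i).1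
  have hx := Tb_x ht
  have hr := reals_nonneg hS.st hbx hw hN hZ hT0 hx
  obtain ⟨B', hB', hev⟩ := hS.base
  obtain ⟨B'', h1, h2⟩ := BS_ev hS.pars D hB' (fn5 (sx * t 0) (sp * t 1) (t 2) (t 3) (2 * t 4))
  have hev' := (hev t).trans h1
  obtain ⟨g1, g2, g3, g4⟩ := hS.gs t hd
  have rp : ∀ d f : ℕ → ℕ, 0 < rfac (bxD b) d f (Tb b t) := fun d f => rfac_pos' b d f hT0
  have han : (0 : ℝ) < S.an := by rw [hS.an]; exact_mod_cast hS.pars.an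
  have han' : (S.an : ℝ) = P.an := by rw [hS.an]
  have had' : (S.ad : ℝ) = P.ad := by rw [hS.ad]
  have had : (0 : ℝ) < P.ad := by exact_mod_cast hS.pars.ad
  have hRB : RB (Tb b t) (rfac (bxD b) S.d S.d (Tb b t))
      (((boxC S.an S.ad b).Ds * (1 + Tb b t 2)) ^ 2 * ((boxC S.an S.ad b).DQ * (1 + Tb b t 3)) *
        ((boxC S.an S.ad b).Dv * (1 + Tb b t 4)) ^ 2) (bsc P.kap B'') (S.bR b (Tb b t) t) := by
    have eS : (((boxC S.an S.ad b).Ds : ℤ) : ℝ) = bxD b 2 := by simp [boxC, bxD, fn5]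
    have eQ : (((boxC S.an S.ad b).DQ : ℤ) : ℝ) = bxD b 3 := by simp [boxC, bxD, fn5]
    have eV : (((boxC S.an S.ad b).Dv : ℤ) : ℝ) = bxD b 4 := by simp [boxC, bxD, fn5]
    rw [← hev', eS, eQ, eV]
    constructor
    · rfl
    · rfl
    · rfl
    · rfl
    · rfl
    · rfl
    · rfl
    · rfl
    · rfl
    · rfl
    · rfl
    · rfl
    · rw [← rfac_d2]; rfl
    · rw [← rfac_dC]; rfl
    · exact mul_nonneg (rp _ _).le g1
    · exact mul_nonneg (rp _ _).le g2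
    · exact mul_nonneg (rp _ _).le g3
    · exact mul_nonneg (rp _ _).le g4
    · exact mul_nonneg (rp _ _).le g1
    · exact mul_nonneg (rp _ _).le g2
    · exact mul_nonneg (rp _ _).le g3
    · exact mul_nonneg (rp _ _).le g4
  obtain ⟨hm, hdet, hmu, hn1, hn2, hn3⟩ := c.ok_spec hc
  have hqe : (S.an : ℝ) * (t 3 - (2 * t 4) ^ 2 * ((1 - (t 2) ^ 2) / P.A0))
      = S.an * t 3 - 4 * S.ad * t 4 ^ 2 * (1 - t 2 ^ 2) := by
    rw [Par.A0, han', had']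
    rw [han'] at han
    field_simp
    ring
  have kan : (((boxC S.an S.ad b).an : ℤ) : ℝ) = S.an := by simp [boxC]
  have kad : (((boxC S.an S.ad b).ad : ℤ) : ℝ) = S.ad := by simp [boxC]
  have hs0 : 0 ≤ t 2 := hd.s0.le
  have hqq := q_le (an := S.an) (ad := S.ad) ht hs0 hbx hqe
  obtain ⟨L, hL⟩ := ok_of_tests (lam := lmb b t) (t := Tb b t) (β2 := 1024) (γ2 := 256)
    (q1n := q1n (boxC S.an S.ad b)) (q1d := q1d (boxC S.an S.ad b)) (k := boxC S.an S.ad b)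
    (s := t 2) (Q := t 3) (v' := t 4)
    (q := t 3 - (2 * t 4) ^ 2 * ((1 - (t 2) ^ 2) / P.A0)) (c := c)
    (fun i _ => (Tb_spec ht i).2.1) (fun i _ => by have := hT0 i; linarith) (by norm_num) (by norm_num)
    (by
      have : (0 : ℝ) < (q1d (boxC S.an S.ad b) : ℝ) := by
        simp only [q1d, boxC, Int.ofNat_eq_natCast]
        push_cast
        positivity
      exact_mod_cast this)
    (by have : (0 : ℝ) < ((boxC S.an S.ad b).an : ℤ) := by rw [kan]; exact han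
        exact_mod_cast this)
    (by simp [boxC]) (by simp [boxC]) (by simp [boxC])
    (by have := hx 2 (by norm_num)
        simpa [boxC, bxa, bxb, bxD, fn5] using this)
    (by have := hx 3 (by norm_num)
        simpa [boxC, bxa, bxb, bxD, fn5] using this)
    (by have := hx 4 (by norm_num)
        simpa [boxC, bxa, bxb, bxD, fn5] using this)
    (rp S.d S.d) hRB hm hdet hmu hn1 hn2 hn3 (by rw [kan, kad]; exact hqe) hqq hr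
  exact ⟨B'', L, h2, ok_of_bsc (kap_pos hS.pars) hL⟩

end Crest.Agent.R097.KA
private theorem rz_f6d3c256e1 : type_of% @_root_.Crest.Agent.R097.KA.isNn.eq_1 := @_root_.Crest.Agent.R097.KA.isNn.eq_1 -- L192
private theorem rz_bad312d718 : type_of% @_root_.Crest.Agent.R097.KA.isNz.eq_1 := @_root_.Crest.Agent.R097.KA.isNz.eq_1 -- L196
private theorem rz_3784f0ccd2 : type_of% @_root_.Crest.Agent.R097.KA.isPos.eq_1 := @_root_.Crest.Agent.R097.KA.isPos.eq_1 -- L188
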