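import Crest.Agent.R097.KP5

/-!
# Row 97, KBA checker: base evaluation by straight-line terms (helper351)

`zN` is the same function as `evalNP`, written such that its unfolding is a short straight-line
term; the chart files contain this term, with a proof by `rfl`.
-/

set_option autoImplicit false

namespace Crest.Agent.R097.KA

open Crest.Agent.KB

/-- innermost sum, positive part (`p = true`) or negative part -/
def z0 (p : Bool) (F : ℕ → ℕ) (l : NL0) : ℕ :=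
  List.rec (motive := fun _ => ℕ) 0
    (fun x _ ih => Prod.casesOn (motive := fun _ => ℕ) x fun e c =>
      Int.casesOn (motive := fun _ => ℕ) c
      (fun k => Bool.casesOn (motive := fun _ => ℕ) p ih (Nat.add ih (Nat.mul k (F e))))
      (fun k => Bool.casesOn (motive := fun _ => ℕ) p (Nat.add ih (Nat.mul (Nat.succ k) (F e))) ih)) l

/-- sum with table products -/
def zM {β : Type} (F : ℕ → ℕ) (G : β → ℕ) (l : List (ℕ × β)) : ℕ :=
  List.rec (motive := fun _ => ℕ) 0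
    (fun x _ ih => Prod.casesOn (motive := fun _ => ℕ) x fun e y => Nat.add ih (Nat.mul (F e) (G y))) l

/-- the same sums with an accumulator and product tables -/
def zt0 (p : Bool) (E : ℕ → ℕ) (l : NL0) (acc : ℕ) : ℕ :=
  List.rec (motive := fun _ => ℕ) acc
    (fun x _ ih => Prod.casesOn (motive := fun _ => ℕ) x fun e c =>
      Int.casesOn (motive := fun _ => ℕ) c
      (fun k => Bool.casesOn (motive := fun _ => ℕ) p ih (Nat.add ih (Nat.mul k (E e))))
      (fun k => Bool.casesOn (motive := fun _ => ℕ) p (Nat.add ih (Nat.mul (Nat.succ k) (E e))) ih)) l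
def zt1 (p : Bool) (E : ℕ → ℕ → ℕ) (l : NL1) (acc : ℕ) : ℕ :=
  List.rec (motive := fun _ => ℕ) acc
    (fun x _ ih => Prod.casesOn (motive := fun _ => ℕ) x fun e y => zt0 p (E e) y ih) l
def zt2 (p : Bool) (E : ℕ → ℕ → ℕ → ℕ) (l : NL2) : ℕ :=
  List.rec (motive := fun _ => ℕ) 0
    (fun x _ ih => Prod.casesOn (motive := fun _ => ℕ) x fun e y => zt1 p (E e) y ih) l

/-- element of a list -/
def nthN (l : List ℕ) (k : ℕ) : ℕ :=
  hd0 (Nat.rec (motive := fun _ => List ℕ) l (fun _ ih => tl0 ih) k)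

/-- join -/
def zJ (R : ℕ → ℕ) (sh n : ℕ) : ℕ → ℕ :=
  Nat.rec (motive := fun _ => ℕ → ℕ) (fun _ => 0)
    (fun _ ih k => Nat.add (R k) (Nat.shiftLeft (ih (Nat.succ k)) sh)) n

/-- sum over an outer variable with `n` coefficients -/
def zS {β : Type} (c : ℕ → ℕ → ℕ) (sh n : ℕ) (G : β → ℕ) (l : List (ℕ × β)) : ℕ :=
  zJ (fun k => zM (fun e => c e k) G l) sh n 0

/-- everything -/
def zN1 (p : Bool) (E : ℕ → ℕ → ℕ → ℕ) (c3 : ℕ → ℕ → ℕ) (sh3 n3 : ℕ) (c4 : ℕ → ℕ → ℕ) (sh4 n4 : ℕ)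
    (N : NP) : ℕ :=
  zS c4 sh4 n4 (fun l3 => zS c3 sh3 n3 (fun l2 => zt2 p E l2) l3) N

/-- product table -/
def ET (F0 F1 F2 : ℕ → ℕ) : ℕ → ℕ → ℕ → ℕ := fun e2 e1 e0 => Nat.mul (F2 e2) (Nat.mul (F1 e1) (F0 e0))

/-! ### equality with `evalNP` -/

theorem z0_eq (F : ℕ → ℕ) (l : NL0) : z0 true F l = (ev0 F l).1 ∧ z0 false F l = (ev0 F l).2 := by
  induction l with
  | nil => exact ⟨rfl, rfl⟩
  | cons x l ih =>
    obtain ⟨e, c⟩ := x
    obtain ⟨h1, h2⟩ := ih
    cases c with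
    | ofNat k =>
      constructor
      · show Nat.add (z0 true F l) (Nat.mul k (F e)) = Nat.add (ev0 F l).1 (Nat.mul k (F e))
        rw [h1]
      · show z0 false F l = (ev0 F l).2
        exact h2
    | negSucc k =>
      constructor
      · show z0 true F l = (ev0 F l).1
        exact h1
      · show Nat.add (z0 false F l) (Nat.mul (Nat.succ k) (F e)) = Nat.add (ev0 F l).2 (Nat.mul (Nat.succ k) (F e))
        rw [h2]

theorem zM_eq1 {β : Type} (F : ℕ → ℕ) {G : β → ℕ} {H : β → ℕ × ℕ} (h : ∀ y, G y = (H y).1) (l : List (ℕ × β)) :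
    zM F G l = (evM F H l).1 := by
  induction l with
  | nil => rfl
  | cons x l ih =>
    obtain ⟨e, y⟩ := x
    show Nat.add (zM F G l) (Nat.mul (F e) (G y)) = Nat.add (evM F H l).1 (Nat.mul (F e) (H y).1)
    rw [ih, h]

theorem zM_eq2 {β : Type} (F : ℕ → ℕ) {G : β → ℕ} {H : β → ℕ × ℕ} (h : ∀ y, G y = (H y).2) (l : List (ℕ × β)) :
    zM F G l = (evM F H l).2 := by
  induction l with
  | nil => rfl
  | cons x l ih =>
    obtain ⟨e, y⟩ := x
    show Nat.add (zM F G l) (Nat.mul (F e) (G y)) = Nat.add (evM F H l).2 (Nat.mul (F e) (H y).2)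
    rw [ih, h]

theorem zt0_eq (p : Bool) {F : ℕ → ℕ} {E : ℕ → ℕ} {K : ℕ} (hE : ∀ e, E e = K * F e) (l : NL0) (acc : ℕ) :
    zt0 p E l acc = acc + K * z0 p F l := by
  induction l with
  | nil => show acc = acc + K * 0; ring
  | cons x l ih =>
    obtain ⟨e, c⟩ := x
    cases c with
    | ofNat k =>
      cases p with
      | true =>
        show zt0 true E l acc + k * E e = acc + K * (z0 true F l + k * F e)
        rw [ih, hE]; ring
      | false => exact ih
    | negSucc k =>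
      cases p with
      | true => exact ih
      | false =>
        show zt0 false E l acc + (k + 1) * E e = acc + K * (z0 false F l + (k + 1) * F e)
        rw [ih, hE]; ring

theorem zt1_eq (p : Bool) {F0 F1 : ℕ → ℕ} {E : ℕ → ℕ → ℕ} {K : ℕ} (hE : ∀ e1 e0, E e1 e0 = K * (F1 e1 * F0 e0))
    (l : NL1) (acc : ℕ) : zt1 p E l acc = acc + K * zM F1 (fun l0 => z0 p F0 l0) l := by
  induction l with
  | nil => show acc = acc + K * 0; ring
  | cons x l ih =>
    obtain ⟨e, y⟩ := x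
    show zt0 p (E e) y (zt1 p E l acc) = acc + K * (zM F1 (fun l0 => z0 p F0 l0) l + F1 e * z0 p F0 y)
    rw [zt0_eq p (K := K * F1 e) (F := F0) (fun e0 => by rw [hE]; ring), ih]
    ring

theorem zt2_eq (p : Bool) (F0 F1 F2 : ℕ → ℕ) (l : NL2) :
    zt2 p (ET F0 F1 F2) l = zM F2 (fun l1 => zM F1 (fun l0 => z0 p F0 l0) l1) l := by
  induction l with
  | nil => rfl
  | cons x l ih =>
    obtain ⟨e, y⟩ := x
    show zt1 p (ET F0 F1 F2 e) y (zt2 p (ET F0 F1 F2) l) =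
      zM F2 (fun l1 => zM F1 (fun l0 => z0 p F0 l0) l1) l + F2 e * zM F1 (fun l0 => z0 p F0 l0) y
    have h := zt1_eq p (E := ET F0 F1 F2 e) (K := F2 e) (F0 := F0) (F1 := F1) (fun _ _ => rfl) y
      (zt2 p (ET F0 F1 F2) l)
    rw [h, ih]

/-- `k`-fold tail -/
def tlk (k : ℕ) (rows : List (List ℕ × ℕ)) : List (List ℕ × ℕ) :=
  Nat.rec (motive := fun _ => List (List ℕ × ℕ)) rows (fun _ ih => tlR ih) k

theorem tlR_cons (x : List ℕ × ℕ) (l : List (List ℕ × ℕ)) : tlR (x :: l) = (tl0 x.1, x.2) :: tlR l := rfl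

theorem tlR_map {β : Type} (u : β → List ℕ) (v : β → ℕ) (l : List β) :
    tlR (l.map fun x => (u x, v x)) = l.map fun x => (tl0 (u x), v x) := by
  induction l with
  | nil => rfl
  | cons x l ih => rw [List.map_cons, tlR_cons, ih]; rfl

theorem rws_map {β : Type} (C : ℕ → List ℕ) (G : β → ℕ) (l : List (ℕ × β)) :
    rws C G l = l.map fun x => (C x.1, G x.2) := by
  induction l with
  | nil => rfl
  | cons x l ih =>
    show (C x.1, G x.2) :: rws C G l = _
    rw [ih]; rfl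

theorem tlk_rws {β : Type} (C : ℕ → List ℕ) (G : β → ℕ) (k : ℕ) (l : List (ℕ × β)) :
    hdS (tlk k (rws C G l)) = zM (fun e => nthN (C e) k) G l := by
  have key : tlk k (rws C G l) = l.map fun x =>
      ((Nat.rec (motive := fun _ => List ℕ) (C x.1) (fun _ ih => tl0 ih) k : List ℕ), G x.2) := by
    induction k with
    | zero => exact rws_map C G l
    | succ k ihk =>
      show tlR (tlk k (rws C G l)) = _
      rw [ihk, tlR_map]
  rw [key]
  clear key
  induction l with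
  | nil => rfl
  | cons x l ih =>
    obtain ⟨e, y⟩ := x
    show Nat.add (hdS (l.map fun x =>
      ((Nat.rec (motive := fun _ => List ℕ) (C x.1) (fun _ ih => tl0 ih) k : List ℕ), G x.2))) _ = _
    rw [ih]
    rfl

theorem zJ_eq {β : Type} (C : ℕ → List ℕ) (G : β → ℕ) (sh : ℕ) (l : List (ℕ × β)) (n : ℕ) :
    ∀ k, zJ (fun k => zM (fun e => nthN (C e) k) G l) sh n k = jk sh n (tlk k (rws C G l)) := by
  induction n with
  | zero => intro k; rfl
  | succ n ih =>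
    intro k
    show Nat.add (zM (fun e => nthN (C e) k) G l) (Nat.shiftLeft (zJ (fun k => zM (fun e => nthN (C e) k) G l)
      sh n (k + 1)) sh) = Nat.add (hdS (tlk k (rws C G l))) (Nat.shiftLeft (jk sh n (tlR (tlk k (rws C G l)))) sh)
    rw [ih, tlk_rws]
    rfl

theorem zS_eq {β : Type} (C : ℕ → List ℕ) (G : β → ℕ) (sh n : ℕ) (l : List (ℕ × β)) :
    zS (fun e k => nthN (C e) k) sh n G l = jk sh n (rws C G l) := zJ_eq C G sh l n 0

theorem rws_congr {β : Type} (C : ℕ → List ℕ) {G G' : β → ℕ} (h : ∀ y, G y = G' y) (l : List (ℕ × β)) :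
    rws C G l = rws C G' l := by
  rw [show G = G' from funext h]

theorem evS_fst {β : Type} (C : ℕ → List ℕ) (sh n : ℕ) (G : β → ℕ × ℕ) (l : List (ℕ × β)) :
    (evS C sh n G l).1 = jk sh n (rws C (fun y => (G y).1) l) := rfl
theorem evS_snd {β : Type} (C : ℕ → List ℕ) (sh n : ℕ) (G : β → ℕ × ℕ) (l : List (ℕ × β)) :
    (evS C sh n G l).2 = jk sh n (rws C (fun y => (G y).2) l) := rfl

/-- the straight-line evaluation of a field -/
def zfld (σ : ℕ → ℕ) (b : Bx) (w : ℕ) (d f : ℕ → ℕ) (N : NP) : ℕ × ℕ :=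
  (zN1 true (ET (FN (bxa b 0) (bxb b 0) (bxD b 0) (d 0) (f 0) (Nat.pow 2 (Nat.mul w (σ 0))))
    (FN (bxa b 1) (bxb b 1) (bxD b 1) (d 1) (f 1) (Nat.pow 2 (Nat.mul w (σ 1))))
    (FN (bxa b 2) (bxb b 2) (bxD b 2) (d 2) (f 2) (Nat.pow 2 (Nat.mul w (σ 2)))))
    (fun e k => nthN (cfl (bxa b 3) (bxb b 3) (bxD b 3) (d 3) (f 3) e) k) (Nat.mul w (σ 3)) (Nat.succ (f 3))
    (fun e k => nthN (cfl (bxa b 4) (bxb b 4) (bxD b 4) (d 4) (f 4) e) k) (Nat.mul w (σ 4)) (Nat.succ (f 4)) N,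
   zN1 false (ET (FN (bxa b 0) (bxb b 0) (bxD b 0) (d 0) (f 0) (Nat.pow 2 (Nat.mul w (σ 0))))
    (FN (bxa b 1) (bxb b 1) (bxD b 1) (d 1) (f 1) (Nat.pow 2 (Nat.mul w (σ 1))))
    (FN (bxa b 2) (bxb b 2) (bxD b 2) (d 2) (f 2) (Nat.pow 2 (Nat.mul w (σ 2)))))
    (fun e k => nthN (cfl (bxa b 3) (bxb b 3) (bxD b 3) (d 3) (f 3) e) k) (Nat.mul w (σ 3)) (Nat.succ (f 3))
    (fun e k => nthN (cfl (bxa b 4) (bxb b 4) (bxD b 4) (d 4) (f 4) e) k) (Nat.mul w (σ 4)) (Nat.succ (f 4)) N)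

theorem zfld_eq (σ : ℕ → ℕ) (b : Bx) (w : ℕ) (d f : ℕ → ℕ) (N : NP) :
    zfld σ b w d f N = evalNP w σ (bxa b) (bxb b) (bxD b) d f N := by
  unfold zfld evalNP zN1
  refine Prod.ext ?_ ?_
  · simp only [zS_eq, evS_fst]
    refine congrArg (jk _ _) (rws_congr _ (fun l3 => ?_) _)
    refine congrArg (jk _ _) (rws_congr _ (fun l2 => ?_) _)
    rw [zt2_eq]
    exact zM_eq1 _ (fun l1 => zM_eq1 _ (fun l0 => (z0_eq _ l0).1) l1) l2
  · simp only [zS_eq, evS_snd]
    refine congrArg (jk _ _) (rws_congr _ (fun l3 => ?_) _)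
    refine congrArg (jk _ _) (rws_congr _ (fun l2 => ?_) _)
    rw [zt2_eq]
    exact zM_eq2 _ (fun l1 => zM_eq2 _ (fun l0 => (z0_eq _ l0).2) l1) l2

/-- the packed base by `zfld` -/
def DS.bS (S : DS) (b : Bx) (w : ℕ) : BaseA (ℕ × ℕ) := S.mapB fun x => zfld S.σ b w x.d x.f x.N

theorem bS_eq (S : DS) (b : Bx) (w : ℕ) : S.bS b w = S.bZ b w S.σ := by
  unfold DS.bS DS.bZ
  simp only [zfld_eq]




end Crest.Agent.R097.KA
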