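import Crest.Agent.R097.KP6

/-!
# Row 97, KBA checker: sign-magnitude evaluation (helper351)
-/

set_option autoImplicit false

namespace Crest.Agent.R097.KA

open MvPolynomial Crest.Agent.R097.CP Crest.Agent.R097.CQ Crest.Agent.KB

/-- integers as `p a = a`, `n a = -a` -/
inductive SM where
  | p : ℕ → SM
  | n : ℕ → SM

def SM.val : SM → ℤ
  | .p a => a
  | .n a => -(a : ℤ)

/-- `a - b` -/
def sbb (a b : ℕ) : SM :=
  Nat.casesOn (motive := fun _ => SM) (Nat.sub a b) (SM.n (Nat.sub b a)) (fun _ => SM.p (Nat.sub a b))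

lemma sbb_val (a b : ℕ) : (sbb a b).val = (a : ℤ) - b := by
  unfold sbb
  have e : Nat.sub a b = a - b := rfl
  have e' : Nat.sub b a = b - a := rfl
  rw [e, e']
  rcases Nat.le_total a b with h | h
  · have h0 : a - b = 0 := Nat.sub_eq_zero_of_le h
    rw [h0]
    show -(((b - a : ℕ)) : ℤ) = _
    push_cast [Nat.cast_sub h]
    ring
  · cases h1 : a - b with
    | zero =>
      show -(((b - a : ℕ)) : ℤ) = _
      have : a = b := by omega
      subst this
      simp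
    | succ k =>
      show (((k + 1 : ℕ)) : ℤ) = _
      rw [← h1]
      push_cast [Nat.cast_sub h]
      ring

/-- operations on packed integers -/
def OX (w : ℕ) (σ : ℕ → ℕ) : Ops SM where
  zero := SM.p 0
  add := fun x y => SM.casesOn (motive := fun _ => SM) x
    (fun a => SM.casesOn (motive := fun _ => SM) y (fun b => SM.p (Nat.add a b)) (fun b => sbb a b))
    (fun a => SM.casesOn (motive := fun _ => SM) y (fun b => sbb b a) (fun b => SM.n (Nat.add a b)))
  smul := fun c x => Int.casesOn (motive := fun _ => SM) c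
    (fun k => Nat.casesOn (motive := fun _ => SM) k (SM.p 0) (fun k' =>
      SM.casesOn (motive := fun _ => SM) x (fun a => SM.p (Nat.mul (Nat.succ k') a))
        (fun a => SM.n (Nat.mul (Nat.succ k') a))))
    (fun k => SM.casesOn (motive := fun _ => SM) x (fun a => SM.n (Nat.mul (Nat.succ k) a))
      (fun a => SM.p (Nat.mul (Nat.succ k) a)))
  mulT := fun i x => SM.casesOn (motive := fun _ => SM) x
    (fun a => SM.p (Nat.shiftLeft a (Nat.mul w (σ (cl i)))))
    (fun a => SM.n (Nat.shiftLeft a (Nat.mul w (σ (cl i)))))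

/-- packed value -/
def RX (w : ℕ) (σ : ℕ → ℕ) (P : MvPolynomial ℕ ℤ) (z : SM) : Prop :=
  eval (fun i => (2 : ℤ) ^ (w * σ i)) P = z.val

lemma relX (w : ℕ) (σ : ℕ → ℕ) : ORel OM (OX w σ) (RX w σ) where
  zero := by simp [RX, OM, OX, SM.val]
  add := by
    intro x y x' y' h1 h2
    unfold RX at h1 h2 ⊢
    show eval _ (x + y) = _
    rw [map_add, h1, h2]
    cases x' with
    | p a =>
      cases y' with
      | p b => show (a : ℤ) + b = ((a + b : ℕ) : ℤ); push_cast; ring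
      | n b => show (a : ℤ) + -b = (sbb a b).val; rw [sbb_val]; ring
    | n a =>
      cases y' with
      | p b => show -(a : ℤ) + b = (sbb b a).val; rw [sbb_val]; ring
      | n b => show -(a : ℤ) + -b = -((a + b : ℕ) : ℤ); push_cast; ring
  smul := by
    intro c x x' h1
    unfold RX at h1 ⊢
    show eval _ (C c * x) = _
    rw [map_mul, eval_C, h1]
    cases c with
    | ofNat k =>
      rw [Int.ofNat_eq_natCast]
      cases k with
      | zero => show ((0 : ℕ) : ℤ) * _ = ((0 : ℕ) : ℤ); simp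
      | succ k =>
        cases x' with
        | p a => show ((k + 1 : ℕ) : ℤ) * a = (((k + 1) * a : ℕ) : ℤ); push_cast; ring
        | n a => show ((k + 1 : ℕ) : ℤ) * -(a : ℤ) = -(((k + 1) * a : ℕ) : ℤ); push_cast; ring
    | negSucc k =>
      rw [Int.negSucc_eq]
      cases x' with
      | p a => show -((k : ℤ) + 1) * a = -(((k + 1) * a : ℕ) : ℤ); push_cast; ring
      | n a => show -((k : ℤ) + 1) * -(a : ℤ) = (((k + 1) * a : ℕ) : ℤ); push_cast; ring
  mulT := by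
    intro i x x' h1
    unfold RX at h1 ⊢
    show eval _ (X (cl i) * x) = _
    rw [map_mul, eval_X, h1]
    cases x' with
    | p a =>
      show _ * (a : ℤ) = ((a <<< (w * σ (cl i)) : ℕ) : ℤ)
      rw [Nat.shiftLeft_eq]; push_cast; ring
    | n a =>
      show _ * -(a : ℤ) = -((a <<< (w * σ (cl i)) : ℕ) : ℤ)
      rw [Nat.shiftLeft_eq]; push_cast; ring

/-- sign test -/
def digX (H : ℕ) (x : SM) : Bool :=
  SM.casesOn (motive := fun _ => Bool) x (fun a => Nat.beq (Nat.land (Nat.add H a) H) H)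
    (fun a => Nat.beq (Nat.land (Nat.sub H a) H) H)

/-- the packed polynomial has non-negative coefficients -/
lemma coeff_nonneg_of_digX {w : ℕ} (hw : 0 < w) {Xs : ℕ → ℕ} {P : MvPolynomial ℕ ℤ} {z : SM}
    (hz : RX w (sg Xs) P z) {N : ℕ} (hN : Maj P (N : ℤ)) (hNw : N < 2 ^ (w - 1))
    (hdeg : ∀ i, i < 5 → degreeOf i P < Xs i) (hvar : ∀ i, 5 ≤ i → degreeOf i P = 0)
    (hc : digX (Hm w (sg Xs 5)) z = true) : ∀ m, 0 ≤ coeff m P := by
  refine coeff_nonneg_of_land w hw 5 Xs P hdeg hvar (fun m => lt_of_le_of_lt (hN.bound m) (by exact_mod_cast hNw)) ?_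
  have hz' : eval (fun i => (2 : ℤ) ^ (w * sg Xs i)) P = z.val := hz
  rw [hz']
  cases z with
  | p a =>
    have hc' : Nat.beq (Nat.land (Nat.add (Hm w (sg Xs 5)) a) (Hm w (sg Xs 5))) (Hm w (sg Xs 5)) = true := hc
    rw [Nat.beq_eq] at hc'
    have e1 : (SM.val (SM.p a) + (Hm w (sg Xs 5) : ℤ)).toNat = Nat.add (Hm w (sg Xs 5)) a := by
      show ((a : ℤ) + (Hm w (sg Xs 5) : ℤ)).toNat = Hm w (sg Xs 5) + a
      omega
    rw [e1]
    exact hc'
  | n a =>
    have hc' : Nat.beq (Nat.land (Nat.sub (Hm w (sg Xs 5)) a) (Hm w (sg Xs 5))) (Hm w (sg Xs 5)) = true := hc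
    rw [Nat.beq_eq] at hc'
    have e1 : (SM.val (SM.n a) + (Hm w (sg Xs 5) : ℤ)).toNat = Nat.sub (Hm w (sg Xs 5)) a := by
      show (-(a : ℤ) + (Hm w (sg Xs 5) : ℤ)).toNat = Hm w (sg Xs 5) - a
      omega
    rw [e1]
    exact hc'

lemma OX_congr (w : ℕ) {σ σ' : ℕ → ℕ} (h : ∀ i < 5, σ i = σ' i) : OX w σ = OX w σ' := by
  unfold OX
  have : ∀ i, σ (cl i) = σ' (cl i) := fun i => h _ (cl_lt i)
  simp only [this]

def cv (x : ℕ × ℕ) : SM := sbb x.1 x.2

/-- conversion of the base -/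
def cvB (x : BaseA (ℕ × ℕ)) : BaseA SM where
  L1 := cv x.L1
  L2 := cv x.L2
  Lw := cv x.Lw
  A11 := cv x.A11
  A12 := cv x.A12
  W1 := cv x.W1
  W2 := cv x.W2
  psi := cv x.psi
  g := cv x.g
  K11 := cv x.K11
  K12 := cv x.K12
  K22 := cv x.K22
  Ck := cv x.Ck
  C0 := cv x.C0
  G1 := cv x.G1
  G2 := cv x.G2
  G3 := cv x.G3
  G4 := cv x.G4
  F1 := cv x.F1
  F2 := cv x.F2
  F3 := cv x.F3
  F4 := cv x.F4

/-- digit test with sign-magnitude numbers -/
def DS.chkX (S : DS) (bz : Bx → ℕ → BaseA (ℕ × ℕ)) (b : Bx) (w : ℕ) (c : Lf) : Bool :=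
  (tests (OX w S.σ) 1024 256 (q1n (boxC S.an S.ad b)) (q1d (boxC S.an S.ad b)) (boxC S.an S.ad b)
    (cvB (bz b w)) c).all (digX (Hm w S.K))

/-- **the check of a leaf** -/
def DS.leafX (S : DS) (bz : Bx → ℕ → BaseA (ℕ × ℕ)) (b : Bx) (w : ℕ) (c : Lf) : Bool :=
  (Nat.blt 0 w && bxOK b) && (c.ok && (S.chkN b w c && S.chkX bz b w c))

/-- **non-negative coefficients** -/
theorem coeffs_nonnegX {S : DS} (hst : S.static = true) {b : Bx} (hb : bxOK b = true) {w : ℕ} (hw : 0 < w)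
    {bz : Bx → ℕ → BaseA (ℕ × ℕ)} (hbz : ∀ b w, bz b w = S.bS b w)
    {c : Lf} (hN : S.chkN b w c = true) (hZ : S.chkX bz b w c = true) :
    ∀ p ∈ tests OM 1024 256 (q1n (boxC S.an S.ad b)) (q1d (boxC S.an S.ad b)) (boxC S.an S.ad b)
      (S.bM b) c, ∀ m, 0 ≤ coeff m p := by
  intro p hp
  have hR : ∀ x ∈ S.flds, RX w (sg S.Xs) (hom (bxa b) (bxb b) (bxD b) x.d x.f (flat x.N))
      (cv (evalNP w S.σ (bxa b) (bxb b) (bxD b) x.d x.f x.N)) := by
    intro x hx
    obtain ⟨_, h2, _, _⟩ := fld_ok (static_fld hst hx)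
    unfold RX cv
    rw [sbb_val, ← evalNP_eq w _ _ _ _ _ _ _ h2, evalNP_congr w (σ_eq S)]
  have hB : BRel (RX w (sg S.Xs)) (S.bM b) (cvB (bz b w)) := by
    rw [hbz, bS_eq]
    constructor <;> exact hR _ (by simp [DS.flds])
  have FZ := rel_tests (relX w (sg S.Xs)) 1024 256 (q1n (boxC S.an S.ad b)) (q1d (boxC S.an S.ad b))
    (boxC S.an S.ad b) hB c
  rw [← OX_congr w (σ_eq S)] at FZ
  have FN := rel_tests relN 1024 256 (q1n (boxC S.an S.ad b)) (q1d (boxC S.an S.ad b))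
    (boxC S.an S.ad b) (b := S.bM b) (b' := S.bN b) (brel_map fun x hx => by
      obtain ⟨h1, _, h3, h4⟩ := fld_ok (static_fld hst hx)
      refine Maj.mono (maj_hom _ _ _ _ _ (bxOK_spec hb) h4 _ h1) ?_
      show ((csum (flat x.N) * nfac (bxD b) x.d x.f : ℕ) : ℤ) ≤ ((x.M * nfac (bxD b) x.d x.f : ℕ) : ℤ)
      exact_mod_cast Nat.mul_le_mul_right _ h3) c
  have FD : ∀ j < 5, List.Forall₂ (fun P n => degreeOf j P ≤ n) (tests OM 1024 256
      (q1n (boxC S.an S.ad b)) (q1d (boxC S.an S.ad b)) (boxC S.an S.ad b) (S.bM b) c)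
      (tests (OD j) 1024 256 (q1n (boxC S.an S.ad b)) (q1d (boxC S.an S.ad b)) (boxC S.an S.ad b)
        (S.mapB fun x => x.f j) c) := fun j hj =>
    rel_tests (relD j) 1024 256 (q1n (boxC S.an S.ad b)) (q1d (boxC S.an S.ad b))
      (boxC S.an S.ad b) (b := S.bM b) (b' := S.mapB fun x => x.f j) (brel_map fun x hx => by
      obtain ⟨h1, _, _, h4⟩ := fld_ok (static_fld hst hx)
      have := degreeOf_hom (bxa b) (bxb b) (bxD b) x.d x.f h4 j _ h1
      rwa [if_pos hj] at this) c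
  have FU := rel_tests relU 1024 256 (q1n (boxC S.an S.ad b)) (q1d (boxC S.an S.ad b))
    (boxC S.an S.ad b) (b := S.bM b) (b' := S.mapB fun _ => ()) (brel_map fun x hx => by
      obtain ⟨h1, _, _, h4⟩ := fld_ok (static_fld hst hx)
      intro j hj
      have := degreeOf_hom (bxa b) (bxb b) (bxD b) x.d x.f h4 j _ h1
      rw [if_neg (by omega)] at this
      exact Nat.le_zero.1 this) c
  obtain ⟨z, hz, hdig⟩ := forall₂_ex FZ (p := fun z => digX (Hm w S.K) z = true)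
    (fun z hz' => List.all_eq_true.1 hZ z hz') p hp
  obtain ⟨N, hNp, hNlt⟩ := forall₂_ex FN (p := fun n => Nat.blt n (2 ^ (w - 1)) = true)
    (fun z hz' => List.all_eq_true.1 hN z hz') p hp
  obtain ⟨_, hv, _⟩ := forall₂_ex FU (p := fun _ => True) (fun _ _ => trivial) p hp
  have hdeg : ∀ j < 5, degreeOf j p < S.Xs j := by
    intro j hj
    have hst' : S.degOK j = true := by
      simp only [DS.static, Bool.and_eq_true] at hst
      obtain ⟨_, k0, k1, k2, k3, k4⟩ := hst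
      interval_cases j
      · exact k0
      · exact k1
      · exact k2
      · exact k3
      · exact k4
    obtain ⟨n, h1, h2⟩ := forall₂_ex (FD j hj) (p := fun n => Nat.blt n (S.Xs j) = true) (fun z hz' => by
      rw [tests_OD j _ _ _ _ 0 0 0 0 _ bc0 _ _ lf0] at hz'
      exact List.all_eq_true.1 hst' z hz') p hp
    rw [Nat.blt_eq] at h2
    omega
  rw [K_eq] at hdig
  exact coeff_nonneg_of_digX hw hz hNp (by rwa [Nat.blt_eq] at hNlt) hdeg hv hdig

/-- a leaf from non-negative coefficients of the tests -/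
theorem good_of_coeffsX {S : DS} {P : Par} {D : Dat} {sx sp : ℝ} (hS : DSok S P D sx sp) {b : Bx}
    (hbx : bxOK b = true) {c : Lf} (hc : c.ok = true)
    (hco : ∀ p ∈ tests OM 1024 256 (q1n (boxC S.an S.ad b)) (q1d (boxC S.an S.ad b)) (boxC S.an S.ad b)
      (S.bM b) c, ∀ m, 0 ≤ coeff m p) : Good (Phi P D sx sp) b := by
  intro t ht hd
  have hT0 : ∀ i, 0 ≤ Tb b t i := fun i => (Tb_spec ht i).1
  have hx := Tb_x ht
  have hr : ∀ r ∈ tests (OR (Tb b t)) 1024 256 (q1n (boxC S.an S.ad b)) (q1d (boxC S.an S.ad b))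
      (boxC S.an S.ad b) (S.bR b (Tb b t) t) c, 0 ≤ r := by
    intro r hr
    have FR := rel_tests (relR (Tb b t)) 1024 256 (q1n (boxC S.an S.ad b)) (q1d (boxC S.an S.ad b))
      (boxC S.an S.ad b) (b := S.bM b) (b' := S.bR b (Tb b t) t) (brel_map fun x hx' => by
        obtain ⟨h1, _, _, h4⟩ := fld_ok (static_fld hS.st hx')
        exact eval₂_hom _ _ _ _ _ (Tb b t) t hx h4 _ h1) c
    obtain ⟨p, h1, h2⟩ := forall₂_ex' FR (p := fun p => ∀ m, 0 ≤ coeff m p) hco r hr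
    rw [← h1]
    exact eval₂_nonneg_of_coeff p h2 (Tb b t) hT0
  obtain ⟨B', hB', hev⟩ := hS.base
  obtain ⟨B'', h1, h2⟩ := BS_ev hS.pars D hB' (fn5 (sx * t 0) (sp * t 1) (t 2) (t 3) (2 * t 4))
  have hev' := (hev t).trans h1
  obtain ⟨g1, g2, g3, g4⟩ := hS.gs t hd
  have rp : ∀ d f : ℕ → ℕ, 0 < rfac (bxD b) d f (Tb b t) := fun d f => rfac_pos' b d f hT0
  have han : (0 : ℝ) < S.an := by rw [hS.an]; exact_mod_cast hS.pars.an
  have han' : (S.an : ℝ) = P.an := by rw [hS.an]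
  have had' : (S.ad : ℝ) = P.ad := by rw [hS.ad]
  have had : (0 : ℝ) < P.ad := by exact_mod_cast hS.pars.ad
  have hRB : RB (Tb b t) (rfac (bxD b) S.d S.d (Tb b t))
      (((boxC S.an S.ad b).Ds * (1 + Tb b t 2)) ^ 2 * ((boxC S.an S.ad b).DQ * (1 + Tb b t 3)) *
        ((boxC S.an S.ad b).Dv * (1 + Tb b t 4)) ^ 2) (bsc P.kap B'') (S.bR b (Tb b t) t) := by
    have eS : (((boxC S.an S.ad b).Ds : ℤ) : ℝ) = bxD b 2 := by simp [boxC, bxD, fn5]
    have eQ : (((boxC S.an S.ad b).DQ : ℤ) : ℝ) = bxD b 3 := by simp [boxC, bxD, fn5]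
    have eV : (((boxC S.an S.ad b).Dv : ℤ) : ℝ) = bxD b 4 := by simp [boxC, bxD, fn5]
    rw [← hev', eS, eQ, eV]
    constructor
    · rfl
    · rfl
    · rfl
    · rfl
    · rfl
    · rfl
    · rfl
    · rfl
    · rfl
    · rfl
    · rfl
    · rfl
    · rw [← rfac_d2]; rfl
    · rw [← rfac_dC]; rfl
    · exact mul_nonneg (rp _ _).le g1
    · exact mul_nonneg (rp _ _).le g2
    · exact mul_nonneg (rp _ _).le g3
    · exact mul_nonneg (rp _ _).le g4
    · exact mul_nonneg (rp _ _).le g1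
    · exact mul_nonneg (rp _ _).le g2
    · exact mul_nonneg (rp _ _).le g3
    · exact mul_nonneg (rp _ _).le g4
  obtain ⟨hm, hdet, hmu, hn1, hn2, hn3⟩ := c.ok_spec hc
  have hqe : (S.an : ℝ) * (t 3 - (2 * t 4) ^ 2 * ((1 - (t 2) ^ 2) / P.A0))
      = S.an * t 3 - 4 * S.ad * t 4 ^ 2 * (1 - t 2 ^ 2) := by
    rw [Par.A0, han', had']
    rw [han'] at han
    field_simp
    ring
  have kan : (((boxC S.an S.ad b).an : ℤ) : ℝ) = S.an := by simp [boxC]
  have kad : (((boxC S.an S.ad b).ad : ℤ) : ℝ) = S.ad := by simp [boxC]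
  have hs0 : 0 ≤ t 2 := hd.s0.le
  have hqq := q_le (an := S.an) (ad := S.ad) ht hs0 hbx hqe
  obtain ⟨L, hL⟩ := ok_of_tests (lam := lmb b t) (t := Tb b t) (β2 := 1024) (γ2 := 256)
    (q1n := q1n (boxC S.an S.ad b)) (q1d := q1d (boxC S.an S.ad b)) (k := boxC S.an S.ad b)
    (s := t 2) (Q := t 3) (v' := t 4)
    (q := t 3 - (2 * t 4) ^ 2 * ((1 - (t 2) ^ 2) / P.A0)) (c := c)
    (fun i _ => (Tb_spec ht i).2.1) (fun i _ => by have := hT0 i; linarith) (by norm_num) (by norm_num)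
    (by
      have : (0 : ℝ) < (q1d (boxC S.an S.ad b) : ℝ) := by
        simp only [q1d, boxC, Int.ofNat_eq_natCast]
        push_cast
        positivity
      exact_mod_cast this)
    (by have : (0 : ℝ) < ((boxC S.an S.ad b).an : ℤ) := by rw [kan]; exact han
        exact_mod_cast this)
    (by simp [boxC]) (by simp [boxC]) (by simp [boxC])
    (by have := hx 2 (by norm_num)
        simpa [boxC, bxa, bxb, bxD, fn5] using this)
    (by have := hx 3 (by norm_num)
        simpa [boxC, bxa, bxb, bxD, fn5] using this)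
    (by have := hx 4 (by norm_num)
        simpa [boxC, bxa, bxb, bxD, fn5] using this)
    (rp S.d S.d) hRB hm hdet hmu hn1 hn2 hn3 (by rw [kan, kad]; exact hqe) hqq hr
  exact ⟨B'', L, h2, ok_of_bsc (kap_pos hS.pars) hL⟩

/-- **soundness** -/
theorem leafX_sound {S : DS} {P : Par} {D : Dat} {sx sp : ℝ} (hS : DSok S P D sx sp)
    {bz : Bx → ℕ → BaseA (ℕ × ℕ)} (hz : ∀ b w, bz b w = S.bS b w) {b : Bx} {w : ℕ}
    {c : Lf} (h : S.leafX bz b w c = true) : Good (Phi P D sx sp) b := by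
  simp only [DS.leafX, Bool.and_eq_true, Nat.blt_eq] at h
  obtain ⟨⟨hw, hbx⟩, hc, hN, hZ⟩ := h
  exact good_of_coeffsX hS hbx hc (coeffs_nonnegX hS.st hbx hw hz hN hZ)

end Crest.Agent.R097.KA
private theorem rz_19132bfe2e : type_of% @_root_.Crest.Agent.R097.KA.SM.val.eq_1 := @_root_.Crest.Agent.R097.KA.SM.val.eq_1 -- L18
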