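import Crest.Agent.R097.Iface
import Crest.Agent.R097.V1

-- ▼ part R097/SDiv
section

/-!
# Row 97, S-block: divergence theorem with compactly supported Lipschitz weights vanishing outside an open set
-/

set_option autoImplicit false
open MeasureTheory Metric Set Filter Topology InnerProductSpace
open scoped RealInnerProductSpace NNReal ENNReal Gradient Laplacian

namespace Crest.Agent.R097

variable {d : ℕ}

lemma measurable_dv (Y : E d → E d) : Measurable (dv Y) := by
  unfold dv
  refine Finset.measurable_sum _ fun i _ => ?_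
  have h1 : Measurable fun x => fderiv ℝ Y x (bv i) := measurable_fderiv_apply_const ℝ Y (bv i)
  exact (EuclideanSpace.proj (𝕜 := ℝ) i).measurable.comp h1

lemma aesm_fderiv_apply {μ : Measure (E d)} (g : E d → ℝ) {Y : E d → E d}
    (hY : AEStronglyMeasurable Y μ) : AEStronglyMeasurable (fun x => fderiv ℝ g x (Y x)) μ := by
  have e1 : ∀ x, fderiv ℝ g x (Y x) = ∑ i, Y x i * fderiv ℝ g x (bv i) := by
    intro x
    conv_lhs => rw [← sum_bv (Y x), map_sum]
    simp [smul_eq_mul]
  simp_rw [e1]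
  refine Finset.aestronglyMeasurable_fun_sum _ fun i _ => ?_
  refine AEStronglyMeasurable.mul ?_ (measurable_fd g _).aestronglyMeasurable
  exact (EuclideanSpace.proj (𝕜 := ℝ) i).continuous.comp_aestronglyMeasurable hY

/-- divergence theorem for a compactly supported Lipschitz weight inside an open set -/
lemma div_cpt {O : Set (E d)} (hO : IsOpen O) {Y : E d → E d} (hY : ContDiffOn ℝ 1 Y O)
    {g : E d → ℝ} {L : ℝ≥0} (hg : LipschitzWith L g) (hc : HasCompactSupport g)
    (hgO : tsupport g ⊆ O) :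
    (Integrable fun x => fderiv ℝ g x (Y x)) ∧ (Integrable fun x => g x * dv Y x) ∧
    ∫ x, (fderiv ℝ g x (Y x) + g x * dv Y x) = 0 := by
  obtain ⟨χ, hχ, hχc, hχO, hχ01, hχ1⟩ := exists_cutoff hc.isCompact hO hgO
  have hY' : ContDiff ℝ 1 (fun x => χ x • Y x) := by
    rw [contDiff_iff_contDiffAt]
    intro x
    by_cases hx : x ∈ O
    · exact (hχ.of_le (by exact_mod_cast le_top)).contDiffAt.smul (hY.contDiffAt (hO.mem_nhds hx))
    · have hx' : x ∉ tsupport χ := fun h => hx (hχO h)
      have : (fun x => χ x • Y x) =ᶠ[𝓝 x] fun _ => 0 := by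
        rw [notMem_tsupport_iff_eventuallyEq] at hx'
        filter_upwards [hx'] with y hy
        rw [hy]; simp
      exact contDiffAt_const.congr_of_eventuallyEq this
  have e1 : ∀ x, fderiv ℝ g x (χ x • Y x) = fderiv ℝ g x (Y x) := by
    intro x
    by_cases hx : x ∈ tsupport g
    · rw [(hχ1 x hx).self_of_nhds, one_smul]
    · rw [fderiv_eq_zero_of_notMem_tsupport hx]; simp
  have e2 : ∀ x, g x * dv (fun x => χ x • Y x) x = g x * dv Y x := by
    intro x
    by_cases hx : x ∈ tsupport g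
    · have : (fun x => χ x • Y x) =ᶠ[𝓝 x] Y := by
        filter_upwards [hχ1 x hx] with y hy
        rw [hy, one_smul]
      unfold dv
      rw [this.fderiv_eq]
    · rw [image_eq_zero_of_notMem_tsupport hx]; simp
  have key := ibpV hY' hg hc
  have i1 : Integrable fun x => fderiv ℝ g x (χ x • Y x) := by
    have e3 : ∀ x, fderiv ℝ g x (χ x • Y x) = ∑ i, (χ x • Y x) i * fderiv ℝ g x (bv i) := by
      intro x
      conv_lhs => rw [← sum_bv (χ x • Y x), map_sum]
      simp [smul_eq_mul]
    simp_rw [e3]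
    refine integrable_finsetSum _ fun i _ => ?_
    exact integrable_fderiv_mul (contDiff_euclidean.1 hY' i).continuous hg hc _
  have i2 : Integrable fun x => g x * dv (fun x => χ x • Y x) x := by
    have hcont : Continuous fun x => g x * dv (fun x => χ x • Y x) x := by
      refine hg.continuous.mul ?_
      unfold dv
      refine continuous_finsetSum _ fun i _ => ?_
      exact (EuclideanSpace.proj (𝕜 := ℝ) i).continuous.comp
        ((hY'.continuous_fderiv (by norm_num)).clm_apply continuous_const)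
    exact hcont.integrable_of_hasCompactSupport hc.mul_right
  simp_rw [e1] at i1 key
  simp_rw [e2] at i2 key
  refine ⟨i1, i2, ?_⟩
  rw [integral_add i1 i2, key]
  ring

/-- DIV0 for nonnegative weights -/
theorem div0 {O S : Set (E d)} (hO : IsOpen O) (hS : IsCompact S) {Y : E d → E d}
    (hY : ContDiffOn ℝ 1 Y O) {g : E d → ℝ} {L : ℝ≥0} (hg : LipschitzWith L g) (hg0 : ∀ x, 0 ≤ g x)
    (hgS : ∀ x, x ∉ S → g x = 0) (hgO : ∀ x, x ∉ O → g x = 0) {C : ℝ}
    (hYb : ∀ x ∈ O, x ∈ S → ‖Y x‖ ≤ C) (hdYb : ∀ x ∈ O, x ∈ S → |dv Y x| ≤ C) :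
    ∫ x in O, (fderiv ℝ g x (Y x) + g x * dv Y x) = 0 := by
  obtain ⟨G, hG⟩ := hS.exists_bound_of_continuousOn hg.continuous.continuousOn
  set ε : ℕ → ℝ := fun n => 1 / ((n : ℝ) + 1) with hεdef
  have hε0 : ∀ n, 0 < ε n := fun n => by positivity
  have hεlim : Tendsto ε atTop (𝓝 0) := tendsto_one_div_add_atTop_nhds_zero_nat
  set gn : ℕ → E d → ℝ := fun n x => max (g x - ε n) 0 with hgn
  have hlip : ∀ n, LipschitzWith L (gn n) := by
    intro n
    have h1 : LipschitzWith L (fun x => g x - ε n) := by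
      refine LipschitzWith.of_dist_le_mul fun x y => ?_
      have := hg.dist_le_mul x y
      simpa [Real.dist_eq] using this
    exact h1.max_const 0
  have hsub : ∀ n, tsupport (gn n) ⊆ {x | ε n ≤ g x} := by
    intro n
    refine closure_minimal ?_ (isClosed_le continuous_const hg.continuous)
    intro x hx
    by_contra h
    have h' : g x < ε n := not_le.1 h
    apply hx
    simp only [hgn]
    exact max_eq_right (by linarith)
  have hsubS : ∀ n, tsupport (gn n) ⊆ S := by
    intro n x hx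
    by_contra h
    have h1 : ε n ≤ g x := hsub n hx
    rw [hgS x h] at h1
    linarith [hε0 n]
  have hsubO : ∀ n, tsupport (gn n) ⊆ O := by
    intro n x hx
    by_contra h
    have h1 : ε n ≤ g x := hsub n hx
    rw [hgO x h] at h1
    linarith [hε0 n]
  have hcs : ∀ n, HasCompactSupport (gn n) := fun n =>
    hS.of_isClosed_subset (isClosed_tsupport _) (hsubS n)
  have hzero : ∀ n, ∫ x in O, (fderiv ℝ (gn n) x (Y x) + gn n x * dv Y x) = 0 := by
    intro n
    rw [setIntegral_eq_integral_of_forall_compl_eq_zero]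
    · exact (div_cpt hO hY (hlip n) (hcs n) (hsubO n)).2.2
    · intro x hx
      have hx' : x ∉ tsupport (gn n) := fun h => hx (hsubO n h)
      rw [fderiv_eq_zero_of_notMem_tsupport hx', image_eq_zero_of_notMem_tsupport hx']
      simp
  have hYm : AEStronglyMeasurable Y (volume.restrict O) :=
    hY.continuousOn.aestronglyMeasurable hO.measurableSet
  have hlim : Tendsto (fun n => ∫ x in O, (fderiv ℝ (gn n) x (Y x) + gn n x * dv Y x)) atTop
      (𝓝 (∫ x in O, (fderiv ℝ g x (Y x) + g x * dv Y x))) := by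
    refine tendsto_integral_of_dominated_convergence
      (S.indicator fun _ => (L : ℝ) * |C| + |G| * |C|) ?_ ?_ ?_ ?_
    · intro n
      exact (aesm_fderiv_apply _ hYm).add
        ((hlip n).continuous.measurable.mul (measurable_dv Y)).aestronglyMeasurable
    · refine Integrable.restrict ?_
      rw [integrable_indicator_iff hS.measurableSet]
      exact integrableOn_const (hS.measure_lt_top.ne)
    · intro n
      rw [ae_restrict_iff' hO.measurableSet]
      refine Eventually.of_forall fun x hxO => ?_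
      by_cases hxS : x ∈ S
      · rw [indicator_of_mem hxS]
        refine (norm_add_le _ _).trans (add_le_add ?_ ?_)
        · refine (ContinuousLinearMap.le_opNorm _ _).trans ?_
          exact mul_le_mul (norm_fderiv_le_of_lip (hlip n) x)
            ((hYb x hxO hxS).trans (le_abs_self C)) (norm_nonneg _) L.2
        · rw [norm_mul]
          refine mul_le_mul ?_ ?_ (norm_nonneg _) (abs_nonneg _)
          · have h1 : ‖g x‖ ≤ G := hG x hxS
            rw [Real.norm_of_nonneg (hg0 x)] at h1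
            rw [Real.norm_of_nonneg (le_max_right _ _)]
            refine (max_le ?_ ?_).trans (h1.trans (le_abs_self G))
            · linarith [hε0 n]
            · exact hg0 x
          · exact (hdYb x hxO hxS).trans (le_abs_self C)
      · rw [indicator_of_notMem hxS]
        have hx' : x ∉ tsupport (gn n) := fun h => hxS (hsubS n h)
        rw [fderiv_eq_zero_of_notMem_tsupport hx', image_eq_zero_of_notMem_tsupport hx']
        simp
    · refine Eventually.of_forall fun x => ?_
      rcases (hg0 x).eq_or_lt with h | h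
      · have h1 : fderiv ℝ g x = 0 := fderiv_eq_zero_of_nonneg hg0 h.symm
        have h2 : ∀ n, fderiv ℝ (gn n) x = 0 := by
          intro n
          refine fderiv_eq_zero_of_nonneg (fun y => le_max_right _ _) ?_
          show max (g x - ε n) 0 = 0
          exact max_eq_right (by linarith [hε0 n])
        have h3 : ∀ n, gn n x = 0 := by
          intro n
          simp only [hgn]
          exact max_eq_right (by linarith [hε0 n])
        have e1 : ∀ n, fderiv ℝ (gn n) x (Y x) + gn n x * dv Y x = 0 := by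
          intro n; rw [h2 n, h3 n]; simp
        have e2 : fderiv ℝ g x (Y x) + g x * dv Y x = 0 := by
          rw [h1, ← h]; simp
        rw [e2]
        exact tendsto_const_nhds.congr fun n => (e1 n).symm
      · have hev : ∀ᶠ n in atTop, ε n < g x := hεlim.eventually (gt_mem_nhds h)
        have h1 : ∀ᶠ n in atTop, fderiv ℝ (gn n) x = fderiv ℝ g x := by
          filter_upwards [hev] with n hn
          have : gn n =ᶠ[𝓝 x] fun y => g y - ε n := by
            filter_upwards [(hg.continuous.continuousAt (x := x)).eventually (lt_mem_nhds hn)] with y hy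
            simp only [hgn]
            exact max_eq_left (by linarith)
          rw [this.fderiv_eq, fderiv_sub_const]
        have h2 : Tendsto (fun n => gn n x) atTop (𝓝 (g x)) := by
          have : Tendsto (fun n => max (g x - ε n) 0) atTop (𝓝 (max (g x - 0) 0)) :=
            (tendsto_const_nhds.sub hεlim).max tendsto_const_nhds
          rw [sub_zero, max_eq_left h.le] at this
          exact this
        refine Tendsto.add ?_ (h2.mul_const _)
        refine tendsto_const_nhds.congr' ?_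
        filter_upwards [h1] with n hn
        rw [hn]
  exact tendsto_nhds_unique (hlim.congr hzero) tendsto_const_nhds

end Crest.Agent.R097
end

-- ▼ part R097/SLayer
section

/-!
# Row 97, S-block: thin layers near the free boundary
-/

set_option autoImplicit false
open MeasureTheory Metric Set Filter Topology InnerProductSpace
open scoped RealInnerProductSpace NNReal ENNReal Gradient Laplacian

namespace Crest.Agent.R097

variable {d : ℕ}

lemma two_le_smooth : (2 : WithTop ℕ∞) ≤ ((⊤ : ℕ∞) : WithTop ℕ∞) := by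
  have : ((2 : ℕ∞) : WithTop ℕ∞) ≤ ((⊤ : ℕ∞) : WithTop ℕ∞) := by exact_mod_cast le_top
  exact this

lemma abs_clm_le {L : E d →L[ℝ] ℝ} {v : E d} {A B : ℝ} (hA : ‖L‖ ≤ A) (hB : ‖v‖ ≤ B) :
    |L v| ≤ A * B := by
  have h := (ContinuousLinearMap.le_opNorm L v).trans
    (mul_le_mul hA hB (norm_nonneg _) ((norm_nonneg _).trans hA))
  rwa [Real.norm_eq_abs] at h

lemma isOpen_Om {u : E d → ℝ} (hc : Continuous u) : IsOpen (Om u) := isOpen_lt continuous_const hc

/-- a property that holds near the free boundary points of a compact set holds in a layer -/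
lemma near_bdry {u : E d → ℝ} (hc : Continuous u) {S : Set (E d)} (hS : IsCompact S)
    {P : E d → Prop} (h : ∀ y ∈ S, y ∈ frontier (Om u) → ∀ᶠ x in 𝓝[Om u] y, P x) :
    ∃ t0 : ℝ, 0 < t0 ∧ ∀ x ∈ S, 0 < u x → u x < t0 → P x := by
  by_contra hcon
  push Not at hcon
  have h1 : ∀ n : ℕ, ∃ x ∈ S, 0 < u x ∧ u x < 1 / ((n : ℝ) + 1) ∧ ¬ P x := fun n => by
    obtain ⟨x, h1, h2, h3, h4⟩ := hcon (1 / ((n : ℝ) + 1)) (by positivity)
    exact ⟨x, h1, h2, h3, h4⟩
  choose x hxS hx0 hxt hxP using h1
  obtain ⟨y, hyS, φ, hφ, hlim⟩ := hS.tendsto_subseq hxS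
  have huy : Tendsto (fun n => u (x (φ n))) atTop (𝓝 (u y)) := (hc.tendsto y).comp hlim
  have hu0 : Tendsto (fun n => u (x (φ n))) atTop (𝓝 0) := by
    refine squeeze_zero (fun n => (hx0 _).le) (fun n => (hxt _).le) ?_
    exact tendsto_one_div_add_atTop_nhds_zero_nat.comp hφ.tendsto_atTop
  have huy0 : u y = 0 := tendsto_nhds_unique huy hu0
  have hyf : y ∈ frontier (Om u) := by
    rw [frontier, (isOpen_Om hc).interior_eq]
    refine ⟨mem_closure_of_tendsto hlim (Eventually.of_forall fun n => hx0 _), ?_⟩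
    intro h'
    have : 0 < u y := h'
    linarith
  have h2 := h y hyS hyf
  have h3 : Tendsto (x ∘ φ) atTop (𝓝[Om u] y) :=
    tendsto_nhdsWithin_iff.2 ⟨hlim, Eventually.of_forall fun n => hx0 _⟩
  obtain ⟨n, hn⟩ := (h3.eventually h2).exists
  exact hxP _ hn

/-- local boundedness up to the free boundary gives boundedness -/
lemma bdd_of_local {O : Set (E d)} {S : Set (E d)} (hS : IsCompact S) {f : E d → ℝ}
    (h : ∀ y ∈ S, y ∈ closure O → ∃ C : ℝ, ∀ᶠ x in 𝓝[O] y, f x ≤ C) :
    ∃ C : ℝ, ∀ x ∈ O, x ∈ S → f x ≤ C := by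
  have h1 : ∃ C : ℝ, ∀ x ∈ S, x ∈ O → f x ≤ C := by
    refine hS.induction_on (p := fun T => ∃ C : ℝ, ∀ x ∈ T, x ∈ O → f x ≤ C) ?_ ?_ ?_ ?_
    · exact ⟨0, fun x hx => hx.elim⟩
    · rintro s t hst ⟨C, hC⟩
      exact ⟨C, fun x hx => hC x (hst hx)⟩
    · rintro s t ⟨C, hC⟩ ⟨D, hD⟩
      refine ⟨max C D, fun x hx hxO => ?_⟩
      rcases hx with hx | hx
      · exact (hC x hx hxO).trans (le_max_left _ _)
      · exact (hD x hx hxO).trans (le_max_right _ _)
    · intro y hy
      by_cases hyc : y ∈ closure O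
      · obtain ⟨C, hC⟩ := h y hy hyc
        rw [eventually_nhdsWithin_iff] at hC
        exact ⟨_, mem_nhdsWithin_of_mem_nhds hC, C, fun x hx hxO => hx hxO⟩
      · refine ⟨(closure O)ᶜ, mem_nhdsWithin_of_mem_nhds
          (isClosed_closure.isOpen_compl.mem_nhds hyc), 0, fun x hx hxO => ?_⟩
        exact absurd (subset_closure hxO) hx
  obtain ⟨C, hC⟩ := h1
  exact ⟨C, fun x hxO hxS => hC x hxS hxO⟩

lemma contDiffOn_gradient {u : E d → ℝ} {O : Set (E d)} (hO : IsOpen O)
    (hsm : ContDiffOn ℝ (⊤ : ℕ∞) u O) : ContDiffOn ℝ (⊤ : ℕ∞) (fun x => ∇ u x) O := by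
  rw [contDiffOn_euclidean]
  intro i
  simp_rw [gradient_coord]
  have h1 : ContDiffOn ℝ (⊤ : ℕ∞) (fderiv ℝ u) O := by
    refine hsm.fderiv_of_isOpen hO ?_
    exact le_of_eq rfl
  exact h1.clm_apply contDiffOn_const

/-- the product of bounded Lipschitz functions -/
lemma lip_mul {f g : E d → ℝ} {L M : ℝ≥0} {A B : ℝ≥0} (hf : LipschitzWith L f)
    (hg : LipschitzWith M g) (hfA : ∀ x, |f x| ≤ A) (hgB : ∀ x, |g x| ≤ B) :
    LipschitzWith (A * M + B * L) (fun x => f x * g x) := by
  refine LipschitzWith.of_dist_le_mul fun x y => ?_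
  have h1 := hf.dist_le_mul x y
  have h2 := hg.dist_le_mul x y
  rw [Real.dist_eq] at *
  have e : f x * g x - f y * g y = f x * (g x - g y) + g y * (f x - f y) := by ring
  rw [e]
  refine (abs_add_le _ _).trans ?_
  rw [abs_mul, abs_mul]
  have h3 : |f x| * |g x - g y| ≤ A * (M * dist x y) :=
    mul_le_mul (hfA x) h2 (abs_nonneg _) A.2
  have h4 : |g y| * |f x - f y| ≤ B * (L * dist x y) :=
    mul_le_mul (hgB y) h1 (abs_nonneg _) B.2
  push_cast
  nlinarith

/-- the derivative of `min u t` applied to the gradient of `u` -/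
lemma fderiv_min_const {u : E d → ℝ} (hc : Continuous u) (t : ℝ) (x : E d) :
    fderiv ℝ (fun y => min (u y) t) x = if u x < t then fderiv ℝ u x else 0 := by
  split_ifs with h
  · have : (fun y => min (u y) t) =ᶠ[𝓝 x] u := by
      filter_upwards [(hc.continuousAt (x := x)).eventually (gt_mem_nhds h)] with y hy
      exact min_eq_left (le_of_lt hy)
    exact this.fderiv_eq
  · have h' : t ≤ u x := not_lt.1 h
    have : IsLocalMax (fun y => min (u y) t) x := Eventually.of_forall fun y => by
      show min (u y) t ≤ min (u x) t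
      rw [min_eq_right h']
      exact min_le_right _ _
    exact this.fderiv_eq_zero

/-- LAYER -/
theorem layer {u : E d → ℝ} {K : ℝ≥0} (hu : LM u K) (hsm : ContDiffOn ℝ (⊤ : ℕ∞) u (Om u))
    (hha : ∀ x ∈ Om u, (Δ u) x = 0) {S : Set (E d)} (hS : IsCompact S)
    (hreg : ∀ y ∈ S, y ∈ frontier (Om u) → ∀ᶠ x in 𝓝[Om u] y, 1 / 2 ≤ ‖fderiv ℝ u x‖ ^ 2) :
    ∃ C t0 : ℝ, 0 ≤ C ∧ 0 < t0 ∧ ∀ t : ℝ, 0 < t → t < t0 →
      (volume ({x | 0 < u x ∧ u x ≤ t} ∩ S)).toReal ≤ C * t := by
  have hcu : Continuous u := hu.continuous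
  have hO : IsOpen (Om u) := isOpen_Om hcu
  obtain ⟨t0, ht0, hlay⟩ := near_bdry hcu hS hreg
  obtain ⟨ζ, hζ, hζc, -, hζ01, hζ1⟩ := exists_cutoff hS isOpen_univ (subset_univ _)
  obtain ⟨Lζ, hLζ⟩ := lip_of_contDiff_compact (hζ.of_le (by exact_mod_cast le_top)) hζc
  set S2 := tsupport ζ with hS2
  have hS2c : IsCompact S2 := hζc.isCompact
  have hSS2 : S ⊆ S2 := by
    intro x hx
    refine subset_closure ?_
    have := (hζ1 x hx).self_of_nhds
    show ζ x ≠ 0
    rw [this]; norm_num
  have hV2 : volume S2 < ⊤ := hS2c.measure_lt_top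
  have hYd : ContDiffOn ℝ 1 (fun x => ∇ u x) (Om u) :=
    (contDiffOn_gradient hO hsm).of_le (by exact_mod_cast le_top)
  have hdvY : ∀ x ∈ Om u, dv (fun y => ∇ u y) x = 0 := by
    intro x hx
    rw [dv_gradient ((hsm.contDiffAt (hO.mem_nhds hx)).of_le two_le_smooth), hha x hx]
  have hYK : ∀ x, ‖∇ u x‖ ≤ K := fun x => by
    rw [norm_gradient]; exact norm_fderiv_le_of_lip hu.lip x
  refine ⟨4 * (Lζ * K * (volume S2).toReal), t0 / 2, by positivity, by positivity, ?_⟩
  intro t' ht' htt'
  -- use the level t = 2 t'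
  set t := 2 * t' with htdef
  have ht : 0 < t := by positivity
  have htt : t < t0 := by rw [htdef]; linarith
  -- the weight
  set m : E d → ℝ := fun x => min (u x) t with hm
  have hmlip : LipschitzWith K m := hu.lip.min_const t
  have hm0 : ∀ x, 0 ≤ m x := fun x => le_min (hu.nonneg x) ht.le
  have hmt : ∀ x, |m x| ≤ (⟨t, ht.le⟩ : ℝ≥0) := fun x => by
    rw [abs_of_nonneg (hm0 x)]; exact min_le_right _ _
  have hζ1' : ∀ x, |ζ x| ≤ (1 : ℝ≥0) := fun x => by
    rw [abs_of_nonneg (hζ01 x).1]; exact_mod_cast (hζ01 x).2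
  have hglip := lip_mul hmlip hLζ hmt hζ1'
  have hdiv := div0 hO hS2c hYd hglip (fun x => mul_nonneg (hm0 x) (hζ01 x).1)
    (fun x hx => by rw [image_eq_zero_of_notMem_tsupport hx, mul_zero])
    (fun x hx => by
      have : u x = 0 := le_antisymm (not_lt.1 hx) (hu.nonneg x)
      simp only [hm, this, min_eq_left ht.le, zero_mul])
    (C := K) (fun x _ _ => hYK x) (fun x hx _ => by rw [hdvY x hx, abs_zero]; exact K.2)
  -- rewrite the integrand
  have hae : ∀ᵐ x ∂(volume.restrict (Om u)), fderiv ℝ (fun x => m x * ζ x) x (∇ u x)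
      + (m x * ζ x) * dv (fun y => ∇ u y) x
      = m x * fderiv ℝ ζ x (∇ u x) + (if u x < t then ζ x * ‖fderiv ℝ u x‖ ^ 2 else 0) := by
    rw [ae_restrict_iff' hO.measurableSet]
    filter_upwards [hmlip.ae_differentiableAt] with x hx hxO
    rw [hdvY x hxO, mul_zero, add_zero,
      fderiv_fun_mul hx (hζ.differentiable (by simp) x)]
    simp only [add_apply, smul_apply, smul_eq_mul]
    congr 1
    rw [hm, fderiv_min_const hcu t x]
    split_ifs with h
    · have : fderiv ℝ u x (∇ u x) = ‖fderiv ℝ u x‖ ^ 2 := by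
        rw [← inner_gradient, real_inner_self_eq_norm_sq, norm_gradient]
      rw [this]
    · simp
  rw [integral_congr_ae hae] at hdiv
  have hi1 : Integrable (fun x => m x * fderiv ℝ ζ x (∇ u x)) (volume.restrict (Om u)) := by
    refine Integrable.restrict ?_
    refine integrable_of_bdd (C := t * (Lζ * K)) hS2c ?_ ?_ ?_
    · refine (hmlip.continuous.aestronglyMeasurable).mul (aesm_fderiv_apply _ ?_)
      have : Measurable (fun x => ∇ u x) := by
        have h1 : Measurable (fderiv ℝ u) := measurable_fderiv ℝ u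
        exact ((toDual ℝ (E d)).symm.continuous.measurable).comp h1
      exact this.aestronglyMeasurable
    · intro x hx
      rw [fderiv_eq_zero_of_notMem_tsupport hx]; simp
    · intro x hx
      rw [abs_mul]
      exact mul_le_mul (hmt x) (abs_clm_le (norm_fderiv_le_of_lip hLζ x) (hYK x)) (abs_nonneg _) ht.le
  have hi2 : Integrable (fun x => if u x < t then ζ x * ‖fderiv ℝ u x‖ ^ 2 else 0)
      (volume.restrict (Om u)) := by
    refine Integrable.restrict ?_
    refine integrable_of_bdd (C := (K : ℝ) ^ 2) hS2c ?_ ?_ ?_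
    · refine Measurable.aestronglyMeasurable ?_
      exact Measurable.ite (isOpen_lt hcu continuous_const).measurableSet
        (hζ.continuous.measurable.mul (measurable_normsq u)) measurable_const
    · intro x hx
      rw [image_eq_zero_of_notMem_tsupport hx]; simp
    · intro x hx
      split_ifs
      · rw [abs_mul, abs_of_nonneg (hζ01 x).1, abs_of_nonneg (by positivity : (0:ℝ) ≤ ‖fderiv ℝ u x‖ ^ 2)]
        have h1 : ‖fderiv ℝ u x‖ ^ 2 ≤ (K : ℝ) ^ 2 :=
          pow_le_pow_left₀ (norm_nonneg _) (norm_fderiv_le_of_lip hu.lip x) 2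
        nlinarith [(hζ01 x).1, (hζ01 x).2, sq_nonneg ‖fderiv ℝ u x‖]
      · simp
  rw [integral_add hi1 hi2] at hdiv
  -- upper bound of the first integral
  have hb1 : |∫ x in Om u, m x * fderiv ℝ ζ x (∇ u x)| ≤ t * (Lζ * K) * (volume S2).toReal := by
    have h1 : ∫ x in Om u, m x * fderiv ℝ ζ x (∇ u x) = ∫ x in Om u ∩ S2, m x * fderiv ℝ ζ x (∇ u x) := by
      refine (setIntegral_eq_of_subset_of_forall_sdiff_eq_zero hO.measurableSet
        inter_subset_left ?_)
      intro x hx
      have hx' : x ∉ tsupport ζ := fun h => hx.2 ⟨hx.1, h⟩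
      rw [fderiv_eq_zero_of_notMem_tsupport hx']; simp
    rw [h1]
    have h2 : volume (Om u ∩ S2) < ⊤ := (measure_mono inter_subset_right).trans_lt hV2
    have h3 := norm_setIntegral_le_of_norm_le_const (f := fun x => m x * fderiv ℝ ζ x (∇ u x))
      (C := t * (Lζ * K)) h2 (fun x hx => by
        rw [Real.norm_eq_abs, abs_mul]
        exact mul_le_mul (hmt x) (abs_clm_le (norm_fderiv_le_of_lip hLζ x) (hYK x)) (abs_nonneg _) ht.le)
    refine (Real.norm_eq_abs _ ▸ h3).trans ?_
    refine mul_le_mul_of_nonneg_left ?_ (by positivity)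
    exact ENNReal.toReal_mono hV2.ne (measure_mono inter_subset_right)
  -- lower bound of the second
  set T := {x | 0 < u x ∧ u x ≤ t'} ∩ S with hT
  have hTm : MeasurableSet T :=
    ((isOpen_lt continuous_const hcu).measurableSet.inter
      (isClosed_le hcu continuous_const).measurableSet).inter hS.measurableSet
  have hTO : T ⊆ Om u := fun x hx => hx.1.1
  have hTf : volume T < ⊤ := (measure_mono inter_subset_right).trans_lt hS.measure_lt_top
  have hb2 : 1 / 2 * (volume T).toReal
      ≤ ∫ x in Om u, (if u x < t then ζ x * ‖fderiv ℝ u x‖ ^ 2 else 0) := by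
    have h1 : ∫ x in T, (1 / 2 : ℝ) ≤ ∫ x in T, (if u x < t then ζ x * ‖fderiv ℝ u x‖ ^ 2 else 0) := by
      refine setIntegral_mono_on (integrableOn_const hTf.ne)
        (IntegrableOn.mono_set hi2 hTO) hTm ?_
      intro x hx
      have h2 : u x < t := lt_of_le_of_lt hx.1.2 (by rw [htdef]; linarith)
      rw [if_pos h2, (hζ1 x hx.2).self_of_nhds, one_mul]
      exact hlay x hx.2 hx.1.1 (h2.trans htt)
    have h2 : ∫ x in T, (if u x < t then ζ x * ‖fderiv ℝ u x‖ ^ 2 else 0)
        ≤ ∫ x in Om u, (if u x < t then ζ x * ‖fderiv ℝ u x‖ ^ 2 else 0) := by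
      refine setIntegral_mono_set hi2 ?_ (LE.le.eventuallyLE hTO)
      refine Eventually.of_forall fun x => ?_
      show (0 : ℝ) ≤ (if u x < t then ζ x * ‖fderiv ℝ u x‖ ^ 2 else 0)
      split_ifs
      · exact mul_nonneg (hζ01 x).1 (by positivity)
      · exact le_rfl
    rw [setIntegral_const] at h1
    simp only [smul_eq_mul, Measure.real] at h1
    linarith
  have h5 := abs_le.1 hb1
  have h6 : (volume T).toReal ≤ 2 * (t * (Lζ * K) * (volume S2).toReal) := by linarith [h5.1]
  calc (volume T).toReal ≤ 2 * (t * (Lζ * K) * (volume S2).toReal) := h6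
    _ = 4 * (Lζ * K * (volume S2).toReal) * t' := by rw [htdef]; ring

end Crest.Agent.R097
end

-- ▼ part R097/SFlux
section

/-!
# Row 97, S-block: the flux inequality
-/

set_option autoImplicit false
open MeasureTheory Metric Set Filter Topology InnerProductSpace
open scoped RealInnerProductSpace NNReal ENNReal Gradient Laplacian

namespace Crest.Agent.R097

variable {d : ℕ}

lemma Jets.norm_sq {u : E d → ℝ} {y e : E d} {A : Bil d} {B : Tri d} (h : Jets u y e A B) :
    Tendsto (fun x => ‖fderiv ℝ u x‖ ^ 2) (𝓝[Om u] y) (𝓝 1) := by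
  have h1 : Tendsto (fun x => ‖fderiv ℝ u x‖ ^ 2) (𝓝[Om u] y) (𝓝 (‖innerSL ℝ e‖ ^ 2)) :=
    (h.t1.norm).pow 2
  rwa [innerSL_apply_norm, h.kk.norm_e, one_pow] at h1

/-- near a regular point the gradient has length about one -/
lemma RegPt.half {u : E d → ℝ} {y : E d} (h : RegPt u y) :
    ∀ᶠ x in 𝓝[Om u] y, 1 / 2 ≤ ‖fderiv ℝ u x‖ ^ 2 := by
  obtain ⟨e, A, B, hj⟩ := h
  exact (hj.norm_sq).eventually (eventually_ge_nhds (by norm_num))

lemma dv_eq_zero_of_compl {S : Set (E d)} (hS : IsClosed S) {F : E d → E d}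
    (hF0 : ∀ x, x ∉ S → F x = 0) {x : E d} (hx : x ∉ S) : dv F x = 0 := by
  have : F =ᶠ[𝓝 x] fun _ => 0 := by
    filter_upwards [hS.isOpen_compl.mem_nhds hx] with y hy
    exact hF0 y hy
  unfold dv
  rw [this.fderiv_eq]
  simp

/-- FLUX -/
theorem flux {u : E d → ℝ} {K : ℝ≥0} (hu : LM u K) (hsm : ContDiffOn ℝ (⊤ : ℕ∞) u (Om u))
    (hha : ∀ x ∈ Om u, (Δ u) x = 0) {S : Set (E d)} (hS : IsCompact S)
    (hreg : ∀ y ∈ S, y ∈ frontier (Om u) → RegPt u y)
    {F : E d → E d} (hF : ContDiffOn ℝ 1 F (Om u)) (hF0 : ∀ x, x ∉ S → F x = 0) {C : ℝ}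
    (hFb : ∀ x ∈ Om u, ‖F x‖ ≤ C) (hdF : ∀ x ∈ Om u, |dv F x| ≤ C)
    (hb : ∀ y ∈ S, y ∈ frontier (Om u) → ∀ ε : ℝ, 0 < ε →
      ∀ᶠ x in 𝓝[Om u] y, -ε ≤ fderiv ℝ u x (F x)) :
    ∫ x in Om u, dv F x ≤ 0 := by
  have hcu : Continuous u := hu.continuous
  have hO : IsOpen (Om u) := isOpen_Om hcu
  have hC0 : 0 ≤ |C| := abs_nonneg C
  obtain ⟨CL, tL, hCL, htL, hlay⟩ := layer hu hsm hha hS (fun y hy hyf => (hreg y hy hyf).half)
  obtain ⟨ζ, hζ, hζc, -, hζ01, hζ1⟩ := exists_cutoff hS isOpen_univ (subset_univ _)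
  obtain ⟨Lζ, hLζ⟩ := lip_of_contDiff_compact (hζ.of_le (by exact_mod_cast le_top)) hζc
  set S2 := tsupport ζ with hS2
  have hS2c : IsCompact S2 := hζc.isCompact
  have hFm : AEStronglyMeasurable F (volume.restrict (Om u)) :=
    hF.continuousOn.aestronglyMeasurable hO.measurableSet
  -- the identity for each level
  have hid : ∀ t : ℝ, 0 < t → ∫ x in Om u, ((if u x < t then fderiv ℝ u x (F x) else 0)
      + min (u x) t * dv F x) = 0 := by
    intro t ht
    set m : E d → ℝ := fun x => min (u x) t with hm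
    have hmlip : LipschitzWith K m := hu.lip.min_const t
    have hm0 : ∀ x, 0 ≤ m x := fun x => le_min (hu.nonneg x) ht.le
    have hmt : ∀ x, |m x| ≤ (⟨t, ht.le⟩ : ℝ≥0) := fun x => by
      rw [abs_of_nonneg (hm0 x)]; exact min_le_right _ _
    have hζ1' : ∀ x, |ζ x| ≤ (1 : ℝ≥0) := fun x => by
      rw [abs_of_nonneg (hζ01 x).1]; exact_mod_cast (hζ01 x).2
    have hglip := lip_mul hmlip hLζ hmt hζ1'
    have hdiv := div0 hO hS2c hF hglip (fun x => mul_nonneg (hm0 x) (hζ01 x).1)
      (fun x hx => by rw [image_eq_zero_of_notMem_tsupport hx, mul_zero])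
      (fun x hx => by
        have : u x = 0 := le_antisymm (not_lt.1 hx) (hu.nonneg x)
        simp only [hm, this, min_eq_left ht.le, zero_mul])
      (C := C) (fun x hx _ => hFb x hx) (fun x hx _ => hdF x hx)
    refine Eq.trans (setIntegral_congr_fun hO.measurableSet fun x hx => ?_) hdiv
    by_cases hxS : x ∈ S
    · have h1 : (fun x => m x * ζ x) =ᶠ[𝓝 x] m := by
        filter_upwards [hζ1 x hxS] with y hy
        rw [hy, mul_one]
      rw [h1.fderiv_eq, (hζ1 x hxS).self_of_nhds, mul_one, hm, fderiv_min_const hcu t x]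
      split_ifs <;> simp
    · rw [hF0 x hxS, dv_eq_zero_of_compl hS.isClosed hF0 hxS]
      simp
  -- the inequality with a small parameter
  have hineq : ∀ ε : ℝ, 0 < ε → ∫ x in Om u, dv F x ≤ ε * CL := by
    intro ε hε
    obtain ⟨t1, ht1, hbl⟩ := near_bdry hcu hS (fun y hy hyf => hb y hy hyf ε hε)
    have h1 : ∀ t : ℝ, 0 < t → t < min t1 tL →
        ∫ x in Om u, (min (u x) t / t) * dv F x ≤ ε * CL := by
      intro t ht htt
      have htt1 : t < t1 := htt.trans_le (min_le_left _ _)
      have httL : t < tL := htt.trans_le (min_le_right _ _)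
      have hi1 : Integrable (fun x => if u x < t then fderiv ℝ u x (F x) else 0)
          (volume.restrict (Om u)) := by
        have h2 : Integrable (fun x => (if u x < t then fderiv ℝ u x (F x) else 0))
          (volume.restrict (Om u)) := by
          refine Integrable.mono' (g := S.indicator fun _ => (K : ℝ) * |C|) ?_ ?_ ?_
          · refine Integrable.restrict ?_
            rw [integrable_indicator_iff hS.measurableSet]
            exact integrableOn_const (hS.measure_lt_top.ne)
          · have h3 : AEStronglyMeasurable (fun x => fderiv ℝ u x (F x)) (volume.restrict (Om u)) :=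
              aesm_fderiv_apply _ hFm
            have h4 : (fun x => if u x < t then fderiv ℝ u x (F x) else 0)
                = {x | u x < t}.indicator (fun x => fderiv ℝ u x (F x)) := by
              ext x; simp [indicator]
            rw [h4]
            exact h3.indicator (isOpen_lt hcu continuous_const).measurableSet
          · rw [ae_restrict_iff' hO.measurableSet]
            refine Eventually.of_forall fun x hx => ?_
            by_cases hxS : x ∈ S
            · rw [indicator_of_mem hxS]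
              split_ifs
              · exact abs_clm_le (norm_fderiv_le_of_lip hu.lip x) ((hFb x hx).trans (le_abs_self C))
              · simp; positivity
            · rw [indicator_of_notMem hxS, hF0 x hxS]
              simp
        exact h2
      have hi2 : Integrable (fun x => min (u x) t * dv F x) (volume.restrict (Om u)) := by
        refine Integrable.mono' (g := S.indicator fun _ => t * |C|) ?_ ?_ ?_
        · refine Integrable.restrict ?_
          rw [integrable_indicator_iff hS.measurableSet]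
          exact integrableOn_const (hS.measure_lt_top.ne)
        · exact ((hcu.min continuous_const).measurable.mul (measurable_dv F)).aestronglyMeasurable
        · rw [ae_restrict_iff' hO.measurableSet]
          refine Eventually.of_forall fun x hx => ?_
          by_cases hxS : x ∈ S
          · rw [indicator_of_mem hxS, norm_mul]
            refine mul_le_mul ?_ ((hdF x hx).trans (le_abs_self C)) (norm_nonneg _) ht.le
            rw [Real.norm_of_nonneg (le_min (hu.nonneg x) ht.le)]
            exact min_le_right _ _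
          · rw [indicator_of_notMem hxS, dv_eq_zero_of_compl hS.isClosed hF0 hxS]
            simp
      have h2 := hid t ht
      rw [integral_add hi1 hi2] at h2
      -- lower bound of the boundary term
      set T := {x | 0 < u x ∧ u x ≤ t} ∩ S with hT
      have hTm : MeasurableSet T :=
        ((isOpen_lt continuous_const hcu).measurableSet.inter
          (isClosed_le hcu continuous_const).measurableSet).inter hS.measurableSet
      have hTO : T ⊆ Om u := fun x hx => hx.1.1
      have hTf : volume T < ⊤ := (measure_mono inter_subset_right).trans_lt hS.measure_lt_top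
      have h3 : -(ε * (CL * t)) ≤ ∫ x in Om u, (if u x < t then fderiv ℝ u x (F x) else 0) := by
        have h4 : ∫ x in Om u, (if u x < t then fderiv ℝ u x (F x) else 0)
            = ∫ x in T, (if u x < t then fderiv ℝ u x (F x) else 0) := by
          refine (setIntegral_eq_of_subset_of_forall_sdiff_eq_zero hO.measurableSet hTO ?_)
          intro x hx
          by_cases hxS : x ∈ S
          · have : ¬ (u x < t) := fun h => hx.2 ⟨⟨hx.1, h.le⟩, hxS⟩
            rw [if_neg this]
          · rw [hF0 x hxS]; simp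
        have h5 : ∫ x in T, (-ε : ℝ) ≤ ∫ x in T, (if u x < t then fderiv ℝ u x (F x) else 0) := by
          refine setIntegral_mono_on (integrableOn_const hTf.ne)
            (IntegrableOn.mono_set hi1 hTO) hTm ?_
          intro x hx
          split_ifs with h
          · exact hbl x hx.2 hx.1.1 (h.trans htt1)
          · linarith
        rw [setIntegral_const] at h5
        simp only [smul_eq_mul, Measure.real] at h5
        have h6 := hlay t ht httL
        rw [h4]
        nlinarith
      have h7 : ∫ x in Om u, (min (u x) t / t) * dv F x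
          = (∫ x in Om u, min (u x) t * dv F x) / t := by
        rw [← integral_div]
        congr 1; ext x; ring
      rw [h7, div_le_iff₀ ht]
      nlinarith
    -- the limit
    set t : ℕ → ℝ := fun n => (min t1 tL) / 2 * (1 / ((n : ℝ) + 1)) with htdef
    have hmin : 0 < min t1 tL := lt_min ht1 htL
    have ht0 : ∀ n, 0 < t n := fun n => by
      have : (0 : ℝ) < (n : ℝ) + 1 := by positivity
      simp only [htdef]; positivity
    have htlt : ∀ n, t n < min t1 tL := fun n => by
      have h2 : (1 : ℝ) / ((n : ℝ) + 1) ≤ 1 := by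
        rw [div_le_one (by positivity)]; linarith [(Nat.cast_nonneg n : (0 : ℝ) ≤ n)]
      simp only [htdef]
      nlinarith
    have htlim : Tendsto t atTop (𝓝 0) := by
      have := (tendsto_one_div_add_atTop_nhds_zero_nat (𝕜 := ℝ)).const_mul ((min t1 tL) / 2)
      rwa [mul_zero] at this
    have hlim : Tendsto (fun n => ∫ x in Om u, (min (u x) (t n) / t n) * dv F x) atTop
        (𝓝 (∫ x in Om u, dv F x)) := by
      refine tendsto_integral_of_dominated_convergence (S.indicator fun _ => |C|) ?_ ?_ ?_ ?_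
      · intro n
        exact (((hcu.min continuous_const).div_const _).measurable.mul
          (measurable_dv F)).aestronglyMeasurable
      · refine Integrable.restrict ?_
        rw [integrable_indicator_iff hS.measurableSet]
        exact integrableOn_const (hS.measure_lt_top.ne)
      · intro n
        rw [ae_restrict_iff' hO.measurableSet]
        refine Eventually.of_forall fun x hx => ?_
        by_cases hxS : x ∈ S
        · rw [indicator_of_mem hxS, norm_mul]
          have h2 : ‖min (u x) (t n) / t n‖ ≤ 1 := by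
            rw [Real.norm_of_nonneg (div_nonneg (le_min (hu.nonneg x) (ht0 n).le) (ht0 n).le),
              div_le_one (ht0 n)]
            exact min_le_right _ _
          calc ‖min (u x) (t n) / t n‖ * ‖dv F x‖ ≤ 1 * |C| :=
                mul_le_mul h2 ((hdF x hx).trans (le_abs_self C)) (norm_nonneg _) zero_le_one
            _ = |C| := one_mul _
        · rw [indicator_of_notMem hxS, dv_eq_zero_of_compl hS.isClosed hF0 hxS]
          simp
      · rw [ae_restrict_iff' hO.measurableSet]
        refine Eventually.of_forall fun x hx => ?_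
        refine tendsto_const_nhds.congr' ?_
        filter_upwards [htlim.eventually (gt_mem_nhds (show (0 : ℝ) < u x from hx))] with n hn
        rw [min_eq_right hn.le, div_self (ht0 n).ne', one_mul]
    exact le_of_tendsto hlim (Eventually.of_forall fun n => h1 _ (ht0 n) (htlt n))
  refine le_of_forall_pos_le_add fun δ hδ => ?_
  have h1 := hineq (δ / (CL + 1)) (by positivity)
  have h2 : δ / (CL + 1) * CL ≤ δ := by
    rw [div_mul_eq_mul_div, div_le_iff₀ (by positivity)]
    nlinarith
  linarith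

end Crest.Agent.R097
end

-- ▼ part R097/SExp

/-!
# Row 97, S-block: first order expansion of `|∇u|²` at regular free boundary points
-/

set_option autoImplicit false
open MeasureTheory Metric Set Filter Topology InnerProductSpace
open scoped RealInnerProductSpace NNReal ENNReal Gradient Laplacian

namespace Crest.Agent.R097

variable {d : ℕ}

lemma KK.A_apply {e : E d} {A : Bil d} {B : Tri d} (h : KK e A B) (v : E d) :
    A e v = A e e * ⟪e, v⟫_ℝ := by
  have h1 : A e (v - ⟪e, v⟫_ℝ • e) = 0 := by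
    refine h.eig _ ?_
    rw [inner_sub_right, inner_smul_right, real_inner_self_eq_norm_sq, h.norm_e]
    ring
  rw [map_sub, map_smul, smul_eq_mul] at h1
  linarith

lemma abs_bil_le {A : Bil d} {v w : E d} {a b c : ℝ} (hA : ‖A‖ ≤ a) (hv : ‖v‖ ≤ b) (hw : ‖w‖ ≤ c) :
    |A v w| ≤ a * b * c := by
  have h1 : ‖A v‖ ≤ a * b := (A.le_opNorm v).trans
    (mul_le_mul hA hv (norm_nonneg _) ((norm_nonneg _).trans hA))
  exact abs_clm_le h1 hw

/-- the gradient as a vector -/
lemma grad_sub_norm (u : E d → ℝ) (x e : E d) : ‖∇ u x - e‖ = ‖fderiv ℝ u x - innerSL ℝ e‖ := by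
  have h : toDual ℝ (E d) (∇ u x - e) = fderiv ℝ u x - innerSL ℝ e := by
    rw [map_sub]
    congr 1
    simp [gradient]
  rw [← h, LinearIsometryEquiv.norm_map]

lemma normsq_eq_sum (L : E d →L[ℝ] ℝ) : ‖L‖ ^ 2 = ∑ i, (L (bv i)) ^ 2 := by
  obtain ⟨v, hv⟩ : ∃ v : E d, ∀ w, ⟪v, w⟫_ℝ = L w :=
    ⟨(toDual ℝ (E d)).symm L, fun w => by simp⟩
  have h1 : ‖L‖ = ‖v‖ := by
    have : L = toDual ℝ (E d) v := by ext w; simp [hv]
    rw [this]; simp
  rw [h1, EuclideanSpace.norm_sq_eq]
  refine Finset.sum_congr rfl fun i _ => ?_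
  rw [← hv, inner_bv', Real.norm_eq_abs, sq_abs]

lemma apply_eq_sum (L : E d →L[ℝ] ℝ) (v : E d) : L v = ∑ i, v i * L (bv i) := by
  conv_lhs => rw [← sum_bv v, map_sum]
  simp [smul_eq_mul]

/-- the derivative of `|∇u|²` is `2 D²u(·, ∇u)` -/
lemma hasFDerivAt_normsq {u : E d → ℝ} {x : E d} (hu : ContDiffAt ℝ 2 u x) :
    HasFDerivAt (fun y => ‖fderiv ℝ u y‖ ^ 2) ((2 : ℝ) • ((D2 u x).flip (∇ u x))) x := by
  have h3 : ContDiffAt ℝ 1 (fderiv ℝ u) x := hu.fderiv_right (by norm_num)
  have h4 : HasFDerivAt (fderiv ℝ u) (fderiv ℝ (fderiv ℝ u) x) x :=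
    (h3.differentiableAt (by simp)).hasFDerivAt
  have h5 : ∀ i : Fin d, HasFDerivAt (fun y => (fderiv ℝ u y (bv i)) ^ 2)
      ((2 * (fderiv ℝ u x (bv i))) • ((D2 u x).flip (bv i))) x := by
    intro i
    have h6 : HasFDerivAt (fun y => fderiv ℝ u y (bv i)) ((D2 u x).flip (bv i)) x := by
      have := h4.clm_apply (hasFDerivAt_const (bv i) x)
      refine this.congr_fderiv ?_
      ext v
      simp [D2]
    have h7 := h6.pow 2
    refine h7.congr_fderiv ?_
    ext v
    simp
  have h8 : HasFDerivAt (fun y => ∑ i, (fderiv ℝ u y (bv i)) ^ 2)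
      (∑ i, (2 * (fderiv ℝ u x (bv i))) • ((D2 u x).flip (bv i))) x :=
    HasFDerivAt.fun_sum fun i _ => h5 i
  have e1 : (fun y => ‖fderiv ℝ u y‖ ^ 2) = fun y => ∑ i, (fderiv ℝ u y (bv i)) ^ 2 := by
    ext y; rw [normsq_eq_sum]
  rw [e1]
  refine h8.congr_fderiv ?_
  ext v
  rw [smul_apply, ContinuousLinearMap.flip_apply, apply_eq_sum (D2 u x v) (∇ u x)]
  simp only [sum_apply, smul_apply, ContinuousLinearMap.flip_apply, smul_eq_mul,
    gradient_coord, Finset.mul_sum]
  refine Finset.sum_congr rfl fun i _ => ?_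
  ring

/-- the size of the error in the expansion -/
lemma exp_algebra {e : E d} {A : Bil d} {B : Tri d} (h : KK e A B) {M : Bil d} {p v : E d} {δ : ℝ}
    (hδ0 : 0 ≤ δ) (hδ : δ ≤ 1) (hM : ‖M - A‖ ≤ δ) (hp : ‖p - e‖ ≤ δ) (hs : ∀ x y, M x y = M y x) :
    |2 * M v p - 2 * A e e * ⟪p, v⟫_ℝ| ≤ δ * (4 * (1 + ‖A‖)) * ‖v‖ := by
  have hp2 : ‖p‖ ≤ 2 := by
    have := norm_le_norm_add_norm_sub' p e
    rw [h.norm_e] at this
    linarith
  have e1 : 2 * M v p - 2 * A e e * ⟪p, v⟫_ℝ
      = 2 * (M - A) p v + 2 * A (p - e) v - 2 * (A e e * ⟪p - e, v⟫_ℝ) := by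
    rw [hs v p, sub_apply, sub_apply, map_sub, sub_apply, h.A_apply v, inner_sub_left]
    ring
  rw [e1]
  have h1 : |(M - A) p v| ≤ δ * 2 * ‖v‖ := abs_bil_le hM hp2 le_rfl
  have h2 : |A (p - e) v| ≤ ‖A‖ * δ * ‖v‖ := abs_bil_le le_rfl hp le_rfl
  have h3 : |A e e| ≤ ‖A‖ := by
    have := abs_bil_le (A := A) (v := e) (w := e) le_rfl h.norm_e.le h.norm_e.le
    linarith
  have h4 : |⟪p - e, v⟫_ℝ| ≤ δ * ‖v‖ :=
    (abs_real_inner_le_norm _ _).trans (mul_le_mul_of_nonneg_right hp (norm_nonneg _))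
  have h5 : |A e e * ⟪p - e, v⟫_ℝ| ≤ ‖A‖ * (δ * ‖v‖) := by
    rw [abs_mul]; exact mul_le_mul h3 h4 (abs_nonneg _) (norm_nonneg _)
  have h6 := abs_le.1 h1
  have h7 := abs_le.1 h2
  have h8 := abs_le.1 h5
  rw [abs_le]
  constructor <;> nlinarith [norm_nonneg v, norm_nonneg A]

lemma exp_algebra2 {e : E d} {A : Bil d} {B : Tri d} (h : KK e A B) {M : Bil d} {p : E d} {δ : ℝ}
    (hδ0 : 0 ≤ δ) (hδ : δ ≤ 1) (hM : ‖M - A‖ ≤ δ) (hp : ‖p - e‖ ≤ δ) :
    |M p p - A e e| ≤ δ * (4 * (1 + ‖A‖)) := by
  have hp2 : ‖p‖ ≤ 2 := by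
    have := norm_le_norm_add_norm_sub' p e
    rw [h.norm_e] at this
    linarith
  have e1 : M p p - A e e = (M - A) p p + A (p - e) p + A e (p - e) := by
    rw [sub_apply, sub_apply, map_sub, sub_apply, map_sub]
    ring
  rw [e1]
  have h1 : |(M - A) p p| ≤ δ * 2 * 2 := abs_bil_le hM hp2 hp2
  have h2 : |A (p - e) p| ≤ ‖A‖ * δ * 2 := abs_bil_le le_rfl hp hp2
  have h3 : |A e (p - e)| ≤ ‖A‖ * 1 * δ := abs_bil_le le_rfl h.norm_e.le hp
  have h6 := abs_le.1 h1
  have h7 := abs_le.1 h2
  have h8 := abs_le.1 h3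
  rw [abs_le]
  constructor <;> nlinarith [norm_nonneg A]

/-- the expansion `1 - |∇u|² = -2 u D²u(∇u,∇u) + o(u)` at a regular point all of whose neighbours
on the free boundary are regular -/
theorem expand_near {u : E d → ℝ} {K : ℝ≥0} (hu : LM u K) (hsm : ContDiffOn ℝ (⊤ : ℕ∞) u (Om u))
    {U : Set (E d)} (hU : IsOpen U) (hreg : ∀ y ∈ U, y ∈ frontier (Om u) → RegPt u y)
    {y : E d} (hyU : y ∈ U) (hy : y ∈ frontier (Om u)) {ε : ℝ} (hε : 0 < ε) :
    ∀ᶠ x in 𝓝[Om u] y,
      |1 - ‖fderiv ℝ u x‖ ^ 2 + 2 * u x * D2 u x (∇ u x) (∇ u x)| ≤ ε * u x := by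
  have hcu : Continuous u := hu.continuous
  have hO : IsOpen (Om u) := isOpen_Om hcu
  obtain ⟨e, A, B, hj⟩ := hreg y hyU hy
  set κ : ℝ := 4 * (1 + ‖A‖) with hκ
  have hκ0 : 0 < κ := by have := norm_nonneg A; positivity
  set δ : ℝ := min (1 / 2) (ε / (4 * κ)) with hδdef
  have hδ0 : 0 < δ := lt_min (by norm_num) (by positivity)
  have hδ1 : δ ≤ 1 / 2 := min_le_left _ _
  have hδ2 : 4 * (δ * κ) ≤ ε := by
    have h1 : δ ≤ ε / (4 * κ) := min_le_right _ _
    rw [le_div_iff₀ (by positivity)] at h1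
    linarith
  -- the good ball
  have h1 : ∀ᶠ x in 𝓝[Om u] y, ‖fderiv ℝ u x - innerSL ℝ e‖ < δ := by
    have := hj.t1
    rw [tendsto_iff_norm_sub_tendsto_zero] at this
    exact this.eventually (gt_mem_nhds hδ0)
  have h2 : ∀ᶠ x in 𝓝[Om u] y, ‖D2 u x - A‖ < δ := by
    have := hj.t2
    rw [tendsto_iff_norm_sub_tendsto_zero] at this
    exact this.eventually (gt_mem_nhds hδ0)
  have h12 := h1.and h2
  rw [eventually_nhdsWithin_iff] at h12
  obtain ⟨r, hr, hball⟩ := Metric.eventually_nhds_iff_ball.1 (h12.and (hU.mem_nhds hyU))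
  have hgood : ∀ x ∈ ball y r, x ∈ Om u → ‖∇ u x - e‖ ≤ δ ∧ ‖D2 u x - A‖ ≤ δ := by
    intro x hx hxO
    have h3 := (hball x hx).1 hxO
    rw [grad_sub_norm]
    exact ⟨h3.1.le, h3.2.le⟩
  rw [eventually_nhdsWithin_iff]
  filter_upwards [ball_mem_nhds y (by positivity : (0 : ℝ) < r / 3)] with x hx hxO
  -- the nearest free boundary point
  have hyO : y ∉ Om u := by
    rw [frontier, hO.interior_eq] at hy; exact hy.2
  have hcl : IsClosed (Om u)ᶜ := hO.isClosed_compl
  obtain ⟨z, hzO, hz⟩ := hcl.exists_infDist_eq_dist ⟨y, hyO⟩ x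
  set ρ : ℝ := dist x z with hρ
  have hρy : ρ ≤ dist x y := by
    rw [← hz]; exact infDist_le_dist_of_mem hyO
  have hxz : x ≠ z := fun h => hzO (h ▸ hxO)
  have hρ0 : 0 < ρ := dist_pos.2 hxz
  have hxy : dist x y < r / 3 := hx
  have hBO : ball x ρ ⊆ Om u := by
    intro w hw
    by_contra h
    have h3 : infDist x (Om u)ᶜ ≤ dist x w := infDist_le_dist_of_mem h
    rw [hz] at h3
    have h4 : dist w x < ρ := hw
    rw [dist_comm] at h4
    linarith
  have hBy : ball x ρ ⊆ ball y r := by
    intro w hw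
    have h4 : dist w x < ρ := hw
    have := dist_triangle w x y
    show dist w y < r
    linarith
  have hzcl : z ∈ closure (ball x ρ) := by
    rw [closure_ball x hρ0.ne']
    show dist z x ≤ ρ
    rw [dist_comm]
  have hzf : z ∈ frontier (Om u) := by
    rw [frontier, hO.interior_eq]
    exact ⟨closure_mono hBO hzcl, hzO⟩
  have hzU : z ∈ U := by
    refine (hball z ?_).2
    show dist z y < r
    have h3 := dist_triangle z x y
    have h4 : dist z x = ρ := by rw [dist_comm]
    linarith
  obtain ⟨e', A', B', hj'⟩ := hreg z hzU hzf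
  -- the function `|∇u|² - 2 A(e,e) u` is almost constant on the ball
  have hC2 : ∀ w ∈ ball x ρ, ContDiffAt ℝ 2 u w := fun w hw =>
    (hsm.contDiffAt (hO.mem_nhds (hBO hw))).of_le two_le_smooth
  have hsymm : ∀ w ∈ ball x ρ, ∀ a b, D2 u w a b = D2 u w b a := by
    intro w hw a b
    have h3 : IsSymmSndFDerivAt ℝ u w := (hC2 w hw).isSymmSndFDerivAt (by simp)
    exact h3.eq a b
  have hud : ∀ w ∈ ball x ρ, HasFDerivAt u (fderiv ℝ u w) w := fun w hw =>
    ((hC2 w hw).differentiableAt (by norm_num)).hasFDerivAt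
  set Φ : E d → ℝ := fun w => ‖fderiv ℝ u w‖ ^ 2 - (2 * A e e) * u w with hΦ
  have hΦd : ∀ w ∈ ball x ρ, HasFDerivWithinAt Φ
      ((2 : ℝ) • ((D2 u w).flip (∇ u w)) - (2 * A e e) • fderiv ℝ u w) (ball x ρ) w := by
    intro w hw
    exact (((hasFDerivAt_normsq (hC2 w hw)).sub ((hud w hw).const_mul (2 * A e e)))).hasFDerivWithinAt
  have hΦb : ∀ w ∈ ball x ρ, ‖(2 : ℝ) • ((D2 u w).flip (∇ u w)) - (2 * A e e) • fderiv ℝ u w‖
      ≤ δ * κ := by
    intro w hw
    refine ContinuousLinearMap.opNorm_le_bound _ (by positivity) fun v => ?_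
    have h3 := hgood w (hBy hw) (hBO hw)
    have h4 := exp_algebra hj.kk (v := v) hδ0.le (hδ1.trans (by norm_num)) h3.2 h3.1 (hsymm w hw)
    rw [Real.norm_eq_abs]
    convert h4 using 2
    rw [sub_apply, smul_apply, smul_apply, ContinuousLinearMap.flip_apply, ← inner_gradient]
    simp only [smul_eq_mul]
  have hΦlip : ∀ w ∈ ball x ρ, |Φ x - Φ w| ≤ δ * κ * ρ := by
    intro w hw
    have h3 := (convex_ball x ρ).norm_image_sub_le_of_norm_hasFDerivWithin_le hΦd hΦb hw
      (mem_ball_self hρ0)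
    rw [Real.norm_eq_abs] at h3
    refine h3.trans (mul_le_mul_of_nonneg_left ?_ (by positivity))
    rw [← dist_eq_norm, dist_comm]
    exact le_of_lt hw
  have hne : (𝓝[ball x ρ] z).NeBot := mem_closure_iff_nhdsWithin_neBot.1 hzcl
  have hle : 𝓝[ball x ρ] z ≤ 𝓝[Om u] z := nhdsWithin_mono _ hBO
  have huz : u z = 0 := le_antisymm (not_lt.1 hzO) (hu.nonneg z)
  have hΦz : Tendsto Φ (𝓝[ball x ρ] z) (𝓝 1) := by
    have h3 : Tendsto (fun w => ‖fderiv ℝ u w‖ ^ 2) (𝓝[ball x ρ] z) (𝓝 1) :=
      (hj'.norm_sq).mono_left hle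
    have h4 : Tendsto u (𝓝[ball x ρ] z) (𝓝 0) := by
      have := (hcu.tendsto z).mono_left (nhdsWithin_le_nhds (s := ball x ρ))
      rwa [huz] at this
    have h5 := h3.sub (h4.const_mul (2 * A e e))
    simpa using h5
  have hmain : |Φ x - 1| ≤ δ * κ * ρ := by
    have h3 : Tendsto (fun w => |Φ x - Φ w|) (𝓝[ball x ρ] z) (𝓝 |Φ x - 1|) :=
      (tendsto_const_nhds.sub hΦz).abs
    refine le_of_tendsto h3 ?_
    filter_upwards [self_mem_nhdsWithin] with w hw
    exact hΦlip w hw
  -- nondegeneracy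
  have hnd : ρ ≤ 2 * u x := by
    have h3 : ∀ w ∈ ball x ρ, |(u x - ⟪e, x⟫_ℝ) - (u w - ⟪e, w⟫_ℝ)| ≤ δ * ‖x - w‖ := by
      intro w hw
      have h4 := (convex_ball x ρ).norm_image_sub_le_of_norm_hasFDerivWithin_le
        (f := fun w => u w - ⟪e, w⟫_ℝ) (f' := fun w => fderiv ℝ u w - innerSL ℝ e) (C := δ)
        (fun w hw => ((hud w hw).sub ((innerSL ℝ e).hasFDerivAt (x := w))).hasFDerivWithinAt)
        (fun w hw => by rw [← grad_sub_norm]; exact (hgood w (hBy hw) (hBO hw)).1) hw
        (mem_ball_self hρ0)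
      simpa [Real.norm_eq_abs] using h4
    have h4 : ∀ τ : ℝ, 0 < τ → τ < ρ → τ / 2 ≤ u x := by
      intro τ hτ hτρ
      have hw : x - τ • e ∈ ball x ρ := by
        rw [mem_ball, dist_eq_norm, sub_sub_cancel_left, norm_neg, norm_smul, hj.kk.norm_e,
          Real.norm_of_nonneg hτ.le, mul_one]
        exact hτρ
      have h5 := h3 _ hw
      have h6 : ‖x - (x - τ • e)‖ = τ := by
        rw [sub_sub_cancel, norm_smul, hj.kk.norm_e, Real.norm_of_nonneg hτ.le, mul_one]
      have h7 : ⟪e, x - τ • e⟫_ℝ = ⟪e, x⟫_ℝ - τ := by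
        rw [inner_sub_right, inner_smul_right, real_inner_self_eq_norm_sq, hj.kk.norm_e]; ring
      rw [h6, h7] at h5
      have h8 := (abs_le.1 h5).1
      have h9 := hu.nonneg (x - τ • e)
      nlinarith
    by_contra hcon
    have hcon' : 2 * u x < ρ := not_le.1 hcon
    have hux : 0 < u x := hxO
    have h5 := h4 ((2 * u x + ρ) / 2) (by linarith) (by linarith)
    linarith
  have hlast := exp_algebra2 hj.kk hδ0.le (hδ1.trans (by norm_num))
    (hgood x (hBy (mem_ball_self hρ0)) hxO).2 (hgood x (hBy (mem_ball_self hρ0)) hxO).1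
  have hux : 0 < u x := hxO
  have e1 : 1 - ‖fderiv ℝ u x‖ ^ 2 + 2 * u x * D2 u x (∇ u x) (∇ u x)
      = -(Φ x - 1) + 2 * u x * (D2 u x (∇ u x) (∇ u x) - A e e) := by
    simp only [hΦ]; ring
  rw [e1]
  have h10 : |2 * u x * (D2 u x (∇ u x) (∇ u x) - A e e)| ≤ 2 * u x * (δ * κ) := by
    rw [abs_mul, abs_of_pos (by positivity : (0 : ℝ) < 2 * u x)]
    exact mul_le_mul_of_nonneg_left hlast (by positivity)
  have h11 : δ * κ * ρ ≤ δ * κ * (2 * u x) := mul_le_mul_of_nonneg_left hnd (by positivity)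
  calc |-(Φ x - 1) + 2 * u x * (D2 u x (∇ u x) (∇ u x) - A e e)|
      ≤ |-(Φ x - 1)| + |2 * u x * (D2 u x (∇ u x) (∇ u x) - A e e)| := abs_add_le _ _
    _ ≤ δ * κ * (2 * u x) + 2 * u x * (δ * κ) := by
        rw [abs_neg]; exact add_le_add (hmain.trans h11) h10
    _ = (4 * (δ * κ)) * u x := by ring
    _ ≤ ε * u x := mul_le_mul_of_nonneg_right hδ2 hux.le

end Crest.Agent.R097
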