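import Crest.Agent.R097.RJ3
import Crest.Agent.R097.RFld0
import Crest.Agent.R097.SExp
import Mathlib
import Crest.Agent.R097.Red1
import Crest.Agent.R097.LapChain
import Crest.Agent.R097.SStab1
import Crest.Agent.R097.FlatEnd
import Crest.Agent.R097.RedKato
import Crest.Agent.R097.B1

-- ▼ part R097/RJ4
section

/-!
# Row 97, jet calculus: the basic fields, their components and divergences in a frame
-/

set_option autoImplicit false
set_option synthInstance.maxHeartbeats 400000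
open MeasureTheory Metric Set Filter Topology InnerProductSpace
open scoped RealInnerProductSpace NNReal ENNReal Gradient Laplacian

namespace Crest.Agent.R097

section general
variable {d : ℕ}

lemma inner_act (A : Bil d) (v w : E d) : ⟪w, act A v⟫_ℝ = A v w := by
  unfold act
  rw [inner_sum]
  conv_rhs => rw [← sum_bv w, map_sum]
  refine Finset.sum_congr rfl fun i _ => ?_
  rw [inner_smul_right, inner_bv', map_smul, smul_eq_mul]; ring

lemma act_apply (A : Bil d) (v : E d) (i : Fin d) : (act A v) i = A v (bv i) := by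
  rw [← inner_bv, inner_act]

lemma inner_TM (A : Bil d) (B : Tri d) (w : E d) :
    ⟪w, TM A B⟫_ℝ = ∑ i, ∑ j, A (bv i) (bv j) * B w (bv i) (bv j) := by
  unfold TM
  rw [inner_sum]
  have h : ∀ i j : Fin d, B w (bv i) (bv j) = ∑ k, w k * B (bv k) (bv i) (bv j) := by
    intro i j
    conv_lhs => rw [← sum_bv w, map_sum]
    rw [sum_apply, sum_apply]
    refine Finset.sum_congr rfl fun k _ => ?_
    rw [map_smul, smul_apply, smul_apply, smul_eq_mul]
  simp_rw [h, Finset.mul_sum]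
  calc ∑ k, ⟪w, (∑ i, ∑ j, B (bv k) (bv i) (bv j) * A (bv i) (bv j)) • bv k⟫_ℝ
      = ∑ k, ∑ i, ∑ j, A (bv i) (bv j) * (w k * B (bv k) (bv i) (bv j)) := by
        refine Finset.sum_congr rfl fun k _ => ?_
        rw [inner_smul_right, inner_bv', Finset.sum_mul]
        refine Finset.sum_congr rfl fun i _ => ?_
        rw [Finset.sum_mul]
        refine Finset.sum_congr rfl fun j _ => ?_
        ring
    _ = _ := by
        rw [Finset.sum_comm]
        refine Finset.sum_congr rfl fun i _ => ?_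
        rw [Finset.sum_comm]

lemma TM_apply (A : Bil d) (B : Tri d) (k : Fin d) :
    (TM A B) k = ∑ i, ∑ j, A (bv i) (bv j) * B (bv k) (bv i) (bv j) := by
  rw [← inner_bv, inner_TM]

/-- divergence from the derivatives of the components -/
lemma dv_of_comp {Y : E d → E d} {x : E d} {L : Fin d → (E d →L[ℝ] ℝ)}
    (h : ∀ k, HasFDerivAt (fun y => Y y k) (L k) x) :
    DifferentiableAt ℝ Y x ∧ dv Y x = ∑ k, L k (bv k) := by
  have hd : DifferentiableAt ℝ Y x := by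
    rw [differentiableAt_euclidean]
    intro k; exact (h k).differentiableAt
  refine ⟨hd, ?_⟩
  unfold dv
  refine Finset.sum_congr rfl fun k _ => ?_
  have h1 : HasFDerivAt (fun y => (Y y) k)
      ((EuclideanSpace.proj k : E d →L[ℝ] ℝ).comp (fderiv ℝ Y x)) x :=
    (EuclideanSpace.proj k : E d →L[ℝ] ℝ).hasFDerivAt.comp x hd.hasFDerivAt
  rw [(h k).unique h1]; rfl

lemma dv_id (x : E d) : dv (fun y : E d => y) x = d := by
  simp [dv, bv]

end general

section fields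
variable {d : ℕ} {u : E d → ℝ} {x : E d}

/-- derivative of the gradient components -/
lemma has_grad (H : HC u) (hx : x ∈ Om u) :
    HasFDerivAt (fun y => ∇ u y) (∑ i, ((D2 u x).flip (bv i)).smulRight (bv i)) x := by
  have h : ∀ i : Fin d, HasFDerivAt (fun y => (fderiv ℝ u y (bv i)) • bv i)
      (((D2 u x).flip (bv i)).smulRight (bv i)) x := fun i =>
    (had_app1 (H.hasD2 hx) (bv i)).smul_const (bv i)
  refine (HasFDerivAt.fun_sum fun i _ => h i).congr_of_eventuallyEq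
    (Eventually.of_forall fun y => ?_)
  simp only []
  conv_lhs => rw [← sum_bv (∇ u y)]
  refine Finset.sum_congr rfl fun i _ => ?_
  rw [gradient_coord]


lemma dv_grad (H : HC u) (hx : x ∈ Om u) : dv (fun y => ∇ u y) x = 0 := by
  rw [dv_gradient ((H.sm.contDiffAt (H.isOpen.mem_nhds hx)).of_le two_le_top')]
  exact H.ha x hx

/-- `D_v (D²u p) · w` -/
lemma has_Zf (H : HC u) (hx : x ∈ Om u) :
    ∃ L : E d →L[ℝ] E d, HasFDerivAt (Zf u) L x ∧ ∀ v w, ⟪w, L v⟫_ℝ =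
      D3 u x v (∇ u x) w + ∑ i, D2 u x v (bv i) * D2 u x (bv i) w := by
  have h0 := (H.hasD3 hx).clm_apply (has_grad H hx)
  have h : ∀ i : Fin d, HasFDerivAt (fun y => (D2 u y (∇ u y) (bv i)) • bv i) _ x := fun i =>
    (had_app1 h0 (bv i)).smul_const (bv i)
  have h1 : HasFDerivAt (Zf u) _ x :=
    (HasFDerivAt.fun_sum (u := Finset.univ) fun i _ => h i).congr_of_eventuallyEq
      (Eventually.of_forall fun y => rfl)
  refine ⟨_, h1, fun v w => ?_⟩
  rw [sum_apply, inner_sum]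
  have e1 : ∀ c : E d, D2 u x ((∑ i, ((D2 u x).flip (bv i)).smulRight (bv i)) v) c =
      ∑ i, D2 u x v (bv i) * D2 u x (bv i) c := by
    intro c
    rw [sum_apply, map_sum, sum_apply]
    refine Finset.sum_congr rfl fun i _ => ?_
    rw [ContinuousLinearMap.smulRight_apply, map_smul, smul_apply, smul_eq_mul]; rfl
  have e2 : D3 u x v (∇ u x) w + ∑ i, D2 u x v (bv i) * D2 u x (bv i) w =
      ∑ j, w j * (D3 u x v (∇ u x) (bv j) + ∑ i, D2 u x v (bv i) * D2 u x (bv i) (bv j)) := by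
    have a1 : D3 u x v (∇ u x) w = ∑ j, w j * D3 u x v (∇ u x) (bv j) := by
      conv_lhs => rw [← sum_bv w, map_sum]
      simp [smul_eq_mul]
    have a2 : ∀ i, D2 u x (bv i) w = ∑ j, w j * D2 u x (bv i) (bv j) := by
      intro i
      conv_lhs => rw [← sum_bv w, map_sum]
      simp [smul_eq_mul]
    rw [a1]
    simp_rw [a2, mul_add, Finset.sum_add_distrib, Finset.mul_sum]
    congr 1
    rw [Finset.sum_comm]
    refine Finset.sum_congr rfl fun i _ => Finset.sum_congr rfl fun j _ => ?_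
    ring
  rw [e2]
  refine Finset.sum_congr rfl fun j _ => ?_
  rw [ContinuousLinearMap.smulRight_apply, inner_smul_right, inner_bv']
  simp only [ContinuousLinearMap.flip_apply, add_apply, ContinuousLinearMap.comp_apply]
  rw [e1]
  ring

lemma TrD3 (H : HC u) (hx : x ∈ Om u) (v : E d) : ∑ k, D3 u x (bv k) v (bv k) = 0 := by
  rw [← H.tr3 hx v]
  refine Finset.sum_congr rfl fun k _ => ?_
  rw [H.symm3a hx]

/-- divergence of `D²u p` -/
lemma dv_Zf (H : HC u) (hx : x ∈ Om u) : dv (Zf u) x = hs2 (D2 u x) := by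
  obtain ⟨L, h, hL⟩ := has_Zf H hx
  have : dv (Zf u) x = ∑ k, ⟪bv k, L (bv k)⟫_ℝ := by
    unfold dv
    rw [h.fderiv]
    exact Finset.sum_congr rfl fun k _ => (inner_bv k _).symm
  rw [this]
  simp_rw [hL, Finset.sum_add_distrib]
  rw [TrD3 H hx, zero_add]
  unfold hs2
  refine Finset.sum_congr rfl fun k _ => Finset.sum_congr rfl fun i _ => ?_
  rw [H.symm2 hx (bv i) (bv k)]; ring

/-- divergence of `D²u D²u p` -/
lemma dv_actZf (H : HC u) (hx : x ∈ Om u) :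
    DifferentiableAt ℝ (fun y => act (D2 u y) (Zf u y)) x ∧
    dv (fun y => act (D2 u y) (Zf u y)) x =
      (∑ i, ∑ j, D2 u x (bv i) (bv j) * D3 u x (∇ u x) (bv i) (bv j)) + tr3 (D2 u x) := by
  obtain ⟨L, h, hL⟩ := has_Zf H hx
  have h0 := (H.hasD3 hx).clm_apply h
  have h1 : ∀ k : Fin d, HasFDerivAt (fun y => (act (D2 u y) (Zf u y)) k) _ x := fun k => by
    simp_rw [act_apply]
    exact had_app1 h0 (bv k)
  obtain ⟨hd, hdv⟩ := dv_of_comp h1
  refine ⟨hd, ?_⟩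
  rw [hdv]
  simp only [ContinuousLinearMap.flip_apply, add_apply, ContinuousLinearMap.comp_apply]
  rw [Finset.sum_add_distrib, add_comm]
  have e0 : ∑ k, D3 u x (bv k) (Zf u x) (bv k) = 0 := TrD3 H hx _
  rw [e0, zero_add]
  have e1 : ∀ k, D2 u x (L (bv k)) (bv k) = ∑ j, D2 u x (bv k) (bv j) *
      (D3 u x (bv k) (∇ u x) (bv j) + ∑ i, D2 u x (bv k) (bv i) * D2 u x (bv i) (bv j)) := by
    intro k
    rw [bil_sum (D2 u x) (L (bv k)) (bv k)]
    refine Finset.sum_congr rfl fun j _ => ?_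
    rw [← inner_bv, hL, H.symm2 hx (bv j) (bv k)]; ring
  simp_rw [e1, mul_add, Finset.sum_add_distrib]
  congr 1
  · refine Finset.sum_congr rfl fun k _ => Finset.sum_congr rfl fun j _ => ?_
    rw [H.symm3a hx (bv k) (∇ u x) (bv j)]
  · unfold tr3
    refine Finset.sum_congr rfl fun k _ => ?_
    simp_rw [Finset.mul_sum]
    rw [Finset.sum_comm]
    refine Finset.sum_congr rfl fun i _ => Finset.sum_congr rfl fun j _ => ?_
    rw [H.symm2 hx (bv j) (bv k)]; ring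

/-- divergence of `M:T` -/
lemma dv_TM (H : HC u) (hx : x ∈ Om u) :
    DifferentiableAt ℝ (fun y => TM (D2 u y) (D3 u y)) x ∧
    dv (fun y => TM (D2 u y) (D3 u y)) x = hs3' (D3 u x) := by
  have h1 : ∀ k : Fin d, HasFDerivAt (fun y => (TM (D2 u y) (D3 u y)) k)
      (∑ i, ∑ j, (D2 u x (bv i) (bv j) • ((((D4 u x).flip (bv k)).flip (bv i)).flip (bv j)) +
        D3 u x (bv k) (bv i) (bv j) • (((D3 u x).flip (bv i)).flip (bv j)))) x := fun k => by
    simp_rw [TM_apply]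
    exact HasFDerivAt.fun_sum fun i _ => HasFDerivAt.fun_sum fun j _ =>
      (H.hasD2e hx (bv i) (bv j)).mul (H.hasD3e hx (bv k) (bv i) (bv j))
  obtain ⟨hd, hdv⟩ := dv_of_comp h1
  refine ⟨hd, ?_⟩
  rw [hdv]
  simp only [sum_apply, add_apply, smul_apply, smul_eq_mul, ContinuousLinearMap.flip_apply,
    Finset.sum_add_distrib]
  have e0 : ∑ k, ∑ i, ∑ j, D2 u x (bv i) (bv j) * D4 u x (bv k) (bv k) (bv i) (bv j) = 0 := by
    calc ∑ k, ∑ i, ∑ j, D2 u x (bv i) (bv j) * D4 u x (bv k) (bv k) (bv i) (bv j)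
        = ∑ i, ∑ j, ∑ k, D2 u x (bv i) (bv j) * D4 u x (bv k) (bv k) (bv i) (bv j) := by
          rw [Finset.sum_comm]
          refine Finset.sum_congr rfl fun i _ => ?_
          rw [Finset.sum_comm]
      _ = 0 := by
          refine Finset.sum_eq_zero fun i _ => Finset.sum_eq_zero fun j _ => ?_
          rw [← Finset.mul_sum]
          simp_rw [H.symm4_perm hx]
          rw [H.tr4 hx, mul_zero]
  rw [e0, zero_add]
  unfold hs3'
  refine Finset.sum_congr rfl fun k _ => Finset.sum_congr rfl fun i _ =>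
    Finset.sum_congr rfl fun j _ => ?_
  ring

/-- divergence of `W₁` -/
lemma dv_W1f (H : HC u) (hx : x ∈ Om u) :
    DifferentiableAt ℝ (W1f u) x ∧
    dv (W1f u) x = ‖x‖ ^ 2 * hs3' (D3 u x) + ((d : ℝ) - 4) * hs2 (D2 u x) := by
  obtain ⟨h1, h2⟩ := dv_TM H hx
  have hm : DifferentiableAt ℝ (fun y => hs2 (D2 u y)) x :=
    ((smooth_m H.isOpen H.sm).contDiffAt (H.isOpen.mem_nhds hx)).differentiableAt (by simp)
  have hn2 : DifferentiableAt ℝ (fun y : E d => ‖y‖ ^ 2) x :=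
    (hasFDerivAt_normsq' x).differentiableAt
  have d1 : DifferentiableAt ℝ (fun y => ‖y‖ ^ 2 • TM (D2 u y) (D3 u y)) x := hn2.smul h1
  have d2 : DifferentiableAt ℝ (fun y => hs2 (D2 u y) • y) x := hm.smul differentiableAt_id
  refine ⟨d1.add d2, ?_⟩
  have e0 : dv (W1f u) x = dv (fun y => ‖y‖ ^ 2 • TM (D2 u y) (D3 u y)) x +
      dv (fun y => hs2 (D2 u y) • y) x := dv_add d1 d2
  have d3 : DifferentiableAt ℝ (fun y : E d => y) x := differentiableAt_id
  rw [e0, dv_smul hn2 h1, dv_smul hm d3, h2, dv_id, (hasFDerivAt_normsq' x).fderiv,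
    fderiv_m (H.hasD3 hx).differentiableAt]
  simp only [smul_apply, innerSL_apply_apply, smul_eq_mul]
  rw [inner_TM]
  have e1 : ∑ i, ∑ j, D2 u x (bv i) (bv j) * D3 u x x (bv i) (bv j) = - hs2 (D2 u x) := by
    unfold hs2
    rw [H.euler3 hx, ← Finset.sum_neg_distrib]
    refine Finset.sum_congr rfl fun i _ => ?_
    rw [← Finset.sum_neg_distrib]
    refine Finset.sum_congr rfl fun j _ => ?_
    simp only [neg_apply]; ring
  have e2 : ∑ i, ∑ j, 2 * D2 u x (bv i) (bv j) * D3 u x x (bv i) (bv j) = - 2 * hs2 (D2 u x) := by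
    have : ∑ i, ∑ j, 2 * D2 u x (bv i) (bv j) * D3 u x x (bv i) (bv j) =
        2 * ∑ i, ∑ j, D2 u x (bv i) (bv j) * D3 u x x (bv i) (bv j) := by
      simp_rw [Finset.mul_sum, mul_assoc]
    rw [this, e1]; ring
  rw [e1, e2]
  ring

/-- divergence of `g/|y|` -/
lemma dv_V0 (H : HC u) (hx : x ∈ Om u) :
    DifferentiableAt ℝ (fun y => ‖y‖⁻¹ • gN u y) x ∧
    dv (fun y => ‖y‖⁻¹ • gN u y) x = - (((d : ℝ) - 1) * u x / ‖x‖ ^ 3) := by
  have hx0 := H.ne_zero hx
  have hn : ‖x‖ ≠ 0 := norm_ne_zero_iff.2 hx0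
  have hi : HasFDerivAt (fun y : E d => ‖y‖⁻¹) _ x :=
    (hasDerivAt_inv hn).comp_hasFDerivAt x (hasFDerivAt_norm' hx0)
  have hi2 : HasFDerivAt (fun y : E d => (‖y‖ ^ 2)⁻¹) _ x :=
    (hasDerivAt_inv (pow_ne_zero 2 hn)).comp_hasFDerivAt x (hasFDerivAt_normsq' x)
  have hf : HasFDerivAt (fun y => u y / ‖y‖ ^ 2) _ x := (H.hasD1 hx).mul hi2
  have d3 : DifferentiableAt ℝ (fun y : E d => y) x := differentiableAt_id
  have d4 : DifferentiableAt ℝ (fun y => (u y / ‖y‖ ^ 2) • y) x := hf.differentiableAt.smul d3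
  have d5 : DifferentiableAt ℝ (fun y => ∇ u y) x := (has_grad H hx).differentiableAt
  have d6 : DifferentiableAt ℝ (gN u) x := d5.sub d4
  refine ⟨hi.differentiableAt.smul d6, ?_⟩
  have e0 : dv (gN u) x = dv (fun y => ∇ u y) x - dv (fun y => (u y / ‖y‖ ^ 2) • y) x := dv_sub d5 d4
  rw [dv_smul hi.differentiableAt d6, hi.fderiv, e0, dv_grad H hx, dv_smul hf.differentiableAt d3,
    dv_id, hf.fderiv]
  simp only [smul_apply, innerSL_apply_apply, smul_eq_mul, add_apply, neg_apply]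
  have e1 : ⟪x, gN u x⟫_ℝ = 0 := by
    unfold gN
    rw [inner_sub_right, inner_smul_right, real_inner_self_eq_norm_sq, real_inner_comm,
      inner_gradient, H.euler1 hx]
    field_simp
    ring
  rw [e1, H.euler1 hx, real_inner_self_eq_norm_sq]
  field_simp
  ring

/-- divergence of `|y| D²u D²u p` -/
lemma dv_V2 (H : HC u) (hx : x ∈ Om u) :
    DifferentiableAt ℝ (fun y => ‖y‖ • act (D2 u y) (Zf u y)) x ∧
    dv (fun y => ‖y‖ • act (D2 u y) (Zf u y)) x =
      ‖x‖ * ((∑ i, ∑ j, D2 u x (bv i) (bv j) * D3 u x (∇ u x) (bv i) (bv j)) +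
        tr3 (D2 u x)) := by
  have hx0 := H.ne_zero hx
  have hn : ‖x‖ ≠ 0 := norm_ne_zero_iff.2 hx0
  obtain ⟨h1, h2⟩ := dv_actZf H hx
  have hN := hasFDerivAt_norm' hx0
  refine ⟨hN.differentiableAt.smul h1, ?_⟩
  rw [dv_smul hN.differentiableAt h1, h2, hN.fderiv]
  simp only [smul_apply, innerSL_apply_apply, smul_eq_mul]
  rw [inner_act, H.euler2' hx]
  ring

/-- derivative of `D²u Y` -/
lemma has_act (H : HC u) (hx : x ∈ Om u) {Y : E d → E d} {L : E d →L[ℝ] E d}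
    (hY : HasFDerivAt Y L x) :
    ∃ L' : E d →L[ℝ] E d, HasFDerivAt (fun y => act (D2 u y) (Y y)) L' x ∧
      ∀ v w, ⟪w, L' v⟫_ℝ = D3 u x v (Y x) w + D2 u x (L v) w := by
  have h0 := (H.hasD3 hx).clm_apply hY
  have h : ∀ i : Fin d, HasFDerivAt (fun y => (D2 u y (Y y) (bv i)) • bv i) _ x := fun i =>
    (had_app1 h0 (bv i)).smul_const (bv i)
  have h1 : HasFDerivAt (fun y => act (D2 u y) (Y y)) _ x :=
    (HasFDerivAt.fun_sum (u := Finset.univ) fun i _ => h i).congr_of_eventuallyEq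
      (Eventually.of_forall fun y => rfl)
  refine ⟨_, h1, fun v w => ?_⟩
  rw [sum_apply, inner_sum]
  have e2 : D3 u x v (Y x) w + D2 u x (L v) w =
      ∑ j, w j * (D3 u x v (Y x) (bv j) + D2 u x (L v) (bv j)) := by
    have a1 : D3 u x v (Y x) w = ∑ j, w j * D3 u x v (Y x) (bv j) := by
      conv_lhs => rw [← sum_bv w, map_sum]
      simp [smul_eq_mul]
    have a2 : D2 u x (L v) w = ∑ j, w j * D2 u x (L v) (bv j) := by
      conv_lhs => rw [← sum_bv w, map_sum]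
      simp [smul_eq_mul]
    rw [a1, a2, ← Finset.sum_add_distrib]
    exact Finset.sum_congr rfl fun j _ => by ring
  rw [e2]
  refine Finset.sum_congr rfl fun j _ => ?_
  rw [ContinuousLinearMap.smulRight_apply, inner_smul_right, inner_bv']
  simp only [ContinuousLinearMap.flip_apply, add_apply, ContinuousLinearMap.comp_apply]
  ring

/-- divergence of `|y|² D²u D²u D²u p` reduces to that of `D²u D²u D²u p` -/
lemma dv_V3 (H : HC u) (hx : x ∈ Om u) :
    DifferentiableAt ℝ (fun y => ‖y‖ ^ 2 • act (D2 u y) (act (D2 u y) (Zf u y))) x ∧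
    dv (fun y => ‖y‖ ^ 2 • act (D2 u y) (act (D2 u y) (Zf u y))) x =
      ‖x‖ ^ 2 * dv (fun y => act (D2 u y) (act (D2 u y) (Zf u y))) x := by
  obtain ⟨L, h, -⟩ := has_Zf H hx
  obtain ⟨L2, h2, -⟩ := has_act H hx h
  obtain ⟨L3, h3, -⟩ := has_act H hx h2
  have hN := hasFDerivAt_normsq' x
  refine ⟨hN.differentiableAt.smul h3.differentiableAt, ?_⟩
  rw [dv_smul hN.differentiableAt h3.differentiableAt, hN.fderiv]
  simp only [smul_apply, innerSL_apply_apply, smul_eq_mul]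
  rw [inner_act, H.euler2' hx]
  ring

end fields

end Crest.Agent.R097
end

-- ▼ part R097/RJ5
section

/-!
# Row 97, jet calculus: `div X = |x|⁻² divE` and `|Dw|² = |x|⁻² ∑ (D_k Z)²/(4Z)`
-/

set_option autoImplicit false
set_option synthInstance.maxHeartbeats 400000
open MeasureTheory Metric Set Filter Topology InnerProductSpace
open scoped RealInnerProductSpace NNReal ENNReal Gradient Laplacian

namespace Crest.Agent.R097

variable {n : ℕ} {u : E (n + 1) → ℝ} {x : E (n + 1)}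

lemma Frame.jW1_succ (H : HC u) (hx : x ∈ Om u) (F : Frame u x) (k : Fin n) :
    ⟪F.e k.succ, W1f u x⟫_ℝ = ‖x‖⁻¹ * ∑ a, F.lam a * F.tau a a k := by
  have hx0 := H.ne_zero hx
  have hn : ‖x‖ ≠ 0 := norm_ne_zero_iff.2 hx0
  unfold W1f
  rw [inner_add_right, inner_smul_right, inner_smul_right, inner_TM, F.sum_MT_succ H hx,
    real_inner_comm, F.inner_succ hx0]
  field_simp
  ring

lemma Frame.jV0_succ (H : HC u) (hx : x ∈ Om u) (F : Frame u x) (k : Fin n) :
    ⟪F.e k.succ, ‖x‖⁻¹ • gN u x⟫_ℝ = ‖x‖⁻¹ * F.g k := by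
  have hx0 := H.ne_zero hx
  unfold gN
  rw [inner_smul_right, inner_sub_right, inner_smul_right, real_inner_comm, F.grad_succ,
    real_inner_comm, F.inner_succ hx0]
  ring

lemma Frame.jZf_succ (H : HC u) (hx : x ∈ Om u) (F : Frame u x) (k : Fin n) :
    ⟪F.e k.succ, Zf u x⟫_ℝ = ‖x‖⁻¹ * (F.lam k * F.g k) := by
  unfold Zf
  rw [inner_act, H.symm2 hx, F.D2_grad H hx]
  ring

lemma Frame.jV2_succ (H : HC u) (hx : x ∈ Om u) (F : Frame u x) (k : Fin n) :
    ⟪F.e k.succ, ‖x‖ • act (D2 u x) (Zf u x)⟫_ℝ = ‖x‖⁻¹ * (F.lam k ^ 2 * F.g k) := by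
  have hx0 := H.ne_zero hx
  have hn : ‖x‖ ≠ 0 := norm_ne_zero_iff.2 hx0
  rw [inner_smul_right, inner_act, H.symm2 hx, apply_onb F.e (D2 u x (F.e k.succ)) (Zf u x),
    Fin.sum_univ_succ, F.jD2_zero' H hx, mul_zero, zero_add, Finset.sum_eq_single k]
  · rw [F.jD2_succ hx0, if_pos rfl, F.jZf_succ H hx]
    field_simp
  · intro b _ hb
    rw [F.jD2_succ hx0, if_neg (Ne.symm hb), mul_zero]
  · intro h; exact absurd (Finset.mem_univ k) h

/-- application of a linear map to a vector in a frame -/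
lemma Frame.D2_act (H : HC u) (hx : x ∈ Om u) (F : Frame u x) (k : Fin n) (v : E (n + 1)) :
    D2 u x v (F.e k.succ) = F.lam k / ‖x‖ * ⟪F.e k.succ, v⟫_ℝ := by
  have hx0 := H.ne_zero hx
  rw [H.symm2 hx, apply_onb F.e (D2 u x (F.e k.succ)) v, Fin.sum_univ_succ, F.jD2_zero' H hx,
    mul_zero, zero_add, Finset.sum_eq_single k]
  · rw [F.jD2_succ hx0, if_pos rfl]; ring
  · intro b _ hb
    rw [F.jD2_succ hx0, if_neg (Ne.symm hb), mul_zero]
  · intro h; exact absurd (Finset.mem_univ k) h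

lemma Frame.jV3_succ (H : HC u) (hx : x ∈ Om u) (F : Frame u x) (k : Fin n) :
    ⟪F.e k.succ, ‖x‖ ^ 2 • act (D2 u x) (act (D2 u x) (Zf u x))⟫_ℝ =
      ‖x‖⁻¹ * (F.lam k ^ 3 * F.g k) := by
  have hx0 := H.ne_zero hx
  have hn : ‖x‖ ≠ 0 := norm_ne_zero_iff.2 hx0
  rw [inner_smul_right, inner_act, F.D2_act H hx, inner_act, F.D2_act H hx, F.jZf_succ H hx]
  field_simp

/-- `D³u(v, e_a, e_a)` in a frame -/
lemma Frame.D3_diag (H : HC u) (hx : x ∈ Om u) (F : Frame u x) (v : E (n + 1)) (a : Fin n) :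
    D3 u x (F.e a.succ) v (F.e a.succ) =
      - (⟪F.e 0, v⟫_ℝ * F.lam a) / ‖x‖ ^ 2 +
      (∑ k : Fin n, ⟪F.e k.succ, v⟫_ℝ * F.tau a a k) / ‖x‖ ^ 2 := by
  have hx0 := H.ne_zero hx
  have hn : ‖x‖ ≠ 0 := norm_ne_zero_iff.2 hx0
  rw [H.symm3b hx, apply_onb F.e (D3 u x (F.e a.succ) (F.e a.succ)) v, Fin.sum_univ_succ,
    F.D3_zero'' H hx, F.jD2_succ hx0, if_pos rfl, Finset.sum_div]
  congr 1
  · field_simp
  · refine Finset.sum_congr rfl fun k _ => ?_
    rw [F.D3_succ hx0]; ring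

/-- divergence of `|y|² D²u D²u D²u p` in a frame -/
lemma Frame.dv_V3 (H : HC u) (hx : x ∈ Om u) (F : Frame u x) :
    dv (fun y => ‖y‖ ^ 2 • act (D2 u y) (act (D2 u y) (Zf u y))) x = (‖x‖ ^ 2)⁻¹ *
      ((∑ k, F.g k * ∑ a, (F.lam a ^ 2 + F.lam a * F.lam k) * F.tau a a k) +
        (∑ a, F.lam a ^ 4) - sN u x * ∑ a, F.lam a ^ 3) := by
  have hx0 := H.ne_zero hx
  have hn : ‖x‖ ≠ 0 := norm_ne_zero_iff.2 hx0
  obtain ⟨L, h, hL⟩ := has_Zf H hx
  obtain ⟨L2, h2, hL2⟩ := has_act H hx h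
  obtain ⟨L3, h3, hL3⟩ := has_act H hx h2
  rw [(_root_.Crest.Agent.R097.dv_V3 H hx).2, dv_onb F.e, h3.fderiv]
  simp_rw [hL3, Finset.sum_add_distrib]
  have e0 : ∑ c, D3 u x (F.e c) (act (D2 u x) (Zf u x)) (F.e c) = 0 := by
    have h1 := tr_onb F.e ((D3 u x).flip (act (D2 u x) (Zf u x)))
    simp only [ContinuousLinearMap.flip_apply] at h1
    rw [h1]; exact TrD3 H hx _
  rw [e0, zero_add, Fin.sum_univ_succ, F.jD2_zero' H hx, zero_add]
  have e1 : ∀ a : Fin n, D2 u x (L2 (F.e a.succ)) (F.e a.succ) =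
      F.lam a / ‖x‖ * (D3 u x (F.e a.succ) (Zf u x) (F.e a.succ) +
        F.lam a / ‖x‖ * (D3 u x (F.e a.succ) (∇ u x) (F.e a.succ) + F.lam a ^ 2 / ‖x‖ ^ 2)) := by
    intro a
    have h4 : ∑ i, D2 u x (F.e a.succ) (bv i) * D2 u x (bv i) (F.e a.succ) =
        F.lam a ^ 2 / ‖x‖ ^ 2 := by
      have h5 : ∀ i : Fin (n + 1), D2 u x (bv i) (F.e a.succ) = D2 u x (F.e a.succ) (bv i) :=
        fun i => H.symm2 hx _ _
      simp_rw [h5]
      rw [← jsum_mul_onb F.e (D2 u x (F.e a.succ)) (D2 u x (F.e a.succ)), Fin.sum_univ_succ,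
        F.jD2_zero' H hx, mul_zero, zero_add, Finset.sum_eq_single a]
      · rw [F.jD2_succ hx0, if_pos rfl]; field_simp
      · intro b _ hb
        rw [F.jD2_succ hx0, if_neg (Ne.symm hb), mul_zero]
      · intro h; exact absurd (Finset.mem_univ a) h
    rw [F.D2_act H hx, hL2, F.D2_act H hx, hL, h4]
  simp_rw [e1, F.D3_diag H hx, F.jZf_succ H hx]
  have e2 : ⟪F.e 0, Zf u x⟫_ℝ = 0 := by
    unfold Zf; rw [inner_act, F.jD2_zero' H hx]
  have e3 : ⟪F.e 0, ∇ u x⟫_ℝ = sN u x := by rw [real_inner_comm, F.grad_zero H hx]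
  have e4 : ∀ k : Fin n, ⟪F.e k.succ, ∇ u x⟫_ℝ = F.g k := fun k => by
    rw [real_inner_comm, F.grad_succ]
  simp_rw [e2, e3, e4]
  have e5 : (∑ k, F.g k * ∑ a, (F.lam a ^ 2 + F.lam a * F.lam k) * F.tau a a k) =
      ∑ a, ∑ k, (F.g k * (F.lam a ^ 2 * F.tau a a k) +
        F.lam a * (F.lam k * F.g k * F.tau a a k)) := by
    rw [Finset.sum_comm]
    refine Finset.sum_congr rfl fun k _ => ?_
    rw [Finset.mul_sum]
    exact Finset.sum_congr rfl fun a _ => by ring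
  rw [e5, Finset.mul_sum, Finset.mul_sum, ← Finset.sum_add_distrib, ← Finset.sum_sub_distrib,
    Finset.mul_sum]
  refine Finset.sum_congr rfl fun a _ => ?_
  rw [Finset.sum_add_distrib]
  have e6 : ∑ k, ‖x‖⁻¹ * (F.lam k * F.g k) * F.tau a a k =
      ‖x‖⁻¹ * ∑ k, F.lam k * F.g k * F.tau a a k := by
    rw [Finset.mul_sum]
    exact Finset.sum_congr rfl fun k _ => by ring
  have e7 : ∑ k, F.g k * (F.lam a ^ 2 * F.tau a a k) =
      F.lam a ^ 2 * ∑ k, F.g k * F.tau a a k := by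
    rw [Finset.mul_sum]
    exact Finset.sum_congr rfl fun k _ => by ring
  rw [e6, e7, ← Finset.mul_sum]
  field_simp
  ring

/-- pairing of the derivative of a coefficient with a field -/
lemma Frame.pair {L : E (n + 1) →L[ℝ] ℝ} (F : Frame u x) (h0 : L (F.e 0) = 0)
    {D : Fin n → ℝ} (h1 : ∀ k : Fin n, L (F.e k.succ) = ‖x‖⁻¹ * D k) {V : E (n + 1)}
    {c : Fin n → ℝ} (hV : ∀ k : Fin n, ⟪F.e k.succ, V⟫_ℝ = ‖x‖⁻¹ * c k) :
    L V = (‖x‖ ^ 2)⁻¹ * ∑ k, D k * c k := by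
  rw [apply_onb F.e L V, Fin.sum_univ_succ, h0, mul_zero, zero_add, Finset.mul_sum]
  refine Finset.sum_congr rfl fun k _ => ?_
  rw [h1, hV]
  ring

lemma Frame.sum_MT_grad (H : HC u) (hx : x ∈ Om u) (F : Frame u x) :
    ∑ i, ∑ j, D2 u x (bv i) (bv j) * D3 u x (∇ u x) (bv i) (bv j) =
      (∑ k, F.g k * ∑ a, F.lam a * F.tau a a k) / ‖x‖ ^ 3 - sN u x * hs2 (D2 u x) / ‖x‖ := by
  have hx0 := H.ne_zero hx
  have hn : ‖x‖ ≠ 0 := norm_ne_zero_iff.2 hx0
  rw [← inner_TM, real_inner_comm]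
  have h1 : ⟪TM (D2 u x) (D3 u x), ∇ u x⟫_ℝ =
      ∑ c, ⟪F.e c, ∇ u x⟫_ℝ * ⟪TM (D2 u x) (D3 u x), F.e c⟫_ℝ := by
    have := apply_onb F.e (innerSL ℝ (TM (D2 u x) (D3 u x))) (∇ u x)
    simpa using this
  rw [h1, Fin.sum_univ_succ, real_inner_comm (∇ u x) (F.e 0), F.grad_zero H hx,
    real_inner_comm (F.e 0), inner_TM]
  have e0 : ∑ i, ∑ j, D2 u x (bv i) (bv j) * D3 u x (F.e 0) (bv i) (bv j) =
      - (hs2 (D2 u x) / ‖x‖) := by
    unfold hs2
    rw [Finset.sum_div, ← Finset.sum_neg_distrib]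
    refine Finset.sum_congr rfl fun i _ => ?_
    rw [Finset.sum_div, ← Finset.sum_neg_distrib]
    refine Finset.sum_congr rfl fun j _ => ?_
    rw [F.D3_zero H hx]; ring
  rw [e0, Finset.sum_div]
  have e1 : ∀ k : Fin n, ⟪F.e k.succ, ∇ u x⟫_ℝ * ⟪TM (D2 u x) (D3 u x), F.e k.succ⟫_ℝ =
      F.g k * (∑ a, F.lam a * F.tau a a k) / ‖x‖ ^ 3 := by
    intro k
    rw [real_inner_comm, F.grad_succ, real_inner_comm (F.e k.succ), inner_TM,
      F.sum_MT_succ H hx]
    ring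
  simp_rw [e1]
  ring

/-- **the divergence of the field of a certificate** -/
theorem Frame.dv_XC (H : HC u) (hx : x ∈ Wn u) (F : Frame u x) {C : CertData} (hga : C.ga.Ok)
    (h0 : C.y0.Ok) (h1 : C.y1.Ok) (h2 : C.y2.Ok) (h3 : C.y3.Ok) :
    dv (XC C u) x = (‖x‖ ^ 2)⁻¹ * C.divE F.lam F.g (sN u x) F.tau := by
  have hxO : x ∈ Om u := hx.1
  have hx0 := H.ne_zero hxO
  have hn : ‖x‖ ≠ 0 := norm_ne_zero_iff.2 hx0
  obtain ⟨Lg, ag, bg, cg⟩ := F.has_coef H hx hga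
  obtain ⟨L0, a0, b0, c0⟩ := F.has_coef H hx h0
  obtain ⟨L1, a1, b1, c1⟩ := F.has_coef H hx h1
  obtain ⟨L2, a2, b2, c2⟩ := F.has_coef H hx h2
  obtain ⟨L3, a3, b3, c3⟩ := F.has_coef H hx h3
  obtain ⟨v1, w1⟩ := dv_W1f H hxO
  obtain ⟨v0, w0⟩ := dv_V0 H hxO
  obtain ⟨v2, w2⟩ := dv_V2 H hxO
  have v3 := (_root_.Crest.Agent.R097.dv_V3 H hxO).1
  have w3 := F.dv_V3 H hxO
  have vZ : DifferentiableAt ℝ (Zf u) x := by
    obtain ⟨L, h, -⟩ := has_Zf H hxO
    exact h.differentiableAt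
  have hfun : XC C u = fun y => (((C.ga.f (zN u y) • W1f u y +
      C.y0.f (zN u y) • (‖y‖⁻¹ • gN u y)) + C.y1.f (zN u y) • Zf u y) +
      C.y2.f (zN u y) • (‖y‖ • act (D2 u y) (Zf u y))) +
      C.y3.f (zN u y) • (‖y‖ ^ 2 • act (D2 u y) (act (D2 u y) (Zf u y))) := by
    funext y
    unfold XC
    rw [smul_smul, smul_smul, smul_smul]
  have dg : DifferentiableAt ℝ (fun y => C.ga.f (zN u y) • W1f u y) x :=
    ag.differentiableAt.smul v1
  have d0 : DifferentiableAt ℝ (fun y => C.y0.f (zN u y) • (‖y‖⁻¹ • gN u y)) x :=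
    a0.differentiableAt.smul v0
  have d1 : DifferentiableAt ℝ (fun y => C.y1.f (zN u y) • Zf u y) x :=
    a1.differentiableAt.smul vZ
  have d2 : DifferentiableAt ℝ (fun y => C.y2.f (zN u y) • (‖y‖ • act (D2 u y) (Zf u y))) x :=
    a2.differentiableAt.smul v2
  have d3 : DifferentiableAt ℝ (fun y => C.y3.f (zN u y) •
      (‖y‖ ^ 2 • act (D2 u y) (act (D2 u y) (Zf u y)))) x :=
    a3.differentiableAt.smul v3
  have d0' : DifferentiableAt ℝ (fun y => C.ga.f (zN u y) • W1f u y +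
      C.y0.f (zN u y) • (‖y‖⁻¹ • gN u y)) x := dg.add d0
  have d1' : DifferentiableAt ℝ (fun y => (C.ga.f (zN u y) • W1f u y +
      C.y0.f (zN u y) • (‖y‖⁻¹ • gN u y)) + C.y1.f (zN u y) • Zf u y) x := d0'.add d1
  have d2' : DifferentiableAt ℝ (fun y => ((C.ga.f (zN u y) • W1f u y +
      C.y0.f (zN u y) • (‖y‖⁻¹ • gN u y)) + C.y1.f (zN u y) • Zf u y) +
      C.y2.f (zN u y) • (‖y‖ • act (D2 u y) (Zf u y))) x := d1'.add d2
  rw [hfun, dv_add d2' d3, dv_add d1' d2, dv_add d0' d1, dv_add dg d0,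
    dv_smul ag.differentiableAt v1,
    dv_smul a0.differentiableAt v0, dv_smul a1.differentiableAt vZ,
    dv_smul a2.differentiableAt v2, dv_smul a3.differentiableAt v3,
    ag.fderiv, a0.fderiv, a1.fderiv, a2.fderiv, a3.fderiv, w1, w0, w2, w3,
    dv_Zf H hxO, F.pair bg cg (F.jW1_succ H hxO), F.pair b0 c0 (F.jV0_succ H hxO),
    F.pair b1 c1 (F.jZf_succ H hxO), F.pair b2 c2 (F.jV2_succ H hxO),
    F.pair b3 c3 (F.jV3_succ H hxO), F.sum_MT_grad H hxO,
    F.hs3_eq H hxO, F.hs2_eq H hxO, F.tr3_eq H hxO, F.jzN_eq H hxO]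
  unfold CertData.divE
  have hs : u x = sN u x * ‖x‖ := by unfold sN; field_simp
  rw [hs]
  push_cast
  field_simp
  ring

/-- the gradient of the test function -/
theorem Frame.grad_wC (H : HC u) (hx : x ∈ Wn u) (F : Frame u x) {C : CertData} (hZ : C.Z.Ok)
    (hpos : 0 < C.Z.f (zv F.lam F.g (sN u x))) :
    DifferentiableAt ℝ (wC C u) x ∧ fderiv ℝ (wC C u) x x = 0 ∧
    ‖fderiv ℝ (wC C u) x‖ ^ 2 = (‖x‖ ^ 2)⁻¹ *
      ((∑ k, C.Z.D F.lam F.g (sN u x) F.tau k ^ 2) / (4 * C.Z.f (zv F.lam F.g (sN u x)))) := by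
  have hxO : x ∈ Om u := hx.1
  have hx0 := H.ne_zero hxO
  have hn : ‖x‖ ≠ 0 := norm_ne_zero_iff.2 hx0
  obtain ⟨L, a, b, c⟩ := F.has_coef H hx hZ
  have hpos' : 0 < C.Z.f (zN u x) := by rw [F.jzN_eq H hxO]; exact hpos
  have hs : HasFDerivAt (wC C u) ((1 / (2 * Real.sqrt (C.Z.f (zN u x)))) • L) x :=
    a.sqrt hpos'.ne'
  refine ⟨hs.differentiableAt, ?_, ?_⟩
  · rw [hs.fderiv, smul_apply]
    have h1 : L x = 0 := by
      have h2 : x = ‖x‖ • F.e 0 := by rw [F.e0, smul_smul, mul_inv_cancel₀ hn, one_smul]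
      have h3 : L (‖x‖ • F.e 0) = 0 := by rw [map_smul, b, smul_zero]
      exact (congrArg L h2).trans h3
    rw [h1, smul_zero]
  · rw [norm_sq_onb F.e, Fin.sum_univ_succ, hs.fderiv]
    simp only [smul_apply, smul_eq_mul]
    rw [b]
    simp_rw [c]
    have hsq : Real.sqrt (C.Z.f (zN u x)) ^ 2 = C.Z.f (zN u x) := Real.sq_sqrt hpos'.le
    have hz := F.jzN_eq H hxO
    have e1 : ∀ k : Fin n, (1 / (2 * Real.sqrt (C.Z.f (zN u x))) *
        (‖x‖⁻¹ * C.Z.D F.lam F.g (sN u x) F.tau k)) ^ 2 =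
        (‖x‖ ^ 2)⁻¹ * (C.Z.D F.lam F.g (sN u x) F.tau k ^ 2 /
          (4 * C.Z.f (zv F.lam F.g (sN u x)))) := by
      intro k
      rw [mul_pow, mul_pow, div_pow, mul_pow, hsq, hz]
      field_simp
      ring
    simp_rw [e1]
    rw [← Finset.mul_sum, Finset.sum_div]
    ring

end Crest.Agent.R097
end

-- ▼ part R097/RBdry
section

/-!
# Row 97, reduction: the boundary condition of a certificate (node RBDRY)
-/

set_option autoImplicit false
set_option synthInstance.maxHeartbeats 400000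
open MeasureTheory Metric Set Filter Topology InnerProductSpace
open scoped RealInnerProductSpace NNReal ENNReal Gradient Laplacian

namespace Crest.Agent.R097
namespace RB

variable {d : ℕ}

/-- the operator of a bilinear form -/
noncomputable def op (A : Bil d) : E d →L[ℝ] E d := ∑ i, (A (bv i)).smulRight (bv i)

lemma inner_op (A : Bil d) (w v : E d) : ⟪w, op A v⟫_ℝ = A w v := by
  rw [bil_sum A w v]
  unfold op
  rw [sum_apply, inner_sum]
  refine Finset.sum_congr rfl fun i _ => ?_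
  rw [ContinuousLinearMap.smulRight_apply, inner_smul_right, inner_bv']
  ring

lemma op_symm {A : Bil d} (hA : ∀ x y, A x y = A y x) : (op A).toLinearMap.IsSymmetric := by
  intro v w
  show ⟪op A v, w⟫_ℝ = ⟪v, op A w⟫_ℝ
  rw [real_inner_comm, inner_op, inner_op, hA]

lemma op_coord (A : Bil d) (v : E d) (i : Fin d) : (op A v) i = A (bv i) v := by
  rw [← inner_bv i (op A v), inner_op]

/-- the bilinear form `(v, w) ↦ ⟪S v, T w⟫` -/
noncomputable def gram (S T : E d →L[ℝ] E d) : Bil d :=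
  ((innerSL ℝ).comp S).flip.comp T |>.flip

lemma gram_apply (S T : E d →L[ℝ] E d) (v w : E d) : gram S T v w = ⟪S v, T w⟫_ℝ := rfl

lemma hs2_onb {ι : Type*} [Fintype ι] (e : OrthonormalBasis ι ℝ (E d)) {A : Bil d}
    (hA : ∀ x y, A x y = A y x) {l : ι → ℝ} (he : ∀ c, op A (e c) = l c • e c) :
    hs2 A = ∑ c, l c ^ 2 := by
  have h := tr_onb e (gram (op A) (op A))
  have h1 : ∀ c, gram (op A) (op A) (e c) (e c) = l c ^ 2 := by
    intro c
    rw [gram_apply, he, inner_smul_left, inner_smul_right, real_inner_self_eq_norm_sq, e.norm_eq_one]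
    simp; ring
  have h2 : ∀ i, gram (op A) (op A) (bv i) (bv i) = ∑ j, (A (bv i) (bv j)) ^ 2 := by
    intro i
    rw [gram_apply, inner_eq_sum]
    refine Finset.sum_congr rfl fun j _ => ?_
    rw [op_coord, hA (bv j) (bv i)]
    ring
  simp_rw [h1, h2] at h
  rw [h]; rfl

lemma tr_onb' {ι : Type*} [Fintype ι] (e : OrthonormalBasis ι ℝ (E d)) {A : Bil d}
    {l : ι → ℝ} (he : ∀ c, op A (e c) = l c • e c) :
    ∑ i, A (bv i) (bv i) = ∑ c, l c := by
  rw [← tr_onb e A]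
  refine Finset.sum_congr rfl fun c _ => ?_
  rw [← inner_op, he, inner_smul_right, real_inner_self_eq_norm_sq, e.norm_eq_one]
  simp

lemma tr3_onb {ι : Type*} [Fintype ι] (e : OrthonormalBasis ι ℝ (E d)) {A : Bil d}
    (hA : ∀ x y, A x y = A y x) {l : ι → ℝ} (he : ∀ c, op A (e c) = l c • e c) :
    tr3 A = ∑ c, l c ^ 3 := by
  have h := tr_onb e (gram (op A) ((op A).comp (op A)))
  have h1 : ∀ c, gram (op A) ((op A).comp (op A)) (e c) (e c) = l c ^ 3 := by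
    intro c
    rw [gram_apply, ContinuousLinearMap.comp_apply, he, map_smul, he, inner_smul_left,
      inner_smul_right, inner_smul_right, real_inner_self_eq_norm_sq, e.norm_eq_one]
    simp; ring
  have h2 : ∀ i, gram (op A) ((op A).comp (op A)) (bv i) (bv i)
      = ∑ j, ∑ k, A (bv i) (bv j) * A (bv j) (bv k) * A (bv k) (bv i) := by
    intro i
    rw [gram_apply, ContinuousLinearMap.comp_apply, inner_eq_sum]
    refine Finset.sum_congr rfl fun j _ => ?_
    rw [op_coord, op_coord, hA (bv j) (op A (bv i)), bil_sum A (op A (bv i)) (bv j), Finset.mul_sum]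
    refine Finset.sum_congr rfl fun k _ => ?_
    rw [op_coord, hA (bv j) (bv i), hA (bv k) (bv j)]
    ring
  simp_rw [h1, h2] at h
  rw [h]; rfl

/-- trace of a trilinear form against `A` -/
lemma ctr_onb {ι : Type*} [Fintype ι] (e : OrthonormalBasis ι ℝ (E d)) {A : Bil d}
    (hA : ∀ x y, A x y = A y x) {l : ι → ℝ} (he : ∀ c, op A (e c) = l c • e c) (C : Bil d) :
    ∑ i, ∑ j, C (bv i) (bv j) * A (bv i) (bv j) = ∑ c, l c * C (e c) (e c) := by
  have h := tr_onb e ((C.flip.comp (op A)).flip)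
  have h0 : ∀ v w, ((C.flip.comp (op A)).flip) v w = C v (op A w) := fun v w => rfl
  simp_rw [h0] at h
  have h1 : ∀ c, C (e c) (op A (e c)) = l c * C (e c) (e c) := by
    intro c; rw [he, map_smul, smul_eq_mul]
  have h2 : ∀ i, C (bv i) (op A (bv i)) = ∑ j, C (bv i) (bv j) * A (bv i) (bv j) := by
    intro i
    rw [apply_eq_sum (C (bv i)) (op A (bv i))]
    refine Finset.sum_congr rfl fun j _ => ?_
    rw [op_coord, hA (bv j) (bv i)]
    ring
  simp_rw [h1, h2] at h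
  exact h.symm

lemma op_eq_act {A : Bil d} (hA : ∀ x y, A x y = A y x) (v : E d) : op A v = act A v := by
  refine ext_inner_left ℝ fun w => ?_
  rw [inner_op]
  unfold act
  rw [inner_sum, bil_sum A w v]
  refine Finset.sum_congr rfl fun i _ => ?_
  rw [inner_smul_right, inner_bv', hA v (bv i)]
  ring

/-- part (1) of RBDRY: the spectrum and the third derivatives at a regular boundary point -/
theorem bdry_alg {n : ℕ} {e : E (n + 1)} {A : Bil (n + 1)} {B : Tri (n + 1)} (h : KK e A B)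
    {y : E (n + 1)} (hy : y ≠ 0) (hAy : ∀ v, A y v = 0) (hey : ⟪e, y⟫_ℝ = 0) :
    (∃ (lam : Fin n → ℝ) (k0 : Fin n), ∑ i, lam i = 0 ∧ lam k0 = ‖y‖ * A e e ∧
      ∑ i, lam i ^ 2 = ‖y‖ ^ 2 * hs2 A ∧ ∑ i, lam i ^ 3 = ‖y‖ ^ 3 * tr3 A) ∧
    ∑ i, ∑ j, B e (bv i) (bv j) * A (bv i) (bv j) = 2 * A e e * hs2 A - tr3 A := by
  have hA : ∀ x y, A x y = A y x := h.stfA.symm
  have hyn : ‖y‖ ≠ 0 := norm_ne_zero_iff.mpr hy
  -- the dimension is at least two
  obtain ⟨m, rfl⟩ : ∃ m, n = m + 1 := by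
    rcases n with _ | m
    · exfalso
      have h1 : ∀ v : E (0 + 1), v = ⟪v, bv 0⟫_ℝ • bv 0 := by
        intro v
        ext i
        have : i = 0 := by
          apply Fin.ext
          have := i.2
          simp only [Fin.val_zero]
          omega
        subst this
        rw [inner_bv']
        simp [bv]
      have h2 : ⟪e, y⟫_ℝ = ⟪e, bv 0⟫_ℝ * ⟪y, bv 0⟫_ℝ := by
        conv_lhs => rw [h1 e, h1 y]
        rw [inner_smul_left, inner_smul_right, real_inner_self_eq_norm_sq, norm_bv]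
        simp
      rw [hey] at h2
      rcases mul_eq_zero.mp h2.symm with h3 | h3
      · have : e = 0 := by rw [h1 e, h3, zero_smul]
        have h4 := h.norm_e
        rw [this, norm_zero] at h4
        exact zero_ne_one h4
      · exact hy (by rw [h1 y, h3, zero_smul])
    · exact ⟨m, rfl⟩
  -- the eigenbasis
  set α : ℝ := A e e with hα
  have hTe : op A e = α • e := by
    refine ext_inner_left ℝ fun w => ?_
    rw [inner_op, hA, h.A_apply, inner_smul_right, real_inner_comm]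
  obtain ⟨b, μ, hb0, hb1, hbk⟩ := eig_ext2 (V := E (m + 1 + 1)) (m := m) (by simp)
    (op A).toLinearMap (op_symm hA) (‖y‖⁻¹ • y) e
    (by rw [norm_smul, norm_inv, norm_norm, inv_mul_cancel₀ hyn]) h.norm_e
    (by rw [inner_smul_left, real_inner_comm, hey, mul_zero]) 0 α
    (by
      show op A (‖y‖⁻¹ • y) = _
      have : op A y = 0 := by
        refine ext_inner_left ℝ fun w => ?_
        rw [inner_op, hA, hAy, inner_zero_right]
      rw [map_smul, this]; simp)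
    hTe
  have hbk' : ∀ k : Fin m, op A (b k.succ.succ) = μ k • b k.succ.succ := hbk
  set l : Fin (m + 2) → ℝ := Fin.cons 0 (Fin.cons α μ) with hl
  have hl0 : l 0 = 0 := rfl
  have hl1 : l 1 = α := rfl
  have hlk : ∀ k : Fin m, l k.succ.succ = μ k := fun k => rfl
  have hbl : ∀ c, op A (b c) = l c • b c := by
    intro c
    refine Fin.cases ?_ (fun c => ?_) c
    · rw [hb0, hl0, zero_smul, map_smul]
      have : op A y = 0 := by
        refine ext_inner_left ℝ fun w => ?_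
        rw [inner_op, hA, hAy, inner_zero_right]
      rw [this, smul_zero]
    · refine Fin.cases ?_ (fun c => ?_) c
      · show op A (b 1) = l 1 • b 1
        rw [hb1, hl1]; exact hTe
      · rw [hlk]; exact hbk' c
  have hsum : ∀ f : Fin (m + 2) → ℝ, ∑ c, f c = f 0 + (f 1 + ∑ k : Fin m, f k.succ.succ) := by
    intro f
    rw [Fin.sum_univ_succ, Fin.sum_univ_succ]
    rfl
  have htr : α + ∑ k, μ k = 0 := by
    have h1 := tr_onb' b hbl
    rw [h.stfA.tr, hsum] at h1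
    simp only [hl0, hl1, hlk] at h1
    linarith
  have hhs : hs2 A = α ^ 2 + ∑ k, μ k ^ 2 := by
    rw [hs2_onb b hA hbl, hsum]
    simp only [hl0, hl1, hlk]
    ring
  have ht3 : tr3 A = α ^ 3 + ∑ k, μ k ^ 3 := by
    rw [tr3_onb b hA hbl, hsum]
    simp only [hl0, hl1, hlk]
    ring
  refine ⟨⟨Fin.cons (‖y‖ * α) (fun k => ‖y‖ * μ k), 0, ?_, rfl, ?_, ?_⟩, ?_⟩
  · rw [Fin.sum_univ_succ]
    simp only [Fin.cons_zero, Fin.cons_succ]
    rw [← Finset.mul_sum, ← mul_add, htr, mul_zero]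
  · rw [Fin.sum_univ_succ, hhs]
    simp only [Fin.cons_zero, Fin.cons_succ, mul_pow]
    rw [← Finset.mul_sum]
    ring
  · rw [Fin.sum_univ_succ, ht3]
    simp only [Fin.cons_zero, Fin.cons_succ, mul_pow]
    rw [← Finset.mul_sum]
    ring
  · -- third derivatives
    have hB : ∀ t, ⟪e, t⟫_ℝ = 0 → ∀ c, op A t = c • t → ‖t‖ = 1 → B e t t = α * c - c ^ 2 := by
      intro t ht c hc hn
      have h1 := h.bdry t ht
      have h2 : A t t = c := by
        rw [← inner_op, hc, inner_smul_right, real_inner_self_eq_norm_sq, hn]; ring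
      have h3 : ∑ i, (A t (bv i)) ^ 2 = c ^ 2 := by
        have h4 : ∑ i, (A t (bv i)) ^ 2 = ‖op A t‖ ^ 2 := by
          rw [EuclideanSpace.norm_sq_eq]
          refine Finset.sum_congr rfl fun i _ => ?_
          rw [op_coord, hA (bv i) t, Real.norm_eq_abs, sq_abs]
        rw [h4, hc, norm_smul, hn, mul_one, Real.norm_eq_abs, sq_abs]
      rw [h2, h3] at h1
      rw [h.stfB.symm12 e t t, h.stfB.symm23 t e t]
      exact h1
    have horth : ∀ c, c ≠ 1 → ⟪e, b c⟫_ℝ = 0 := by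
      intro c hc
      rw [← hb1]
      exact b.orthonormal.2 (Ne.symm hc)
    have hB0 : B e (b 0) (b 0) = 0 := by
      rw [hB (b 0) (horth 0 (by simp)) 0 (by rw [hbl 0, hl0]) (b.norm_eq_one 0)]
      ring
    have hBk : ∀ k : Fin m, B e (b k.succ.succ) (b k.succ.succ) = α * μ k - μ k ^ 2 := by
      intro k
      refine hB _ (horth _ ?_) _ (hbk' k) (b.norm_eq_one _)
      intro h1
      have h2 : k.succ.succ = (0 : Fin (m + 1)).succ := h1
      exact Fin.succ_ne_zero _ (Fin.succ_injective _ h2)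
    have htrB : B e e e + ∑ k : Fin m, (α * μ k - μ k ^ 2) = 0 := by
      have h1 := tr_onb b (B e)
      rw [h.stfB.tr, hsum, hB0, hb1] at h1
      simp_rw [hBk] at h1
      linarith
    rw [ctr_onb b hA hbl (B e), hsum]
    simp only [hl0, hl1, hlk, hb1, hBk]
    rw [hhs, ht3]
    have e1 : B e e e = α ^ 2 + ∑ k, μ k ^ 2 := by
      rw [Finset.sum_sub_distrib, ← Finset.mul_sum] at htrB
      have : ∑ k, μ k = -α := by linarith
      rw [this] at htrB
      linarith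
    have e2 : ∑ k : Fin m, μ k * (α * μ k - μ k ^ 2) = α * ∑ k, μ k ^ 2 - ∑ k, μ k ^ 3 := by
      rw [Finset.mul_sum, ← Finset.sum_sub_distrib]
      exact Finset.sum_congr rfl fun k _ => by ring
    rw [e1, e2]
    ring

lemma Ok_contAt {F : Coef} (h : F.Ok) {z : Fin 4 → ℝ} (hz : 0 < z 0) : ContinuousAt F.f z :=
  (h.has z hz).continuousAt

lemma inner_TM (A : Bil d) (B : Tri d) (e : E d) :
    ⟪e, TM A B⟫_ℝ = ∑ i, ∑ j, B e (bv i) (bv j) * A (bv i) (bv j) := by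
  unfold TM
  rw [inner_sum]
  have h1 : ∀ i j, B e (bv i) (bv j) = ∑ k, e k * B (bv k) (bv i) (bv j) := by
    intro i j
    conv_lhs => rw [← sum_bv e, map_sum]
    rw [sum_apply, sum_apply]
    refine Finset.sum_congr rfl fun k _ => ?_
    rw [map_smul]; rfl
  simp_rw [h1, Finset.sum_mul]
  have h2 : ∀ k, ⟪e, (∑ i, ∑ j, B (bv k) (bv i) (bv j) * A (bv i) (bv j)) • bv k⟫_ℝ
      = ∑ i, ∑ j, e k * B (bv k) (bv i) (bv j) * A (bv i) (bv j) := by
    intro k
    rw [inner_smul_right, inner_bv', Finset.sum_mul]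
    refine Finset.sum_congr rfl fun i _ => ?_
    rw [Finset.sum_mul]
    exact Finset.sum_congr rfl fun j _ => by ring
  simp_rw [h2]
  rw [Finset.sum_comm]
  refine Finset.sum_congr rfl fun i _ => ?_
  rw [Finset.sum_comm]

lemma tcl {α F G : Type*} [NormedAddCommGroup F] [NormedSpace ℝ F] [NormedAddCommGroup G]
    [NormedSpace ℝ G] {l : Filter α} {L : α → F →L[ℝ] G} {L0 : F →L[ℝ] G} {V : α → F} {v : F}
    (hL : Tendsto L l (𝓝 L0)) (hV : Tendsto V l (𝓝 v)) : Tendsto (fun x => L x (V x)) l (𝓝 (L0 v)) :=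
  (isBoundedBilinearMap_apply.continuous.tendsto (L0, v)).comp (hL.prodMk_nhds hV)

section limits
variable {l : Filter (E d)} {M : E d → Bil d} {T : E d → Tri d} {V : E d → E d} {A : Bil d}
  {B : Tri d} {v : E d}

lemma tendsto_bil (hM : Tendsto M l (𝓝 A)) (a b : E d) :
    Tendsto (fun x => M x a b) l (𝓝 (A a b)) :=
  tcl (tcl hM tendsto_const_nhds) tendsto_const_nhds

lemma tendsto_tri (hT : Tendsto T l (𝓝 B)) (a b c : E d) :
    Tendsto (fun x => T x a b c) l (𝓝 (B a b c)) :=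
  tcl (tcl (tcl hT tendsto_const_nhds) tendsto_const_nhds) tendsto_const_nhds

lemma tendsto_hs2 (hM : Tendsto M l (𝓝 A)) : Tendsto (fun x => hs2 (M x)) l (𝓝 (hs2 A)) :=
  tendsto_finsetSum _ fun _ _ => tendsto_finsetSum _ fun _ _ => (tendsto_bil hM _ _).pow 2

lemma tendsto_tr3 (hM : Tendsto M l (𝓝 A)) : Tendsto (fun x => tr3 (M x)) l (𝓝 (tr3 A)) :=
  tendsto_finsetSum _ fun _ _ => tendsto_finsetSum _ fun _ _ => tendsto_finsetSum _ fun _ _ =>
    ((tendsto_bil hM _ _).mul (tendsto_bil hM _ _)).mul (tendsto_bil hM _ _)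

lemma tendsto_act (hM : Tendsto M l (𝓝 A)) (hV : Tendsto V l (𝓝 v)) :
    Tendsto (fun x => act (M x) (V x)) l (𝓝 (act A v)) :=
  tendsto_finsetSum _ fun _ _ =>
    (tcl (tcl hM hV) tendsto_const_nhds).smul_const _

lemma tendsto_TM (hM : Tendsto M l (𝓝 A)) (hT : Tendsto T l (𝓝 B)) :
    Tendsto (fun x => TM (M x) (T x)) l (𝓝 (TM A B)) :=
  tendsto_finsetSum _ fun _ _ => Tendsto.smul_const
    (tendsto_finsetSum _ fun _ _ => tendsto_finsetSum _ fun _ _ =>
      (tendsto_tri hT _ _ _).mul (tendsto_bil hM _ _)) _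

end limits

/-- **node RBDRY** -/
theorem rbdry {n : ℕ} {C : CertData} {Lam : ℝ} (hC : Cert n C Lam) {u : E (n + 1) → ℝ} (H : HC u)
    {y : E (n + 1)} (hy : y ∈ frontier (Om u)) (hy0 : y ≠ 0) {e : E (n + 1)} {A : Bil (n + 1)}
    {B : Tri (n + 1)} (hJ : Jets u y e A B) (hAee : A e e ≤ 0) :
    ∀ ε > 0, ∀ δ > 0, ∀ᶠ x in 𝓝[Om u] y, δ ≤ hs2 (D2 u x) →
      -ε ≤ fderiv ℝ u x (XC C u x - (wC C u x) ^ 2 • Zf u x) := by
  intro ε hε δ hδ
  have hyn : 0 < ‖y‖ := norm_pos_iff.mpr hy0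
  have hA : ∀ x y, A x y = A y x := hJ.kk.stfA.symm
  have huy : u y = 0 := by
    have h1 : y ∉ Om u := by
      intro h
      rw [H.isOpen.frontier_eq] at hy
      exact hy.2 h
    have h2 : u y ≤ 0 := not_lt.mp h1
    have h3 : 0 ≤ u y := by
      have h4 : closure (Om u) ⊆ {x | 0 ≤ u x} :=
        closure_minimal (fun x hx => (show 0 < u x from hx).le)
          (isClosed_le continuous_const H.cont)
      exact h4 (frontier_subset_closure hy)
    linarith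
  have hne : (𝓝[Om u] y).NeBot := mem_closure_iff_nhdsWithin_neBot.mp (frontier_subset_closure hy)
  have tid : Tendsto (fun x : E (n + 1) => x) (𝓝[Om u] y) (𝓝 y) := nhdsWithin_le_nhds
  have tn : Tendsto (fun x : E (n + 1) => ‖x‖) (𝓝[Om u] y) (𝓝 ‖y‖) := tid.norm
  have tu : Tendsto u (𝓝[Om u] y) (𝓝 0) := by
    have := (H.cont.tendsto y).mono_left (nhdsWithin_le_nhds (s := Om u))
    rwa [huy] at this
  have tg : Tendsto (fun x => ∇ u x) (𝓝[Om u] y) (𝓝 e) := by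
    have h1 := ((toDual ℝ (E (n + 1))).symm.continuous.tendsto _).comp hJ.t1
    have h2 : (toDual ℝ (E (n + 1))).symm (innerSL ℝ e) = e := by
      apply (toDual ℝ (E (n + 1))).injective
      rw [LinearIsometryEquiv.apply_symm_apply]
      rfl
    rw [h2] at h1
    exact h1
  -- `A y = 0`, `⟨e, y⟩ = 0`
  have hAy : ∀ v, A y v = 0 := by
    have h1 : Tendsto (fun x => D2 u x x) (𝓝[Om u] y) (𝓝 (A y)) := tcl hJ.t2 tid
    have h2 : Tendsto (fun x => D2 u x x) (𝓝[Om u] y) (𝓝 0) := by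
      refine tendsto_const_nhds.congr' ?_
      filter_upwards [self_mem_nhdsWithin] with x hx
      rw [H.euler2 hx]
    have h3 := tendsto_nhds_unique h1 h2
    intro v
    rw [h3]; rfl
  have hey : ⟪e, y⟫_ℝ = 0 := by
    have h1 : Tendsto (fun x => fderiv ℝ u x x) (𝓝[Om u] y) (𝓝 (innerSL ℝ e y)) :=
      tcl hJ.t1 tid
    have h2 : Tendsto (fun x => fderiv ℝ u x x) (𝓝[Om u] y) (𝓝 0) := by
      refine tu.congr' ?_
      filter_upwards [self_mem_nhdsWithin] with x hx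
      rw [H.euler1 hx]
    exact tendsto_nhds_unique h1 h2
  by_cases hA0 : hs2 A = 0
  · have h1 := tendsto_hs2 hJ.t2
    rw [hA0] at h1
    filter_upwards [h1.eventually (Iio_mem_nhds hδ)] with x hx hx2
    exact absurd hx2 (not_le.mpr hx)
  have hA1 : 0 < hs2 A := lt_of_le_of_ne (hs2_nonneg A) (Ne.symm hA0)
  set z : Fin 4 → ℝ := ![‖y‖ ^ 2 * hs2 A, ‖y‖ ^ 3 * tr3 A, 1, 0] with hz
  have hz0 : 0 < z 0 := by
    show 0 < ‖y‖ ^ 2 * hs2 A
    positivity
  have ts : Tendsto (fun x => u x / ‖x‖) (𝓝[Om u] y) (𝓝 0) := by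
    have := tu.div tn hyn.ne'
    rwa [zero_div] at this
  have tz : Tendsto (zN u) (𝓝[Om u] y) (𝓝 z) := by
    rw [tendsto_pi_nhds]
    intro i
    fin_cases i
    · exact (tn.pow 2).mul (tendsto_hs2 hJ.t2)
    · exact (tn.pow 3).mul (tendsto_tr3 hJ.t2)
    · show Tendsto (fun x => ‖∇ u x‖ ^ 2 - (u x / ‖x‖) ^ 2) (𝓝[Om u] y) (𝓝 1)
      have h1 := (tg.norm.pow 2).sub (ts.pow 2)
      rw [hJ.kk.norm_e] at h1
      simpa using h1
    · exact ts
  have tF : ∀ F : Coef, F.Ok → Tendsto (fun x => F.f (zN u x)) (𝓝[Om u] y) (𝓝 (F.f z)) :=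
    fun F hF => (Ok_contAt hF hz0).tendsto.comp tz
  have tZf : Tendsto (Zf u) (𝓝[Om u] y) (𝓝 (act A e)) := tendsto_act hJ.t2 tg
  have tW : Tendsto (W1f u) (𝓝[Om u] y) (𝓝 (‖y‖ ^ 2 • TM A B + hs2 A • y)) :=
    ((tn.pow 2).smul (tendsto_TM hJ.t2 hJ.t3)).add ((tendsto_hs2 hJ.t2).smul tid)
  have tG : Tendsto (gN u) (𝓝[Om u] y) (𝓝 e) := by
    have h1 : Tendsto (fun x => (u x / ‖x‖ ^ 2) • x) (𝓝[Om u] y) (𝓝 (((0:ℝ) / ‖y‖ ^ 2) • y)) :=
      (tu.div (tn.pow 2) (by positivity)).smul tid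
    have h2 := tg.sub h1
    rw [zero_div, zero_smul, sub_zero] at h2
    exact h2
  have tX : Tendsto (XC C u) (𝓝[Om u] y) (𝓝 (C.ga.f z • (‖y‖ ^ 2 • TM A B + hs2 A • y)
      + (C.y0.f z * ‖y‖⁻¹) • e + C.y1.f z • act A e + (C.y2.f z * ‖y‖) • act A (act A e)
      + (C.y3.f z * ‖y‖ ^ 2) • act A (act A (act A e)))) :=
    (((((tF _ hC.okga).smul tW).add (((tF _ hC.ok0).mul (tn.inv₀ hyn.ne')).smul tG)).add
      ((tF _ hC.ok1).smul tZf)).add (((tF _ hC.ok2).mul tn).smul (tendsto_act hJ.t2 tZf))).add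
      (((tF _ hC.ok3).mul (tn.pow 2)).smul (tendsto_act hJ.t2 (tendsto_act hJ.t2 tZf)))
  have tw : Tendsto (fun x => (wC C u x) ^ 2) (𝓝[Om u] y) (𝓝 ((Real.sqrt (C.Z.f z)) ^ 2)) :=
    ((Real.continuous_sqrt.tendsto _).comp (tF _ hC.okZ)).pow 2
  have tΦ := tcl hJ.t1 (tX.sub (tw.smul tZf))
  obtain ⟨⟨lam, k0, hl0, hlk, hl2, hl3⟩, hBA⟩ := bdry_alg hJ.kk hy0 hAy hey
  set α : ℝ := A e e with hα
  set W : ℝ := (Real.sqrt (C.Z.f z)) ^ 2 with hW
  have hWZ : C.Z.f z ≤ W := by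
    rw [hW]
    rcases le_total 0 (C.Z.f z) with h | h
    · rw [Real.sq_sqrt h]
    · exact h.trans (sq_nonneg _)
  have hact : act A e = α • e := by
    rw [← op_eq_act hA]
    refine ext_inner_left ℝ fun w => ?_
    rw [inner_op, hA, hJ.kk.A_apply, inner_smul_right, real_inner_comm]
  have hee : ⟪e, e⟫_ℝ = 1 := by rw [real_inner_self_eq_norm_sq, hJ.kk.norm_e]; norm_num
  have hact2 : act A (act A e) = α ^ 2 • e := by
    rw [hact, ← op_eq_act hA, map_smul, op_eq_act hA, hact, smul_smul]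
    ring_nf
  have hact3 : act A (act A (act A e)) = α ^ 3 • e := by
    rw [hact2, ← op_eq_act hA, map_smul, op_eq_act hA, hact, smul_smul]
    ring_nf
  have hval : innerSL ℝ e (C.ga.f z • (‖y‖ ^ 2 • TM A B + hs2 A • y)
      + (C.y0.f z * ‖y‖⁻¹) • e + C.y1.f z • act A e + (C.y2.f z * ‖y‖) • act A (act A e)
      + (C.y3.f z * ‖y‖ ^ 2) • act A (act A (act A e)) - W • act A e)
      = C.ga.f z * (‖y‖ ^ 2 * (2 * α * hs2 A - tr3 A)) + C.y0.f z * ‖y‖⁻¹ + C.y1.f z * α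
        + C.y2.f z * ‖y‖ * α ^ 2 + C.y3.f z * ‖y‖ ^ 2 * α ^ 3 - W * α := by
    rw [hact3, hact2, hact, innerSL_apply_apply]
    simp only [inner_add_right, inner_sub_right, inner_smul_right, hee, hey, inner_TM, hBA]
    ring
  have hBJ := hC.BJ lam k0 (-(‖y‖ * α)) hl0 (by rw [hl2]; positivity)
    (by nlinarith) (by rw [hlk]; ring)
  rw [hl2, hl3] at hBJ
  have hzz : (![‖y‖ ^ 2 * hs2 A, ‖y‖ ^ 3 * tr3 A, 1, 0] : Fin 4 → ℝ) = z := rfl
  rw [hzz] at hBJ
  have hL : 0 ≤ C.ga.f z * (‖y‖ ^ 2 * (2 * α * hs2 A - tr3 A)) + C.y0.f z * ‖y‖⁻¹ + C.y1.f z * α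
        + C.y2.f z * ‖y‖ * α ^ 2 + C.y3.f z * ‖y‖ ^ 2 * α ^ 3 - W * α := by
    have h1 : 0 ≤ ‖y‖ * (C.ga.f z * (‖y‖ ^ 2 * (2 * α * hs2 A - tr3 A)) + C.y0.f z * ‖y‖⁻¹
        + C.y1.f z * α + C.y2.f z * ‖y‖ * α ^ 2 + C.y3.f z * ‖y‖ ^ 2 * α ^ 3 - W * α) := by
      have h2 : ‖y‖ * (C.ga.f z * (‖y‖ ^ 2 * (2 * α * hs2 A - tr3 A)) + C.y0.f z * ‖y‖⁻¹
          + C.y1.f z * α + C.y2.f z * ‖y‖ * α ^ 2 + C.y3.f z * ‖y‖ ^ 2 * α ^ 3 - W * α)
          = (-(‖y‖ * α) * C.Z.f z + C.y0.f z - -(‖y‖ * α) * C.y1.f z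
            + (-(‖y‖ * α)) ^ 2 * C.y2.f z - (-(‖y‖ * α)) ^ 3 * C.y3.f z
            - C.ga.f z * (2 * -(‖y‖ * α) * (‖y‖ ^ 2 * hs2 A)
            + ‖y‖ ^ 3 * tr3 A)) + (-(‖y‖ * α)) * (W - C.Z.f z) := by
        field_simp
        ring
      rw [h2]
      have h3 : 0 ≤ (-(‖y‖ * α)) * (W - C.Z.f z) :=
        mul_nonneg (by nlinarith) (by linarith)
      linarith
    exact nonneg_of_mul_nonneg_right h1 hyn
  rw [hval] at tΦ
  have h5 := tΦ.eventually (Ioi_mem_nhds (show C.ga.f z * (‖y‖ ^ 2 * (2 * α * hs2 A - tr3 A))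
      + C.y0.f z * ‖y‖⁻¹ + C.y1.f z * α + C.y2.f z * ‖y‖ * α ^ 2
      + C.y3.f z * ‖y‖ ^ 2 * α ^ 3 - W * α - ε
      < C.ga.f z * (‖y‖ ^ 2 * (2 * α * hs2 A - tr3 A))
      + C.y0.f z * ‖y‖⁻¹ + C.y1.f z * α + C.y2.f z * ‖y‖ * α ^ 2
      + C.y3.f z * ‖y‖ ^ 2 * α ^ 3 - W * α by linarith))
  filter_upwards [h5] with x hx _
  have hx' : C.ga.f z * (‖y‖ ^ 2 * (2 * α * hs2 A - tr3 A))
      + C.y0.f z * ‖y‖⁻¹ + C.y1.f z * α + C.y2.f z * ‖y‖ * α ^ 2
      + C.y3.f z * ‖y‖ ^ 2 * α ^ 3 - W * α - ε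
      < fderiv ℝ u x (XC C u x - (wC C u x) ^ 2 • Zf u x) := hx
  linarith

end RB
end Crest.Agent.R097
end

-- ▼ part R097/RState
section

/-!
# Row 97, node [RSTATE] (helper430): the link state `(lam, g, s, τ)` of a frame is admissible
-/

set_option autoImplicit false
set_option synthInstance.maxHeartbeats 400000
open MeasureTheory Metric Set Filter Topology InnerProductSpace
open scoped RealInnerProductSpace NNReal ENNReal Gradient Laplacian Pointwise

namespace Crest.Agent.R097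

section basis

variable {d : ℕ} {ι : Type*} [Fintype ι] (e : OrthonormalBasis ι ℝ (E d))

/-- scalar products of two functionals in an orthonormal basis -/
lemma sum_mul_onb (L M : E d →L[ℝ] ℝ) : ∑ i, L (bv i) * M (bv i) = ∑ c, L (e c) * M (e c) :=
  (tr_onb e (L.smulRight M)).symm

lemma hs2_onb (A : Bil d) : hs2 A = ∑ a, ∑ b, A (e a) (e b) ^ 2 := by
  unfold hs2
  have h1 : ∀ i, ∑ j, (A (bv i) (bv j)) ^ 2 = ∑ b, A (bv i) (e b) ^ 2 := by
    intro i
    have := sum_mul_onb e (A (bv i)) (A (bv i))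
    simpa only [← sq] using this
  simp_rw [h1]
  rw [Finset.sum_comm]
  have h2 : ∀ b, ∑ i, (A (bv i) (e b)) ^ 2 = ∑ a, A (e a) (e b) ^ 2 := by
    intro b
    have := sum_mul_onb e (A.flip (e b)) (A.flip (e b))
    simpa only [← sq, ContinuousLinearMap.flip_apply] using this
  simp_rw [h2]
  rw [Finset.sum_comm]


lemma normsq_onb (L : E d →L[ℝ] ℝ) : ‖L‖ ^ 2 = ∑ c, L (e c) ^ 2 := by
  set w := (toDual ℝ (E d)).symm L with hw
  have h1 : ‖L‖ = ‖w‖ := by rw [hw, LinearIsometryEquiv.norm_map]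
  have h2 : ∀ v, L v = ⟪w, v⟫_ℝ := fun v => by rw [hw, toDual_symm_apply]
  rw [h1, ← e.sum_sq_norm_inner_left w]
  refine Finset.sum_congr rfl fun c _ => ?_
  rw [h2, Real.norm_eq_abs, sq_abs]

end basis

namespace Frame

variable {n : ℕ} {u : E (n + 1) → ℝ} {x : E (n + 1)}

lemma D2_succ (F : Frame u x) (v : E (n + 1)) (k : Fin n) :
    ‖x‖ * D2 u x v (F.e k.succ) = F.lam k * ⟪v, F.e k.succ⟫_ℝ := by
  rw [← inner_Nop, F.eig k, inner_smul_right]

lemma D2_zero (F : Frame u x) (H : HC u) (hx : x ∈ Om u) (v : E (n + 1)) :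
    D2 u x v (F.e 0) = 0 := by
  rw [F.e0, map_smul, H.euler2' hx, smul_zero]

lemma D2_zero' (F : Frame u x) (H : HC u) (hx : x ∈ Om u) (v : E (n + 1)) :
    D2 u x (F.e 0) v = 0 := by
  rw [H.symm2 hx, F.D2_zero H hx]

lemma D2_ss (F : Frame u x) (a b : Fin n) :
    ‖x‖ * D2 u x (F.e a.succ) (F.e b.succ) = if a = b then F.lam b else 0 := by
  rw [F.D2_succ]
  have h := orthonormal_iff_ite.1 F.e.orthonormal a.succ b.succ
  rw [h]
  by_cases hab : a = b
  · subst hab; simp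
  · rw [if_neg hab, if_neg (fun h' => hab (Fin.succ_injective _ h')), mul_zero]

lemma sum_lam (F : Frame u x) (H : HC u) (hx : x ∈ Om u) : ∑ i, F.lam i = 0 := by
  have h1 := tr_onb F.e (D2 u x)
  rw [H.tr2 hx, Fin.sum_univ_succ, F.D2_zero H hx, zero_add] at h1
  have h2 : ∑ i, F.lam i = ‖x‖ * ∑ i : Fin n, D2 u x (F.e i.succ) (F.e i.succ) := by
    rw [Finset.mul_sum]
    exact Finset.sum_congr rfl fun i _ => by rw [F.D2_ss, if_pos rfl]
  rw [h2, h1, mul_zero]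

lemma sum_lam2 (F : Frame u x) (H : HC u) (hx : x ∈ Om u) :
    ∑ i, F.lam i ^ 2 = ‖x‖ ^ 2 * hs2 (D2 u x) := by
  rw [hs2_onb F.e]
  simp only [Fin.sum_univ_succ, F.D2_zero H hx, F.D2_zero' H hx]
  simp only [ne_eq, OfNat.ofNat_ne_zero, not_false_eq_true, zero_pow, Finset.sum_const_zero,
    zero_add, add_zero]
  rw [Finset.mul_sum]
  refine Finset.sum_congr rfl fun a _ => ?_
  rw [Finset.mul_sum]
  have : ∀ b, ‖x‖ ^ 2 * D2 u x (F.e a.succ) (F.e b.succ) ^ 2 =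
      if a = b then F.lam b ^ 2 else 0 := by
    intro b
    rw [← mul_pow, F.D2_ss]
    split_ifs <;> simp
  simp_rw [this]
  rw [Finset.sum_ite_eq Finset.univ a, if_pos (Finset.mem_univ _)]


lemma D1_zero (F : Frame u x) (H : HC u) (hx : x ∈ Om u) : fderiv ℝ u x (F.e 0) = sN u x := by
  rw [F.e0, map_smul, H.euler1 hx, smul_eq_mul, sN]
  ring

lemma sum_g2 (F : Frame u x) (H : HC u) (hx : x ∈ Om u) :
    (∑ i, F.g i ^ 2) + sN u x ^ 2 = ‖fderiv ℝ u x‖ ^ 2 := by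
  rw [normsq_onb F.e (fderiv ℝ u x), Fin.sum_univ_succ, F.D1_zero H hx, add_comm]
  rfl



lemma stf (F : Frame u x) (H : HC u) (hx : x ∈ Om u) : STF F.tau := by
  refine ⟨fun a b c => ?_, fun a b c => ?_, fun k => ?_⟩
  · unfold tau; rw [H.symm3a hx]
  · unfold tau; rw [H.symm3b hx]
  · unfold tau
    rw [← Finset.mul_sum]
    have h1 : ∀ v w : E (n + 1), D3 u x v v w = D3 u x w v v := by
      intro v w
      rw [H.symm3b hx, H.symm3a hx]
    simp_rw [h1]
    have h2 := tr_onb F.e (D3 u x (F.e k.succ))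
    rw [H.tr3 hx, Fin.sum_univ_succ] at h2
    have h3 : D3 u x (F.e k.succ) (F.e 0) (F.e 0) = 0 := by
      rw [F.e0, map_smul, H.euler3b hx, map_smul, H.euler2' hx]
      simp
    rw [h3, zero_add] at h2
    rw [h2, mul_zero]

lemma adm (F : Frame u x) (H : HC u) (hA : Apr u) (hx : x ∈ Wn u) : Adm F.lam F.g (sN u x) := by
  have hxO : x ∈ Om u := hx.1
  have hx0 : x ≠ 0 := H.ne_zero hxO
  have hn : 0 < ‖x‖ := norm_pos_iff.2 hx0
  have hux : 0 < u x := hxO
  have hg := F.sum_g2 H hxO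
  refine ⟨F.sum_lam H hxO, ?_, ?_, ?_, ?_⟩
  · rw [F.sum_lam2 H hxO]
    exact mul_pos (by positivity) hx.2
  · unfold sN; positivity
  · rw [hg]
    have h1 := hA.grad x hxO
    have h2 := norm_nonneg (fderiv ℝ u x)
    nlinarith
  · have h1 := hA.ap x hxO
    have e1 : sN u x ^ 2 * ∑ i, F.lam i ^ 2 = u x ^ 2 * hs2 (D2 u x) := by
      rw [F.sum_lam2 H hxO]
      unfold sN
      field_simp
    have e2 : 1 - ((∑ i, F.g i ^ 2) + sN u x ^ 2) ^ 2 = 1 - ‖fderiv ℝ u x‖ ^ 4 := by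
      rw [hg]; ring
    rw [e1, e2]
    refine h1.trans (le_of_eq ?_)
    congr 1
    push_cast
    congr 1 <;> ring

end Frame

end Crest.Agent.R097
end

-- ▼ part R097/RedDec
section

/-!
# Row 97: decoupling and elimination of the third derivatives (helper226)

Pure algebra.  `T` is a totally symmetric trace-free 3-tensor, `lam` the eigenvalues of the Hessian.
For the small-state class (`X = γ (M:T) + (y₀ + y₁ M + y₂ M²) q`) the certificate inequality follows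
from one inequality in four real variables for every eigendirection `k`.
-/

set_option autoImplicit false
open Finset

namespace Crest.Agent.R097.Dec

variable {n : ℕ}

/-- `τ_k = ∑ λ_i T_iik` -/
def tau (lam : Fin n → ℝ) (T : Fin n → Fin n → Fin n → ℝ) (k : Fin n) : ℝ := ∑ i, lam i * T i i k





/-- the norm of a totally symmetric tensor -/
theorem norm_sq_ge {T : Fin n → Fin n → Fin n → ℝ} (h12 : ∀ i j k, T i j k = T j i k)
    (h23 : ∀ i j k, T i j k = T i k j) :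
    ∑ k, ∑ i, (if i = k then 1 else 3) * T i i k ^ 2 ≤ ∑ i, ∑ j, ∑ k, T i j k ^ 2 := by
  have h1 : ∀ i j k, (if i = j then T i i k ^ 2 else 0) +
      (if j = k ∧ i ≠ j then T j j i ^ 2 else 0) + (if i = k ∧ j ≠ i then T i i j ^ 2 else 0) ≤
      T i j k ^ 2 := by
    intro i j k
    by_cases hij : i = j
    · subst hij
      simp
    · by_cases hjk : j = k
      · subst hjk
        have e : T j j i = T i j j := by rw [h23 j j i, h12 j i j]
        simp [hij, e]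
      · by_cases hik : i = k
        · subst hik
          have e : T i i j = T i j i := h23 i i j
          simp [hij, Ne.symm hij, e]
        · simp [hij, hjk, hik, sq_nonneg]
  have h2 := Finset.sum_le_sum fun i (_ : i ∈ Finset.univ) => Finset.sum_le_sum fun j
    (_ : j ∈ Finset.univ) => Finset.sum_le_sum fun k (_ : k ∈ Finset.univ) => h1 i j k
  refine le_trans (le_of_eq ?_) h2
  simp only [Finset.sum_add_distrib]
  have a1 : ∑ i, ∑ j, ∑ k, (if i = j then T i i k ^ 2 else 0) = ∑ k, ∑ i, T i i k ^ 2 := by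
    have : ∀ i, ∑ j, ∑ k, (if i = j then T i i k ^ 2 else 0) = ∑ k, T i i k ^ 2 := by
      intro i
      rw [Finset.sum_comm]
      refine Finset.sum_congr rfl fun k _ => ?_
      rw [Finset.sum_ite_eq, if_pos (Finset.mem_univ i)]
    simp only [this]
    rw [Finset.sum_comm]
  have a2 : ∑ i, ∑ j, ∑ k, (if j = k ∧ i ≠ j then T j j i ^ 2 else 0) =
      ∑ i, ∑ j, (if i ≠ j then T j j i ^ 2 else 0) := by
    refine Finset.sum_congr rfl fun i _ => Finset.sum_congr rfl fun j _ => ?_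
    by_cases h : i = j
    · simp [h]
    · simp [h]
  have a3 : ∑ i, ∑ j, ∑ k, (if i = k ∧ j ≠ i then T i i j ^ 2 else 0) =
      ∑ i, ∑ j, (if j ≠ i then T i i j ^ 2 else 0) := by
    refine Finset.sum_congr rfl fun i _ => Finset.sum_congr rfl fun j _ => ?_
    by_cases h : j = i
    · simp [h]
    · simp [h]
  rw [a1, a2, a3]
  rw [Finset.sum_comm (f := fun i j => if j ≠ i then T i i j ^ 2 else 0)]
  rw [← Finset.sum_add_distrib, ← Finset.sum_add_distrib]
  refine Finset.sum_congr rfl fun k _ => ?_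
  rw [← Finset.sum_add_distrib, ← Finset.sum_add_distrib]
  refine Finset.sum_congr rfl fun i _ => ?_
  by_cases h : i = k
  · subst h; simp
  · simp [h, Ne.symm h]; ring


end Crest.Agent.R097.Dec
end

-- ▼ part R097/RApri
section

/-!
# Row 97: the a priori inequality `u² |D²u|² ≤ ((3d-2)/(d+2)) (1 - |Du|²)` on a regular cone
-/

set_option autoImplicit false
open MeasureTheory Metric Set Filter Topology Laplacian InnerProductSpace
open scoped RealInnerProductSpace NNReal ContDiff Gradient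

namespace Crest.Agent.R097
noncomputable section
variable {d : ℕ}

/-- Hilbert–Schmidt norm squared of a trilinear form -/
def hs3 (B : Tri d) : ℝ := ∑ k, ∑ i, ∑ j, (B (bv k) (bv i) (bv j)) ^ 2




namespace Hm

lemma lap_finsum {ι : Type*} (s : Finset ι) {f : ι → E d → ℝ} {x : E d}
    (hf : ∀ i ∈ s, ContDiffAt ℝ 2 (f i) x) :
    (Δ (fun y => ∑ i ∈ s, f i y)) x = ∑ i ∈ s, (Δ (f i)) x := by
  classical
  induction s using Finset.induction_on with
  | empty =>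
    simp only [Finset.sum_empty]
    simp
  | insert a s ha ih =>
    simp only [Finset.sum_insert ha]
    rw [lap_add_at (hf a (Finset.mem_insert_self a s))
      (ContDiffAt.sum fun i hi => hf i (Finset.mem_insert_of_mem hi)),
      ih fun i hi => hf i (Finset.mem_insert_of_mem hi)]

lemma lap_sq {g : E d → ℝ} {x : E d} (hg : ContDiffAt ℝ 2 g x) (h0 : (Δ g) x = 0) :
    (Δ (fun y => g y ^ 2)) x = 2 * ∑ i, (fderiv ℝ g x (bv i)) ^ 2 := by
  have h1 := lap_mul hg hg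
  have h2 : (fun y => g y ^ 2) = fun y => g y * g y := by ext y; ring
  rw [h2, h1, h0]
  simp only [zero_mul, mul_zero, zero_add, add_zero]
  congr 1
  exact Finset.sum_congr rfl fun i _ => by ring

end Hm

section calc_
variable {u : E d → ℝ} {x : E d} {U : Set (E d)}

/-- second derivatives as functions: derivative -/
lemma hasFDerivAt_D2e (hu : ContDiffAt ℝ ∞ u x) (i j : Fin d) :
    HasFDerivAt (fun y => D2 u y (bv i) (bv j)) (((D3 u x).flip (bv i)).flip (bv j)) x := by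
  have hD1 : ContDiffAt ℝ ∞ (fderiv ℝ u) x := hu.fderiv_right (by simp)
  have hD2 : ContDiffAt ℝ ∞ (fderiv ℝ (fderiv ℝ u)) x := hD1.fderiv_right (by simp)
  exact Hm.hasFDerivAt_app2 (hD2.differentiableAt (by simp)).hasFDerivAt (bv i) (bv j)

lemma contDiffAt_D2e (hu : ContDiffAt ℝ ∞ u x) (i j : Fin d) :
    ContDiffAt ℝ ∞ (fun y => D2 u y (bv i) (bv j)) x := by
  have hD1 : ContDiffAt ℝ ∞ (fderiv ℝ u) x := hu.fderiv_right (by simp)
  have hD2 : ContDiffAt ℝ ∞ (fderiv ℝ (fderiv ℝ u)) x := hD1.fderiv_right (by simp)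
  exact (hD2.clm_apply contDiffAt_const).clm_apply contDiffAt_const

lemma contDiffAt_D1e (hu : ContDiffAt ℝ ∞ u x) (i : Fin d) :
    ContDiffAt ℝ ∞ (fun y => fderiv ℝ u y (bv i)) x := by
  have hD1 : ContDiffAt ℝ ∞ (fderiv ℝ u) x := hu.fderiv_right (by simp)
  exact hD1.clm_apply contDiffAt_const

lemma lap_D1e (hU : IsOpen U) (hu : ContDiffOn ℝ ∞ u U) (h0 : ∀ y ∈ U, (Δ u) y = 0) (hx : x ∈ U)
    (i : Fin d) : (Δ (fun y => fderiv ℝ u y (bv i))) x = 0 := by
  have h1 := Hm.lap_fderiv hU hu h0 x hx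
  have hD : ContDiffAt ℝ 2 (fderiv ℝ u) x :=
    contDiffOn_infty.mp (Hm.contDiffOn_fderiv hU hu) 2 |>.contDiffAt (hU.mem_nhds hx)
  have h2 := hD.laplacian_CLM_comp_left (l := ContinuousLinearMap.apply ℝ ℝ (bv i))
  have h3 : (ContinuousLinearMap.apply ℝ ℝ (bv i)) ∘ (fderiv ℝ u) = fun y => fderiv ℝ u y (bv i) := rfl
  rw [h3] at h2
  rw [h2]
  simp [h1]

lemma lap_D2e (hU : IsOpen U) (hu : ContDiffOn ℝ ∞ u U) (h0 : ∀ y ∈ U, (Δ u) y = 0) (hx : x ∈ U)
    (i j : Fin d) : (Δ (fun y => D2 u y (bv i) (bv j))) x = 0 := by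
  have hf1 := Hm.contDiffOn_fderiv hU hu
  have h1 := Hm.lap_fderiv hU hf1 (Hm.lap_fderiv hU hu h0) x hx
  have hD : ContDiffAt ℝ 2 (fderiv ℝ (fderiv ℝ u)) x :=
    contDiffOn_infty.mp (Hm.contDiffOn_fderiv hU hf1) 2 |>.contDiffAt (hU.mem_nhds hx)
  have h2 := hD.laplacian_CLM_comp_left (l := ContinuousLinearMap.apply ℝ (E d →L[ℝ] ℝ) (bv i))
  have h3 : (ContinuousLinearMap.apply ℝ (E d →L[ℝ] ℝ) (bv i)) ∘ (fderiv ℝ (fderiv ℝ u))
    = fun y => fderiv ℝ (fderiv ℝ u) y (bv i) := rfl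
  rw [h3] at h2
  have hD' : ContDiffAt ℝ 2 (fun y => fderiv ℝ (fderiv ℝ u) y (bv i)) x :=
    hD.clm_apply contDiffAt_const
  have h4 := hD'.laplacian_CLM_comp_left (l := ContinuousLinearMap.apply ℝ ℝ (bv j))
  have h5 : (ContinuousLinearMap.apply ℝ ℝ (bv j)) ∘ (fun y => fderiv ℝ (fderiv ℝ u) y (bv i))
    = fun y => D2 u y (bv i) (bv j) := rfl
  rw [h5] at h4
  rw [h4, Function.comp_apply, h2]
  simp [h1]

/-- the jets of a harmonic function -/
lemma stf2_of_harm (hU : IsOpen U) (hu : ContDiffOn ℝ ∞ u U) (h0 : ∀ y ∈ U, (Δ u) y = 0)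
    (hx : x ∈ U) : STF2 (D2 u x) := by
  refine ⟨fun a b => Hm.symm2 (hu.contDiffAt (hU.mem_nhds hx)) a b, ?_⟩
  have := h0 x hx
  rw [Hm.lap_F] at this
  exact this


lemma lap_normsq_D1 (hU : IsOpen U) (hu : ContDiffOn ℝ ∞ u U) (h0 : ∀ y ∈ U, (Δ u) y = 0)
    (hx : x ∈ U) : (Δ (fun y => ∑ i, (fderiv ℝ u y (bv i)) ^ 2)) x = 2 * hs2 (D2 u x) := by
  have hxa : ContDiffAt ℝ ∞ u x := hu.contDiffAt (hU.mem_nhds hx)
  have hD1 : ContDiffAt ℝ ∞ (fderiv ℝ u) x := hxa.fderiv_right (by simp)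
  have hc : ∀ i : Fin d, ContDiffAt ℝ 2 (fun y => fderiv ℝ u y (bv i)) x :=
    fun i => contDiffAt_infty.mp (contDiffAt_D1e hxa i) 2
  rw [Hm.lap_finsum _ fun i _ => (hc i).pow 2]
  simp_rw [fun i => Hm.lap_sq (hc i) (lap_D1e hU hu h0 hx i)]
  rw [← Finset.mul_sum, hs2]
  congr 1
  refine Finset.sum_congr rfl fun i _ => Finset.sum_congr rfl fun j _ => ?_
  have h1 := Hm.hasFDerivAt_app (hD1.differentiableAt (by simp)).hasFDerivAt (bv i)
  rw [h1.fderiv]
  have h2 : (fderiv ℝ (fderiv ℝ u) x).flip (bv i) (bv j) = D2 u x (bv j) (bv i) := rfl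
  rw [h2, (stf2_of_harm hU hu h0 hx).symm]

lemma lap_hs2 (hU : IsOpen U) (hu : ContDiffOn ℝ ∞ u U) (h0 : ∀ y ∈ U, (Δ u) y = 0)
    (hx : x ∈ U) : (Δ (fun y => hs2 (D2 u y))) x = 2 * hs3 (D3 u x) := by
  have hxa : ContDiffAt ℝ ∞ u x := hu.contDiffAt (hU.mem_nhds hx)
  have hc : ∀ i j : Fin d, ContDiffAt ℝ 2 (fun y => D2 u y (bv i) (bv j)) x :=
    fun i j => contDiffAt_infty.mp (contDiffAt_D2e hxa i j) 2
  unfold hs2
  rw [Hm.lap_finsum _ fun i _ => ContDiffAt.sum fun j _ => (hc i j).pow 2]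
  have h1 : ∀ i : Fin d, (Δ (fun y => ∑ j, (D2 u y (bv i) (bv j)) ^ 2)) x
      = ∑ j, 2 * ∑ k, (D3 u x (bv k) (bv i) (bv j)) ^ 2 := by
    intro i
    rw [Hm.lap_finsum _ fun j _ => (hc i j).pow 2]
    refine Finset.sum_congr rfl fun j _ => ?_
    rw [Hm.lap_sq (hc i j) (lap_D2e hU hu h0 hx i j), (hasFDerivAt_D2e hxa i j).fderiv]
    rfl
  simp_rw [h1]
  unfold hs3
  simp_rw [← Finset.mul_sum]
  congr 1
  rw [Finset.sum_congr rfl fun i _ => Finset.sum_comm]
  rw [Finset.sum_comm]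





end calc_

/-! ### homogeneity -/

lemma D1_hom {u : E d → ℝ} (hh : Hom1 u) {r : ℝ} (hr : 0 < r) (x : E d) :
    fderiv ℝ u (r • x) = fderiv ℝ u x := by
  have h1 : (fun y => u (r • y)) = fun y => r • u y := by ext y; exact hh r hr y
  have h2 : fderiv ℝ (fun y => u (r • y)) x = r • fderiv ℝ u (r • x) := fderiv_comp_smul (f := u) r
  have h3 : fderiv ℝ (fun y => r • u y) x = r • fderiv ℝ u x :=
    congrFun (fderiv_const_smul_field (R := ℝ) (𝕜 := ℝ) (f := u) r) x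
  rw [h1, h3] at h2
  exact (smul_right_injective _ hr.ne' h2).symm

lemma D2_hom {u : E d → ℝ} (hh : Hom1 u) {r : ℝ} (hr : 0 < r) (x : E d) :
    r • D2 u (r • x) = D2 u x := by
  have h1 : (fun y => fderiv ℝ u (r • y)) = fderiv ℝ u := by ext y; rw [D1_hom hh hr]
  have h2 : fderiv ℝ (fun y => fderiv ℝ u (r • y)) x = r • fderiv ℝ (fderiv ℝ u) (r • x) :=
    fderiv_comp_smul (f := fderiv ℝ u) r
  rw [h1] at h2
  exact h2.symm





end
end Crest.Agent.R097
end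

-- ▼ part R097/RedGrad
section

/-!
# Row 97, reduction: `|∇u| ≤ 1` for regular cones and the sign of the mean curvature (helper392)
-/

set_option autoImplicit false
open MeasureTheory Metric Set Filter Topology InnerProductSpace
open scoped RealInnerProductSpace NNReal ENNReal Gradient Laplacian

namespace Crest.Agent.R097

variable {d : ℕ}

namespace RG

/-! ### general facts -/

lemma dv_smul' {f : E d → ℝ} {Y : E d → E d} {x : E d} (hf : DifferentiableAt ℝ f x)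
    (h : DifferentiableAt ℝ Y x) :
    dv (fun y => f y • Y y) x = fderiv ℝ f x (Y x) + f x * dv Y x := by
  unfold dv
  rw [fderiv_fun_smul hf h, Finset.mul_sum]
  have e1 : fderiv ℝ f x (Y x) = ∑ i, Y x i * fderiv ℝ f x (bv i) := by
    conv_lhs => rw [← sum_bv (Y x), map_sum]
    simp [smul_eq_mul]
  rw [e1, ← Finset.sum_add_distrib]
  refine Finset.sum_congr rfl fun i _ => ?_
  simp only [add_apply, smul_apply, ContinuousLinearMap.smulRight_apply, PiLp.add_apply,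
    PiLp.smul_apply, smul_eq_mul]
  ring

lemma continuousOn_dv' {Y : E d → E d} {s : Set (E d)} (hs : IsOpen s)
    (hY : ContDiffOn ℝ 1 Y s) : ContinuousOn (dv Y) s := by
  unfold dv
  have h := hY.continuousOn_fderiv_of_isOpen hs le_rfl
  refine continuousOn_finsetSum _ fun i _ => ?_
  have h2 : ContinuousOn (fun x => fderiv ℝ Y x (bv i)) s := h.clm_apply continuousOn_const
  exact (EuclideanSpace.proj i : E d →L[ℝ] ℝ).continuous.comp_continuousOn h2

lemma inner_mp (u : E d → ℝ) (x v : E d) : ⟪mp u x, v⟫_ℝ = D2 u x (∇ u x) v := by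
  rw [apply_eq_sum (D2 u x (∇ u x)) v]
  conv_lhs => rw [← sum_bv v, inner_sum]
  refine Finset.sum_congr rfl fun i _ => ?_
  rw [inner_smul_right, inner_bv', mp_apply]

lemma D2_symm {u : E d → ℝ} {x : E d} (h : ContDiffAt ℝ 2 u x) (v w : E d) :
    D2 u x v w = D2 u x w v := h.isSymmSndFDerivAt (by simp) v w

/-- locally bounded Hessian near regular points -/
lemma D2_bdd {u : E d → ℝ} {K : ℝ≥0} (hu : LM u K) (hsm : ContDiffOn ℝ (⊤ : ℕ∞) u (Om u))
    {S : Set (E d)} (hS : IsCompact S) (hreg : ∀ y ∈ S, y ∈ frontier (Om u) → RegPt u y) :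
    ∃ C : ℝ, ∀ x ∈ Om u, x ∈ S → ‖D2 u x‖ ≤ C := by
  have hO : IsOpen (Om u) := isOpen_Om hu.continuous
  refine bdd_of_local hS fun y hyS hyc => ?_
  by_cases hy : y ∈ Om u
  · refine ⟨‖D2 u y‖ + 1, ?_⟩
    have h1 : ContinuousAt (fun x => ‖D2 u x‖) y :=
      (((contDiffOn_D2 hO hsm).contDiffAt (hO.mem_nhds hy)).continuousAt).norm
    exact (h1.eventually (eventually_le_nhds (by linarith))).filter_mono nhdsWithin_le_nhds
  · have hf : y ∈ frontier (Om u) := by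
      rw [hO.frontier_eq]; exact ⟨hyc, hy⟩
    obtain ⟨e, A, B, hj⟩ := hreg y hyS hf
    exact ⟨‖A‖ + 1, hj.t2.norm.eventually (eventually_le_nhds (by linarith))⟩

/-! ### the radial cut-off -/

/-- radial cut-off: one at distance `√s₀`, zero outside an annulus -/
noncomputable def eta (s₀ : ℝ) (x : E d) : ℝ :=
  Real.smoothTransition (2 * (‖x‖ ^ 2 / s₀) - 1) * Real.smoothTransition (3 - ‖x‖ ^ 2 / s₀)

lemma eta_nonneg (s₀ : ℝ) (x : E d) : 0 ≤ eta s₀ x :=
  mul_nonneg (Real.smoothTransition.nonneg _) (Real.smoothTransition.nonneg _)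

lemma eta_le_one (s₀ : ℝ) (x : E d) : eta s₀ x ≤ 1 :=
  mul_le_one₀ (Real.smoothTransition.le_one _) (Real.smoothTransition.nonneg _)
    (Real.smoothTransition.le_one _)

lemma eta_one {x : E d} (hx : x ≠ 0) : eta (‖x‖ ^ 2) x = 1 := by
  have h : ‖x‖ ^ 2 ≠ 0 := by positivity
  unfold eta
  rw [div_self h]
  rw [Real.smoothTransition.one_of_one_le (by norm_num),
    Real.smoothTransition.one_of_one_le (by norm_num), one_mul]

/-- the profile of the cut-off -/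
noncomputable def thet (s₀ s : ℝ) : ℝ :=
  Real.smoothTransition (2 * (s / s₀) - 1) * Real.smoothTransition (3 - s / s₀)

lemma contDiff_thet (s₀ : ℝ) {n : ℕ∞} : ContDiff ℝ n (thet s₀) := by
  unfold thet
  refine ContDiff.mul ?_ ?_
  · exact (Real.smoothTransition.contDiff (n := n)).comp (by fun_prop)
  · exact (Real.smoothTransition.contDiff (n := n)).comp (by fun_prop)

lemma hasFDerivAt_eta (s₀ : ℝ) (x : E d) :
    HasFDerivAt (eta s₀ : E d → ℝ) ((2 * deriv (thet s₀) (‖x‖ ^ 2)) • innerSL ℝ x) x := by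
  have h1 : HasFDerivAt (fun y : E d => ‖y‖ ^ 2) (2 • (innerSL ℝ x)) x := by
    simpa using (hasStrictFDerivAt_norm_sq (F := E d) x).hasFDerivAt
  have h2 : HasDerivAt (thet s₀) (deriv (thet s₀) (‖x‖ ^ 2)) (‖x‖ ^ 2) :=
    ((contDiff_thet s₀ (n := 1)).differentiable (by simp) _).hasDerivAt
  have h3 := h2.comp_hasFDerivAt x h1
  refine h3.congr_fderiv ?_
  ext v
  simp only [smul_apply, smul_eq_mul, nsmul_eq_mul]
  push_cast
  ring

lemma contDiff_eta (s₀ : ℝ) : ContDiff ℝ 1 (eta s₀ : E d → ℝ) :=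
  (contDiff_thet s₀ (n := 1)).comp (contDiff_norm_sq ℝ)

/-- the support annulus -/
def SS (s₀ : ℝ) : Set (E d) := {x | s₀ / 2 ≤ ‖x‖ ^ 2 ∧ ‖x‖ ^ 2 ≤ 3 * s₀}

lemma isCompact_SS (s₀ : ℝ) : IsCompact (SS s₀ : Set (E d)) := by
  refine (isCompact_closedBall (0 : E d) (Real.sqrt (3 * s₀))).of_isClosed_subset ?_ ?_
  · exact (isClosed_le continuous_const (continuous_norm.pow 2)).inter
      (isClosed_le (continuous_norm.pow 2) continuous_const)
  · intro x hx
    rw [mem_closedBall_zero_iff]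
    exact Real.le_sqrt_of_sq_le hx.2

lemma eta_zero {s₀ : ℝ} (hs : 0 < s₀) {x : E d} (hx : x ∉ SS s₀) : eta s₀ x = 0 := by
  unfold eta
  by_cases h : s₀ / 2 ≤ ‖x‖ ^ 2
  · have h2 : 3 * s₀ < ‖x‖ ^ 2 := by
      by_contra hc
      exact hx ⟨h, not_lt.1 hc⟩
    rw [Real.smoothTransition.zero_of_nonpos (x := 3 - ‖x‖ ^ 2 / s₀), mul_zero]
    rw [sub_nonpos, le_div_iff₀ hs]; exact h2.le
  · rw [Real.smoothTransition.zero_of_nonpos (x := 2 * (‖x‖ ^ 2 / s₀) - 1), zero_mul]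
    have h3 : ‖x‖ ^ 2 / s₀ ≤ 1 / 2 := by
      rw [div_le_iff₀ hs]; linarith [not_le.1 h]
    linarith

lemma deriv_smoothTransition_nonneg (s : ℝ) : 0 ≤ deriv Real.smoothTransition s :=
  Real.smoothTransition.monotone.deriv_nonneg

/-- the test field -/
noncomputable def Ff (u : E d → ℝ) (s₀ : ℝ) (x : E d) : E d :=
  (eta s₀ x * Real.smoothTransition (‖fderiv ℝ u x‖ ^ 2 - 1)) • mp u x

section main
variable {u : E d → ℝ} {K : ℝ≥0}

lemma dv_Ff (hu : LM u K) (hh : Hom1 u) (hha : Harm u (Om u)) (s₀ : ℝ) {x : E d}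
    (hx : x ∈ Om u) : dv (Ff u s₀) x =
      eta s₀ x * (deriv Real.smoothTransition (‖fderiv ℝ u x‖ ^ 2 - 1) * (2 * ‖mp u x‖ ^ 2)
        + Real.smoothTransition (‖fderiv ℝ u x‖ ^ 2 - 1) * hs (D2 u x)) := by
  have hO : IsOpen (Om u) := isOpen_Om hu.continuous
  have hnb : Om u ∈ 𝓝 x := hO.mem_nhds hx
  have hsm : ContDiffOn ℝ (⊤ : ℕ∞) u (Om u) := hha.1
  have hc2 : ContDiffAt ℝ 2 u x := (hsm.contDiffAt hnb).of_le two_le_smooth
  have hm : DifferentiableAt ℝ (mp u) x :=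
    ((contDiffOn_mp hO hsm).contDiffAt hnb).differentiableAt (by simp)
  have h1 : HasFDerivAt (fun y => ‖fderiv ℝ u y‖ ^ 2 - 1)
      ((2 : ℝ) • ((D2 u x).flip (∇ u x))) x := (hasFDerivAt_normsq hc2).sub_const 1
  have h2 : HasDerivAt Real.smoothTransition
      (deriv Real.smoothTransition (‖fderiv ℝ u x‖ ^ 2 - 1)) (‖fderiv ℝ u x‖ ^ 2 - 1) :=
    ((Real.smoothTransition.contDiff (n := 1)).differentiable (by simp) _).hasDerivAt
  have h3 := h2.comp_hasFDerivAt x h1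
  have h4 := (hasFDerivAt_eta s₀ x).mul h3
  have h5 : fderiv ℝ (fun y => eta s₀ y * Real.smoothTransition (‖fderiv ℝ u y‖ ^ 2 - 1)) x
      (mp u x) = eta s₀ x * (deriv Real.smoothTransition (‖fderiv ℝ u x‖ ^ 2 - 1) *
        (2 * ‖mp u x‖ ^ 2)) := by
    have h6 : HasFDerivAt (fun y => eta s₀ y * Real.smoothTransition (‖fderiv ℝ u y‖ ^ 2 - 1))
      _ x := h4
    rw [h6.fderiv]
    simp only [add_apply, smul_apply, smul_eq_mul, ContinuousLinearMap.flip_apply,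
      Function.comp_apply]
    have h7 : D2 u x (mp u x) (∇ u x) = ‖mp u x‖ ^ 2 := by
      rw [D2_symm hc2, ← inner_mp, real_inner_self_eq_norm_sq]
    have h8 : (innerSL ℝ x) (mp u x) = 0 := by
      rw [innerSL_apply_apply, real_inner_comm, inner_mp, D2_symm hc2]
      have : D2 u x x = 0 := FE.hess_self hh hc2
      rw [this]; rfl
    rw [h7, h8]
    ring
  have h9 : dv (Ff u s₀) x = fderiv ℝ (fun y => eta s₀ y *
      Real.smoothTransition (‖fderiv ℝ u y‖ ^ 2 - 1)) x (mp u x)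
      + (eta s₀ x * Real.smoothTransition (‖fderiv ℝ u x‖ ^ 2 - 1)) * dv (mp u) x :=
    dv_smul' h4.differentiableAt hm
  rw [h9, h5, dv_mp hO hsm hha.2 hx]
  ring

lemma contDiffOn_Ff (hu : LM u K) (hha : Harm u (Om u)) (s₀ : ℝ) :
    ContDiffOn ℝ 1 (Ff u s₀) (Om u) := by
  have hO : IsOpen (Om u) := isOpen_Om hu.continuous
  have hsm : ContDiffOn ℝ (⊤ : ℕ∞) u (Om u) := hha.1
  have h1 : ContDiffOn ℝ 1 (fun y => ‖fderiv ℝ u y‖ ^ 2 - 1) (Om u) := by
    have e : (fun y => ‖fderiv ℝ u y‖ ^ 2 - 1) = fun y => ‖∇ u y‖ ^ 2 - 1 := by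
      funext y; rw [norm_gradient]
    rw [e]
    exact (((contDiffOn_gradient hO hsm).of_le (by exact_mod_cast le_top)).norm_sq ℝ).sub
      contDiffOn_const
  have h2 : ContDiffOn ℝ 1 (fun y => Real.smoothTransition (‖fderiv ℝ u y‖ ^ 2 - 1)) (Om u) :=
    (Real.smoothTransition.contDiff (n := 1)).comp_contDiffOn h1
  exact (((contDiff_eta s₀).contDiffOn).mul h2).smul
    ((contDiffOn_mp hO hsm).of_le (by exact_mod_cast le_top))

/-- the Hessian vanishes where the gradient is larger than one -/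
theorem hess_zero (hu : LM u K) (hh : Hom1 u) (hha : Harm u (Om u))
    (hreg : ∀ y ∈ frontier (Om u), y ≠ 0 → RegPt u y) {x : E d} (hx : x ∈ Om u)
    (hg : 1 < ‖fderiv ℝ u x‖) : D2 u x = 0 := by
  have hO : IsOpen (Om u) := isOpen_Om hu.continuous
  have hsm : ContDiffOn ℝ (⊤ : ℕ∞) u (Om u) := hha.1
  have hx0 : x ≠ 0 := by
    rintro rfl
    have h1 : (0 : ℝ) < u 0 := hx
    rw [FE.hom1_zero hh] at h1
    exact lt_irrefl _ h1
  set s₀ : ℝ := ‖x‖ ^ 2 with hs₀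
  have hs0 : 0 < s₀ := by positivity
  set S : Set (E d) := SS s₀ with hS
  have hSc : IsCompact S := isCompact_SS s₀
  have hS0 : ∀ y ∈ S, y ≠ 0 := by
    rintro y hy rfl
    have := hy.1
    rw [norm_zero] at this
    norm_num at this
    linarith
  have hregS : ∀ y ∈ S, y ∈ frontier (Om u) → RegPt u y := fun y hy hf => hreg y hf (hS0 y hy)
  obtain ⟨C, hC⟩ := D2_bdd hu hsm hSc hregS
  have hK : ∀ y, ‖∇ u y‖ ≤ K := fun y => by
    rw [norm_gradient]; exact norm_fderiv_le_of_lip hu.lip y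
  have hmpb : ∀ y ∈ Om u, y ∈ S → ‖mp u y‖ ≤ |C| * K := by
    intro y hy hyS
    rw [norm_mp]
    refine (ContinuousLinearMap.le_opNorm _ _).trans ?_
    exact mul_le_mul ((hC y hy hyS).trans (le_abs_self _)) (hK y) (norm_nonneg _) (abs_nonneg _)
  obtain ⟨Cs, hCs⟩ := isCompact_Icc.exists_bound_of_continuousOn (s := Icc (-1 : ℝ) (K ^ 2))
    ((Real.smoothTransition.contDiff (n := 1)).continuous_deriv le_rfl).continuousOn
  have hsT : ∀ y, ‖deriv Real.smoothTransition (‖fderiv ℝ u y‖ ^ 2 - 1)‖ ≤ |Cs| := by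
    intro y
    refine (hCs _ ?_).trans (le_abs_self _)
    have h1 : ‖fderiv ℝ u y‖ ≤ K := norm_fderiv_le_of_lip hu.lip y
    have h2 : ‖fderiv ℝ u y‖ ^ 2 ≤ (K : ℝ) ^ 2 := pow_le_pow_left₀ (norm_nonneg _) h1 2
    exact ⟨by nlinarith [sq_nonneg ‖fderiv ℝ u y‖], by linarith⟩
  set Cb : ℝ := |Cs| * (2 * (|C| * K) ^ 2) + (d : ℝ) * (d * |C| ^ 2) with hCb
  have hdvb : ∀ y ∈ Om u, |dv (Ff u s₀) y| ≤ Cb := by
    intro y hy
    rw [dv_Ff hu hh hha s₀ hy]
    by_cases hyS : y ∈ S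
    · rw [abs_mul, abs_of_nonneg (eta_nonneg _ _)]
      have h1 := eta_le_one s₀ y
      have h2 := eta_nonneg s₀ y
      have h3 : |deriv Real.smoothTransition (‖fderiv ℝ u y‖ ^ 2 - 1) * (2 * ‖mp u y‖ ^ 2)
          + Real.smoothTransition (‖fderiv ℝ u y‖ ^ 2 - 1) * hs (D2 u y)| ≤ Cb := by
        refine (abs_add_le _ _).trans (add_le_add ?_ ?_)
        · rw [abs_mul, abs_of_nonneg (a := 2 * ‖mp u y‖ ^ 2) (by positivity)]
          refine mul_le_mul (hsT y) ?_ (by positivity) (abs_nonneg _)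
          have := pow_le_pow_left₀ (norm_nonneg _) (hmpb y hy hyS) 2
          linarith
        · rw [abs_mul, abs_of_nonneg (Real.smoothTransition.nonneg _),
            abs_of_nonneg (hs_nonneg _)]
          have h4 := hs_le (D2 u y)
          have h5 : ‖D2 u y‖ ^ 2 ≤ |C| ^ 2 :=
            pow_le_pow_left₀ (norm_nonneg _) ((hC y hy hyS).trans (le_abs_self _)) 2
          have h6 : (d : ℝ) * (d * ‖D2 u y‖ ^ 2) ≤ d * (d * |C| ^ 2) := by gcongr
          calc Real.smoothTransition (‖fderiv ℝ u y‖ ^ 2 - 1) * hs (D2 u y)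
              ≤ 1 * hs (D2 u y) :=
                mul_le_mul_of_nonneg_right (Real.smoothTransition.le_one _) (hs_nonneg _)
            _ ≤ _ := by rw [one_mul]; exact h4.trans h6
      calc _ ≤ 1 * Cb := mul_le_mul h1 h3 (abs_nonneg _) zero_le_one
        _ = Cb := one_mul _
    · rw [eta_zero hs0 hyS, zero_mul, abs_zero]
      positivity
  have hF0 : ∀ y, y ∉ S → Ff u s₀ y = 0 := by
    intro y hy
    unfold Ff
    rw [eta_zero hs0 hy, zero_mul, zero_smul]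
  have hFb : ∀ y ∈ Om u, ‖Ff u s₀ y‖ ≤ |C| * K := by
    intro y hy
    by_cases hyS : y ∈ S
    · unfold Ff
      rw [norm_smul, Real.norm_eq_abs, abs_mul, abs_of_nonneg (eta_nonneg _ _),
        abs_of_nonneg (Real.smoothTransition.nonneg _)]
      have h1 : eta s₀ y * Real.smoothTransition (‖fderiv ℝ u y‖ ^ 2 - 1) ≤ 1 :=
        mul_le_one₀ (eta_le_one _ _) (Real.smoothTransition.nonneg _)
          (Real.smoothTransition.le_one _)
      calc _ ≤ 1 * (|C| * K) := mul_le_mul h1 (hmpb y hy hyS) (norm_nonneg _) zero_le_one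
        _ = _ := one_mul _
    · rw [hF0 y hyS, norm_zero]; positivity
  -- boundary behaviour
  have hbd : ∀ y ∈ S, y ∈ frontier (Om u) → ∀ ε : ℝ, 0 < ε →
      ∀ᶠ z in 𝓝[Om u] y, -ε ≤ fderiv ℝ u z (Ff u s₀ z) := by
    intro y hyS hyf ε hε
    obtain ⟨e, A, B, hj⟩ := hregS y hyS hyf
    have h1 : Tendsto (fun z => Real.smoothTransition (‖fderiv ℝ u z‖ ^ 2 - 1)
        * (K * (|‖A‖ + 1| * K))) (𝓝[Om u] y) (𝓝 (0 * (K * (|‖A‖ + 1| * K)))) := by
      refine Tendsto.mul_const _ ?_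
      have h2 : Tendsto (fun z => ‖fderiv ℝ u z‖ ^ 2 - 1) (𝓝[Om u] y) (𝓝 (1 - 1)) :=
        hj.norm_sq.sub_const 1
      have h3 := (Real.smoothTransition.continuous.tendsto (1 - 1)).comp h2
      rw [sub_self, Real.smoothTransition.zero] at h3
      exact h3
    rw [zero_mul] at h1
    have h4 : ∀ᶠ z in 𝓝[Om u] y, ‖D2 u z‖ ≤ ‖A‖ + 1 :=
      hj.t2.norm.eventually (eventually_le_nhds (by linarith))
    filter_upwards [h1.eventually (eventually_le_nhds hε), h4] with z hz1 hz2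
    have h5 : |fderiv ℝ u z (Ff u s₀ z)| ≤ Real.smoothTransition (‖fderiv ℝ u z‖ ^ 2 - 1)
        * (K * (|‖A‖ + 1| * K)) := by
      unfold Ff
      rw [map_smul, smul_eq_mul, abs_mul, abs_mul, abs_of_nonneg (eta_nonneg _ _),
        abs_of_nonneg (Real.smoothTransition.nonneg _)]
      have h6 : |fderiv ℝ u z (mp u z)| ≤ K * (|‖A‖ + 1| * K) := by
        refine abs_clm_le (norm_fderiv_le_of_lip hu.lip z) ?_
        rw [norm_mp]
        refine (ContinuousLinearMap.le_opNorm _ _).trans ?_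
        exact mul_le_mul (hz2.trans (le_abs_self _)) (hK z) (norm_nonneg _) (abs_nonneg _)
      have h7 : eta s₀ z * Real.smoothTransition (‖fderiv ℝ u z‖ ^ 2 - 1)
          ≤ Real.smoothTransition (‖fderiv ℝ u z‖ ^ 2 - 1) := by
        have := mul_le_mul_of_nonneg_right (eta_le_one s₀ z)
          (Real.smoothTransition.nonneg (‖fderiv ℝ u z‖ ^ 2 - 1))
        rwa [one_mul] at this
      exact mul_le_mul h7 h6 (abs_nonneg _) (Real.smoothTransition.nonneg _)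
    have := (abs_le.1 h5).1
    linarith
  have hflux := flux hu hsm hha.2 hSc hregS (contDiffOn_Ff hu hha s₀) hF0
    (C := max (|C| * K) Cb) (fun y hy => (hFb y hy).trans (le_max_left _ _))
    (fun y hy => (hdvb y hy).trans (le_max_right _ _)) hbd
  -- the divergence is nonnegative, hence zero
  have hnn : ∀ y ∈ Om u, 0 ≤ dv (Ff u s₀) y := by
    intro y hy
    rw [dv_Ff hu hh hha s₀ hy]
    have h1 := deriv_smoothTransition_nonneg (‖fderiv ℝ u y‖ ^ 2 - 1)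
    have h2 := Real.smoothTransition.nonneg (‖fderiv ℝ u y‖ ^ 2 - 1)
    have h3 := hs_nonneg (D2 u y)
    have h4 := eta_nonneg s₀ y
    positivity
  have hint : IntegrableOn (dv (Ff u s₀)) (Om u) := by
    refine Integrable.mono' (g := S.indicator fun _ => Cb) ?_
      (measurable_dv _).aestronglyMeasurable ?_
    · refine Integrable.restrict ?_
      rw [integrable_indicator_iff hSc.measurableSet]
      exact integrableOn_const (hSc.measure_lt_top.ne)
    · rw [ae_restrict_iff' hO.measurableSet]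
      refine Eventually.of_forall fun y hy => ?_
      by_cases hyS : y ∈ S
      · rw [indicator_of_mem hyS, Real.norm_eq_abs]; exact hdvb y hy
      · rw [indicator_of_notMem hyS, dv_eq_zero_of_compl hSc.isClosed hF0 hyS]
        simp
  have hzero : ∫ y in Om u, dv (Ff u s₀) y = 0 :=
    le_antisymm hflux (setIntegral_nonneg hO.measurableSet hnn)
  have hae : dv (Ff u s₀) =ᵐ[volume.restrict (Om u)] fun _ => 0 := by
    have h1 : 0 ≤ᵐ[volume.restrict (Om u)] dv (Ff u s₀) := by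
      rw [EventuallyLE, ae_restrict_iff' hO.measurableSet]
      exact Eventually.of_forall hnn
    exact (integral_eq_zero_iff_of_nonneg_ae h1 hint).1 hzero
  have heq := Measure.eqOn_open_of_ae_eq hae hO
    (continuousOn_dv' hO (contDiffOn_Ff hu hha s₀)) continuousOn_const
  have h1 : dv (Ff u s₀) x = 0 := heq hx
  rw [dv_Ff hu hh hha s₀ hx, hs₀, eta_one hx0, one_mul] at h1
  have h2 : 0 < Real.smoothTransition (‖fderiv ℝ u x‖ ^ 2 - 1) := by
    refine Real.smoothTransition.pos_of_pos ?_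
    nlinarith
  have h3 : 0 ≤ deriv Real.smoothTransition (‖fderiv ℝ u x‖ ^ 2 - 1) * (2 * ‖mp u x‖ ^ 2) :=
    mul_nonneg (deriv_smoothTransition_nonneg _) (by positivity)
  have h4 := hs_nonneg (D2 u x)
  have h5 : hs (D2 u x) = 0 := by
    by_contra hne
    have h6 : 0 < hs (D2 u x) := lt_of_le_of_ne h4 (Ne.symm hne)
    have := mul_pos h2 h6
    linarith
  -- vanishing Hilbert-Schmidt norm
  have h6 : ∀ i j, D2 u x (bv i) (bv j) = 0 := by
    intro i j
    unfold hs at h5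
    have h7 := (Finset.sum_eq_zero_iff_of_nonneg (fun i _ =>
      Finset.sum_nonneg fun j _ => sq_nonneg _)).1 h5 i (Finset.mem_univ _)
    have h8 := (Finset.sum_eq_zero_iff_of_nonneg (fun j _ => sq_nonneg _)).1 h7 j
      (Finset.mem_univ _)
    exact pow_eq_zero_iff (by norm_num) |>.1 h8
  have h7 : ∀ i, D2 u x (bv i) = 0 := by
    intro i
    ext v
    rw [apply_eq_sum (D2 u x (bv i)) v]
    simp [h6]
  ext v w
  conv_lhs => rw [← sum_bv v, map_sum]
  simp [h7]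

/-- a cone whose gradient is larger than one somewhere is linear on a half space -/
lemma lin_half (hu : LM u K) (hh : Hom1 u) (hha : Harm u (Om u))
    (hreg : ∀ y ∈ frontier (Om u), y ≠ 0 → RegPt u y) {x0 : E d} (hx0 : x0 ∈ Om u)
    (hg : 1 < ‖fderiv ℝ u x0‖) :
    ∀ x, 0 < fderiv ℝ u x0 x → x ∈ Om u ∧ fderiv ℝ u x = fderiv ℝ u x0 := by
  have hO : IsOpen (Om u) := isOpen_Om hu.continuous
  have hsm : ContDiffOn ℝ (⊤ : ℕ∞) u (Om u) := hha.1
  set p : E d →L[ℝ] ℝ := fderiv ℝ u x0 with hp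
  have hD1 : ContinuousOn (fderiv ℝ u) (Om u) := (contDiffOn_D1 hO hsm).continuousOn
  have hdiff : ∀ x ∈ Om u, DifferentiableAt ℝ u x := fun x hx =>
    (hsm.contDiffAt (hO.mem_nhds hx)).differentiableAt (by simp)
  have hdiff2 : ∀ x ∈ Om u, DifferentiableAt ℝ (fderiv ℝ u) x := fun x hx =>
    ((contDiffOn_D1 hO hsm).contDiffAt (hO.mem_nhds hx)).differentiableAt (by simp)
  set H : Set (E d) := {x | 0 < p x} with hH
  have hHc : IsPreconnected H := (convex_halfSpace_gt p.isLinear 0).isPreconnected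
  set W : Set (E d) := {x | x ∈ Om u ∧ fderiv ℝ u x = p} with hW
  have hWo : IsOpen W := by
    rw [isOpen_iff_mem_nhds]
    rintro x ⟨hx, hxp⟩
    have h1 : ∀ᶠ y in 𝓝 x, y ∈ Om u ∧ 1 < ‖fderiv ℝ u y‖ := by
      have h2 : ContinuousAt (fun y => ‖fderiv ℝ u y‖) x :=
        ((hD1 x hx).continuousAt (hO.mem_nhds hx)).norm
      have h3 : ∀ᶠ y in 𝓝 x, 1 < ‖fderiv ℝ u y‖ :=
        h2.eventually (lt_mem_nhds (by simp only; rw [hxp]; exact hg))
      filter_upwards [hO.mem_nhds hx, h3] with y h4 h5 using ⟨h4, h5⟩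
    obtain ⟨r, hr, hb⟩ := Metric.eventually_nhds_iff_ball.1 h1
    refine mem_of_superset (ball_mem_nhds x hr) fun y hy => ⟨(hb y hy).1, ?_⟩
    have h3 : fderiv ℝ u y = fderiv ℝ u x := by
      refine (convex_ball x r).is_const_of_fderivWithin_eq_zero (𝕜 := ℝ) (f := fderiv ℝ u) ?_ ?_
        hy (mem_ball_self hr)
      · exact fun w hw => (hdiff2 w (hb w hw).1).differentiableWithinAt
      · intro w hw
        rw [fderivWithin_of_isOpen isOpen_ball hw]
        exact hess_zero hu hh hha hreg (hb w hw).1 (hb w hw).2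
    rw [h3, hxp]
  have hval : ∀ x ∈ W, u x = p x := fun x hx => by
    rw [← FE.euler1 hh (hdiff x hx.1), hx.2]
  have hcl : closure W ∩ H ⊆ W := by
    rintro x ⟨hxW, hxH⟩
    have h1 : u x = p x := by
      have hc : IsClosed {y | u y = p y} := isClosed_eq hu.continuous p.continuous
      exact hc.closure_subset_iff.2 (fun y hy => hval y hy) hxW
    have hxO : x ∈ Om u := by
      show 0 < u x
      rw [h1]; exact hxH
    refine ⟨hxO, ?_⟩
    obtain ⟨y, hy, hyx⟩ := mem_closure_iff_seq_limit.1 hxW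
    have h2 : Tendsto (fun n => fderiv ℝ u (y n)) atTop (𝓝 (fderiv ℝ u x)) :=
      ((hD1 x hxO).continuousAt (hO.mem_nhds hxO)).tendsto.comp hyx
    have h3 : (fun n => fderiv ℝ u (y n)) = fun _ => p := funext fun n => (hy n).2
    rw [h3] at h2
    exact tendsto_nhds_unique h2 tendsto_const_nhds
  have hne : (H ∩ W).Nonempty := by
    refine ⟨x0, ?_, hx0, rfl⟩
    show 0 < p x0
    rw [hp, FE.euler1 hh (hdiff x0 hx0)]
    exact hx0
  exact fun x hx => hHc.subset_of_closure_inter_subset hWo hne hcl hx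

lemma exists_ker (hd : 2 ≤ d) (p : E d →L[ℝ] ℝ) : ∃ y : E d, y ≠ 0 ∧ p y = 0 := by
  by_contra hcon
  push Not at hcon
  have hinj : Function.Injective p.toLinearMap := by
    rw [← LinearMap.ker_eq_bot, LinearMap.ker_eq_bot']
    intro y hy
    by_contra hy0
    exact hcon y hy0 hy
  have h1 := LinearMap.finrank_le_finrank_of_injective hinj
  rw [finrank_euclideanSpace_fin, Module.finrank_self] at h1
  omega

end main

end RG

open RG in
/-- **gradient bound for regular cones** -/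
theorem grad_le_one (hd : 2 ≤ d) {u : E d → ℝ} {K : ℝ≥0} (hu : LM u K) (hh : Hom1 u)
    (hha : Harm u (Om u)) (hreg : ∀ y ∈ frontier (Om u), y ≠ 0 → RegPt u y) :
    ∀ x ∈ Om u, ‖fderiv ℝ u x‖ ≤ 1 := by
  intro x0 hx0
  by_contra hg
  have hg' : 1 < ‖fderiv ℝ u x0‖ := not_le.1 hg
  have hO : IsOpen (Om u) := isOpen_Om hu.continuous
  have hL := lin_half hu hh hha hreg hx0 hg'
  set p : E d →L[ℝ] ℝ := fderiv ℝ u x0 with hp
  obtain ⟨y, hy0, hyp⟩ := exists_ker hd p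
  have hpx0 : 0 < p x0 := by
    have hd0 : DifferentiableAt ℝ u x0 :=
      (hha.1.contDiffAt (hO.mem_nhds hx0)).differentiableAt (by simp)
    rw [hp, FE.euler1 hh hd0]
    exact hx0
  -- the approximating points
  have hmem : ∀ t : ℝ, 0 < t → y + t • x0 ∈ Om u ∧ fderiv ℝ u (y + t • x0) = p := by
    intro t ht
    refine hL _ ?_
    rw [map_add, hyp, map_smul, smul_eq_mul, zero_add]
    positivity
  have htend : Tendsto (fun t : ℝ => y + t • x0) (𝓝[>] 0) (𝓝 y) := by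
    have h1 : Tendsto (fun t : ℝ => y + t • x0) (𝓝 0) (𝓝 (y + (0 : ℝ) • x0)) :=
      (continuous_const.add (continuous_id.smul continuous_const)).tendsto 0
    rw [zero_smul, add_zero] at h1
    exact h1.mono_left nhdsWithin_le_nhds
  have htend2 : Tendsto (fun t : ℝ => y + t • x0) (𝓝[>] 0) (𝓝[Om u] y) := by
    refine tendsto_nhdsWithin_iff.2 ⟨htend, ?_⟩
    filter_upwards [self_mem_nhdsWithin] with t ht
    exact (hmem t ht).1
  have huy : u y = 0 := by
    have h1 : Tendsto (fun t : ℝ => u (y + t • x0)) (𝓝[>] 0) (𝓝 (u y)) :=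
      (hu.continuous.tendsto y).comp htend
    have h2 : Tendsto (fun t : ℝ => t * p x0) (𝓝[>] 0) (𝓝 (0 * p x0)) :=
      ((continuous_id.mul continuous_const).tendsto 0).mono_left nhdsWithin_le_nhds
    have h3 : (fun t : ℝ => u (y + t • x0)) =ᶠ[𝓝[>] 0] fun t => t * p x0 := by
      filter_upwards [self_mem_nhdsWithin] with t ht
      obtain ⟨h4, h5⟩ := hmem t ht
      have hd1 : DifferentiableAt ℝ u (y + t • x0) :=
        (hha.1.contDiffAt (hO.mem_nhds h4)).differentiableAt (by simp)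
      rw [← FE.euler1 hh hd1, h5, map_add, hyp, map_smul, smul_eq_mul, zero_add]
    have h4 := tendsto_nhds_unique (h1.congr' h3) h2
    rw [zero_mul] at h4
    exact h4
  have hyO : y ∉ Om u := by
    intro h
    have : 0 < u y := h
    rw [huy] at this
    exact lt_irrefl _ this
  have hyf : y ∈ frontier (Om u) := by
    rw [hO.frontier_eq]
    refine ⟨mem_closure_of_tendsto htend ?_, hyO⟩
    filter_upwards [self_mem_nhdsWithin] with t ht
    exact (hmem t ht).1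
  obtain ⟨e, A, B, hj⟩ := hreg y hyf hy0
  have h1 := hj.norm_sq.comp htend2
  have h2 : ((fun x => ‖fderiv ℝ u x‖ ^ 2) ∘ fun t : ℝ => y + t • x0) =ᶠ[𝓝[>] 0]
      fun _ => ‖p‖ ^ 2 := by
    filter_upwards [self_mem_nhdsWithin] with t ht
    simp only [Function.comp_apply]
    rw [(hmem t ht).2]
  have h3 := tendsto_nhds_unique (h1.congr' h2) tendsto_const_nhds
  nlinarith [norm_nonneg p]

/-- **sign of the mean curvature**: `D²u(ν,ν) ≤ 0` at regular free boundary points of a cone -/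
theorem jets_Aee_nonpos (hd : 2 ≤ d) {u : E d → ℝ} {K : ℝ≥0} (hu : LM u K) (hh : Hom1 u)
    (hha : Harm u (Om u)) (hreg : ∀ y ∈ frontier (Om u), y ≠ 0 → RegPt u y) {y e : E d}
    {A : Bil d} {B : Tri d} (hy : y ∈ frontier (Om u)) (hy0 : y ≠ 0) (hj : Jets u y e A B) :
    A e e ≤ 0 := by
  have hO : IsOpen (Om u) := isOpen_Om hu.continuous
  have hgl := grad_le_one hd hu hh hha hreg
  have hne : (𝓝[Om u] y).NeBot := mem_closure_iff_nhdsWithin_neBot.1 (frontier_subset_closure hy)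
  have hgrad : Tendsto (fun x => ∇ u x) (𝓝[Om u] y) (𝓝 e) := by
    rw [tendsto_iff_norm_sub_tendsto_zero]
    have h1 := tendsto_iff_norm_sub_tendsto_zero.1 hj.t1
    refine h1.congr fun x => ?_
    rw [grad_sub_norm]
  have hlim : Tendsto (fun x => D2 u x (∇ u x) (∇ u x)) (𝓝[Om u] y) (𝓝 (A e e)) := by
    have hc : Continuous fun q : Bil d × E d => q.1 q.2 q.2 := by fun_prop
    exact (hc.tendsto (A, e)).comp (hj.t2.prodMk_nhds hgrad)
  refine le_of_forall_pos_le_add fun ε hε => ?_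
  rw [zero_add]
  refine le_of_tendsto hlim ?_
  have hexp := expand_near hu hha.1 (U := {0}ᶜ) isOpen_compl_singleton
    (fun z hz hf => hreg z hf hz) (y := y) hy0 hy (ε := 2 * ε) (by positivity)
  filter_upwards [hexp, self_mem_nhdsWithin] with x hx hxO
  have hux : 0 < u x := hxO
  have h1 := (abs_le.1 hx).2
  have h2 : ‖fderiv ℝ u x‖ ^ 2 ≤ 1 := by
    have := hgl x hxO
    have h0 := norm_nonneg (fderiv ℝ u x)
    nlinarith
  have h3 : u x * D2 u x (∇ u x) (∇ u x) ≤ u x * ε := by linarith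
  exact le_of_mul_le_mul_left h3 hux

end Crest.Agent.R097
end

-- ▼ part R097/RApri2
section

/-!
# Row 97: helper619's a priori inequality
`u² |D²u|² ≤ (n/(2(n+2))) (1 - |Du|⁴)` in dimension `d = n+1`
-/

set_option autoImplicit false
set_option synthInstance.maxHeartbeats 400000
open MeasureTheory Metric Set Filter Topology Laplacian InnerProductSpace
open scoped RealInnerProductSpace NNReal ContDiff Gradient

namespace Crest.Agent.R097
noncomputable section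

namespace AP2

/-! ### algebra -/

variable {n : ℕ}

/-- a trace-free spectrum: `λ_k² ≤ ((n-1)/n) ∑ λ²` -/
lemma sq_le_of_tr (lam : Fin n → ℝ) (h : ∑ i, lam i = 0) (k : Fin n) :
    n * lam k ^ 2 ≤ (n - 1) * ∑ i, lam i ^ 2 := by
  classical
  have h1 : ∑ i ∈ Finset.univ.erase k, lam i = - lam k := by
    have := Finset.add_sum_erase Finset.univ lam (Finset.mem_univ k)
    linarith
  have h2 : ∑ i ∈ Finset.univ.erase k, lam i ^ 2 = ∑ i, lam i ^ 2 - lam k ^ 2 := by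
    have := Finset.add_sum_erase Finset.univ (fun i => lam i ^ 2) (Finset.mem_univ k)
    linarith
  have h3 := sq_sum_le_card_mul_sum_sq (s := Finset.univ.erase k) (f := lam)
  rw [h1, h2, Finset.card_erase_of_mem (Finset.mem_univ k), Finset.card_univ, Fintype.card_fin] at h3
  have hn : 0 < n := Fin.pos k
  have h4 : ((n - 1 : ℕ) : ℝ) = (n : ℝ) - 1 := by
    rw [Nat.cast_sub hn]; simp
  rw [h4] at h3
  nlinarith

/-- weighted Cauchy–Schwarz for a trace-free vector -/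
lemma cs_k (lam t : Fin n → ℝ) (ht : ∑ i, t i = 0) (hl : ∑ i, lam i = 0) (k : Fin n) :
    (∑ i, lam i * t i) ^ 2 ≤ ((∑ i, lam i ^ 2) + 2 * n / (n + 2) * lam k ^ 2) / 3
      * ∑ i, (if i = k then 1 else 3) * t i ^ 2 := by
  classical
  set μ : ℝ := 2 * lam k / (n + 2) with hμ
  have hn2 : (0:ℝ) < n + 2 := by positivity
  have h1 : ∑ i, lam i * t i = ∑ i, (lam i - μ) * t i := by
    simp_rw [sub_mul]
    rw [Finset.sum_sub_distrib, ← Finset.mul_sum, ht, mul_zero, sub_zero]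
  -- weights
  have h2 : (∑ i, (lam i - μ) * t i) ^ 2 ≤ (∑ i, (lam i - μ) ^ 2 / (if i = k then 1 else 3))
      * ∑ i, (if i = k then 1 else 3) * t i ^ 2 := by
    have h3 := Finset.sum_sq_le_sum_mul_sum_of_sq_le_mul Finset.univ
      (r := fun i => (lam i - μ) * t i)
      (f := fun i => (lam i - μ) ^ 2 / (if i = k then 1 else 3))
      (g := fun i => (if i = k then 1 else 3) * t i ^ 2)
      (fun i _ => by positivity) (fun i _ => by positivity)
      (fun i _ => le_of_eq (by split_ifs <;> ring))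
    exact h3
  rw [h1]
  refine h2.trans (le_of_eq ?_)
  congr 1
  have h4 : ∀ i, (lam i - μ) ^ 2 / (if i = k then (1:ℝ) else 3)
      = (lam i - μ) ^ 2 / 3 + (if i = k then (2 / 3) * (lam k - μ) ^ 2 else 0) := by
    intro i
    split_ifs with h
    · subst h; ring
    · ring
  simp_rw [h4]
  rw [Finset.sum_add_distrib, Finset.sum_ite_eq' Finset.univ k, if_pos (Finset.mem_univ _),
    ← Finset.sum_div]
  have h5 : ∑ i, (lam i - μ) ^ 2 = ∑ i, lam i ^ 2 + n * μ ^ 2 := by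
    have : ∀ i, (lam i - μ) ^ 2 = lam i ^ 2 - 2 * μ * lam i + μ ^ 2 := fun i => by ring
    simp_rw [this]
    rw [Finset.sum_add_distrib, Finset.sum_sub_distrib, ← Finset.mul_sum, hl]
    simp
  rw [h5, hμ]
  field_simp
  ring

/-- the key inequality of 619's proof -/
lemma key619 (hn : 2 ≤ n) (lam g : Fin n → ℝ) (s c : ℝ) (τ : Fin n → Fin n → Fin n → ℝ)
    (hc : c = n / (n + 2)) (hs : 0 < s) (hτ : STF τ) (hl : ∑ i, lam i = 0)
    (hP : 0 < ∑ i, lam i ^ 2)
    (hgr : ∀ k, s ^ 2 * (∑ a, lam a * τ a a k)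
      = -(c * ((∑ i, g i ^ 2) + s ^ 2) * lam k + s * ∑ i, lam i ^ 2) * g k) :
    -(2 * c * ((∑ i, g i ^ 2) + s ^ 2) * ∑ i, lam i ^ 2) - 4 * c * (∑ k, lam k ^ 2 * g k ^ 2)
      - 2 * (∑ i, g i ^ 2) * (∑ i, lam i ^ 2) - 8 * s * (∑ k, g k * ∑ a, lam a * τ a a k)
      - 2 * s ^ 2 * (∑ a, ∑ b, ∑ c, τ a b c ^ 2) < 0 := by
  set P := ∑ i, lam i ^ 2 with hPd
  set q := ∑ i, g i ^ 2 with hq
  set Q := q + s ^ 2 with hQ
  have hn' : (2:ℝ) ≤ n := by exact_mod_cast hn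
  have hc0 : 0 < c := by rw [hc]; positivity
  have hc1 : c * (n + 2) = n := by rw [hc]; field_simp
  have hb : 2 * (n:ℝ) / (n + 2) = 2 * c := by rw [hc]; ring
  set N : Fin n → ℝ := fun k => ∑ i, (if i = k then 1 else 3) * τ i i k ^ 2 with hN
  set W : Fin n → ℝ := fun k => ∑ a, lam a * τ a a k with hW
  have hT : ∑ k, N k ≤ ∑ a, ∑ b, ∑ c, τ a b c ^ 2 := Dec.norm_sq_ge hτ.s12 hτ.s23
  -- per direction
  have hk : ∀ k, - (4 * c * (lam k ^ 2 * g k ^ 2)) - 2 * g k ^ 2 * P - 8 * s * (g k * W k)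
      - 2 * s ^ 2 * N k ≤ 2 * c * P * g k ^ 2 := by
    intro k
    set Λ := lam k ^ 2 with hΛ
    have hΛ0 : 0 ≤ Λ := sq_nonneg _
    set D := P + 2 * c * Λ with hD
    have hD0 : 0 < D := by positivity
    have hcs := cs_k lam (fun i => τ i i k) (hτ.tr k) hl k
    rw [hb] at hcs
    have hcs' : W k ^ 2 ≤ D / 3 * N k := hcs
    set Y := c * Q * lam k / s with hY
    have hη : s * W k = -(Y + P) * g k := by
      have h1 := hgr k
      have h2 : s * (s * W k) = s * (-(Y + P) * g k) := by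
        rw [hY]
        have : s * (s * W k) = s ^ 2 * W k := by ring
        rw [this]
        rw [h1]
        field_simp
      exact mul_left_cancel₀ hs.ne' h2
    -- `2 s² N ≥ 6 (sW)²/D`
    have h3 : 6 * ((Y + P) ^ 2 * g k ^ 2) ≤ D * (2 * s ^ 2 * N k) := by
      have h4 : (s * W k) ^ 2 ≤ s ^ 2 * (D / 3 * N k) := by
        rw [mul_pow]; exact mul_le_mul_of_nonneg_left hcs' (by positivity)
      rw [hη] at h4
      nlinarith
    -- the quadratic in `Y`
    have hX : 0 ≤ (n - 1) * P - n * Λ := by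
      have := sq_le_of_tr lam hl k
      linarith
    have h5 : 0 ≤ 6 * (Y + P) ^ 2 - ((6 - 2 * c) * P + 8 * Y - 4 * c * Λ) * D := by
      have h6 : 6 * (Y + P) ^ 2 - ((6 - 2 * c) * P + 8 * Y - 4 * c * Λ) * D
          = 6 * (Y + (P - 4 * c * Λ) / 3) ^ 2
            + (P ^ 2 * (2 * c - 2 / 3) + P * Λ * (4 * c ^ 2 - 8 * c / 3) - 8 / 3 * c ^ 2 * Λ ^ 2) := by
        rw [hD]; ring
      have h7 : (P ^ 2 * (2 * c - 2 / 3) + P * Λ * (4 * c ^ 2 - 8 * c / 3) - 8 / 3 * c ^ 2 * Λ ^ 2)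
          = ((n - 1) * P - n * Λ) * (4 / 3 * c * P + 8 / 3 * c ^ 2 * Λ) / n := by
        have hn0 : (n:ℝ) ≠ 0 := by positivity
        have hn2 : (n:ℝ) + 2 ≠ 0 := by positivity
        rw [hc]
        field_simp
        ring
      rw [h6, h7]
      have h8 : 0 ≤ ((n - 1) * P - n * Λ) * (4 / 3 * c * P + 8 / 3 * c ^ 2 * Λ) / n := by
        apply div_nonneg (mul_nonneg hX (by positivity)) (by positivity)
      nlinarith [sq_nonneg (Y + (P - 4 * c * Λ) / 3)]
    have h9 : 0 ≤ D * (2 * c * P * g k ^ 2 - (- (4 * c * (Λ * g k ^ 2)) - 2 * g k ^ 2 * P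
        - 8 * s * (g k * W k) - 2 * s ^ 2 * N k)) := by
      have h10 : 8 * s * (g k * W k) = -(8 * (Y + P) * g k ^ 2) := by
        calc 8 * s * (g k * W k) = 8 * g k * (s * W k) := by ring
          _ = _ := by rw [hη]; ring
      rw [h10]
      have h11 := mul_nonneg h5 (sq_nonneg (g k))
      nlinarith
    have h12 := nonneg_of_mul_nonneg_right h9 hD0
    linarith
  have hsum := Finset.sum_le_sum fun k (_ : k ∈ Finset.univ) => hk k
  have e1 : ∑ k, (- (4 * c * (lam k ^ 2 * g k ^ 2)) - 2 * g k ^ 2 * P - 8 * s * (g k * W k)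
      - 2 * s ^ 2 * N k) = - (4 * c * ∑ k, lam k ^ 2 * g k ^ 2) - 2 * q * P
      - 8 * s * (∑ k, g k * W k) - 2 * s ^ 2 * ∑ k, N k := by
    rw [Finset.sum_sub_distrib, Finset.sum_sub_distrib, Finset.sum_sub_distrib,
      Finset.sum_neg_distrib, ← Finset.mul_sum, ← Finset.mul_sum, ← Finset.mul_sum,
      ← Finset.sum_mul, ← Finset.mul_sum]
  have e2 : ∑ k, 2 * c * P * g k ^ 2 = 2 * c * P * q := by rw [← Finset.mul_sum]
  rw [e1, e2] at hsum
  have h13 : 2 * s ^ 2 * ∑ k, N k ≤ 2 * s ^ 2 * ∑ a, ∑ b, ∑ c, τ a b c ^ 2 :=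
    mul_le_mul_of_nonneg_left hT (by positivity)
  have h14 : 0 < 2 * c * s ^ 2 * P := by positivity
  have h15 : 2 * c * Q * P = 2 * c * P * q + 2 * c * s ^ 2 * P := by rw [hQ]; ring
  linarith

/-! ### minimum principle on a cone -/

variable {d : ℕ}

lemma cone_min {u : E d → ℝ} (hcu : Continuous u) (hh : Hom1 u) {G0 : E d → ℝ}
    (hc : ∀ x ∈ Om u, ContinuousAt G0 x) (hG0 : ∀ x, ∀ r : ℝ, 0 < r → G0 (r • x) = G0 x)
    (hb : ∀ y ∈ frontier (Om u), y ≠ 0 → Tendsto G0 (𝓝[Om u] y) (𝓝 0))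
    {x1 : E d} (hx1 : x1 ∈ Om u) (h1 : G0 x1 < 0) :
    ∃ x0 ∈ Om u, G0 x0 < 0 ∧ ∀ x ∈ Om u, G0 x0 ≤ G0 x := by
  have hop : IsOpen (Om u) := isOpen_lt continuous_const hcu
  have hu0 : u 0 = 0 := by
    have := hh 2 (by norm_num) 0
    rw [smul_zero] at this
    linarith
  have hne : ∀ x ∈ Om u, x ≠ 0 := by
    rintro x hx rfl
    have : 0 < u 0 := hx
    linarith
  have hOm : ∀ x ∈ Om u, ∀ r : ℝ, 0 < r → r • x ∈ Om u := by
    intro x hx r hr
    change 0 < u (r • x)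
    rw [hh r hr]
    exact mul_pos hr hx
  classical
  set G : E d → ℝ := fun x => if x ∈ Om u then G0 x else 0 with hG
  have hGc : ContinuousOn G (sphere (0 : E d) 1) := by
    intro x hx
    apply ContinuousAt.continuousWithinAt
    have hx0 : x ≠ 0 := by
      rintro rfl
      simp at hx
    by_cases hxO : x ∈ Om u
    · refine (hc x hxO).congr ?_
      filter_upwards [hop.mem_nhds hxO] with y hy
      rw [hG]; simp only; rw [if_pos hy]
    · by_cases hxf : x ∈ frontier (Om u)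
      · have h1 := hb x hxf hx0
        have hGx : G x = 0 := by rw [hG]; simp only; rw [if_neg hxO]
        rw [ContinuousAt, hGx]
        rw [← nhdsWithin_univ, ← union_compl_self (Om u), nhdsWithin_union]
        apply Tendsto.sup
        · refine h1.congr' ?_
          filter_upwards [self_mem_nhdsWithin] with y hy
          rw [hG]; simp only; rw [if_pos hy]
        · refine tendsto_const_nhds.congr' ?_
          filter_upwards [self_mem_nhdsWithin] with y hy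
          rw [hG]; simp only; rw [if_neg hy]
      · have h1 : x ∉ closure (Om u) := by
          intro h
          exact hxf (by rw [hop.frontier_eq]; exact ⟨h, hxO⟩)
        have h2 : (fun _ : E d => (0:ℝ)) =ᶠ[𝓝 x] G := by
          filter_upwards [isClosed_closure.isOpen_compl.mem_nhds h1] with y hy
          rw [hG]; simp only; rw [if_neg (fun h => hy (subset_closure h))]
        exact continuousAt_const.congr h2
  have hx1n : 0 < ‖x1‖ := norm_pos_iff.mpr (hne x1 hx1)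
  set z : E d := ‖x1‖⁻¹ • x1 with hz
  have hzS : z ∈ sphere (0 : E d) 1 := by
    rw [mem_sphere_zero_iff_norm, hz, norm_smul, norm_inv, norm_norm, inv_mul_cancel₀ hx1n.ne']
  have hzO : z ∈ Om u := hOm x1 hx1 _ (inv_pos.mpr hx1n)
  have hzF : G0 z < 0 := by rw [hz, hG0 _ _ (inv_pos.mpr hx1n)]; exact h1
  obtain ⟨x0, hx0S, hx0min⟩ := (isCompact_sphere (0 : E d) 1).exists_isMinOn ⟨z, hzS⟩ hGc
  have hGz : G z = G0 z := by rw [hG]; simp only; rw [if_pos hzO]
  have hx0z : G x0 ≤ G z := hx0min hzS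
  have hx0O : x0 ∈ Om u := by
    by_contra h
    have : G x0 = 0 := by rw [hG]; simp only; rw [if_neg h]
    rw [this, hGz] at hx0z
    linarith
  have hGx0 : G x0 = G0 x0 := by rw [hG]; simp only; rw [if_pos hx0O]
  refine ⟨x0, hx0O, by rw [← hGx0]; rw [hGz] at hx0z; linarith, ?_⟩
  intro x hx
  have hxn : 0 < ‖x‖ := norm_pos_iff.mpr (hne x hx)
  have h1 : ‖x‖⁻¹ • x ∈ sphere (0 : E d) 1 := by
    rw [mem_sphere_zero_iff_norm, norm_smul, norm_inv, norm_norm, inv_mul_cancel₀ hxn.ne']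
  have h2 : ‖x‖⁻¹ • x ∈ Om u := hOm x hx _ (inv_pos.mpr hxn)
  have h3 : G x0 ≤ G (‖x‖⁻¹ • x) := hx0min h1
  have h4 : G (‖x‖⁻¹ • x) = G0 (‖x‖⁻¹ • x) := by rw [hG]; simp only; rw [if_pos h2]
  rw [hGx0, h4, hG0 _ _ (inv_pos.mpr hxn)] at h3
  exact h3

/-! ### calculus -/

/-- `|Du|²` -/
def Sq (u : E d → ℝ) (y : E d) : ℝ := ∑ i, (fderiv ℝ u y (bv i)) ^ 2

/-- the contraction `M:T` as a functional -/
def ctrL (A : Bil d) (B : Tri d) : E d →L[ℝ] ℝ :=
  ∑ i, ∑ j, (A (bv i) (bv j)) • ((B.flip (bv i)).flip (bv j))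

lemma ctrL_apply (A : Bil d) (B : Tri d) (v : E d) :
    ctrL A B v = ∑ i, ∑ j, A (bv i) (bv j) * B v (bv i) (bv j) := by
  unfold ctrL
  rw [sum_apply]
  refine Finset.sum_congr rfl fun i _ => ?_
  rw [sum_apply]
  rfl

/-- the function of 619 -/
def Ph (u : E d → ℝ) (c : ℝ) (y : E d) : ℝ := c / 2 * (1 - Sq u y * Sq u y) - u y ^ 2 * hs2 (D2 u y)

variable {u : E d → ℝ} {x : E d}

lemma cSq (H : HC u) (hx : x ∈ Om u) : ContDiffAt ℝ 2 (Sq u) x := by
  have hxa : ContDiffAt ℝ ∞ u x := H.sm.contDiffAt (H.isOpen.mem_nhds hx)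
  exact ContDiffAt.sum fun i _ => (contDiffAt_infty.mp (contDiffAt_D1e hxa i) 2).pow 2

lemma chs (H : HC u) (hx : x ∈ Om u) : ContDiffAt ℝ 2 (fun y => hs2 (D2 u y)) x := by
  have hxa : ContDiffAt ℝ ∞ u x := H.sm.contDiffAt (H.isOpen.mem_nhds hx)
  unfold hs2
  exact ContDiffAt.sum fun i _ => ContDiffAt.sum fun j _ =>
    (contDiffAt_infty.mp (contDiffAt_D2e hxa i j) 2).pow 2

lemma cu2 (H : HC u) (hx : x ∈ Om u) : ContDiffAt ℝ 2 u x :=
  contDiffAt_infty.mp (H.sm.contDiffAt (H.isOpen.mem_nhds hx)) 2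

lemma cPh (H : HC u) (c : ℝ) (hx : x ∈ Om u) : ContDiffAt ℝ 2 (Ph u c) x :=
  (contDiffAt_const.mul (contDiffAt_const.sub ((cSq H hx).mul (cSq H hx)))).sub
    (((cu2 H hx).pow 2).mul (chs H hx))

lemma hasSq (H : HC u) (hx : x ∈ Om u) :
    HasFDerivAt (Sq u) ((2 : ℝ) • ((D2 u x).flip (∇ u x))) x := by
  have h := hasFDerivAt_normsq (cu2 H hx)
  have e : (fun y => ‖fderiv ℝ u y‖ ^ 2) = Sq u := by
    ext y; rw [normsq_eq_sum]; rfl
  rwa [e] at h

lemma hashs (H : HC u) (hx : x ∈ Om u) :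
    HasFDerivAt (fun y => hs2 (D2 u y)) ((2 : ℝ) • ctrL (D2 u x) (D3 u x)) x := by
  have h1 := ((chs H hx).differentiableAt (by norm_num)).hasFDerivAt
  have h2 : fderiv ℝ (fun y => hs2 (D2 u y)) x = (2 : ℝ) • ctrL (D2 u x) (D3 u x) := by
    ext v
    rw [fderiv_m (H.hasD3 hx).differentiableAt, _root_.smul_apply, ctrL_apply, smul_eq_mul,
      Finset.mul_sum]
    refine Finset.sum_congr rfl fun i _ => ?_
    rw [Finset.mul_sum]
    exact Finset.sum_congr rfl fun j _ => by ring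
  rwa [h2] at h1

lemma fderiv_Ph (H : HC u) (c : ℝ) (hx : x ∈ Om u) (v : E d) :
    fderiv ℝ (Ph u c) x v = -(2 * c * Sq u x * D2 u x v (∇ u x))
      - (2 * u x * fderiv ℝ u x v * hs2 (D2 u x) + 2 * u x ^ 2 * ctrL (D2 u x) (D3 u x) v) := by
  have h1 := hasSq H hx
  have h2 := hashs H hx
  have h3 := H.hasD1 hx
  have h4 := (((hasFDerivAt_const (1:ℝ) x).sub (h1.mul h1)).const_mul (c / 2)).sub
    ((h3.pow 2).mul h2)
  have h5 : fderiv ℝ (Ph u c) x = _ := h4.fderiv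
  rw [h5]
  simp only [_root_.sub_apply, _root_.add_apply, _root_.smul_apply, smul_eq_mul,
    _root_.zero_apply, ContinuousLinearMap.flip_apply]
  push_cast
  ring

lemma lap_Ph (H : HC u) (c : ℝ) (hx : x ∈ Om u) :
    (Δ (Ph u c)) x = -(2 * c * Sq u x * hs2 (D2 u x)) - 4 * c * (∑ i, (D2 u x (bv i) (∇ u x)) ^ 2)
      - (2 * Sq u x * hs2 (D2 u x) + 8 * u x * (∑ k, fderiv ℝ u x (bv k) * ctrL (D2 u x) (D3 u x) (bv k))
        + 2 * u x ^ 2 * hs3 (D3 u x)) := by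
  have hS := cSq H hx
  have hA := chs H hx
  have hu := cu2 H hx
  have hlS : (Δ (Sq u)) x = 2 * hs2 (D2 u x) := lap_normsq_D1 H.isOpen H.sm H.ha hx
  have hlA : (Δ (fun y => hs2 (D2 u y))) x = 2 * hs3 (D3 u x) := lap_hs2 H.isOpen H.sm H.ha hx
  have e1 : Ph u c = fun y => (c / 2 + (-(c / 2)) * (Sq u y * Sq u y)) + -(u y ^ 2 * hs2 (D2 u y)) := by
    ext y; unfold Ph; ring
  rw [e1, Hm.lap_add_at (contDiffAt_const.add (contDiffAt_const.mul (hS.mul hS)))
      ((hu.pow 2).mul hA).neg, Hm.lap_neg,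
    Hm.lap_add_at contDiffAt_const (contDiffAt_const.mul (hS.mul hS)),
    Hm.lap_const_mul_at (-(c / 2)) (hS.mul hS), Hm.lap_mul hS hS, Hm.lap_mul (hu.pow 2) hA, hlS, hlA,
    Hm.lap_sq hu (H.ha x hx)]
  have e2 : (Δ (fun _ : E d => c / 2)) x = 0 := by simp
  rw [e2, (hasSq H hx).fderiv, (hashs H hx).fderiv, ((H.hasD1 hx).pow 2).fderiv]
  simp only [_root_.smul_apply, smul_eq_mul, ContinuousLinearMap.flip_apply]
  have e3 : ∑ i, 2 * D2 u x (bv i) (∇ u x) * (2 * D2 u x (bv i) (∇ u x))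
      = 4 * ∑ i, (D2 u x (bv i) (∇ u x)) ^ 2 := by
    rw [Finset.mul_sum]
    exact Finset.sum_congr rfl fun i _ => by ring
  have e4 : ∑ i, ((2:ℕ) : ℝ) * u x ^ (2 - 1) * fderiv ℝ u x (bv i)
      * (2 * ctrL (D2 u x) (D3 u x) (bv i))
      = 4 * u x * ∑ k, fderiv ℝ u x (bv k) * ctrL (D2 u x) (D3 u x) (bv k) := by
    rw [Finset.mul_sum]
    refine Finset.sum_congr rfl fun i _ => ?_
    push_cast
    ring
  have e5 : ∀ t : ℝ, t = t := fun _ => rfl
  rw [e3]
  have e6 : ∑ i, (2 • u x ^ (2 - 1)) * fderiv ℝ u x (bv i) * (2 * ctrL (D2 u x) (D3 u x) (bv i))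
      = 4 * u x * ∑ k, fderiv ℝ u x (bv k) * ctrL (D2 u x) (D3 u x) (bv k) := by
    rw [Finset.mul_sum]
    refine Finset.sum_congr rfl fun i _ => ?_
    simp
    ring
  rw [e6]
  unfold Sq
  ring

end AP2
end
end Crest.Agent.R097
end

-- ▼ part R097/RApri3

/-!
# Row 97: helper619's a priori inequality, conclusion
-/

set_option autoImplicit false
set_option synthInstance.maxHeartbeats 400000
open MeasureTheory Metric Set Filter Topology Laplacian InnerProductSpace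
open scoped RealInnerProductSpace NNReal ContDiff Gradient

namespace Crest.Agent.R097
noncomputable section

namespace AP2

variable {d : ℕ}

/-! ### frames -/

section frames
variable {n : ℕ} {u : E (n + 1) → ℝ} {x : E (n + 1)}

lemma ctrL_onb {ι : Type*} [Fintype ι] (e : OrthonormalBasis ι ℝ (E d)) (A : Bil d) (B : Tri d)
    (v : E d) : ctrL A B v = ∑ a, ∑ b, A (e a) (e b) * B v (e a) (e b) := by
  rw [ctrL_apply]
  have h1 : ∀ i, ∑ j, A (bv i) (bv j) * B v (bv i) (bv j) = ∑ b, A (bv i) (e b) * B v (bv i) (e b) :=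
    fun i => sum_mul_onb e (A (bv i)) (B v (bv i))
  simp_rw [h1]
  rw [Finset.sum_comm]
  have h2 : ∀ b, ∑ i, A (bv i) (e b) * B v (bv i) (e b) = ∑ a, A (e a) (e b) * B v (e a) (e b) :=
    fun b => sum_mul_onb e (A.flip (e b)) ((B v).flip (e b))
  simp_rw [h2]
  rw [Finset.sum_comm]

lemma hs3_onb {ι : Type*} [Fintype ι] (e : OrthonormalBasis ι ℝ (E d)) (B : Tri d) :
    hs3 B = ∑ a, ∑ b, ∑ c, B (e a) (e b) (e c) ^ 2 := by
  unfold hs3
  have h1 : ∀ k, ∑ i, ∑ j, (B (bv k) (bv i) (bv j)) ^ 2 = ∑ b, ∑ c, (B (bv k) (e b) (e c)) ^ 2 :=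
    fun k => hs2_onb e (B (bv k))
  simp_rw [h1]
  have h2 : ∀ b c, ∑ k, (B (bv k) (e b) (e c)) ^ 2 = ∑ a, (B (e a) (e b) (e c)) ^ 2 := by
    intro b c
    have := sum_mul_onb e ((B.flip (e b)).flip (e c)) ((B.flip (e b)).flip (e c))
    simpa only [← sq, ContinuousLinearMap.flip_apply] using this
  rw [Finset.sum_comm]
  have h3 : ∀ b, ∑ k, ∑ c, (B (bv k) (e b) (e c)) ^ 2 = ∑ c, ∑ a, (B (e a) (e b) (e c)) ^ 2 := by
    intro b
    rw [Finset.sum_comm]
    exact Finset.sum_congr rfl fun c _ => h2 b c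
  simp_rw [h3]
  rw [Finset.sum_comm (f := fun a b => ∑ c, (B (e a) (e b) (e c)) ^ 2)]
  refine Finset.sum_congr rfl fun b _ => ?_
  rw [Finset.sum_comm]

lemma D2g (F : Frame u x) (H : HC u) (hx : x ∈ Om u) (k : Fin n) :
    ‖x‖ * D2 u x (F.e k.succ) (∇ u x) = F.lam k * F.g k := by
  rw [H.symm2 hx, F.D2_succ, inner_gradient]
  rfl

lemma sumL (F : Frame u x) (H : HC u) (hx : x ∈ Om u) :
    ‖x‖ ^ 2 * ∑ i, (D2 u x (bv i) (∇ u x)) ^ 2 = ∑ k, F.lam k ^ 2 * F.g k ^ 2 := by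
  have h1 := sum_mul_onb F.e ((D2 u x).flip (∇ u x)) ((D2 u x).flip (∇ u x))
  simp only [← sq, ContinuousLinearMap.flip_apply] at h1
  rw [h1, Fin.sum_univ_succ, F.D2_zero' H hx, mul_add, Finset.mul_sum]
  have h2 : ∀ k : Fin n, ‖x‖ ^ 2 * (D2 u x (F.e k.succ) (∇ u x)) ^ 2 = F.lam k ^ 2 * F.g k ^ 2 := by
    intro k
    rw [← mul_pow, D2g F H hx, mul_pow]
  simp_rw [h2]
  simp

/-- the functional `M:T` in the frame -/
lemma ctr_e0 (F : Frame u x) (H : HC u) (hx : x ∈ Om u) :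
    ‖x‖ * ctrL (D2 u x) (D3 u x) (F.e 0) = - hs2 (D2 u x) := by
  have hn : ‖x‖ ≠ 0 := norm_ne_zero_iff.2 (H.ne_zero hx)
  rw [F.e0, map_smul, smul_eq_mul, ← mul_assoc, mul_inv_cancel₀ hn, one_mul, ctrL_apply,
    H.euler3 hx]
  unfold hs2
  rw [← Finset.sum_neg_distrib]
  refine Finset.sum_congr rfl fun i _ => ?_
  rw [← Finset.sum_neg_distrib]
  refine Finset.sum_congr rfl fun j _ => ?_
  simp only [_root_.neg_apply]
  ring

lemma ctr_es (F : Frame u x) (H : HC u) (hx : x ∈ Om u) (k : Fin n) :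
    ‖x‖ ^ 3 * ctrL (D2 u x) (D3 u x) (F.e k.succ) = ∑ a, F.lam a * F.tau a a k := by
  rw [ctrL_onb F.e]
  simp only [Fin.sum_univ_succ, F.D2_zero H hx, F.D2_zero' H hx, zero_mul, Finset.sum_const_zero,
    zero_add]
  rw [Finset.mul_sum]
  refine Finset.sum_congr rfl fun a _ => ?_
  rw [Finset.mul_sum]
  have h1 : ∀ b : Fin n, ‖x‖ ^ 3 * (D2 u x (F.e a.succ) (F.e b.succ)
      * D3 u x (F.e k.succ) (F.e a.succ) (F.e b.succ))
      = if a = b then F.lam b * (‖x‖ ^ 2 * D3 u x (F.e k.succ) (F.e a.succ) (F.e b.succ)) else 0 := by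
    intro b
    have : ‖x‖ ^ 3 * (D2 u x (F.e a.succ) (F.e b.succ)
      * D3 u x (F.e k.succ) (F.e a.succ) (F.e b.succ))
      = (‖x‖ * D2 u x (F.e a.succ) (F.e b.succ)) *
        (‖x‖ ^ 2 * D3 u x (F.e k.succ) (F.e a.succ) (F.e b.succ)) := by ring
    rw [this, F.D2_ss]
    split_ifs <;> simp
  simp_rw [h1]
  rw [Finset.sum_ite_eq Finset.univ a, if_pos (Finset.mem_univ _)]
  unfold Frame.tau
  rw [H.symm3a hx (F.e k.succ) (F.e a.succ) (F.e a.succ), H.symm3b hx (F.e a.succ) (F.e k.succ) (F.e a.succ)]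

lemma sum_ctr (F : Frame u x) (H : HC u) (hx : x ∈ Om u) :
    ‖x‖ ^ 3 * ∑ k, fderiv ℝ u x (bv k) * ctrL (D2 u x) (D3 u x) (bv k)
      = (∑ k, F.g k * ∑ a, F.lam a * F.tau a a k) - sN u x * ∑ i, F.lam i ^ 2 := by
  rw [sum_mul_onb F.e, Fin.sum_univ_succ, F.D1_zero H hx, F.sum_lam2 H hx, mul_add, Finset.mul_sum]
  have h1 : ∀ k : Fin n, ‖x‖ ^ 3 * (fderiv ℝ u x (F.e k.succ) * ctrL (D2 u x) (D3 u x) (F.e k.succ))
      = F.g k * ∑ a, F.lam a * F.tau a a k := by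
    intro k
    rw [← ctr_es F H hx k]
    unfold Frame.g
    ring
  simp_rw [h1]
  have h2 : ‖x‖ ^ 3 * (sN u x * ctrL (D2 u x) (D3 u x) (F.e 0))
      = - (sN u x * (‖x‖ ^ 2 * hs2 (D2 u x))) := by
    have := ctr_e0 F H hx
    calc ‖x‖ ^ 3 * (sN u x * ctrL (D2 u x) (D3 u x) (F.e 0))
        = ‖x‖ ^ 2 * sN u x * (‖x‖ * ctrL (D2 u x) (D3 u x) (F.e 0)) := by ring
      _ = _ := by rw [this]; ring
  rw [h2]
  ring

lemma hs3_frame (F : Frame u x) (H : HC u) (hx : x ∈ Om u) :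
    ‖x‖ ^ 4 * hs3 (D3 u x) = (∑ a, ∑ b, ∑ c, F.tau a b c ^ 2) + 3 * ∑ i, F.lam i ^ 2 := by
  have hn : ‖x‖ ≠ 0 := norm_ne_zero_iff.2 (H.ne_zero hx)
  have e0 : ∀ v w, ‖x‖ * D3 u x (F.e 0) v w = - D2 u x v w := by
    intro v w
    rw [F.e0, map_smul, H.euler3 hx]
    simp only [_root_.smul_apply, _root_.neg_apply, smul_eq_mul]
    field_simp
  have e1 : ∀ v w, D3 u x v (F.e 0) w = D3 u x (F.e 0) v w := fun v w => H.symm3a hx _ _ _
  have e2 : ∀ v w, D3 u x v w (F.e 0) = D3 u x (F.e 0) v w := fun v w => by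
    rw [H.symm3b hx, H.symm3a hx]
  have e3 : ∀ w, D3 u x (F.e 0) (F.e 0) w = 0 := by
    intro w
    have := e0 (F.e 0) w
    rw [F.D2_zero' H hx, neg_zero] at this
    exact (mul_eq_zero.mp this).resolve_left hn
  have e4 : ∀ w, D3 u x (F.e 0) w (F.e 0) = 0 := by
    intro w; rw [H.symm3b hx, e3]
  have e5 : ∀ w, D3 u x w (F.e 0) (F.e 0) = 0 := by
    intro w; rw [e1, e4]
  have hsum : hs3 (D3 u x) = (∑ a : Fin n, ∑ b : Fin n, ∑ c : Fin n,
      D3 u x (F.e a.succ) (F.e b.succ) (F.e c.succ) ^ 2)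
      + 3 * ∑ b : Fin n, ∑ c : Fin n, D3 u x (F.e 0) (F.e b.succ) (F.e c.succ) ^ 2 := by
    rw [hs3_onb F.e]
    simp only [Fin.sum_univ_succ, e3, e4, e1, e2, Finset.sum_add_distrib]
    simp only [ne_eq, OfNat.ofNat_ne_zero, not_false_eq_true, zero_pow, Finset.sum_const_zero,
      zero_add, add_zero]
    ring
  rw [hsum, mul_add]
  congr 1
  · rw [Finset.mul_sum]
    refine Finset.sum_congr rfl fun a _ => ?_
    rw [Finset.mul_sum]
    refine Finset.sum_congr rfl fun b _ => ?_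
    rw [Finset.mul_sum]
    refine Finset.sum_congr rfl fun c _ => ?_
    unfold Frame.tau
    ring
  · have h1 : ‖x‖ ^ 4 * (3 * ∑ b : Fin n, ∑ c : Fin n, D3 u x (F.e 0) (F.e b.succ) (F.e c.succ) ^ 2)
        = 3 * ∑ b : Fin n, ∑ c : Fin n, ‖x‖ ^ 4 * D3 u x (F.e 0) (F.e b.succ) (F.e c.succ) ^ 2 := by
      simp only [← Finset.mul_sum]
      ring
    rw [h1]
    congr 1
    refine Finset.sum_congr rfl fun b _ => ?_
    have h2 : ∀ c : Fin n, ‖x‖ ^ 4 * D3 u x (F.e 0) (F.e b.succ) (F.e c.succ) ^ 2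
        = if b = c then F.lam c ^ 2 else 0 := by
      intro c
      have : ‖x‖ ^ 4 * D3 u x (F.e 0) (F.e b.succ) (F.e c.succ) ^ 2
          = (‖x‖ * (‖x‖ * D3 u x (F.e 0) (F.e b.succ) (F.e c.succ))) ^ 2 := by ring
      rw [this, e0, mul_neg, F.D2_ss]
      split_ifs <;> simp
    simp_rw [h2]
    rw [Finset.sum_ite_eq Finset.univ b, if_pos (Finset.mem_univ _)]

/-- at a critical point of `Ph` with `D²u ≠ 0` the Laplacian of `Ph` is negative -/
lemma lap_neg_crit (hn : 2 ≤ n) {c : ℝ} (hc : c = n / (n + 2)) (H : HC u) (hx : x ∈ Wn u)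
    (hcr : fderiv ℝ (Ph u c) x = 0) : (Δ (Ph u c)) x < 0 := by
  have hxO : x ∈ Om u := hx.1
  obtain ⟨F⟩ := exists_frame H hxO
  have hx0 : x ≠ 0 := H.ne_zero hxO
  have hr : 0 < ‖x‖ := norm_pos_iff.2 hx0
  have hux : 0 < u x := hxO
  have hs : 0 < sN u x := by unfold sN; positivity
  have hus : u x = sN u x * ‖x‖ := by unfold sN; field_simp
  have hP2 := F.sum_lam2 H hxO
  have hP : 0 < ∑ i, F.lam i ^ 2 := by
    rw [hP2]; exact mul_pos (by positivity) hx.2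
  have hQ : (∑ i, F.g i ^ 2) + sN u x ^ 2 = Sq u x := by
    rw [F.sum_g2 H hxO, normsq_eq_sum]; rfl
  -- the gradient condition
  have hgr : ∀ k, sN u x ^ 2 * (∑ a, F.lam a * F.tau a a k)
      = -(c * ((∑ i, F.g i ^ 2) + sN u x ^ 2) * F.lam k + sN u x * ∑ i, F.lam i ^ 2) * F.g k := by
    intro k
    have h1 : fderiv ℝ (Ph u c) x (F.e k.succ) = 0 := by rw [hcr]; rfl
    rw [fderiv_Ph H c hxO] at h1
    have h2 := ctr_es F H hxO k
    have h3 := D2g F H hxO k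
    have h4 : fderiv ℝ u x (F.e k.succ) = F.g k := rfl
    rw [h4] at h1
    rw [← h2, hQ, hP2]
    have h5 : ‖x‖ * (-(2 * c * Sq u x * D2 u x (F.e k.succ) (∇ u x))
      - (2 * u x * F.g k * hs2 (D2 u x) + 2 * u x ^ 2 * ctrL (D2 u x) (D3 u x) (F.e k.succ))) = 0 := by
      rw [h1, mul_zero]
    rw [hus] at h5
    have h6 : -(2 * c * Sq u x * (‖x‖ * D2 u x (F.e k.succ) (∇ u x)))
      - (2 * sN u x * ‖x‖ ^ 2 * F.g k * hs2 (D2 u x)
        + 2 * sN u x ^ 2 * (‖x‖ ^ 3 * ctrL (D2 u x) (D3 u x) (F.e k.succ))) = 0 := by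
      rw [← h5]; ring
    rw [h3] at h6
    linarith
  have hkey := key619 hn F.lam F.g (sN u x) c F.tau hc hs (F.stf H hxO) (F.sum_lam H hxO) hP hgr
  -- the Laplacian
  have h7 : ‖x‖ ^ 2 * (Δ (Ph u c)) x = -(2 * c * ((∑ i, F.g i ^ 2) + sN u x ^ 2) * ∑ i, F.lam i ^ 2)
      - 4 * c * (∑ k, F.lam k ^ 2 * F.g k ^ 2)
      - 2 * (∑ i, F.g i ^ 2) * (∑ i, F.lam i ^ 2)
      - 8 * sN u x * (∑ k, F.g k * ∑ a, F.lam a * F.tau a a k)
      - 2 * sN u x ^ 2 * (∑ a, ∑ b, ∑ c, F.tau a b c ^ 2) := by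
    rw [lap_Ph H c hxO, ← sumL F H hxO]
    have h8 := sum_ctr F H hxO
    have h9 := hs3_frame F H hxO
    have h10 : ∑ k, F.g k * ∑ a, F.lam a * F.tau a a k
        = ‖x‖ ^ 3 * (∑ k, fderiv ℝ u x (bv k) * ctrL (D2 u x) (D3 u x) (bv k))
          + sN u x * ∑ i, F.lam i ^ 2 := by linarith
    have h11 : ∑ a, ∑ b, ∑ c, F.tau a b c ^ 2 = ‖x‖ ^ 4 * hs3 (D3 u x) - 3 * ∑ i, F.lam i ^ 2 := by
      linarith
    rw [h10, h11, hQ, hP2]
    have h12 : ∑ i, F.g i ^ 2 = Sq u x - sN u x ^ 2 := by linarith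
    rw [h12, hus]
    ring
  have h13 : ‖x‖ ^ 2 * (Δ (Ph u c)) x < 0 := by rw [h7]; exact hkey
  by_contra hcon
  push Not at hcon
  have := mul_nonneg (sq_nonneg ‖x‖) hcon
  linarith

end frames

lemma Ph_hom {u : E d → ℝ} (hh : Hom1 u) {c r : ℝ} (hr : 0 < r) (x : E d) :
    Ph u c (r • x) = Ph u c x := by
  unfold Ph Sq
  rw [D1_hom hh hr, hh r hr, ← D2_hom hh hr x]
  have h1 : hs2 (r • D2 u (r • x)) = r ^ 2 * hs2 (D2 u (r • x)) := by
    unfold hs2
    rw [Finset.mul_sum]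
    refine Finset.sum_congr rfl fun i _ => ?_
    rw [Finset.mul_sum]
    refine Finset.sum_congr rfl fun j _ => ?_
    simp only [_root_.smul_apply, smul_eq_mul]
    ring
  rw [h1]
  ring

lemma tendsto_Ph {u : E d → ℝ} (hcu : Continuous u) {c : ℝ} {y : E d} (hy : y ∈ frontier (Om u))
    (hr : RegPt u y) : Tendsto (Ph u c) (𝓝[Om u] y) (𝓝 0) := by
  obtain ⟨e, A, B, hJ⟩ := hr
  have huy : u y = 0 := by
    have hop : IsOpen (Om u) := isOpen_lt continuous_const hcu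
    have h1 : y ∉ Om u := by
      intro h
      rw [hop.frontier_eq] at hy
      exact hy.2 h
    have h2 : u y ≤ 0 := not_lt.mp h1
    have h3 : 0 ≤ u y := by
      have h4 : closure (Om u) ⊆ {x | 0 ≤ u x} :=
        closure_minimal (fun x hx => (show 0 < u x from hx).le) (isClosed_le continuous_const hcu)
      exact h4 (frontier_subset_closure hy)
    linarith
  have h1 : Tendsto (Sq u) (𝓝[Om u] y) (𝓝 (∑ i, (innerSL ℝ e (bv i)) ^ 2)) := by
    apply tendsto_finsetSum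
    intro i _
    exact (((ContinuousLinearMap.apply ℝ ℝ (bv i)).continuous.tendsto _).comp hJ.t1).pow 2
  have h2 : ∑ i : Fin d, (innerSL ℝ e (bv i)) ^ 2 = 1 := by
    rw [← normsq_eq_sum, innerSL_apply_norm, hJ.kk.norm_e, one_pow]
  rw [h2] at h1
  have h3 : Tendsto (fun x => hs2 (D2 u x)) (𝓝[Om u] y) (𝓝 (hs2 A)) :=
    (contDiff_hs2.continuous.tendsto A).comp hJ.t2
  have h4 : Tendsto u (𝓝[Om u] y) (𝓝 0) := by
    have := (hcu.tendsto y).mono_left (nhdsWithin_le_nhds (s := Om u))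
    rwa [huy] at this
  have h5 := ((tendsto_const_nhds (x := (1:ℝ))).sub (h1.mul h1)).const_mul (c / 2) |>.sub
    ((h4.pow 2).mul h3)
  have h6 : c / 2 * ((1:ℝ) - 1 * 1) - 0 ^ 2 * hs2 A = 0 := by ring
  rw [h6] at h5
  exact h5

end AP2

open AP2 in
/-- **helper619's a priori inequality** -/
theorem apriori619 {n : ℕ} (hn : 2 ≤ n) {u : E (n + 1) → ℝ} (H : HC u)
    (hreg : ∀ y ∈ frontier (Om u), y ≠ 0 → RegPt u y)
    (hP : ∀ x ∈ Om u, ‖fderiv ℝ u x‖ ≤ 1) :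
    ∀ x ∈ Om u, u x ^ 2 * hs2 (D2 u x) ≤ (n / (2 * (n + 2))) * (1 - ‖fderiv ℝ u x‖ ^ 4) := by
  intro x1 hx1
  set c : ℝ := n / (n + 2) with hc
  have hSq : ∀ x, Sq u x = ‖fderiv ℝ u x‖ ^ 2 := fun x => by rw [normsq_eq_sum]; rfl
  suffices h : 0 ≤ Ph u c x1 by
    unfold Ph at h
    rw [hSq] at h
    have e1 : (n:ℝ) / (2 * (n + 2)) = c / 2 := by rw [hc]; field_simp
    rw [e1]
    have e2 : ‖fderiv ℝ u x1‖ ^ 4 = ‖fderiv ℝ u x1‖ ^ 2 * ‖fderiv ℝ u x1‖ ^ 2 := by ring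
    rw [e2]
    linarith
  by_contra hcon
  push Not at hcon
  obtain ⟨x0, hx0, hneg, hmin⟩ := cone_min H.cont H.hh (G0 := Ph u c)
    (fun x hx => (cPh H c hx).continuousAt) (fun x r hr => Ph_hom H.hh hr x)
    (fun y hy hy0 => tendsto_Ph H.cont hy (hreg y hy hy0)) hx1 hcon
  have hloc : IsLocalMin (Ph u c) x0 := by
    filter_upwards [H.isOpen.mem_nhds hx0] with y hy
    exact hmin y hy
  have hc0 : 0 < c := by rw [hc]; positivity
  -- `D²u ≠ 0` at the minimum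
  have hW : x0 ∈ Wn u := by
    refine ⟨hx0, ?_⟩
    by_contra h
    have h1 : hs2 (D2 u x0) = 0 := le_antisymm (not_lt.mp h) (hs2_nonneg _)
    unfold Ph at hneg
    rw [h1, hSq] at hneg
    have h2 := hP x0 hx0
    have h3 := norm_nonneg (fderiv ℝ u x0)
    have h4 : ‖fderiv ℝ u x0‖ ^ 2 ≤ 1 := by nlinarith
    have h5 : ‖fderiv ℝ u x0‖ ^ 2 * ‖fderiv ℝ u x0‖ ^ 2 ≤ 1 := by nlinarith [sq_nonneg ‖fderiv ℝ u x0‖]
    have h6 : 0 ≤ c / 2 * (1 - ‖fderiv ℝ u x0‖ ^ 2 * ‖fderiv ℝ u x0‖ ^ 2) :=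
      mul_nonneg (by positivity) (by linarith)
    linarith
  have h1 := lap_neg_crit hn hc H hW hloc.fderiv_eq_zero
  have h2 := Crest.Agent.R077.laplacian_nonneg_of_isLocalMin (cPh H c hx0) hloc
  linarith

theorem apriori619_cone {n : ℕ} (hn : 2 ≤ n) {K : ℝ≥0} {u : E (n + 1) → ℝ} (hu : LM u K)
    (hh : Hom1 u) (hreg : ∀ y ∈ frontier (Om u), y ≠ 0 → RegPt u y) :
    ∀ x ∈ Om u, u x ^ 2 * hs2 (D2 u x) ≤ (n / (2 * (n + 2))) * (1 - ‖fderiv ℝ u x‖ ^ 4) := by
  have hH : Harm u (Om u) := hu.harm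
  exact apriori619 hn ⟨hu.lip.continuous, hH.1, hH.2, hh⟩ hreg
    (grad_le_one (by omega) hu hh hH hreg)

end
end Crest.Agent.R097
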