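import Crest.Agent.R097.RFld0

-- ▼ part R097/RJ2
section

/-!
# Row 97, jet calculus: values and traces in a frame, derivatives of the invariants
-/

set_option autoImplicit false
set_option synthInstance.maxHeartbeats 400000
open MeasureTheory Metric Set Filter Topology InnerProductSpace
open scoped RealInnerProductSpace NNReal ENNReal Gradient Laplacian

namespace Crest.Agent.R097

/-! ### basis independence -/
section basis
variable {d : ℕ} {ι : Type*} [Fintype ι] (e : OrthonormalBasis ι ℝ (E d))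

lemma jsum_mul_onb (φ ψ : E d →L[ℝ] ℝ) : ∑ c, φ (e c) * ψ (e c) = ∑ i, φ (bv i) * ψ (bv i) := by
  have h := tr_onb e (φ.smulRight ψ)
  simpa using h

lemma sum_sq_onb (φ : E d →L[ℝ] ℝ) : ∑ c, φ (e c) ^ 2 = ∑ i, φ (bv i) ^ 2 := by
  have h := jsum_mul_onb e φ φ
  simpa [sq] using h

lemma norm_sq_onb (φ : E d →L[ℝ] ℝ) : ‖φ‖ ^ 2 = ∑ c, φ (e c) ^ 2 := by
  obtain ⟨v, hv⟩ : ∃ v : E d, φ = toDual ℝ (E d) v := ⟨(toDual ℝ (E d)).symm φ, by simp⟩
  rw [hv, LinearIsometryEquiv.norm_map]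
  have h := e.sum_inner_mul_inner v v
  rw [← real_inner_self_eq_norm_sq, ← h]
  refine Finset.sum_congr rfl fun c _ => ?_
  simp only [toDual_apply_apply]
  rw [real_inner_comm (e c) v]; ring

lemma apply_onb (φ : E d →L[ℝ] ℝ) (v : E d) : φ v = ∑ c, ⟪e c, v⟫_ℝ * φ (e c) := by
  conv_lhs => rw [← e.sum_repr' v]
  rw [map_sum]
  refine Finset.sum_congr rfl fun c _ => ?_
  rw [map_smul, smul_eq_mul]

/-- double sums of products of bilinear forms -/
lemma jsum2_onb (A B : Bil d) : ∑ a, ∑ b, A (e a) (e b) * B (e a) (e b) =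
    ∑ i, ∑ j, A (bv i) (bv j) * B (bv i) (bv j) := by
  have h1 : ∀ a, ∑ b, A (e a) (e b) * B (e a) (e b) = ∑ j, A (e a) (bv j) * B (e a) (bv j) :=
    fun a => jsum_mul_onb e (A (e a)) (B (e a))
  simp_rw [h1]
  rw [Finset.sum_comm]
  have h2 : ∀ j, ∑ a, A (e a) (bv j) * B (e a) (bv j) = ∑ i, A (bv i) (bv j) * B (bv i) (bv j) :=
    fun j => jsum_mul_onb e (A.flip (bv j)) (B.flip (bv j))
  simp_rw [h2]
  rw [Finset.sum_comm]

lemma jhs2_onb (A : Bil d) : hs2 A = ∑ a, ∑ b, A (e a) (e b) ^ 2 := by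
  unfold hs2
  simp_rw [sq]
  rw [jsum2_onb e A A]

/-- triple sums of squares of a trilinear form -/
noncomputable def hs3' (B : Tri d) : ℝ := ∑ k, ∑ i, ∑ j, B (bv k) (bv i) (bv j) ^ 2

lemma hs3_onb (B : Tri d) : hs3' B = ∑ c, ∑ a, ∑ b, B (e c) (e a) (e b) ^ 2 := by
  unfold hs3'
  have h1 : ∀ c, ∑ a, ∑ b, B (e c) (e a) (e b) ^ 2 = ∑ i, ∑ j, B (e c) (bv i) (bv j) ^ 2 := by
    intro c
    have := jsum2_onb e (B (e c)) (B (e c))
    simpa [sq] using this
  simp_rw [h1]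
  have h2 : ∀ i j : Fin d, ∑ c, B (e c) (bv i) (bv j) ^ 2 = ∑ k, B (bv k) (bv i) (bv j) ^ 2 := by
    intro i j
    exact sum_sq_onb e ((B.flip (bv i)).flip (bv j))
  symm
  calc ∑ c, ∑ i, ∑ j, B (e c) (bv i) (bv j) ^ 2 = ∑ i, ∑ j, ∑ c, B (e c) (bv i) (bv j) ^ 2 := by
        rw [Finset.sum_comm]
        refine Finset.sum_congr rfl fun i _ => ?_
        rw [Finset.sum_comm]
    _ = ∑ i, ∑ j, ∑ k, B (bv k) (bv i) (bv j) ^ 2 := by simp_rw [h2]
    _ = _ := by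
        symm
        rw [Finset.sum_comm]
        refine Finset.sum_congr rfl fun i _ => ?_
        rw [Finset.sum_comm]

/-- `tr (ABC)`-type sums -/
lemma jsum3_onb (A B C : Bil d) :
    ∑ a, ∑ b, ∑ c, A (e a) (e b) * B (e b) (e c) * C (e c) (e a) =
    ∑ i, ∑ j, ∑ k, A (bv i) (bv j) * B (bv j) (bv k) * C (bv k) (bv i) := by
  have h1 : ∀ a b, ∑ c, A (e a) (e b) * B (e b) (e c) * C (e c) (e a) =
      ∑ k, A (e a) (e b) * B (e b) (bv k) * C (bv k) (e a) := by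
    intro a b
    have := jsum_mul_onb e (B (e b)) (C.flip (e a))
    simp only [ContinuousLinearMap.flip_apply] at this
    simp_rw [mul_assoc, ← Finset.mul_sum, this]
  simp_rw [h1]
  have h2 : ∀ a, ∑ b, ∑ k, A (e a) (e b) * B (e b) (bv k) * C (bv k) (e a) =
      ∑ j, ∑ k, A (e a) (bv j) * B (bv j) (bv k) * C (bv k) (e a) := by
    intro a
    rw [Finset.sum_comm]
    rw [Finset.sum_comm (s := Finset.univ) (t := Finset.univ)
      (f := fun j k => A (e a) (bv j) * B (bv j) (bv k) * C (bv k) (e a))]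
    refine Finset.sum_congr rfl fun k _ => ?_
    have := jsum_mul_onb e (A (e a)) (B.flip (bv k))
    simp only [ContinuousLinearMap.flip_apply] at this
    simp_rw [← Finset.sum_mul, this]
  simp_rw [h2]
  have h3 : ∀ j k : Fin d, ∑ a, A (e a) (bv j) * B (bv j) (bv k) * C (bv k) (e a) =
      ∑ i, A (bv i) (bv j) * B (bv j) (bv k) * C (bv k) (bv i) := by
    intro j k
    have := jsum_mul_onb e (A.flip (bv j)) (C (bv k))
    simp only [ContinuousLinearMap.flip_apply] at this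
    have e1 : ∀ v w : E d, A v (bv j) * B (bv j) (bv k) * C (bv k) w =
        B (bv j) (bv k) * (A v (bv j) * C (bv k) w) := fun v w => by ring
    simp_rw [e1, ← Finset.mul_sum, this]
  calc ∑ a, ∑ j, ∑ k, A (e a) (bv j) * B (bv j) (bv k) * C (bv k) (e a)
      = ∑ j, ∑ k, ∑ a, A (e a) (bv j) * B (bv j) (bv k) * C (bv k) (e a) := by
        rw [Finset.sum_comm]
        refine Finset.sum_congr rfl fun j _ => ?_
        rw [Finset.sum_comm]
    _ = ∑ j, ∑ k, ∑ i, A (bv i) (bv j) * B (bv j) (bv k) * C (bv k) (bv i) := by simp_rw [h3]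
    _ = _ := by
        symm
        rw [Finset.sum_comm]
        refine Finset.sum_congr rfl fun j _ => ?_
        rw [Finset.sum_comm]


end basis

/-! ### values in a frame -/
section frame
variable {n : ℕ} {u : E (n + 1) → ℝ} {x : E (n + 1)}

lemma Frame.jD2_succ (F : Frame u x) (hx0 : x ≠ 0) (a b : Fin n) :
    D2 u x (F.e a.succ) (F.e b.succ) = if a = b then F.lam a / ‖x‖ else 0 := by
  have hn : ‖x‖ ≠ 0 := norm_ne_zero_iff.2 hx0
  have h := inner_Nop (u := u) x (F.e a.succ) (F.e b.succ)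
  rw [F.eig, inner_smul_right, orthonormal_iff_ite.1 F.e.orthonormal] at h
  by_cases hab : a = b
  · subst hab
    simp only [if_true, mul_one] at h ⊢
    rw [h]; field_simp
  · rw [if_neg (fun h' => hab (Fin.succ_injective _ h')), mul_zero] at h
    rw [if_neg hab]
    rcases mul_eq_zero.1 h.symm with h' | h'
    · exact absurd h' hn
    · exact h'

lemma Frame.jD2_zero (H : HC u) (hx : x ∈ Om u) (F : Frame u x) (v : E (n + 1)) :
    D2 u x (F.e 0) v = 0 := by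
  rw [F.e0, map_smul, H.euler2 hx]; simp

lemma Frame.jD2_zero' (H : HC u) (hx : x ∈ Om u) (F : Frame u x) (v : E (n + 1)) :
    D2 u x v (F.e 0) = 0 := by
  rw [H.symm2 hx, F.jD2_zero H hx]

lemma Frame.D3_zero (H : HC u) (hx : x ∈ Om u) (F : Frame u x) (v w : E (n + 1)) :
    D3 u x (F.e 0) v w = - (D2 u x v w / ‖x‖) := by
  rw [F.e0, map_smul, H.euler3 hx]
  simp only [smul_apply, neg_apply, smul_eq_mul]
  ring

lemma Frame.D3_zero' (H : HC u) (hx : x ∈ Om u) (F : Frame u x) (v w : E (n + 1)) :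
    D3 u x v (F.e 0) w = - (D2 u x v w / ‖x‖) := by
  rw [H.symm3a hx, F.D3_zero H hx]

lemma Frame.D3_zero'' (H : HC u) (hx : x ∈ Om u) (F : Frame u x) (v w : E (n + 1)) :
    D3 u x v w (F.e 0) = - (D2 u x v w / ‖x‖) := by
  rw [H.symm3b hx, F.D3_zero' H hx]

lemma Frame.D3_succ (hx0 : x ≠ 0) (F : Frame u x) (a b c : Fin n) :
    D3 u x (F.e a.succ) (F.e b.succ) (F.e c.succ) = F.tau a b c / ‖x‖ ^ 2 := by
  have hn : ‖x‖ ≠ 0 := norm_ne_zero_iff.2 hx0
  unfold Frame.tau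
  field_simp

lemma Frame.jD1_zero (H : HC u) (hx : x ∈ Om u) (F : Frame u x) :
    fderiv ℝ u x (F.e 0) = sN u x := by
  rw [F.e0, map_smul, H.euler1 hx, smul_eq_mul]
  unfold sN; ring

/-- `M:T` evaluated in a frame -/
lemma Frame.sum_MT (H : HC u) (hx : x ∈ Om u) (F : Frame u x) (v : E (n + 1)) :
    ∑ i, ∑ j, D2 u x (bv i) (bv j) * D3 u x v (bv i) (bv j) =
      ∑ a, F.lam a / ‖x‖ * D3 u x v (F.e a.succ) (F.e a.succ) := by
  rw [← jsum2_onb F.e (D2 u x) (D3 u x v), Fin.sum_univ_succ]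
  have h0 : ∑ b, D2 u x (F.e 0) (F.e b) * D3 u x v (F.e 0) (F.e b) = 0 :=
    Finset.sum_eq_zero fun b _ => by rw [F.jD2_zero H hx, zero_mul]
  rw [h0, zero_add]
  refine Finset.sum_congr rfl fun a _ => ?_
  rw [Fin.sum_univ_succ, F.jD2_zero' H hx, zero_mul, zero_add, Finset.sum_eq_single a]
  · rw [F.jD2_succ (H.ne_zero hx), if_pos rfl]
  · intro b _ hb
    rw [F.jD2_succ (H.ne_zero hx), if_neg (Ne.symm hb), zero_mul]
  · intro h; exact absurd (Finset.mem_univ a) h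

lemma Frame.sum_MT_succ (H : HC u) (hx : x ∈ Om u) (F : Frame u x) (k : Fin n) :
    ∑ i, ∑ j, D2 u x (bv i) (bv j) * D3 u x (F.e k.succ) (bv i) (bv j) =
      (∑ a, F.lam a * F.tau a a k) / ‖x‖ ^ 3 := by
  rw [F.sum_MT H hx, Finset.sum_div]
  refine Finset.sum_congr rfl fun a _ => ?_
  rw [H.symm3a hx, H.symm3b hx, F.D3_succ (H.ne_zero hx)]
  have hn : ‖x‖ ≠ 0 := norm_ne_zero_iff.2 (H.ne_zero hx)
  field_simp

lemma Frame.hs2_eq (H : HC u) (hx : x ∈ Om u) (F : Frame u x) :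
    hs2 (D2 u x) = (∑ a, F.lam a ^ 2) / ‖x‖ ^ 2 := by
  rw [jhs2_onb F.e, Fin.sum_univ_succ]
  have h0 : ∑ b, D2 u x (F.e 0) (F.e b) ^ 2 = 0 :=
    Finset.sum_eq_zero fun b _ => by rw [F.jD2_zero H hx]; simp
  rw [h0, zero_add, Finset.sum_div]
  refine Finset.sum_congr rfl fun a _ => ?_
  rw [Fin.sum_univ_succ, F.jD2_zero' H hx, Finset.sum_eq_single a]
  · rw [F.jD2_succ (H.ne_zero hx), if_pos rfl, div_pow]; simp
  · intro b _ hb
    rw [F.jD2_succ (H.ne_zero hx), if_neg (Ne.symm hb)]; simp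
  · intro h; exact absurd (Finset.mem_univ a) h

/-- `∑ T(v,i,j) M_{jk} M_{ki}` in a frame -/
lemma Frame.sum_MMT (H : HC u) (hx : x ∈ Om u) (F : Frame u x) (B : Bil (n + 1)) :
    ∑ i, ∑ j, ∑ k, B (bv i) (bv j) * D2 u x (bv j) (bv k) * D2 u x (bv k) (bv i) =
      ∑ a, (F.lam a / ‖x‖) ^ 2 * B (F.e a.succ) (F.e a.succ) := by
  rw [← jsum3_onb F.e B (D2 u x) (D2 u x), Fin.sum_univ_succ]
  have h0 : ∑ b, ∑ c, B (F.e 0) (F.e b) * D2 u x (F.e b) (F.e c) * D2 u x (F.e c) (F.e 0) = 0 :=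
    Finset.sum_eq_zero fun b _ => Finset.sum_eq_zero fun c _ => by
      rw [F.jD2_zero' H hx, mul_zero]
  rw [h0, zero_add]
  refine Finset.sum_congr rfl fun a _ => ?_
  rw [Fin.sum_univ_succ]
  have h1 : ∑ c, B (F.e a.succ) (F.e 0) * D2 u x (F.e 0) (F.e c) * D2 u x (F.e c) (F.e a.succ) = 0 :=
    Finset.sum_eq_zero fun c _ => by rw [F.jD2_zero H hx]; ring
  rw [h1, zero_add]
  have h2 : ∀ b : Fin n, ∑ c, B (F.e a.succ) (F.e b.succ) * D2 u x (F.e b.succ) (F.e c) *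
      D2 u x (F.e c) (F.e a.succ) = if a = b then
        (F.lam a / ‖x‖) ^ 2 * B (F.e a.succ) (F.e a.succ) else 0 := by
    intro b
    rw [Fin.sum_univ_succ, F.jD2_zero H hx, mul_zero, zero_add]
    rw [Finset.sum_eq_single a]
    · rw [F.jD2_succ (H.ne_zero hx), F.jD2_succ (H.ne_zero hx), if_pos rfl]
      by_cases hab : a = b
      · subst hab; simp; ring
      · rw [if_neg hab, if_neg (Ne.symm hab)]; ring
    · intro c _ hc
      rw [F.jD2_succ (H.ne_zero hx) c a, if_neg hc, mul_zero]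
    · intro h; exact absurd (Finset.mem_univ a) h
  simp_rw [h2]
  simp

lemma Frame.tr3_eq (H : HC u) (hx : x ∈ Om u) (F : Frame u x) :
    tr3 (D2 u x) = (∑ a, F.lam a ^ 3) / ‖x‖ ^ 3 := by
  unfold tr3
  rw [F.sum_MMT H hx (D2 u x), Finset.sum_div]
  refine Finset.sum_congr rfl fun a _ => ?_
  rw [F.jD2_succ (H.ne_zero hx), if_pos rfl]
  ring

/-- the full norm of `D³u` in a frame -/
lemma Frame.hs3_eq (H : HC u) (hx : x ∈ Om u) (F : Frame u x) :
    hs3' (D3 u x) = (∑ a, ∑ b, ∑ c, F.tau a b c ^ 2) / ‖x‖ ^ 4 +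
      3 * hs2 (D2 u x) / ‖x‖ ^ 2 := by
  have hn : ‖x‖ ≠ 0 := norm_ne_zero_iff.2 (H.ne_zero hx)
  rw [hs3_onb F.e, Fin.sum_univ_succ]
  have h0 : ∑ a, ∑ b, D3 u x (F.e 0) (F.e a) (F.e b) ^ 2 = hs2 (D2 u x) / ‖x‖ ^ 2 := by
    rw [jhs2_onb F.e, Finset.sum_div]
    refine Finset.sum_congr rfl fun a _ => ?_
    rw [Finset.sum_div]
    refine Finset.sum_congr rfl fun b _ => ?_
    rw [F.D3_zero H hx, neg_sq, div_pow]
  have h1 : ∀ c : Fin n, ∑ a, ∑ b, D3 u x (F.e c.succ) (F.e a) (F.e b) ^ 2 =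
      2 * ((∑ b : Fin n, D2 u x (F.e c.succ) (F.e b.succ) ^ 2) / ‖x‖ ^ 2) +
      ∑ a : Fin n, ∑ b : Fin n, F.tau c a b ^ 2 / ‖x‖ ^ 4 := by
    intro c
    rw [Fin.sum_univ_succ]
    have k0 : ∑ b, D3 u x (F.e c.succ) (F.e 0) (F.e b) ^ 2 =
        (∑ b : Fin n, D2 u x (F.e c.succ) (F.e b.succ) ^ 2) / ‖x‖ ^ 2 := by
      rw [Fin.sum_univ_succ, F.D3_zero' H hx, F.jD2_zero' H hx, Finset.sum_div]
      simp only [zero_div, neg_zero, ne_eq, OfNat.ofNat_ne_zero, not_false_eq_true, zero_pow,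
        zero_add]
      refine Finset.sum_congr rfl fun b _ => ?_
      rw [F.D3_zero' H hx, neg_sq, div_pow]
    have k1 : ∀ a : Fin n, ∑ b, D3 u x (F.e c.succ) (F.e a.succ) (F.e b) ^ 2 =
        D2 u x (F.e c.succ) (F.e a.succ) ^ 2 / ‖x‖ ^ 2 +
          ∑ b : Fin n, F.tau c a b ^ 2 / ‖x‖ ^ 4 := by
      intro a
      rw [Fin.sum_univ_succ, F.D3_zero'' H hx, neg_sq, div_pow]
      congr 1
      refine Finset.sum_congr rfl fun b _ => ?_
      rw [F.D3_succ (H.ne_zero hx)]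
      ring
    rw [k0]
    simp_rw [k1]
    rw [Finset.sum_add_distrib, ← Finset.sum_div]
    ring
  rw [h0]
  simp_rw [h1]
  rw [Finset.sum_add_distrib, ← Finset.mul_sum, ← Finset.sum_div]
  have h2 : ∑ c : Fin n, ∑ b : Fin n, D2 u x (F.e c.succ) (F.e b.succ) ^ 2 = hs2 (D2 u x) := by
    rw [jhs2_onb F.e, Fin.sum_univ_succ]
    have z0 : ∑ b, D2 u x (F.e 0) (F.e b) ^ 2 = 0 :=
      Finset.sum_eq_zero fun b _ => by rw [F.jD2_zero H hx]; simp
    rw [z0, zero_add]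
    refine Finset.sum_congr rfl fun a _ => ?_
    rw [Fin.sum_univ_succ, F.jD2_zero' H hx]; simp
  rw [h2, Finset.sum_div]
  have h3 : ∀ c : Fin n, (∑ a : Fin n, ∑ b : Fin n, F.tau c a b ^ 2) / ‖x‖ ^ 4 =
      ∑ a : Fin n, ∑ b : Fin n, F.tau c a b ^ 2 / ‖x‖ ^ 4 := by
    intro c
    rw [Finset.sum_div]
    refine Finset.sum_congr rfl fun a _ => ?_
    rw [Finset.sum_div]
  simp_rw [h3]
  ring

end frame

end Crest.Agent.R097
end

-- ▼ part R097/RJ3

/-!
# Row 97, jet calculus: derivatives of the invariants `(P₂, P₃, q, s)` in a frame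
-/

set_option autoImplicit false
set_option synthInstance.maxHeartbeats 400000
open MeasureTheory Metric Set Filter Topology InnerProductSpace
open scoped RealInnerProductSpace NNReal ENNReal Gradient Laplacian

namespace Crest.Agent.R097

section general
variable {d : ℕ}

lemma hasFDerivAt_norm' {x : E d} (hx : x ≠ 0) :
    HasFDerivAt (fun y : E d => ‖y‖) (‖x‖⁻¹ • innerSL ℝ x) x := by
  have hn : 0 < ‖x‖ := norm_pos_iff.2 hx
  have h := hasFDerivAt_radial (f := Real.exp) hx (Real.hasDerivAt_exp _)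
  have h2 : (fun y : E d => Real.exp (Real.log ‖y‖)) =ᶠ[𝓝 x] fun y => ‖y‖ := by
    filter_upwards [isOpen_ne.mem_nhds hx] with y hy
    exact Real.exp_log (norm_pos_iff.2 hy)
  refine (h.congr_of_eventuallyEq h2.symm).congr_fderiv ?_
  rw [Real.exp_log hn]
  congr 1
  field_simp

lemma hasFDerivAt_normsq' (x : E d) :
    HasFDerivAt (fun y : E d => ‖y‖ ^ 2) ((2 : ℝ) • innerSL ℝ x) x := by
  have := (hasStrictFDerivAt_norm_sq (F := E d) x).hasFDerivAt
  refine this.congr_fderiv ?_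
  ext v
  simp [two_smul]

end general

section frame
variable {n : ℕ} {u : E (n + 1) → ℝ} {x : E (n + 1)}

lemma Frame.inner_succ (hx0 : x ≠ 0) (F : Frame u x) (k : Fin n) : ⟪x, F.e k.succ⟫_ℝ = 0 := by
  have hn : ‖x‖ ≠ 0 := norm_ne_zero_iff.2 hx0
  have h : x = ‖x‖ • F.e 0 := by rw [F.e0, smul_smul, mul_inv_cancel₀ hn, one_smul]
  have h2 : ⟪‖x‖ • F.e 0, F.e k.succ⟫_ℝ = 0 := by
    rw [inner_smul_left, orthonormal_iff_ite.1 F.e.orthonormal,
      if_neg (Fin.succ_ne_zero k).symm, mul_zero]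
  exact (congrArg (fun z => ⟪z, F.e k.succ⟫_ℝ) h).trans h2

lemma Frame.inner_zero (hx0 : x ≠ 0) (F : Frame u x) : ⟪x, F.e 0⟫_ℝ = ‖x‖ := by
  have hn : ‖x‖ ≠ 0 := norm_ne_zero_iff.2 hx0
  rw [F.e0, inner_smul_right, real_inner_self_eq_norm_sq]
  field_simp

lemma Frame.grad_succ (F : Frame u x) (k : Fin n) : ⟪∇ u x, F.e k.succ⟫_ℝ = F.g k := by
  rw [inner_gradient]; rfl

lemma Frame.grad_zero (H : HC u) (hx : x ∈ Om u) (F : Frame u x) : ⟪∇ u x, F.e 0⟫_ℝ = sN u x := by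
  rw [inner_gradient, F.jD1_zero H hx]

/-- `D²u(x)(e_k, Du)` -/
lemma Frame.D2_grad (H : HC u) (hx : x ∈ Om u) (F : Frame u x) (k : Fin n) :
    D2 u x (F.e k.succ) (∇ u x) = F.lam k * F.g k / ‖x‖ := by
  rw [apply_onb F.e (D2 u x (F.e k.succ)) (∇ u x), Fin.sum_univ_succ, F.jD2_zero' H hx, mul_zero,
    zero_add, Finset.sum_eq_single k]
  · rw [F.jD2_succ (H.ne_zero hx), if_pos rfl, real_inner_comm, F.grad_succ]; ring
  · intro b _ hb
    rw [F.jD2_succ (H.ne_zero hx), if_neg (Ne.symm hb), mul_zero]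
  · intro h; exact absurd (Finset.mem_univ k) h

lemma Frame.qN_eq (H : HC u) (hx : x ∈ Om u) (F : Frame u x) :
    qN u x = ∑ k, F.g k ^ 2 := by
  unfold qN
  rw [norm_gradient, norm_sq_onb F.e, Fin.sum_univ_succ, F.jD1_zero H hx]
  unfold sN Frame.g
  ring

lemma Frame.jzN_eq (H : HC u) (hx : x ∈ Om u) (F : Frame u x) :
    zN u x = zv F.lam F.g (sN u x) := by
  have hn : ‖x‖ ≠ 0 := norm_ne_zero_iff.2 (H.ne_zero hx)
  unfold zN zv
  rw [F.hs2_eq H hx, F.tr3_eq H hx, F.qN_eq H hx]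
  congr 1
  · field_simp
  · congr 1
    field_simp

/-- derivative of `s` -/
lemma has_s (H : HC u) (hx : x ∈ Om u) :
    HasFDerivAt (sN u) (‖x‖⁻¹ • fderiv ℝ u x - (u x / ‖x‖ ^ 3) • innerSL ℝ x) x := by
  have hx0 := H.ne_zero hx
  have hn : ‖x‖ ≠ 0 := norm_ne_zero_iff.2 hx0
  have hi : HasFDerivAt (fun y : E (n + 1) => ‖y‖⁻¹) _ x :=
    (hasDerivAt_inv hn).comp_hasFDerivAt x (hasFDerivAt_norm' hx0)
  have h := (H.hasD1 hx).mul hi
  refine (h.congr_of_eventuallyEq (Eventually.of_forall fun y => ?_)).congr_fderiv ?_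
  · unfold sN; rw [div_eq_mul_inv]; rfl
  · ext v
    simp only [sub_apply, smul_apply, add_apply, smul_eq_mul, innerSL_apply_apply]
    field_simp
    ring

/-- derivative of `q` -/
lemma has_q (H : HC u) (hx : x ∈ Om u) :
    ∃ L : E (n + 1) →L[ℝ] ℝ, HasFDerivAt (qN u) L x ∧ ∀ v, L v = 2 * D2 u x v (∇ u x) -
      2 * sN u x * (‖x‖⁻¹ * fderiv ℝ u x v - (u x / ‖x‖ ^ 3) * ⟪x, v⟫_ℝ) := by
  have h1 : HasFDerivAt (fun y => ‖∇ u y‖ ^ 2) ((2 : ℝ) • ((D2 u x).flip (∇ u x))) x := by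
    have h2 : ∀ i : Fin (n + 1), HasFDerivAt (fun y => (fderiv ℝ u y (bv i)) ^ 2)
        ((2 * fderiv ℝ u x (bv i)) • (D2 u x).flip (bv i)) x := by
      intro i
      have := (had_app1 (H.hasD2 hx) (bv i)).pow 2
      refine this.congr_fderiv ?_
      ext v; simp
    have h3 : HasFDerivAt (fun y => ∑ i, (fderiv ℝ u y (bv i)) ^ 2)
        (∑ i, (2 * fderiv ℝ u x (bv i)) • (D2 u x).flip (bv i)) x :=
      HasFDerivAt.fun_sum fun i _ => h2 i
    refine (h3.congr_of_eventuallyEq (Eventually.of_forall fun y => ?_)).congr_fderiv ?_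
    · simp only []
      rw [EuclideanSpace.norm_sq_eq]
      refine Finset.sum_congr rfl fun i _ => ?_
      rw [gradient_coord, Real.norm_eq_abs, sq_abs]
    · ext v
      simp only [sum_apply, smul_apply, ContinuousLinearMap.flip_apply, smul_eq_mul]
      have h4 : D2 u x v (∇ u x) = ∑ i, (∇ u x) i * D2 u x v (bv i) := by
        conv_lhs => rw [← sum_bv (∇ u x), map_sum]
        simp [smul_eq_mul]
      rw [h4, Finset.mul_sum]
      refine Finset.sum_congr rfl fun i _ => ?_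
      rw [gradient_coord]; ring
  have h5 := (has_s H hx).pow 2
  refine ⟨_, (h1.sub h5).congr_of_eventuallyEq (Eventually.of_forall fun y => ?_), fun v => ?_⟩
  · rfl
  · simp only [sub_apply, smul_apply, ContinuousLinearMap.flip_apply, smul_eq_mul, nsmul_eq_mul,
      innerSL_apply_apply]
    push_cast
    ring

/-- derivative of `P₂` -/
lemma has_P2 (H : HC u) (hx : x ∈ Om u) :
    ∃ L : E (n + 1) →L[ℝ] ℝ, HasFDerivAt (fun y => ‖y‖ ^ 2 * hs2 (D2 u y)) L x ∧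
      ∀ v, L v = 2 * ⟪x, v⟫_ℝ * hs2 (D2 u x) +
        ‖x‖ ^ 2 * (2 * ∑ i, ∑ j, D2 u x (bv i) (bv j) * D3 u x v (bv i) (bv j)) := by
  have hm : DifferentiableAt ℝ (fun y => hs2 (D2 u y)) x :=
    ((smooth_m H.isOpen H.sm).contDiffAt (H.isOpen.mem_nhds hx)).differentiableAt (by simp)
  refine ⟨_, (hasFDerivAt_normsq' x).mul hm.hasFDerivAt, fun v => ?_⟩
  simp only [add_apply, smul_apply, smul_eq_mul, innerSL_apply_apply]
  rw [fderiv_m (H.hasD3 hx).differentiableAt, Finset.mul_sum]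
  simp_rw [Finset.mul_sum]
  rw [add_comm]
  congr 1
  · ring
  · refine Finset.sum_congr rfl fun i _ => ?_
    refine Finset.sum_congr rfl fun j _ => ?_
    ring

lemma has_tr3 (H : HC u) (hx : x ∈ Om u) :
    ∃ L : E (n + 1) →L[ℝ] ℝ, HasFDerivAt (fun y => tr3 (D2 u y)) L x ∧
      ∀ v, L v = 3 * ∑ i, ∑ j, ∑ k, D3 u x v (bv i) (bv j) * D2 u x (bv j) (bv k) *
        D2 u x (bv k) (bv i) := by
  have h0 := fun i j k : Fin (n + 1) => ((H.hasD2e hx (bv i) (bv j)).mul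
    (H.hasD2e hx (bv j) (bv k))).mul (H.hasD2e hx (bv k) (bv i))
  have h1 : HasFDerivAt (fun y => tr3 (D2 u y)) _ x :=
    HasFDerivAt.fun_sum fun i _ => HasFDerivAt.fun_sum fun j _ => HasFDerivAt.fun_sum fun k _ =>
      h0 i j k
  refine ⟨_, h1, fun v => ?_⟩
  simp only [sum_apply, add_apply, smul_apply, smul_eq_mul, ContinuousLinearMap.flip_apply,
    mul_add, Finset.sum_add_distrib, Pi.mul_apply]
  set A := fun i j : Fin (n + 1) => D2 u x (bv i) (bv j) with hA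
  set B := fun i j : Fin (n + 1) => D3 u x v (bv i) (bv j) with hB
  have e0 : ∀ i j, D2 u x (bv i) (bv j) = A i j := fun _ _ => rfl
  have e1 : ∀ i j, D3 u x v (bv i) (bv j) = B i j := fun _ _ => rfl
  simp_rw [e0, e1]
  have c1 : ∑ i, ∑ j, ∑ k, A i j * A j k * B k i = ∑ i, ∑ j, ∑ k, B i j * A j k * A k i := by
    calc ∑ i, ∑ j, ∑ k, A i j * A j k * B k i = ∑ i, ∑ k, ∑ j, A i j * A j k * B k i := by
          refine Finset.sum_congr rfl fun i _ => ?_
          rw [Finset.sum_comm]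
      _ = ∑ k, ∑ i, ∑ j, A i j * A j k * B k i := by rw [Finset.sum_comm]
      _ = _ := by
          refine Finset.sum_congr rfl fun k _ => Finset.sum_congr rfl fun i _ =>
            Finset.sum_congr rfl fun j _ => ?_
          ring
  have c2 : ∑ i, ∑ j, ∑ k, A k i * (A i j * B j k) = ∑ i, ∑ j, ∑ k, B i j * A j k * A k i := by
    calc ∑ i, ∑ j, ∑ k, A k i * (A i j * B j k) = ∑ j, ∑ i, ∑ k, A k i * (A i j * B j k) := by
          rw [Finset.sum_comm]
      _ = ∑ j, ∑ k, ∑ i, A k i * (A i j * B j k) := by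
          refine Finset.sum_congr rfl fun j _ => ?_
          rw [Finset.sum_comm]
      _ = _ := by
          refine Finset.sum_congr rfl fun j _ => Finset.sum_congr rfl fun k _ =>
            Finset.sum_congr rfl fun i _ => ?_
          ring
  have c3 : ∑ i, ∑ j, ∑ k, A k i * (A j k * B i j) = ∑ i, ∑ j, ∑ k, B i j * A j k * A k i := by
    refine Finset.sum_congr rfl fun j _ => Finset.sum_congr rfl fun k _ =>
      Finset.sum_congr rfl fun i _ => ?_
    ring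
  rw [c1, c2, c3]
  ring

/-- derivative of `P₃` -/
lemma has_P3 (H : HC u) (hx : x ∈ Om u) :
    ∃ L : E (n + 1) →L[ℝ] ℝ, HasFDerivAt (fun y => ‖y‖ ^ 3 * tr3 (D2 u y)) L x ∧
      ∀ v, L v = 3 * ‖x‖ * ⟪x, v⟫_ℝ * tr3 (D2 u x) +
        ‖x‖ ^ 3 * (3 * ∑ i, ∑ j, ∑ k, D3 u x v (bv i) (bv j) * D2 u x (bv j) (bv k) *
        D2 u x (bv k) (bv i)) := by
  have hx0 := H.ne_zero hx
  have hn : ‖x‖ ≠ 0 := norm_ne_zero_iff.2 hx0
  obtain ⟨L, h1, h2⟩ := has_tr3 H hx
  refine ⟨_, ((hasFDerivAt_norm' hx0).pow 3).mul h1, fun v => ?_⟩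
  simp only [add_apply, smul_apply, smul_eq_mul, innerSL_apply_apply, h2, nsmul_eq_mul]
  push_cast
  field_simp
  ring

/-- **derivative of the vector of invariants** in a frame -/
theorem Frame.has_z (H : HC u) (hx : x ∈ Om u) (F : Frame u x) :
    ∃ L : Fin 4 → (E (n + 1) →L[ℝ] ℝ), HasFDerivAt (zN u) (ContinuousLinearMap.pi L) x ∧
      (∀ i, L i (F.e 0) = 0) ∧
      (∀ k : Fin n, L 0 (F.e k.succ) = ‖x‖⁻¹ * (2 * ∑ a, F.lam a * F.tau a a k)) ∧
      (∀ k : Fin n, L 1 (F.e k.succ) = ‖x‖⁻¹ * (3 * ∑ a, F.lam a ^ 2 * F.tau a a k)) ∧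
      (∀ k : Fin n, L 2 (F.e k.succ) = ‖x‖⁻¹ * (2 * (F.lam k - sN u x) * F.g k)) ∧
      (∀ k : Fin n, L 3 (F.e k.succ) = ‖x‖⁻¹ * F.g k) := by
  have hx0 := H.ne_zero hx
  have hn : ‖x‖ ≠ 0 := norm_ne_zero_iff.2 hx0
  obtain ⟨L0, a0, b0⟩ := has_P2 H hx
  obtain ⟨L1, a1, b1⟩ := has_P3 H hx
  obtain ⟨L2, a2, b2⟩ := has_q H hx
  have a3 := has_s H hx
  set L3 := ‖x‖⁻¹ • fderiv ℝ u x - (u x / ‖x‖ ^ 3) • innerSL ℝ x with hL3
  have hinn0 : ⟪x, F.e 0⟫_ℝ = ‖x‖ := F.inner_zero hx0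
  have hMT0 : ∑ i, ∑ j, D2 u x (bv i) (bv j) * D3 u x (F.e 0) (bv i) (bv j) =
      - (hs2 (D2 u x) / ‖x‖) := by
    unfold hs2
    rw [Finset.sum_div, ← Finset.sum_neg_distrib]
    refine Finset.sum_congr rfl fun i _ => ?_
    rw [Finset.sum_div, ← Finset.sum_neg_distrib]
    refine Finset.sum_congr rfl fun j _ => ?_
    rw [F.D3_zero H hx]; ring
  have hMMT0 : ∑ i, ∑ j, ∑ k, D3 u x (F.e 0) (bv i) (bv j) * D2 u x (bv j) (bv k) *
      D2 u x (bv k) (bv i) = - (tr3 (D2 u x) / ‖x‖) := by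
    unfold tr3
    simp_rw [F.D3_zero H hx, Finset.sum_div, ← Finset.sum_neg_distrib]
    refine Finset.sum_congr rfl fun i _ => Finset.sum_congr rfl fun j _ =>
      Finset.sum_congr rfl fun k _ => ?_
    ring
  refine ⟨![L0, L1, L2, L3], ?_, ?_, fun k => ?_, fun k => ?_, fun k => ?_, fun k => ?_⟩
  · rw [hasFDerivAt_pi']
    intro i
    fin_cases i
    · exact a0.congr_fderiv (by ext v; simp)
    · exact a1.congr_fderiv (by ext v; simp)
    · exact a2.congr_fderiv (by ext v; simp)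
    · exact a3.congr_fderiv (by ext v; simp)
  · intro i
    fin_cases i
    · show L0 (F.e 0) = 0
      rw [b0, hMT0, hinn0]
      field_simp
      ring
    · show L1 (F.e 0) = 0
      rw [b1, hMMT0, hinn0]
      field_simp
      ring
    · show L2 (F.e 0) = 0
      rw [b2, F.jD2_zero H hx, hinn0, F.jD1_zero H hx]
      unfold sN
      field_simp
      ring
    · show L3 (F.e 0) = 0
      rw [hL3]
      simp only [sub_apply, smul_apply, smul_eq_mul, innerSL_apply_apply]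
      rw [hinn0, F.jD1_zero H hx]
      unfold sN
      field_simp
      ring
  · show L0 (F.e k.succ) = _
    rw [b0, F.sum_MT_succ H hx, F.inner_succ hx0]
    field_simp
    ring
  · show L1 (F.e k.succ) = _
    rw [b1, F.sum_MMT H hx (D3 u x (F.e k.succ)), F.inner_succ hx0]
    have e1 : ∀ a : Fin n, (F.lam a / ‖x‖) ^ 2 * D3 u x (F.e k.succ) (F.e a.succ) (F.e a.succ) =
        F.lam a ^ 2 * F.tau a a k / ‖x‖ ^ 4 := by
      intro a
      rw [H.symm3a hx, H.symm3b hx, F.D3_succ hx0]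
      field_simp
    simp_rw [e1]
    rw [← Finset.sum_div]
    field_simp
    ring
  · show L2 (F.e k.succ) = _
    rw [b2, F.D2_grad H hx, F.inner_succ hx0]
    have e1 : fderiv ℝ u x (F.e k.succ) = F.g k := rfl
    rw [e1]
    field_simp
    ring
  · show L3 (F.e k.succ) = _
    rw [hL3]
    simp only [sub_apply, smul_apply, smul_eq_mul, innerSL_apply_apply]
    rw [F.inner_succ hx0]
    have e1 : fderiv ℝ u x (F.e k.succ) = F.g k := rfl
    rw [e1]; ring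

/-- derivative of a coefficient function in a frame -/
theorem Frame.has_coef (H : HC u) (hx : x ∈ Wn u) (F : Frame u x) {c : Coef} (hc : c.Ok) :
    ∃ L : E (n + 1) →L[ℝ] ℝ, HasFDerivAt (fun y => c.f (zN u y)) L x ∧ L (F.e 0) = 0 ∧
      ∀ k : Fin n, L (F.e k.succ) = ‖x‖⁻¹ * c.D F.lam F.g (sN u x) F.tau k := by
  have hx0 := H.ne_zero hx.1
  have hn : 0 < ‖x‖ := norm_pos_iff.2 hx0
  obtain ⟨L, h, h0, e0, e1, e2, e3⟩ := F.has_z H hx.1
  have hz0 : 0 < zN u x 0 := by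
    show 0 < ‖x‖ ^ 2 * hs2 (D2 u x)
    exact mul_pos (by positivity) hx.2
  have hc1 := hc.has (zN u x) hz0
  refine ⟨_, hc1.comp x h, ?_, fun k => ?_⟩
  · simp only [ContinuousLinearMap.comp_apply, sum_apply, smul_apply, smul_eq_mul,
      ContinuousLinearMap.proj_apply, ContinuousLinearMap.pi_apply, h0, mul_zero,
      Finset.sum_const_zero]
  · simp only [ContinuousLinearMap.comp_apply, sum_apply, smul_apply, smul_eq_mul,
      ContinuousLinearMap.proj_apply, ContinuousLinearMap.pi_apply]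
    rw [Fin.sum_univ_four, e0, e1, e2, e3, F.jzN_eq H hx.1]
    unfold Coef.D
    ring

end frame

end Crest.Agent.R097
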