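import Crest.Agent.R097.RFld0

/-!
# Row 97: regularity of the field and of the test function of a certificate
-/

set_option autoImplicit false
set_option synthInstance.maxHeartbeats 400000
open MeasureTheory Metric Set Filter Topology InnerProductSpace
open scoped RealInnerProductSpace NNReal ENNReal Gradient Laplacian

namespace Crest.Agent.R097

variable {d : ℕ} {u : E d → ℝ} {C : CertData}

namespace RR

/-! ### smoothness -/

lemma smGrad (H : HC u) : ContDiffOn ℝ (⊤ : ℕ∞) (fun x => ∇ u x) (Om u) := by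
  rw [contDiffOn_euclidean]
  intro i
  simp_rw [gradient_coord]
  exact H.smD1.clm_apply contDiffOn_const

lemma smNorm (H : HC u) : ContDiffOn ℝ (⊤ : ℕ∞) (fun x : E d => ‖x‖) (Om u) :=
  fun _ hx => (contDiffAt_norm ℝ (H.ne_zero hx)).contDiffWithinAt

lemma smNormInv (H : HC u) : ContDiffOn ℝ (⊤ : ℕ∞) (fun x : E d => ‖x‖⁻¹) (Om u) :=
  (smNorm H).inv fun _ hx => norm_ne_zero_iff.2 (H.ne_zero hx)

lemma smS (H : HC u) : ContDiffOn ℝ (⊤ : ℕ∞) (sN u) (Om u) :=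
  H.sm.div (smNorm H) fun _ hx => norm_ne_zero_iff.2 (H.ne_zero hx)

lemma smQ (H : HC u) : ContDiffOn ℝ (⊤ : ℕ∞) (qN u) (Om u) :=
  ((smGrad H).norm_sq ℝ).sub ((smS H).pow 2)

lemma contDiff_tr3 : ContDiff ℝ (⊤ : ℕ∞) (tr3 : Bil d → ℝ) := by
  unfold tr3
  refine ContDiff.sum fun i _ => ContDiff.sum fun j _ => ContDiff.sum fun k _ => ?_
  have h : ∀ a b : Fin d, ContDiff ℝ (⊤ : ℕ∞) (fun A : Bil d => A (bv a) (bv b)) := fun a b =>
    (contDiff_id.clm_apply contDiff_const).clm_apply contDiff_const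
  exact ((h _ _).mul (h _ _)).mul (h _ _)

lemma smZ (H : HC u) : ContDiffOn ℝ (⊤ : ℕ∞) (zN u) (Om u) := by
  rw [contDiffOn_pi]
  intro i
  fin_cases i
  · exact ((smNorm H).pow 2).mul (smooth_m H.isOpen H.sm)
  · exact ((smNorm H).pow 3).mul (contDiff_tr3.comp_contDiffOn H.smD2)
  · exact smQ H
  · exact smS H


lemma zN_pos (H : HC u) {x : E d} (hx : x ∈ Wn u) : 0 < zN u x 0 := by
  have h0 := norm_pos_iff.2 (H.ne_zero hx.1)
  have h1 := hx.2
  show 0 < ‖x‖ ^ 2 * hs2 (D2 u x)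
  positivity

lemma isOpen_z : IsOpen {z : Fin 4 → ℝ | 0 < z 0} :=
  isOpen_lt continuous_const (continuous_apply 0)

lemma Coef_contDiffOn {F : Coef} (h : F.Ok) : ContDiffOn ℝ 1 F.f {z | 0 < z 0} := by
  rw [show (1 : WithTop ℕ∞) = 0 + 1 by simp, contDiffOn_succ_iff_fderiv_of_isOpen isOpen_z,
    contDiffOn_zero]
  refine ⟨fun z hz => (h.has z hz).differentiableAt.differentiableWithinAt, by simp, ?_⟩
  have h1 : ContinuousOn (fun z => ∑ i, F.d i z •
      (ContinuousLinearMap.proj i : (Fin 4 → ℝ) →L[ℝ] ℝ)) {z | 0 < z 0} :=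
    continuousOn_finsetSum _ fun i _ => (h.cont i).smul continuousOn_const
  exact h1.congr fun z hz => (h.has z hz).fderiv

lemma Coef_comp (H : HC u) {F : Coef} (h : F.Ok) : ContDiffOn ℝ 1 (fun x => F.f (zN u x)) (Wn u) :=
  (Coef_contDiffOn h).comp (((smZ H).mono (fun _ hx => hx.1)).of_le (by simp))
    fun _ hx => zN_pos H hx

lemma smTM (H : HC u) : ContDiffOn ℝ (⊤ : ℕ∞) (fun x => TM (D2 u x) (D3 u x)) (Om u) := by
  unfold TM
  refine ContDiffOn.sum fun k _ => ?_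
  have h4 : ContDiffOn ℝ (⊤ : ℕ∞) (fun x => ∑ i, ∑ j, D3 u x (bv k) (bv i) (bv j) *
      D2 u x (bv i) (bv j)) (Om u) := by
    refine ContDiffOn.sum fun i _ => ContDiffOn.sum fun j _ => ?_
    exact (((H.smD3.clm_apply contDiffOn_const).clm_apply contDiffOn_const).clm_apply
      contDiffOn_const).mul ((H.smD2.clm_apply contDiffOn_const).clm_apply contDiffOn_const)
  exact h4.smul (contDiffOn_const (c := bv k))

lemma smW1 (H : HC u) : ContDiffOn ℝ (⊤ : ℕ∞) (W1f u) (Om u) :=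
  (((smNorm H).pow 2).smul (smTM H)).add ((smooth_m H.isOpen H.sm).smul contDiffOn_id)

lemma smg (H : HC u) : ContDiffOn ℝ (⊤ : ℕ∞) (gN u) (Om u) :=
  (smGrad H).sub ((H.sm.div ((smNorm H).pow 2)
    fun _ hx => pow_ne_zero 2 (norm_ne_zero_iff.2 (H.ne_zero hx))).smul contDiffOn_id)

lemma smAct (H : HC u) {Y : E d → E d} (hY : ContDiffOn ℝ (⊤ : ℕ∞) Y (Om u)) :
    ContDiffOn ℝ (⊤ : ℕ∞) (fun x => act (D2 u x) (Y x)) (Om u) := by
  unfold act
  refine ContDiffOn.sum fun i _ => ?_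
  have h4 : ContDiffOn ℝ (⊤ : ℕ∞) (fun x => D2 u x (Y x) (bv i)) (Om u) :=
    (H.smD2.clm_apply hY).clm_apply contDiffOn_const
  exact h4.smul (contDiffOn_const (c := bv i))

lemma smZf (H : HC u) : ContDiffOn ℝ (⊤ : ℕ∞) (Zf u) (Om u) := smAct H (smGrad H)

theorem XC_contDiffOn (H : HC u) (hga : C.ga.Ok) (h0 : C.y0.Ok) (h1 : C.y1.Ok) (h2 : C.y2.Ok)
    (h3 : C.y3.Ok) :
    ContDiffOn ℝ 1 (XC C u) (Wn u) := by
  have hm : ∀ {Y : E d → E d}, ContDiffOn ℝ (⊤ : ℕ∞) Y (Om u) → ContDiffOn ℝ 1 Y (Wn u) :=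
    fun h => (h.mono (fun _ hx => hx.1)).of_le (by simp)
  have hm' : ∀ {Y : E d → ℝ}, ContDiffOn ℝ (⊤ : ℕ∞) Y (Om u) → ContDiffOn ℝ 1 Y (Wn u) :=
    fun h => (h.mono (fun _ hx => hx.1)).of_le (by simp)
  exact (((((Coef_comp H hga).smul (hm (smW1 H))).add
    (((Coef_comp H h0).mul (hm' (smNormInv H))).smul (hm (smg H)))).add
    ((Coef_comp H h1).smul (hm (smZf H)))).add
    (((Coef_comp H h2).mul (hm' (smNorm H))).smul (hm (smAct H (smZf H))))).add
    (((Coef_comp H h3).mul (hm' ((smNorm H).pow 2))).smul (hm (smAct H (smAct H (smZf H)))))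

theorem wC_contDiffOn (H : HC u) (hZ : C.Z.Ok) (hpos : ∀ x ∈ Wn u, 0 < C.Z.f (zN u x)) :
    ContDiffOn ℝ 1 (wC C u) (Wn u) :=
  (Coef_comp H hZ).sqrt fun x hx => (hpos x hx).ne'

/-! ### homogeneity and tangency -/

lemma tr3_smul (c : ℝ) (A : Bil d) : tr3 (c • A) = c ^ 3 * tr3 A := by
  unfold tr3
  simp_rw [Finset.mul_sum, smul_apply, smul_eq_mul]
  refine Finset.sum_congr rfl fun i _ => Finset.sum_congr rfl fun j _ =>
    Finset.sum_congr rfl fun k _ => ?_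
  ring

lemma zN_hom (H : HC u) {t : ℝ} (ht : 0 < t) (x : E d) : zN u (t • x) = zN u x := by
  have hg : ∇ u (t • x) = ∇ u x := by
    unfold gradient; rw [hom_fderiv H.hh ht]
  have hs : u (t • x) / ‖t • x‖ = u x / ‖x‖ := by
    rw [H.hh t ht, norm_smul, Real.norm_of_nonneg ht.le, mul_div_mul_left _ _ ht.ne']
  unfold zN qN sN
  rw [hom_m H.hh ht, hom_D2 H.hh ht, tr3_smul, hg, hs, norm_smul, Real.norm_of_nonneg ht.le]
  have e1 : (t * ‖x‖) ^ 2 * ((t⁻¹) ^ 2 * hs2 (D2 u x)) = ‖x‖ ^ 2 * hs2 (D2 u x) := by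
    field_simp
  have e2 : (t * ‖x‖) ^ 3 * ((t⁻¹) ^ 3 * tr3 (D2 u x)) = ‖x‖ ^ 3 * tr3 (D2 u x) := by
    field_simp
  rw [e1, e2]

theorem wC_hom (H : HC u) : ∀ x ∈ Wn u, ∀ t : ℝ, 0 < t → wC C u (t • x) = wC C u x := by
  intro x _ t ht
  unfold wC
  rw [zN_hom H ht]


lemma inner_act (A : Bil d) (v x : E d) : ⟪x, act A v⟫_ℝ = A v x := by
  unfold act
  rw [inner_sum]
  conv_rhs => rw [← sum_bv x, map_sum]
  refine Finset.sum_congr rfl fun i _ => ?_
  rw [inner_smul_right, inner_bv', map_smul, smul_eq_mul]; ring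

lemma inner_TM (A : Bil d) (B : Tri d) (x : E d) :
    ⟪x, TM A B⟫_ℝ = ∑ i, ∑ j, B x (bv i) (bv j) * A (bv i) (bv j) := by
  unfold TM
  rw [inner_sum]
  have h : ∀ i j, B x (bv i) (bv j) = ∑ k, x k * B (bv k) (bv i) (bv j) := by
    intro i j
    conv_lhs => rw [← sum_bv x, map_sum]
    rw [sum_apply, sum_apply]
    refine Finset.sum_congr rfl fun k _ => ?_
    rw [map_smul, smul_apply, smul_apply, smul_eq_mul]
  simp_rw [h, inner_smul_right, inner_bv', Finset.sum_mul]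
  rw [Finset.sum_comm]
  refine Finset.sum_congr rfl fun i _ => ?_
  rw [Finset.sum_comm]
  refine Finset.sum_congr rfl fun j _ => Finset.sum_congr rfl fun k _ => ?_
  ring

theorem XC_tan (H : HC u) : ∀ x ∈ Wn u, ⟪x, XC C u x⟫_ℝ = 0 := by
  intro x hx
  have hxO := hx.1
  have hn : ‖x‖ ≠ 0 := norm_ne_zero_iff.2 (H.ne_zero hxO)
  have e1 : ⟪x, W1f u x⟫_ℝ = 0 := by
    unfold W1f
    rw [inner_add_right, inner_smul_right, inner_smul_right, inner_TM, H.euler3 hxO,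
      real_inner_self_eq_norm_sq]
    have : ∑ i, ∑ j, (-D2 u x) (bv i) (bv j) * D2 u x (bv i) (bv j) = - hs2 (D2 u x) := by
      unfold hs2
      simp_rw [← Finset.sum_neg_distrib]
      refine Finset.sum_congr rfl fun i _ => Finset.sum_congr rfl fun j _ => ?_
      simp only [neg_apply]; ring
    rw [this]; ring
  have e2 : ⟪x, gN u x⟫_ℝ = 0 := by
    unfold gN
    rw [inner_sub_right, inner_smul_right, real_inner_self_eq_norm_sq]
    have : ⟪x, ∇ u x⟫_ℝ = u x := by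
      rw [real_inner_comm]
      have h := H.euler1 hxO
      rwa [← inner_gradient_left] at h
    rw [this, div_mul_cancel₀ _ (pow_ne_zero 2 hn), sub_self]
  have e3 : ∀ v, ⟪x, act (D2 u x) v⟫_ℝ = 0 := fun v => by
    rw [inner_act, H.euler2' hxO]
  unfold XC
  rw [inner_add_right, inner_add_right, inner_add_right, inner_add_right, inner_smul_right,
    inner_smul_right, inner_smul_right, inner_smul_right, inner_smul_right, e1, e2, e3, e3]
  have : ⟪x, Zf u x⟫_ℝ = 0 := e3 _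
  rw [this]; ring

end RR

end Crest.Agent.R097
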