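import Crest.Agent.R097.Red1
import Crest.Agent.R097.Defs

-- ▼ part R097/Red2
section

/-!
# Row 97, reduction: the abstract integrated inequality
-/

set_option autoImplicit false
open MeasureTheory Metric Set Filter Topology InnerProductSpace
open scoped RealInnerProductSpace NNReal ENNReal Gradient Laplacian

namespace Crest.Agent.R097

variable {d : ℕ}

/-- Hypotheses of the abstract reduction: `u` (smooth cone data), test function `w`, field `X`. -/
structure RedHyp (u w : E d → ℝ) (X : E d → E d) (Lam : ℝ) : Prop where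
  cont : Continuous u
  u0 : u 0 = 0
  sm : ContDiffOn ℝ (⊤ : ℕ∞) u (Om u)
  bd : ∀ a b : ℝ, 0 < a → ∃ C : ℝ, ∀ x ∈ Om u, x ∈ Ann d a b →
    hs2 (D2 u x) ≤ C ∧ ‖D3 u x‖ ≤ C ∧ ‖Zf u x‖ ≤ C
  divZ : ∀ x ∈ Om u, dv (Zf u) x = hs2 (D2 u x)
  flux : ∀ a b : ℝ, 0 < a → FluxS u (Ann d a b)
  stab : ∀ a b : ℝ, 0 < a → StabS u (Ann d a b)
  wC : ContDiffOn ℝ 1 w (Wn u)
  wpos : ∀ x ∈ Wn u, 0 < w x
  wrad : ∀ x ∈ Wn u, fderiv ℝ w x x = 0
  XC : ContDiffOn ℝ 1 X (Wn u)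
  Xtan : ∀ x ∈ Wn u, ⟪x, X x⟫_ℝ = 0
  int : ∀ x ∈ Wn u, ‖fderiv ℝ w x‖ ^ 2 + Lam * w x ^ 2 / ‖x‖ ^ 2 ≤ dv X x
  bdry : ∀ y ∈ frontier (Om u), y ≠ 0 → ∀ ε > 0, ∀ δ > 0, ∀ᶠ x in 𝓝[Om u] y,
    δ ≤ hs2 (D2 u x) → -ε ≤ fderiv ℝ u x (X x - w x ^ 2 • Zf u x)
  wbd : ∀ a b : ℝ, 0 < a → ∃ C : ℝ, ∀ x ∈ Wn u, x ∈ Ann d a b → w x ≤ C
  bdW : ∀ a b δ : ℝ, 0 < a → 0 < δ → ∃ C : ℝ, ∀ x ∈ Wn u, x ∈ Ann d a b → δ ≤ hs2 (D2 u x) →
    ‖fderiv ℝ w x‖ ≤ C ∧ ‖X x‖ ≤ C ∧ |dv X x| ≤ C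
  energy : ∀ a b : ℝ, 0 < a → ∃ e : E d → ℝ, IntegrableOn e (Wn u ∩ Ann d a b) ∧
    ∀ x ∈ Wn u, x ∈ Ann d a b →
      w x ^ 2 * ‖D3 u x‖ ^ 2 ≤ e x * hs2 (D2 u x) ∧
      w x * ‖fderiv ℝ w x‖ * ‖D3 u x‖ ≤ e x * Real.sqrt (hs2 (D2 u x)) ∧
      ‖X x‖ * ‖D3 u x‖ ≤ e x * Real.sqrt (hs2 (D2 u x)) ∧
      w x ^ 2 * ‖D3 u x‖ ≤ e x * Real.sqrt (hs2 (D2 u x))

variable {u w : E d → ℝ} {X : E d → E d} {Lam : ℝ}

lemma RedHyp.isOpen_Om (H : RedHyp u w X Lam) : IsOpen (Om u) :=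
  isOpen_lt continuous_const H.cont

lemma RedHyp.isOpen_Wn (H : RedHyp u w X Lam) : IsOpen (Wn u) := by
  have h := (smooth_m H.isOpen_Om H.sm).continuousOn.isOpen_inter_preimage H.isOpen_Om
    (isOpen_Ioi (a := (0 : ℝ)))
  exact h

lemma Wn_sub_Om (u : E d → ℝ) : Wn u ⊆ Om u := fun _ h => h.1

lemma RedHyp.ne_zero (H : RedHyp u w X Lam) {x : E d} (hx : x ∈ Om u) : x ≠ 0 := by
  rintro rfl
  have : 0 < u 0 := hx
  rw [H.u0] at this
  exact lt_irrefl _ this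

lemma RedHyp.diffD2 (H : RedHyp u w X Lam) {x : E d} (hx : x ∈ Om u) :
    DifferentiableAt ℝ (D2 u) x :=
  ((smooth_D2 H.isOpen_Om H.sm).contDiffAt (H.isOpen_Om.mem_nhds hx)).differentiableAt (by simp)

lemma RedHyp.contDiffOn_Z (H : RedHyp u w X Lam) : ContDiffOn ℝ (⊤ : ℕ∞) (Zf u) (Om u) := by
  have h1 := smooth_fderiv H.isOpen_Om H.sm
  have h2 := smooth_D2 H.isOpen_Om H.sm
  have h3 : ContDiffOn ℝ (⊤ : ℕ∞) (fun x => ∇ u x) (Om u) := by
    rw [contDiffOn_euclidean]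
    intro i
    simp_rw [gradient_coord]
    exact h1.clm_apply contDiffOn_const
  unfold Zf act
  refine ContDiffOn.sum fun i _ => ?_
  have h4 : ContDiffOn ℝ (⊤ : ℕ∞) (fun x => D2 u x (∇ u x) (bv i)) (Om u) :=
    (h2.clm_apply h3).clm_apply contDiffOn_const
  exact h4.smul (contDiffOn_const (c := bv i))

/-- the pointwise algebra of the cut-off identity (vectors: `a = ∇w`, `c = ∇E`, `b = ∇χ`). -/
lemma pointwise_algebra (a b c Xx : E d) (w0 E0 χ0 dX Lam r2 : ℝ)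
    (hac : ⟪a, c⟫_ℝ = 0) (hcX : ⟪c, Xx⟫_ℝ = 0) (hint : ‖a‖ ^ 2 + Lam * w0 ^ 2 / r2 ≤ dX) :
    ‖(E0 * χ0) • a + w0 • (χ0 • c + E0 • b)‖ ^ 2
      - 2 * (E0 * χ0) * ⟪χ0 • c + E0 • b, Xx⟫_ℝ - (E0 * χ0) ^ 2 * dX ≤
    χ0 ^ 2 * (w0 ^ 2 * (‖c‖ ^ 2 - Lam * E0 ^ 2 / r2)) +
      (2 * (E0 * χ0) * w0 * E0 * ⟪a, b⟫_ℝ + 2 * w0 ^ 2 * χ0 * E0 * ⟪c, b⟫_ℝ +
        w0 ^ 2 * E0 ^ 2 * ‖b‖ ^ 2 - 2 * (E0 * χ0) * E0 * ⟪b, Xx⟫_ℝ) := by
  have e1 : ‖(E0 * χ0) • a + w0 • (χ0 • c + E0 • b)‖ ^ 2 =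
      (E0 * χ0) ^ 2 * ‖a‖ ^ 2 + 2 * (E0 * χ0) * w0 * E0 * ⟪a, b⟫_ℝ +
      w0 ^ 2 * (χ0 ^ 2 * ‖c‖ ^ 2 + 2 * χ0 * E0 * ⟪c, b⟫_ℝ + E0 ^ 2 * ‖b‖ ^ 2) := by
    rw [@norm_add_sq_real, norm_smul, norm_smul, mul_pow, mul_pow, @norm_add_sq_real, norm_smul,
      norm_smul, mul_pow, mul_pow, inner_smul_left, inner_smul_right, inner_add_right,
      inner_smul_right, inner_smul_right, inner_smul_left, inner_smul_right, hac]
    simp only [Real.norm_eq_abs, sq_abs, conj_trivial]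
    ring
  have e2 : ⟪χ0 • c + E0 • b, Xx⟫_ℝ = E0 * ⟪b, Xx⟫_ℝ := by
    rw [inner_add_left, inner_smul_left, inner_smul_left, hcX]
    simp
  rw [e1, e2]
  have h3 : (E0 * χ0) ^ 2 * (‖a‖ ^ 2 + Lam * w0 ^ 2 / r2) ≤ (E0 * χ0) ^ 2 * dX :=
    mul_le_mul_of_nonneg_left hint (sq_nonneg _)
  have e3 : (E0 * χ0) ^ 2 * (‖a‖ ^ 2 + Lam * w0 ^ 2 / r2) =
      (E0 * χ0) ^ 2 * ‖a‖ ^ 2 + χ0 ^ 2 * (w0 ^ 2 * (Lam * E0 ^ 2 / r2)) := by ring
  rw [e3] at h3
  nlinarith [h3]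

/-- The remainder estimate. -/
lemma remainder_le {a b c Xx : E d} {w0 E0 χ0 Cc B T s e : ℝ} (hw : 0 ≤ w0) (hE : |E0| ≤ B)
    (hχ : 0 ≤ χ0) (hχ1 : χ0 ≤ 1) (hc : ‖c‖ ≤ B) (hs : 0 < s) (hT : 0 ≤ T) (hCc : 0 ≤ Cc)
    (hb : ‖b‖ * s ≤ Cc * T)
    (h1 : w0 ^ 2 * T ^ 2 ≤ e * s ^ 2) (h2 : w0 * ‖a‖ * T ≤ e * s) (h3 : ‖Xx‖ * T ≤ e * s)
    (h4 : w0 ^ 2 * T ≤ e * s) :
    2 * (E0 * χ0) * w0 * E0 * ⟪a, b⟫_ℝ + 2 * w0 ^ 2 * χ0 * E0 * ⟪c, b⟫_ℝ +
        w0 ^ 2 * E0 ^ 2 * ‖b‖ ^ 2 - 2 * (E0 * χ0) * E0 * ⟪b, Xx⟫_ℝ ≤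
      (B ^ 2 * (6 * Cc + Cc ^ 2)) * e := by
  have hB : 0 ≤ B := (abs_nonneg _).trans hE
  have hE2 : E0 ^ 2 ≤ B ^ 2 := by rw [← sq_abs]; exact pow_le_pow_left₀ (abs_nonneg _) hE 2
  have hE0 : 0 ≤ E0 ^ 2 := sq_nonneg _
  have he : 0 ≤ e := by
    by_contra h
    have : e * s < 0 := mul_neg_of_neg_of_pos (not_le.1 h) hs
    have : 0 ≤ w0 ^ 2 * T := by positivity
    linarith
  -- each term
  have hb' : ‖b‖ ≤ Cc * T / s := (le_div_iff₀ hs).2 hb
  have t1 : w0 * ‖a‖ * ‖b‖ ≤ Cc * e := by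
    calc w0 * ‖a‖ * ‖b‖ ≤ w0 * ‖a‖ * (Cc * T / s) := by gcongr
      _ = Cc * (w0 * ‖a‖ * T) / s := by ring
      _ ≤ Cc * (e * s) / s := by gcongr
      _ = Cc * e := by field_simp
  have t2 : w0 ^ 2 * ‖b‖ ≤ Cc * e := by
    calc w0 ^ 2 * ‖b‖ ≤ w0 ^ 2 * (Cc * T / s) := by gcongr
      _ = Cc * (w0 ^ 2 * T) / s := by ring
      _ ≤ Cc * (e * s) / s := by gcongr
      _ = Cc * e := by field_simp
  have t3 : w0 ^ 2 * ‖b‖ ^ 2 ≤ Cc ^ 2 * e := by
    calc w0 ^ 2 * ‖b‖ ^ 2 ≤ w0 ^ 2 * (Cc * T / s) ^ 2 := by gcongr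
      _ = Cc ^ 2 * (w0 ^ 2 * T ^ 2) / s ^ 2 := by field_simp
      _ ≤ Cc ^ 2 * (e * s ^ 2) / s ^ 2 := by gcongr
      _ = Cc ^ 2 * e := by field_simp
  have t4 : ‖b‖ * ‖Xx‖ ≤ Cc * e := by
    calc ‖b‖ * ‖Xx‖ ≤ (Cc * T / s) * ‖Xx‖ := by gcongr
      _ = Cc * (‖Xx‖ * T) / s := by ring
      _ ≤ Cc * (e * s) / s := by gcongr
      _ = Cc * e := by field_simp
  have i1 : 2 * (E0 * χ0) * w0 * E0 * ⟪a, b⟫_ℝ ≤ 2 * B ^ 2 * (Cc * e) := by
    have h := real_inner_le_norm a b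
    calc 2 * (E0 * χ0) * w0 * E0 * ⟪a, b⟫_ℝ = (2 * E0 ^ 2 * χ0 * w0) * ⟪a, b⟫_ℝ := by ring
      _ ≤ (2 * E0 ^ 2 * χ0 * w0) * (‖a‖ * ‖b‖) := by gcongr
      _ = 2 * E0 ^ 2 * χ0 * (w0 * ‖a‖ * ‖b‖) := by ring
      _ ≤ 2 * B ^ 2 * 1 * (Cc * e) := by gcongr
      _ = _ := by ring
  have i2 : 2 * w0 ^ 2 * χ0 * E0 * ⟪c, b⟫_ℝ ≤ 2 * B ^ 2 * (Cc * e) := by
    calc 2 * w0 ^ 2 * χ0 * E0 * ⟪c, b⟫_ℝ ≤ |2 * w0 ^ 2 * χ0 * E0 * ⟪c, b⟫_ℝ| := le_abs_self _
      _ = 2 * w0 ^ 2 * χ0 * |E0| * |⟪c, b⟫_ℝ| := by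
          rw [abs_mul, abs_mul, abs_of_nonneg (by positivity : 0 ≤ 2 * w0 ^ 2 * χ0)]
      _ ≤ 2 * w0 ^ 2 * χ0 * |E0| * (‖c‖ * ‖b‖) := by
          gcongr; exact abs_real_inner_le_norm c b
      _ = 2 * χ0 * |E0| * ‖c‖ * (w0 ^ 2 * ‖b‖) := by ring
      _ ≤ 2 * 1 * B * B * (Cc * e) := by gcongr
      _ = _ := by ring
  have i3 : w0 ^ 2 * E0 ^ 2 * ‖b‖ ^ 2 ≤ B ^ 2 * (Cc ^ 2 * e) := by
    calc w0 ^ 2 * E0 ^ 2 * ‖b‖ ^ 2 = E0 ^ 2 * (w0 ^ 2 * ‖b‖ ^ 2) := by ring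
      _ ≤ B ^ 2 * (Cc ^ 2 * e) := by gcongr
  have i4 : -(2 * (E0 * χ0) * E0 * ⟪b, Xx⟫_ℝ) ≤ 2 * B ^ 2 * (Cc * e) := by
    have h : -⟪b, Xx⟫_ℝ ≤ ‖b‖ * ‖Xx‖ := by
      have := abs_real_inner_le_norm b Xx
      have h2 := neg_abs_le ⟪b, Xx⟫_ℝ
      linarith
    calc -(2 * (E0 * χ0) * E0 * ⟪b, Xx⟫_ℝ) = (2 * E0 ^ 2 * χ0) * (-⟪b, Xx⟫_ℝ) := by ring
      _ ≤ (2 * E0 ^ 2 * χ0) * (‖b‖ * ‖Xx‖) := by gcongr
      _ ≤ (2 * B ^ 2 * 1) * (Cc * e) := by gcongr
      _ = _ := by ring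
  calc _ ≤ 2 * B ^ 2 * (Cc * e) + 2 * B ^ 2 * (Cc * e) + B ^ 2 * (Cc ^ 2 * e)
        + 2 * B ^ 2 * (Cc * e) := by linarith
    _ = _ := by ring

end Crest.Agent.R097
end

-- ▼ part R097/Red3
section

/-!
# Row 97, reduction: the cut-off identity for fixed `ε`
-/

set_option autoImplicit false
open MeasureTheory Metric Set Filter Topology InnerProductSpace
open scoped RealInnerProductSpace NNReal ENNReal Gradient Laplacian

namespace Crest.Agent.R097

variable {d : ℕ}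

/-- radial cut-off times `chi` -/
noncomputable def kk (u : E d → ℝ) (Ef : ℝ → ℝ) (ε : ℝ) (x : E d) : ℝ :=
  Ef (Real.log ‖x‖) * chi u ε x

open Classical in
/-- the test function -/
noncomputable def phi (u w : E d → ℝ) (Ef : ℝ → ℝ) (ε : ℝ) (x : E d) : ℝ :=
  if x ∈ Wn u then kk u Ef ε x * w x else 0

open Classical in
/-- the field -/
noncomputable def FF (u w : E d → ℝ) (X : E d → E d) (Ef : ℝ → ℝ) (ε : ℝ) (x : E d) : E d :=
  if x ∈ Wn u then (kk u Ef ε x) ^ 2 • (X x - w x ^ 2 • Zf u x) else 0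

lemma grad_eq_of_hasFDerivAt {f : E d → ℝ} {L : E d →L[ℝ] ℝ} {x g : E d}
    (h : HasFDerivAt f L x) (hL : ∀ v, L v = ⟪g, v⟫_ℝ) : ∇ f x = g := by
  refine ext_inner_right ℝ fun v => ?_
  rw [inner_gradient, h.fderiv, hL]

variable {u w : E d → ℝ} {X : E d → E d} {Lam : ℝ} {Ef : ℝ → ℝ} {R ε : ℝ}

lemma log_notin {x : E d} (hx : x ≠ 0) (h : x ∉ Ann d (Real.exp (-R)) (Real.exp R)) :
    R < |Real.log ‖x‖| := by
  have hn : 0 < ‖x‖ := norm_pos_iff.2 hx
  by_contra hc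
  rw [not_lt, abs_le] at hc
  apply h
  constructor
  · rw [← Real.exp_log hn]; exact Real.exp_le_exp.2 hc.1
  · rw [← Real.exp_log hn]; exact Real.exp_le_exp.2 hc.2

lemma kk_zero_out (H : RedHyp u w X Lam) (hR : ∀ s, R < |s| → Ef s = 0) {x : E d} (hx : x ∈ Wn u)
    (h : x ∉ Ann d (Real.exp (-R)) (Real.exp R)) : kk u Ef ε x = 0 := by
  unfold kk
  rw [hR _ (log_notin (H.ne_zero hx.1) h), zero_mul]

lemma kk_zero_small (hε : 0 < ε) {x : E d} (h : hs2 (D2 u x) ≤ ε) : kk u Ef ε x = 0 := by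
  unfold kk; rw [chi_zero hε h, mul_zero]

lemma phi_of_mem {x : E d} (hx : x ∈ Wn u) : phi u w Ef ε x = kk u Ef ε x * w x := by
  unfold phi; rw [if_pos hx]

lemma phi_of_notMem {x : E d} (hx : x ∉ Wn u) : phi u w Ef ε x = 0 := by
  unfold phi; rw [if_neg hx]

lemma FF_of_mem {x : E d} (hx : x ∈ Wn u) :
    FF u w X Ef ε x = (kk u Ef ε x) ^ 2 • (X x - w x ^ 2 • Zf u x) := by
  unfold FF; rw [if_pos hx]

lemma FF_of_notMem {x : E d} (hx : x ∉ Wn u) : FF u w X Ef ε x = 0 := by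
  unfold FF; rw [if_neg hx]

lemma phi_zero_of_kk {x : E d} (h : kk u Ef ε x = 0) : phi u w Ef ε x = 0 := by
  by_cases hx : x ∈ Wn u
  · rw [phi_of_mem hx, h, zero_mul]
  · exact phi_of_notMem hx

lemma FF_zero_of_kk {x : E d} (h : kk u Ef ε x = 0) : FF u w X Ef ε x = 0 := by
  by_cases hx : x ∈ Wn u
  · rw [FF_of_mem hx, h]; simp
  · exact FF_of_notMem hx

lemma phi_zero_out (H : RedHyp u w X Lam) (hR : ∀ s, R < |s| → Ef s = 0) {x : E d}
    (h : x ∉ Ann d (Real.exp (-R)) (Real.exp R)) : phi u w Ef ε x = 0 := by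
  by_cases hx : x ∈ Wn u
  · exact phi_zero_of_kk (kk_zero_out H hR hx h)
  · exact phi_of_notMem hx

lemma FF_zero_out (H : RedHyp u w X Lam) (hR : ∀ s, R < |s| → Ef s = 0) {x : E d}
    (h : x ∉ Ann d (Real.exp (-R)) (Real.exp R)) : FF u w X Ef ε x = 0 := by
  by_cases hx : x ∈ Wn u
  · exact FF_zero_of_kk (kk_zero_out H hR hx h)
  · exact FF_of_notMem hx

/-- near a point of `Om` with small Hessian the cut-off functions vanish -/
lemma ev_small (H : RedHyp u w X Lam) (hε : 0 < ε) {x : E d} (hx : x ∈ Om u)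
    (h : hs2 (D2 u x) < ε) : ∀ᶠ y in 𝓝 x, kk u Ef ε y = 0 := by
  have hc : ContinuousAt (fun y => hs2 (D2 u y)) x :=
    ((smooth_m H.isOpen_Om H.sm).contDiffAt (H.isOpen_Om.mem_nhds hx)).continuousAt
  filter_upwards [hc.eventually (Iio_mem_nhds h)] with y hy
  exact kk_zero_small hε (le_of_lt hy)

lemma ev_out (H : RedHyp u w X Lam) (hR : ∀ s, R < |s| → Ef s = 0) {x : E d}
    (h : x ∉ Ann d (Real.exp (-R)) (Real.exp R)) :
    (∀ᶠ y in 𝓝 x, phi u w Ef ε y = 0) ∧ ∀ᶠ y in 𝓝 x, FF u w X Ef ε y = 0 := by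
  have ho : IsOpen (Ann d (Real.exp (-R)) (Real.exp R))ᶜ := (isCompact_Ann _ _).isClosed.isOpen_compl
  constructor
  · filter_upwards [ho.mem_nhds h] with y hy using phi_zero_out H hR hy
  · filter_upwards [ho.mem_nhds h] with y hy using FF_zero_out H hR hy

lemma hasFDerivAt_kk (H : RedHyp u w X Lam) (hE : ContDiff ℝ 1 Ef) {x : E d} (hx : x ∈ Om u) :
    HasFDerivAt (kk u Ef ε) (Ef (Real.log ‖x‖) • fderiv ℝ (chi u ε) x +
      chi u ε x • ((deriv Ef (Real.log ‖x‖) / ‖x‖ ^ 2) • innerSL ℝ x)) x := by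
  have h1 := hasFDerivAt_radial (f := Ef) (H.ne_zero hx)
    ((hE.differentiable (by simp) _).hasDerivAt)
  have h2 : HasFDerivAt (chi u ε) (fderiv ℝ (chi u ε) x) x :=
    (((contDiffOn_chi H.isOpen_Om H.sm ε).contDiffAt (H.isOpen_Om.mem_nhds hx)).differentiableAt
      (by simp)).hasFDerivAt
  exact h1.mul h2

lemma grad_kk (H : RedHyp u w X Lam) (hE : ContDiff ℝ 1 Ef) {x : E d} (hx : x ∈ Om u) :
    ∇ (kk u Ef ε) x = chi u ε x • ((deriv Ef (Real.log ‖x‖) / ‖x‖ ^ 2) • x) +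
      Ef (Real.log ‖x‖) • ∇ (chi u ε) x := by
  refine grad_eq_of_hasFDerivAt (hasFDerivAt_kk H hE hx) fun v => ?_
  simp only [add_apply, smul_apply, innerSL_apply_apply, smul_eq_mul, inner_add_left,
    inner_smul_left, inner_gradient, conj_trivial]
  ring

lemma kk_diff (H : RedHyp u w X Lam) (hE : ContDiff ℝ 1 Ef) {x : E d} (hx : x ∈ Om u) :
    DifferentiableAt ℝ (kk u Ef ε) x := (hasFDerivAt_kk H hE hx).differentiableAt

lemma w_diff (H : RedHyp u w X Lam) {x : E d} (hx : x ∈ Wn u) : DifferentiableAt ℝ w x :=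
  (H.wC.contDiffAt (H.isOpen_Wn.mem_nhds hx)).differentiableAt (by simp)

lemma X_diff (H : RedHyp u w X Lam) {x : E d} (hx : x ∈ Wn u) : DifferentiableAt ℝ X x :=
  (H.XC.contDiffAt (H.isOpen_Wn.mem_nhds hx)).differentiableAt (by simp)

lemma Z_diff (H : RedHyp u w X Lam) {x : E d} (hx : x ∈ Om u) : DifferentiableAt ℝ (Zf u) x :=
  (H.contDiffOn_Z.contDiffAt (H.isOpen_Om.mem_nhds hx)).differentiableAt (by simp)

lemma ev_Wn (H : RedHyp u w X Lam) {x : E d} (hx : x ∈ Wn u) :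
    phi u w Ef ε =ᶠ[𝓝 x] fun y => kk u Ef ε y * w y := by
  filter_upwards [H.isOpen_Wn.mem_nhds hx] with y hy using phi_of_mem hy

lemma ev_Wn' (H : RedHyp u w X Lam) {x : E d} (hx : x ∈ Wn u) :
    FF u w X Ef ε =ᶠ[𝓝 x] fun y => (kk u Ef ε y) ^ 2 • (X y - w y ^ 2 • Zf u y) := by
  filter_upwards [H.isOpen_Wn.mem_nhds hx] with y hy using FF_of_mem hy

lemma grad_phi (H : RedHyp u w X Lam) (hE : ContDiff ℝ 1 Ef) {x : E d} (hx : x ∈ Wn u) :
    ∇ (phi u w Ef ε) x = kk u Ef ε x • ∇ w x + w x • ∇ (kk u Ef ε) x := by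
  have h1 : HasFDerivAt (fun y => kk u Ef ε y * w y) _ x :=
    (kk_diff H hE hx.1).hasFDerivAt.mul (w_diff H hx).hasFDerivAt
  refine grad_eq_of_hasFDerivAt (h1.congr_of_eventuallyEq (ev_Wn H hx)) fun v => ?_
  simp only [add_apply, smul_apply, smul_eq_mul, inner_add_left,
    inner_smul_left, inner_gradient, conj_trivial]

lemma dv_FF (H : RedHyp u w X Lam) (hE : ContDiff ℝ 1 Ef) {x : E d} (hx : x ∈ Wn u) :
    dv (FF u w X Ef ε) x = 2 * kk u Ef ε x * ⟪∇ (kk u Ef ε) x, X x - w x ^ 2 • Zf u x⟫_ℝ +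
      (kk u Ef ε x) ^ 2 * (dv X x - (2 * w x * ⟪∇ w x, Zf u x⟫_ℝ + w x ^ 2 * hs2 (D2 u x))) := by
  have hk := kk_diff (ε := ε) H hE hx.1
  have hw := w_diff H hx
  have hX := X_diff H hx
  have hZ := Z_diff H hx.1
  have hw2 : DifferentiableAt ℝ (fun y => w y ^ 2) x := hw.pow 2
  have hk2 : DifferentiableAt ℝ (fun y => (kk u Ef ε y) ^ 2) x := hk.pow 2
  have hwZ : DifferentiableAt ℝ (fun y => w y ^ 2 • Zf u y) x := hw2.smul hZ
  have hXZ : DifferentiableAt ℝ (fun y => X y - w y ^ 2 • Zf u y) x := hX.sub hwZ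
  rw [dv_congr (ev_Wn' H hx), dv_smul hk2 hXZ, dv_sub hX hwZ, dv_smul hw2 hZ,
    H.divZ x hx.1]
  have e1 : ∀ v, fderiv ℝ (fun y => (kk u Ef ε y) ^ 2) x v = 2 * kk u Ef ε x * ⟪∇ (kk u Ef ε) x, v⟫_ℝ := by
    intro v
    rw [(hk.hasFDerivAt.pow 2).fderiv, inner_gradient]
    simp
  have e2 : ∀ v, fderiv ℝ (fun y => (w y) ^ 2) x v = 2 * w x * ⟪∇ w x, v⟫_ℝ := by
    intro v
    rw [(hw.hasFDerivAt.pow 2).fderiv, inner_gradient]
    simp
  rw [e1, e2]

/-- the pointwise inequality on `Wn` -/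
lemma pointwise_Wn (H : RedHyp u w X Lam) (hE : ContDiff ℝ 1 Ef) {x : E d} (hx : x ∈ Wn u) :
    ‖fderiv ℝ (phi u w Ef ε) x‖ ^ 2 - (phi u w Ef ε x ^ 2 * hs2 (D2 u x) +
      2 * phi u w Ef ε x * fderiv ℝ (phi u w Ef ε) x (Zf u x)) - dv (FF u w X Ef ε) x ≤
    chi u ε x ^ 2 * (w x ^ 2 * (‖(deriv Ef (Real.log ‖x‖) / ‖x‖ ^ 2) • x‖ ^ 2 -
        Lam * Ef (Real.log ‖x‖) ^ 2 / ‖x‖ ^ 2)) +
      (2 * (Ef (Real.log ‖x‖) * chi u ε x) * w x * Ef (Real.log ‖x‖) * ⟪∇ w x, ∇ (chi u ε) x⟫_ℝ +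
        2 * w x ^ 2 * chi u ε x * Ef (Real.log ‖x‖) *
          ⟪(deriv Ef (Real.log ‖x‖) / ‖x‖ ^ 2) • x, ∇ (chi u ε) x⟫_ℝ +
        w x ^ 2 * Ef (Real.log ‖x‖) ^ 2 * ‖∇ (chi u ε) x‖ ^ 2 -
        2 * (Ef (Real.log ‖x‖) * chi u ε x) * Ef (Real.log ‖x‖) * ⟪∇ (chi u ε) x, X x⟫_ℝ) := by
  have hac : ⟪∇ w x, (deriv Ef (Real.log ‖x‖) / ‖x‖ ^ 2) • x⟫_ℝ = 0 := by
    rw [inner_smul_right, inner_gradient, H.wrad x hx, mul_zero]
  have hcX : ⟪(deriv Ef (Real.log ‖x‖) / ‖x‖ ^ 2) • x, X x⟫_ℝ = 0 := by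
    rw [inner_smul_left, H.Xtan x hx, mul_zero]
  have hint := H.int x hx
  rw [← norm_gradient w x] at hint
  have key := pointwise_algebra (∇ w x) (∇ (chi u ε) x)
    ((deriv Ef (Real.log ‖x‖) / ‖x‖ ^ 2) • x) (X x) (w x) (Ef (Real.log ‖x‖)) (chi u ε x)
    (dv X x) Lam (‖x‖ ^ 2) hac hcX hint
  refine le_trans (le_of_eq ?_) key
  rw [dv_FF H hE hx, ← inner_gradient (phi u w Ef ε), ← norm_gradient (phi u w Ef ε),
    grad_phi H hE hx, ← grad_kk H hE hx.1, phi_of_mem hx]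
  have ek : Ef (Real.log ‖x‖) * chi u ε x = kk u Ef ε x := rfl
  rw [ek, inner_sub_right, inner_smul_right, inner_add_left, inner_smul_left, inner_smul_left]
  simp only [conj_trivial]
  ring

end Crest.Agent.R097
end

-- ▼ part R097/Red4
section

/-!
# Row 97, reduction: the integrated inequality for fixed `ε`
-/

set_option autoImplicit false
open MeasureTheory Metric Set Filter Topology InnerProductSpace
open scoped RealInnerProductSpace NNReal ENNReal Gradient Laplacian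

namespace Crest.Agent.R097

variable {d : ℕ} {u w : E d → ℝ} {X : E d → E d} {Lam : ℝ} {Ef : ℝ → ℝ} {R ε : ℝ}

lemma kk_contDiffOn (H : RedHyp u w X Lam) (hE : ContDiff ℝ 1 Ef) :
    ContDiffOn ℝ 1 (kk u Ef ε) (Om u) := by
  unfold kk
  have h1 : ContDiffOn ℝ 1 (fun x : E d => Ef (Real.log ‖x‖)) (Om u) := by
    intro x hx
    have hx0 := H.ne_zero hx
    have h2 : ContDiffAt ℝ 1 (fun x : E d => Real.log ‖x‖) x :=
      (contDiffAt_norm ℝ hx0).log (norm_ne_zero_iff.2 hx0)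
    exact (hE.contDiffAt.comp x h2).contDiffWithinAt
  exact h1.mul ((contDiffOn_chi H.isOpen_Om H.sm ε).of_le (by exact_mod_cast le_top))

lemma phi_contDiffOn (H : RedHyp u w X Lam) (hE : ContDiff ℝ 1 Ef) (hε : 0 < ε) :
    ContDiffOn ℝ 1 (phi u w Ef ε) (Om u) := by
  intro x hx
  refine ContDiffAt.contDiffWithinAt ?_
  by_cases hm : hs2 (D2 u x) < ε
  · have : phi u w Ef ε =ᶠ[𝓝 x] fun _ => 0 := by
      filter_upwards [ev_small (Ef := Ef) H hε hx hm] with y hy using phi_zero_of_kk hy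
    exact contDiffAt_const.congr_of_eventuallyEq this
  · have hxW : x ∈ Wn u := ⟨hx, hε.trans_le (not_lt.1 hm)⟩
    exact (((kk_contDiffOn H hE).contDiffAt (H.isOpen_Om.mem_nhds hx)).mul
      (H.wC.contDiffAt (H.isOpen_Wn.mem_nhds hxW))).congr_of_eventuallyEq (ev_Wn H hxW)

lemma FF_contDiffOn (H : RedHyp u w X Lam) (hE : ContDiff ℝ 1 Ef) (hε : 0 < ε) :
    ContDiffOn ℝ 1 (FF u w X Ef ε) (Om u) := by
  intro x hx
  refine ContDiffAt.contDiffWithinAt ?_
  by_cases hm : hs2 (D2 u x) < ε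
  · have : FF u w X Ef ε =ᶠ[𝓝 x] fun _ => 0 := by
      filter_upwards [ev_small (Ef := Ef) H hε hx hm] with y hy using FF_zero_of_kk hy
    exact contDiffAt_const.congr_of_eventuallyEq this
  · have hxW : x ∈ Wn u := ⟨hx, hε.trans_le (not_lt.1 hm)⟩
    have h1 := (kk_contDiffOn (ε := ε) H hE).contDiffAt (H.isOpen_Om.mem_nhds hx)
    have h2 := H.wC.contDiffAt (H.isOpen_Wn.mem_nhds hxW)
    have h3 := H.XC.contDiffAt (H.isOpen_Wn.mem_nhds hxW)
    have h4 : ContDiffAt ℝ 1 (Zf u) x :=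
      (H.contDiffOn_Z.contDiffAt (H.isOpen_Om.mem_nhds hx)).of_le (by exact_mod_cast le_top)
    exact ((h1.pow 2).smul (h3.sub ((h2.pow 2).smul h4))).congr_of_eventuallyEq (ev_Wn' H hxW)

lemma exists_Ef_bound (hE : ContDiff ℝ 1 Ef) (hR : ∀ s, R < |s| → Ef s = 0) :
    ∃ B : ℝ, 0 < B ∧ ∀ s, |Ef s| ≤ B ∧ |deriv Ef s| ≤ B := by
  have hc := hE.continuous
  have hc' := hE.continuous_deriv le_rfl
  obtain ⟨B1, h1⟩ := (isCompact_Icc (a := -(R + 1)) (b := R + 1)).exists_bound_of_continuousOn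
    hc.continuousOn
  obtain ⟨B2, h2⟩ := (isCompact_Icc (a := -(R + 1)) (b := R + 1)).exists_bound_of_continuousOn
    hc'.continuousOn
  refine ⟨max 1 (max B1 B2), by positivity, fun s => ?_⟩
  by_cases hs : s ∈ Icc (-(R + 1)) (R + 1)
  · exact ⟨(h1 s hs).trans ((le_max_left _ _).trans (le_max_right _ _)),
      (h2 s hs).trans ((le_max_right _ _).trans (le_max_right _ _))⟩
  · have hs' : R < |s| := by
      by_contra hcon
      rw [not_lt, abs_le] at hcon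
      exact hs ⟨by linarith [hcon.1], by linarith [hcon.2]⟩
    have hev : Ef =ᶠ[𝓝 s] fun _ => 0 := by
      filter_upwards [(continuous_abs.isOpen_preimage _ isOpen_Ioi).mem_nhds hs'] with y hy
        using hR y hy
    rw [hR s hs', hev.deriv_eq]
    simp

/-- bounds of the cut-off objects -/
lemma exists_bounds (H : RedHyp u w X Lam) (hE : ContDiff ℝ 1 Ef) (hR : ∀ s, R < |s| → Ef s = 0)
    (hε : 0 < ε) : ∃ C : ℝ, ∀ x ∈ Om u, phi u w Ef ε x ≤ C ∧ |phi u w Ef ε x| ≤ C ∧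
      ‖fderiv ℝ (phi u w Ef ε) x‖ ≤ C ∧
      ‖FF u w X Ef ε x‖ ≤ C ∧ |dv (FF u w X Ef ε) x| ≤ C := by
  set a := Real.exp (-R) with ha
  set b := Real.exp R with hb
  have ha0 : 0 < a := Real.exp_pos _
  obtain ⟨C1, h1⟩ := H.bd a b ha0
  obtain ⟨C2, h2⟩ := H.wbd a b ha0
  obtain ⟨C3, h3⟩ := H.bdW a b ε ha0 hε
  obtain ⟨Cc, hCc, h4⟩ := exists_chi_bound d
  obtain ⟨B, hB, hBb⟩ := exists_Ef_bound hE hR
  set D1 := max C1 0 with hD1
  set D2' := max C2 0 with hD2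
  set D3' := max C3 0 with hD3
  set C4 := Cc * D1 / Real.sqrt ε with hC4
  set C5 := B / a + B * C4 with hC5
  have hD1' : 0 ≤ D1 := le_max_right _ _
  have hD2' : 0 ≤ D2' := le_max_right _ _
  have hD3' : 0 ≤ D3' := le_max_right _ _
  have hsε : 0 < Real.sqrt ε := Real.sqrt_pos.2 hε
  have hC4' : 0 ≤ C4 := by positivity
  have hC5' : 0 ≤ C5 := by positivity
  set Y := D3' + D2' ^ 2 * D1 with hY
  have hY' : 0 ≤ Y := by positivity
  refine ⟨B * D2' + (B * D3' + D2' * C5) + B ^ 2 * Y + (2 * B * (C5 * Y) + B ^ 2 * (D3' +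
    (2 * D2' * (D3' * D1) + D2' ^ 2 * D1))), fun x hx => ?_⟩
  have hp1 : 0 ≤ B * D2' := by positivity
  have hp2 : 0 ≤ B * D3' + D2' * C5 := by positivity
  have hp3 : 0 ≤ B ^ 2 * Y := by positivity
  have hp4 : 0 ≤ 2 * B * (C5 * Y) + B ^ 2 * (D3' +
    (2 * D2' * (D3' * D1) + D2' ^ 2 * D1)) := by positivity
  have hzero : (∀ᶠ y in 𝓝 x, phi u w Ef ε y = 0) → (∀ᶠ y in 𝓝 x, FF u w X Ef ε y = 0) →
      phi u w Ef ε x ≤ 0 ∧ |phi u w Ef ε x| ≤ 0 ∧ ‖fderiv ℝ (phi u w Ef ε) x‖ ≤ 0 ∧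
      ‖FF u w X Ef ε x‖ ≤ 0 ∧ |dv (FF u w X Ef ε) x| ≤ 0 := by
    intro g1 g2
    have g1' : phi u w Ef ε =ᶠ[𝓝 x] fun _ => 0 := g1
    have g2' : FF u w X Ef ε =ᶠ[𝓝 x] fun _ => 0 := g2
    refine ⟨g1.self_of_nhds.le, by rw [g1.self_of_nhds]; simp, by rw [g1'.fderiv_eq]; simp,
      by rw [g2.self_of_nhds]; simp, by rw [dv_zero_of_eventually g2']; simp⟩
  by_cases hS : x ∈ Ann d a b
  · by_cases hm : hs2 (D2 u x) < ε
    · have hk := ev_small (Ef := Ef) H hε hx hm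
      obtain ⟨z1, z2, z3, z4, z5⟩ := hzero (hk.mono fun y hy => phi_zero_of_kk hy)
        (hk.mono fun y hy => FF_zero_of_kk hy)
      exact ⟨by linarith, by linarith, by linarith, by linarith, by linarith⟩
    · have hm' := not_lt.1 hm
      have hxW : x ∈ Wn u := ⟨hx, hε.trans_le hm'⟩
      obtain ⟨b1, b2, b3⟩ := h1 x hx hS
      have b4 := h2 x hxW hS
      obtain ⟨b5, b6, b7⟩ := h3 x hxW hS hm'
      have b1' : hs2 (D2 u x) ≤ D1 := b1.trans (le_max_left _ _)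
      have b2' : ‖D3 u x‖ ≤ D1 := b2.trans (le_max_left _ _)
      have b3' : ‖Zf u x‖ ≤ D1 := b3.trans (le_max_left _ _)
      have b4' : w x ≤ D2' := b4.trans (le_max_left _ _)
      have b5' : ‖∇ w x‖ ≤ D3' := by rw [norm_gradient]; exact b5.trans (le_max_left _ _)
      have b6' : ‖X x‖ ≤ D3' := b6.trans (le_max_left _ _)
      have b7' : |dv X x| ≤ D3' := b7.trans (le_max_left _ _)
      have hw0 : 0 ≤ w x := (H.wpos x hxW).le
      have hm0 : 0 ≤ hs2 (D2 u x) := hs2_nonneg _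
      have hE1 := (hBb (Real.log ‖x‖)).1
      have hE2 := (hBb (Real.log ‖x‖)).2
      have hχ0 := chi_nonneg u ε x
      have hχ1 := chi_le_one u ε x
      have hxn : 0 < ‖x‖ := ha0.trans_le hS.1
      have hk : |kk u Ef ε x| ≤ B := by
        unfold kk
        rw [abs_mul, abs_of_nonneg hχ0]
        calc |Ef (Real.log ‖x‖)| * chi u ε x ≤ B * 1 := by gcongr
          _ = B := mul_one B
      have hχg : ‖∇ (chi u ε) x‖ ≤ C4 := by
        rw [norm_gradient, hC4, le_div_iff₀ hsε]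
        have g1 := (h4 u ε hε x (H.diffD2 hx) hxW.2).1
        calc ‖fderiv ℝ (chi u ε) x‖ * Real.sqrt ε
            ≤ ‖fderiv ℝ (chi u ε) x‖ * Real.sqrt (hs2 (D2 u x)) := by gcongr
          _ ≤ Cc * ‖D3 u x‖ := g1
          _ ≤ Cc * D1 := by gcongr
      have hkg : ‖∇ (kk u Ef ε) x‖ ≤ C5 := by
        rw [grad_kk H hE hx]
        refine (norm_add_le _ _).trans ?_
        rw [norm_smul, norm_smul, norm_smul, Real.norm_eq_abs, Real.norm_eq_abs, Real.norm_eq_abs,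
          abs_of_nonneg hχ0, abs_div, abs_of_nonneg (sq_nonneg ‖x‖)]
        have e1 : |deriv Ef (Real.log ‖x‖)| / ‖x‖ ^ 2 * ‖x‖ = |deriv Ef (Real.log ‖x‖)| / ‖x‖ := by
          field_simp
        rw [e1]
        have e2 : |deriv Ef (Real.log ‖x‖)| / ‖x‖ ≤ B / a := by
          have := hS.1
          gcongr
        calc chi u ε x * (|deriv Ef (Real.log ‖x‖)| / ‖x‖) + |Ef (Real.log ‖x‖)| * ‖∇ (chi u ε) x‖
            ≤ 1 * (B / a) + B * C4 := by gcongr
          _ = C5 := by rw [hC5]; ring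
      have hXZ : ‖X x - w x ^ 2 • Zf u x‖ ≤ Y := by
        refine (norm_sub_le _ _).trans ?_
        rw [norm_smul, Real.norm_of_nonneg (sq_nonneg _), hY]
        gcongr
      have r1 : |phi u w Ef ε x| ≤ B * D2' := by
        rw [phi_of_mem hxW, abs_mul, abs_of_nonneg hw0]
        gcongr
      have r2 : ‖fderiv ℝ (phi u w Ef ε) x‖ ≤ B * D3' + D2' * C5 := by
        rw [← norm_gradient, grad_phi H hE hxW]
        refine (norm_add_le _ _).trans ?_
        rw [norm_smul, norm_smul, Real.norm_eq_abs, Real.norm_of_nonneg hw0]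
        gcongr
      have r3 : ‖FF u w X Ef ε x‖ ≤ B ^ 2 * Y := by
        rw [FF_of_mem hxW, norm_smul, norm_pow, Real.norm_eq_abs]
        gcongr
      have r4 : |dv (FF u w X Ef ε) x| ≤ 2 * B * (C5 * Y) + B ^ 2 * (D3' +
          (2 * D2' * (D3' * D1) + D2' ^ 2 * D1)) := by
        rw [dv_FF H hE hxW]
        refine (abs_add_le _ _).trans ?_
        rw [abs_mul, abs_mul, abs_mul, abs_pow, abs_two]
        have s1 : |⟪∇ (kk u Ef ε) x, X x - w x ^ 2 • Zf u x⟫_ℝ| ≤ C5 * Y :=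
          (abs_real_inner_le_norm _ _).trans (by gcongr)
        have s2 : |dv X x - (2 * w x * ⟪∇ w x, Zf u x⟫_ℝ + w x ^ 2 * hs2 (D2 u x))| ≤
            D3' + (2 * D2' * (D3' * D1) + D2' ^ 2 * D1) := by
          refine (abs_sub _ _).trans ?_
          refine add_le_add b7' ((abs_add_le _ _).trans ?_)
          rw [abs_mul, abs_mul, abs_two, abs_of_nonneg hw0, abs_mul, abs_of_nonneg hm0, abs_pow,
            abs_of_nonneg hw0]
          have s3 : |⟪∇ w x, Zf u x⟫_ℝ| ≤ D3' * D1 :=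
            (abs_real_inner_le_norm _ _).trans (by gcongr)
          gcongr
        gcongr
      refine ⟨?_, ?_, ?_, ?_, ?_⟩
      · have := le_abs_self (phi u w Ef ε x); linarith
      · linarith
      · linarith
      · linarith
      · linarith
  · obtain ⟨o1, o2⟩ := ev_out (ε := ε) H hR hS
    obtain ⟨z1, z2, z3, z4, z5⟩ := hzero o1 o2
    exact ⟨by linarith, by linarith, by linarith, by linarith, by linarith⟩

end Crest.Agent.R097
end

-- ▼ part R097/Red5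
section

/-!
# Row 97, reduction: the integrated inequality in the limit `ε → 0`
-/

set_option autoImplicit false
open MeasureTheory Metric Set Filter Topology InnerProductSpace
open scoped RealInnerProductSpace NNReal ENNReal Gradient Laplacian

namespace Crest.Agent.R097

variable {d : ℕ} {u w : E d → ℝ} {X : E d → E d} {Lam : ℝ} {Ef : ℝ → ℝ} {R ε : ℝ}

/-- a function continuous on an open set, bounded there and vanishing outside a compact set -/
lemma integrableOn_of_bdd_supp {f : E d → ℝ} {O S : Set (E d)} (hO : IsOpen O) (hS : IsCompact S)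
    (hf : ContinuousOn f O) (h0 : ∀ x ∈ O, x ∉ S → f x = 0) {C : ℝ} (hC : ∀ x ∈ O, |f x| ≤ C) :
    IntegrableOn f O := by
  have h1 : Integrable (S.indicator fun _ => C) (volume.restrict O) := by
    refine Integrable.mono_measure ?_ Measure.restrict_le_self
    rw [integrable_indicator_iff hS.measurableSet]
    exact integrableOn_const hS.measure_lt_top.ne
  refine h1.mono' (hf.aestronglyMeasurable hO.measurableSet) ?_
  rw [ae_restrict_iff' hO.measurableSet]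
  refine Eventually.of_forall fun x hx => ?_
  by_cases hxS : x ∈ S
  · rw [indicator_of_mem hxS]; exact hC x hx
  · rw [indicator_of_notMem hxS, h0 x hx hxS]; simp

/-- the limit density -/
noncomputable def gg (w : E d → ℝ) (Ef : ℝ → ℝ) (Lam : ℝ) (x : E d) : ℝ :=
  w x ^ 2 * (‖(deriv Ef (Real.log ‖x‖) / ‖x‖ ^ 2) • x‖ ^ 2 - Lam * Ef (Real.log ‖x‖) ^ 2 / ‖x‖ ^ 2)

lemma measurableSet_WS (H : RedHyp u w X Lam) (a b : ℝ) : MeasurableSet (Wn u ∩ Ann d a b) :=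
  H.isOpen_Wn.measurableSet.inter (measurableSet_Ann a b)

lemma radial_cont (hE : ContDiff ℝ 1 Ef) {x : E d} (hx : x ≠ 0) :
    ContinuousAt (fun x : E d => Ef (Real.log ‖x‖)) x ∧
    ContinuousAt (fun x : E d => deriv Ef (Real.log ‖x‖)) x := by
  have h : ContinuousAt (fun x : E d => Real.log ‖x‖) x :=
    continuous_norm.continuousAt.log (norm_ne_zero_iff.2 hx)
  exact ⟨(hE.continuous.continuousAt).comp h,
    ((hE.continuous_deriv le_rfl).continuousAt).comp h⟩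

lemma gg_cont (H : RedHyp u w X Lam) (hE : ContDiff ℝ 1 Ef) : ContinuousOn (gg w Ef Lam) (Wn u) := by
  intro x hx
  refine ContinuousAt.continuousWithinAt ?_
  have hx0 := H.ne_zero hx.1
  obtain ⟨h1, h2⟩ := radial_cont hE hx0
  have h3 : ContinuousAt w x := (w_diff H hx).continuousAt
  have hn : ‖x‖ ^ 2 ≠ 0 := pow_ne_zero 2 (norm_ne_zero_iff.2 hx0)
  have h4 : ContinuousAt (fun x : E d => ‖x‖ ^ 2) x := (continuous_norm.pow 2).continuousAt
  unfold gg
  exact (h3.pow 2).mul ((((h2.div h4 hn).smul continuousAt_id).norm.pow 2).sub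
    ((continuousAt_const.mul (h1.pow 2)).div h4 hn))

lemma gg_bound (H : RedHyp u w X Lam) (hE : ContDiff ℝ 1 Ef) (hR : ∀ s, R < |s| → Ef s = 0) :
    ∃ C : ℝ, 0 ≤ C ∧ ∀ x ∈ Wn u ∩ Ann d (Real.exp (-R)) (Real.exp R), |gg w Ef Lam x| ≤ C := by
  set a := Real.exp (-R) with ha
  set b := Real.exp R with hb
  have ha0 : 0 < a := Real.exp_pos _
  obtain ⟨C2, h2⟩ := H.wbd a b ha0
  obtain ⟨B, hB, hBb⟩ := exists_Ef_bound hE hR
  refine ⟨(max C2 0) ^ 2 * ((B / a) ^ 2 + |Lam| * B ^ 2 / a ^ 2), by positivity, fun x hx => ?_⟩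
  have hw0 : 0 ≤ w x := (H.wpos x hx.1).le
  have hw1 : w x ≤ max C2 0 := (h2 x hx.1 hx.2).trans (le_max_left _ _)
  have hxa : a ≤ ‖x‖ := hx.2.1
  have hxn : 0 < ‖x‖ := ha0.trans_le hxa
  have hE1 := (hBb (Real.log ‖x‖)).1
  have hE2 := (hBb (Real.log ‖x‖)).2
  unfold gg
  rw [abs_mul, abs_pow, abs_of_nonneg hw0]
  have e1 : ‖(deriv Ef (Real.log ‖x‖) / ‖x‖ ^ 2) • x‖ ≤ B / a := by
    rw [norm_smul, Real.norm_eq_abs, abs_div, abs_of_nonneg (sq_nonneg ‖x‖)]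
    have e1 : |deriv Ef (Real.log ‖x‖)| / ‖x‖ ^ 2 * ‖x‖ = |deriv Ef (Real.log ‖x‖)| / ‖x‖ := by
      field_simp
    rw [e1]; gcongr
  have e2 : |Lam * Ef (Real.log ‖x‖) ^ 2 / ‖x‖ ^ 2| ≤ |Lam| * B ^ 2 / a ^ 2 := by
    rw [abs_div, abs_mul, abs_pow, abs_of_nonneg (sq_nonneg ‖x‖)]
    gcongr
  refine mul_le_mul (by gcongr) ((abs_sub _ _).trans (add_le_add ?_ e2)) (abs_nonneg _)
    (by positivity)
  rw [abs_of_nonneg (sq_nonneg _)]
  gcongr

lemma integrableOn_of_bdd' {f : E d → ℝ} {A : Set (E d)} (hA : MeasurableSet A)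
    (hfin : volume A ≠ ⊤) (hf : ContinuousOn f A) {C : ℝ} (hC : ∀ x ∈ A, |f x| ≤ C) :
    IntegrableOn f A := by
  have h1 : Integrable (fun _ : E d => C) (volume.restrict A) := integrableOn_const hfin
  refine h1.mono' (hf.aestronglyMeasurable hA) ?_
  rw [ae_restrict_iff' hA]
  exact Eventually.of_forall fun x hx => hC x hx

lemma WS_fin (u : E d → ℝ) (a b : ℝ) : volume (Wn u ∩ Ann d a b) ≠ ⊤ :=
  ((measure_mono inter_subset_right).trans_lt (isCompact_Ann (d := d) _ _).measure_lt_top).ne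

lemma gg_integrable (H : RedHyp u w X Lam) (hE : ContDiff ℝ 1 Ef) (hR : ∀ s, R < |s| → Ef s = 0) :
    IntegrableOn (gg w Ef Lam) (Wn u ∩ Ann d (Real.exp (-R)) (Real.exp R)) := by
  obtain ⟨C, hC0, hC⟩ := gg_bound H hE hR
  exact integrableOn_of_bdd' (measurableSet_WS H _ _) (WS_fin _ _ _)
    ((gg_cont H hE).mono inter_subset_left) hC

lemma small_set (H : RedHyp u w X Lam) (a b η : ℝ) :
    MeasurableSet ({y | hs2 (D2 u y) ≤ η} ∩ (Wn u ∩ Ann d a b)) := by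
  have c3 : ContinuousOn (fun x => hs2 (D2 u x)) (Om u) :=
    (smooth_m H.isOpen_Om H.sm).continuousOn
  have : {y | hs2 (D2 u y) ≤ η} ∩ (Wn u ∩ Ann d a b) =
      (Wn u ∩ Ann d a b) \ (Om u ∩ (fun x => hs2 (D2 u x)) ⁻¹' Ioi η) := by
    ext x
    constructor
    · rintro ⟨h1, h2⟩
      refine ⟨h2, fun h3 => ?_⟩
      have h4 : η < hs2 (D2 u x) := h3.2
      have h5 : hs2 (D2 u x) ≤ η := h1
      linarith
    · rintro ⟨h1, h2⟩
      refine ⟨?_, h1⟩
      by_contra h3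
      have h5 : ¬ hs2 (D2 u x) ≤ η := h3
      exact h2 ⟨h1.1.1, show η < hs2 (D2 u x) from not_le.1 h5⟩
  rw [this]
  exact (measurableSet_WS H a b).diff (c3.isOpen_inter_preimage H.isOpen_Om isOpen_Ioi).measurableSet

lemma small_ind (H : RedHyp u w X Lam) (a b η : ℝ) {f : E d → ℝ}
    (hf : IntegrableOn f (Wn u ∩ Ann d a b)) :
    IntegrableOn ({y | hs2 (D2 u y) ≤ η}.indicator f) (Wn u ∩ Ann d a b) := by
  have j3 : IntegrableOn (({y | hs2 (D2 u y) ≤ η} ∩ (Wn u ∩ Ann d a b)).indicator f)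
      (Wn u ∩ Ann d a b) := hf.indicator (small_set H a b η)
  refine j3.congr_fun ?_ (measurableSet_WS H a b)
  intro x hx
  by_cases hxm : x ∈ {y | hs2 (D2 u y) ≤ η}
  · rw [indicator_of_mem hxm,
      indicator_of_mem (show x ∈ {y | hs2 (D2 u y) ≤ η} ∩ (Wn u ∩ Ann d a b) from ⟨hxm, hx⟩)]
  · rw [indicator_of_notMem hxm, indicator_of_notMem (fun h => hxm h.1)]

/-- the integrated inequality for fixed `ε` -/
theorem red_eps (H : RedHyp u w X Lam) (hE : ContDiff ℝ 1 Ef) (hE0 : ∀ s, 0 ≤ Ef s)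
    (hR : ∀ s, R < |s| → Ef s = 0) {e : E d → ℝ}
    (hei : IntegrableOn e (Wn u ∩ Ann d (Real.exp (-R)) (Real.exp R)))
    (he : ∀ x ∈ Wn u, x ∈ Ann d (Real.exp (-R)) (Real.exp R) →
      w x ^ 2 * ‖D3 u x‖ ^ 2 ≤ e x * hs2 (D2 u x) ∧
      w x * ‖fderiv ℝ w x‖ * ‖D3 u x‖ ≤ e x * Real.sqrt (hs2 (D2 u x)) ∧
      ‖X x‖ * ‖D3 u x‖ ≤ e x * Real.sqrt (hs2 (D2 u x)) ∧
      w x ^ 2 * ‖D3 u x‖ ≤ e x * Real.sqrt (hs2 (D2 u x))) :
    ∃ K : ℝ, 0 ≤ K ∧ ∀ ε : ℝ, 0 < ε →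
      0 ≤ ∫ x in Wn u ∩ Ann d (Real.exp (-R)) (Real.exp R),
        (chi u ε x ^ 2 * gg w Ef Lam x +
          ({y | hs2 (D2 u y) ≤ 2 * ε}.indicator (fun y => K * |e y|) x)) := by
  set a := Real.exp (-R) with ha
  set b := Real.exp R with hb
  have ha0 : 0 < a := Real.exp_pos _
  set S := Ann d a b with hSdef
  obtain ⟨Cc, hCc, hχb⟩ := exists_chi_bound d
  obtain ⟨B0, hB0, hBb0⟩ := exists_Ef_bound hE hR
  set B := B0 + B0 / a with hBdef
  have hBB : B0 ≤ B := by rw [hBdef]; have : 0 ≤ B0 / a := by positivity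
                          linarith
  have hBB' : B0 / a ≤ B := by rw [hBdef]; linarith
  set K := B ^ 2 * (6 * Cc + Cc ^ 2) with hK
  have hK0 : 0 ≤ K := by positivity
  refine ⟨K, hK0, fun ε hε => ?_⟩
  have hOm := H.isOpen_Om
  have hWn := H.isOpen_Wn
  obtain ⟨C, hC⟩ := exists_bounds H hE hR hε
  have hφC := phi_contDiffOn H hE hε
  have hFC := FF_contDiffOn H hE hε
  obtain ⟨C1, hC1⟩ := H.bd a b ha0
  -- zero off the annulus, for derivatives
  have hzS : ∀ x, x ∉ S → phi u w Ef ε x = 0 ∧ fderiv ℝ (phi u w Ef ε) x = 0 ∧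
      dv (FF u w X Ef ε) x = 0 := by
    intro x hx
    obtain ⟨o1, o2⟩ := ev_out (ε := ε) H hR hx
    have o1' : phi u w Ef ε =ᶠ[𝓝 x] fun _ => 0 := o1
    exact ⟨o1.self_of_nhds, by rw [o1'.fderiv_eq]; simp, dv_zero_of_eventually o2⟩
  have hzm : ∀ x ∈ Om u, hs2 (D2 u x) < ε → phi u w Ef ε x = 0 ∧
      fderiv ℝ (phi u w Ef ε) x = 0 ∧ dv (FF u w X Ef ε) x = 0 := by
    intro x hx hm
    have hk := ev_small (Ef := Ef) H hε hx hm
    have o1 : phi u w Ef ε =ᶠ[𝓝 x] fun _ => 0 := hk.mono fun y hy => phi_zero_of_kk hy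
    have o2 : FF u w X Ef ε =ᶠ[𝓝 x] fun _ => 0 := hk.mono fun y hy => FF_zero_of_kk hy
    exact ⟨o1.self_of_nhds, by rw [o1.fderiv_eq]; simp, dv_zero_of_eventually o2⟩
  -- flux and stability
  have hfl := H.flux a b ha0 (FF u w X Ef ε) hFC (fun x hx => FF_zero_out H hR hx)
    ⟨C, fun x hx => ⟨(hC x hx).2.2.2.1, (hC x hx).2.2.2.2⟩⟩ (by
      intro y hy hyS ε' hε'
      have hy0 : y ≠ 0 := by
        rintro rfl
        have : a ≤ ‖(0 : E d)‖ := hyS.1
        rw [norm_zero] at this; linarith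
      have h1 := H.bdry y hy hy0 (ε' / (B0 ^ 2 + 1)) (by positivity) ε hε
      have hnear : ∀ᶠ x in 𝓝[Om u] y, x ∈ Om u := eventually_mem_nhdsWithin
      filter_upwards [h1, hnear] with x hx hxO
      by_cases hxW : x ∈ Wn u
      · by_cases hm : hs2 (D2 u x) ≤ ε
        · rw [FF_zero_of_kk (kk_zero_small hε hm), map_zero]; linarith
        · have h2 := hx (le_of_lt (not_le.1 hm))
          rw [FF_of_mem hxW, map_smul, smul_eq_mul]
          have h3 : (kk u Ef ε x) ^ 2 ≤ B0 ^ 2 := by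
            unfold kk
            rw [mul_pow, ← sq_abs (Ef _)]
            have g1 := (hBb0 (Real.log ‖x‖)).1
            have g2 := chi_nonneg u ε x
            have g3 := chi_le_one u ε x
            calc |Ef (Real.log ‖x‖)| ^ 2 * chi u ε x ^ 2 ≤ B0 ^ 2 * 1 ^ 2 := by gcongr
              _ = B0 ^ 2 := by ring
          have h4 : (kk u Ef ε x) ^ 2 * (-(ε' / (B0 ^ 2 + 1))) ≤
              (kk u Ef ε x) ^ 2 * fderiv ℝ u x (X x - w x ^ 2 • Zf u x) :=
            mul_le_mul_of_nonneg_left h2 (sq_nonneg _)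
          refine le_trans ?_ h4
          have h5 : (kk u Ef ε x) ^ 2 * (ε' / (B0 ^ 2 + 1)) ≤ ε' := by
            rw [← mul_div_assoc, div_le_iff₀ (by positivity)]
            nlinarith
          linarith
      · rw [FF_of_notMem hxW, map_zero]; linarith)
  have hst := H.stab a b ha0 (phi u w Ef ε) hφC (by
      intro x
      by_cases hx : x ∈ Wn u
      · rw [phi_of_mem hx]
        exact mul_nonneg (mul_nonneg (hE0 _) (chi_nonneg _ _ _)) (H.wpos x hx).le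
      · rw [phi_of_notMem hx]) (fun x hx => (hzS x hx).1)
    ⟨C, fun x hx => ⟨(hC x hx).1, (hC x hx).2.2.1⟩⟩
  -- integrability on Om
  have hScomp : IsCompact S := isCompact_Ann a b
  have c1 : ContinuousOn (fderiv ℝ (phi u w Ef ε)) (Om u) := hφC.continuousOn_fderiv_of_isOpen hOm le_rfl
  have c2 : ContinuousOn (phi u w Ef ε) (Om u) := hφC.continuousOn
  have c3 : ContinuousOn (fun x => hs2 (D2 u x)) (Om u) := (smooth_m hOm H.sm).continuousOn
  have c4 : ContinuousOn (Zf u) (Om u) := H.contDiffOn_Z.continuousOn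
  have i1 : IntegrableOn (fun x => ‖fderiv ℝ (phi u w Ef ε) x‖ ^ 2) (Om u) := by
    refine integrableOn_of_bdd_supp hOm hScomp (c1.norm.pow 2) ?_ (C := C ^ 2) ?_
    · intro x _ hxS
      rw [(hzS x hxS).2.1]; simp
    · intro x hx
      rw [abs_of_nonneg (sq_nonneg _)]
      exact pow_le_pow_left₀ (norm_nonneg _) (hC x hx).2.2.1 2
  have i2 : IntegrableOn (fun x => phi u w Ef ε x ^ 2 * hs2 (D2 u x) +
      2 * phi u w Ef ε x * fderiv ℝ (phi u w Ef ε) x (Zf u x)) (Om u) := by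
    refine integrableOn_of_bdd_supp hOm hScomp (((c2.pow 2).mul c3).add
      ((continuousOn_const.mul c2).mul (c1.clm_apply c4))) ?_
      (C := C ^ 2 * max C1 0 + 2 * C * (C * max C1 0)) ?_
    · intro x _ hxS
      rw [(hzS x hxS).1]; simp
    · intro x hx
      have hC0 : 0 ≤ C := (abs_nonneg _).trans (hC x hx).2.1
      by_cases hxS : x ∈ S
      · obtain ⟨b1, b2, b3⟩ := hC1 x hx hxS
        have b1' := b1.trans (le_max_left C1 0)
        have b3' := b3.trans (le_max_left C1 0)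
        refine (abs_add_le _ _).trans (add_le_add ?_ ?_)
        · rw [abs_mul, abs_pow, abs_of_nonneg (hs2_nonneg _)]
          have := (hC x hx).2.1
          have hm0 := hs2_nonneg (D2 u x)
          gcongr
        · rw [abs_mul, abs_mul, abs_two]
          have g1 := (hC x hx).2.1
          have g2 : |fderiv ℝ (phi u w Ef ε) x (Zf u x)| ≤ C * max C1 0 :=
            ((fderiv ℝ (phi u w Ef ε) x).le_opNorm _).trans
              (mul_le_mul (hC x hx).2.2.1 b3' (norm_nonneg _) hC0)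
          gcongr
      · rw [(hzS x hxS).1]; simp; positivity
  have i3 : IntegrableOn (fun x => dv (FF u w X Ef ε) x) (Om u) := by
    refine integrableOn_of_bdd_supp hOm hScomp (continuousOn_dv hOm hFC) ?_ (C := C) ?_
    · intro x _ hxS; exact (hzS x hxS).2.2
    · intro x hx; exact (hC x hx).2.2.2.2
  have hmain : 0 ≤ ∫ x in Om u, (‖fderiv ℝ (phi u w Ef ε) x‖ ^ 2 -
      (phi u w Ef ε x ^ 2 * hs2 (D2 u x) +
        2 * phi u w Ef ε x * fderiv ℝ (phi u w Ef ε) x (Zf u x)) - dv (FF u w X Ef ε) x) := by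
    have i12 : IntegrableOn (fun x => ‖fderiv ℝ (phi u w Ef ε) x‖ ^ 2 -
      (phi u w Ef ε x ^ 2 * hs2 (D2 u x) +
        2 * phi u w Ef ε x * fderiv ℝ (phi u w Ef ε) x (Zf u x))) (Om u) := i1.sub i2
    rw [integral_sub i12 i3, integral_sub i1 i2]
    linarith
  have hres : ∫ x in Om u, (‖fderiv ℝ (phi u w Ef ε) x‖ ^ 2 -
      (phi u w Ef ε x ^ 2 * hs2 (D2 u x) +
        2 * phi u w Ef ε x * fderiv ℝ (phi u w Ef ε) x (Zf u x)) - dv (FF u w X Ef ε) x) =
      ∫ x in Wn u ∩ S, (‖fderiv ℝ (phi u w Ef ε) x‖ ^ 2 -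
      (phi u w Ef ε x ^ 2 * hs2 (D2 u x) +
        2 * phi u w Ef ε x * fderiv ℝ (phi u w Ef ε) x (Zf u x)) - dv (FF u w X Ef ε) x) := by
    refine setIntegral_eq_of_subset_of_forall_diff_eq_zero hOm.measurableSet
      (inter_subset_left.trans (Wn_sub_Om u)) ?_
    rintro x ⟨hxO, hxn⟩
    by_cases hxS : x ∈ S
    · have hm : hs2 (D2 u x) < ε := by
        by_contra hcon
        exact hxn ⟨⟨hxO, hε.trans_le (not_lt.1 hcon)⟩, hxS⟩
      obtain ⟨z1, z2, z3⟩ := hzm x hxO hm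
      rw [z1, z2, z3]; simp
    · obtain ⟨z1, z2, z3⟩ := hzS x hxS
      rw [z1, z2, z3]; simp
  rw [hres] at hmain
  refine hmain.trans ?_
  have hWSm : MeasurableSet (Wn u ∩ S) := measurableSet_WS H a b
  have c5 : ContinuousOn (chi u ε) (Wn u ∩ S) :=
    (contDiffOn_chi hOm H.sm ε).continuousOn.mono (inter_subset_left.trans (Wn_sub_Om u))
  refine setIntegral_mono_on ?_ ?_ hWSm ?_
  · exact ((i1.sub i2).sub i3).mono_set (inter_subset_left.trans (Wn_sub_Om u))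
  · have j1 : IntegrableOn (fun x => chi u ε x ^ 2 * gg w Ef Lam x) (Wn u ∩ S) := by
      obtain ⟨Cg, hCg0, hCg⟩ := gg_bound H hE hR
      refine integrableOn_of_bdd' hWSm (WS_fin _ _ _)
        ((c5.pow 2).mul ((gg_cont H hE).mono inter_subset_left)) (C := Cg) ?_
      intro x hx
      rw [abs_mul, abs_pow, abs_of_nonneg (chi_nonneg _ _ _)]
      have g1 := chi_nonneg u ε x
      have g2 := chi_le_one u ε x
      calc chi u ε x ^ 2 * |gg w Ef Lam x| ≤ 1 ^ 2 * Cg := by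
            gcongr; exact hCg x hx
        _ = Cg := by ring
    exact j1.add (small_ind H a b (2 * ε) ((hei.abs).const_mul K))
  · rintro x ⟨hxW, hxS⟩
    have key := pointwise_Wn (ε := ε) H hE hxW
    refine key.trans ?_
    refine add_le_add (le_of_eq rfl) ?_
    have hxn : 0 < ‖x‖ := ha0.trans_le hxS.1
    obtain ⟨e1, e2, e3, e4⟩ := he x hxW hxS
    have hs : 0 < Real.sqrt (hs2 (D2 u x)) := Real.sqrt_pos.2 hxW.2
    have hs' : Real.sqrt (hs2 (D2 u x)) ^ 2 = hs2 (D2 u x) := Real.sq_sqrt hxW.2.le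
    by_cases hm : hs2 (D2 u x) ≤ 2 * ε
    · rw [indicator_of_mem (show x ∈ {y | hs2 (D2 u y) ≤ 2 * ε} from hm)]
      have hcb := (hχb u ε hε x (H.diffD2 hxW.1) hxW.2).1
      have he0 : e x ≤ |e x| := le_abs_self _
      have hcn : ‖(deriv Ef (Real.log ‖x‖) / ‖x‖ ^ 2) • x‖ ≤ B := by
        rw [norm_smul, Real.norm_eq_abs, abs_div, abs_of_nonneg (sq_nonneg ‖x‖)]
        have e1 : |deriv Ef (Real.log ‖x‖)| / ‖x‖ ^ 2 * ‖x‖ = |deriv Ef (Real.log ‖x‖)| / ‖x‖ := by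
          field_simp
        rw [e1]
        refine le_trans ?_ hBB'
        have g2 := (hBb0 (Real.log ‖x‖)).2
        have g3 := hxS.1
        gcongr
      have hrem := remainder_le (a := ∇ w x) (b := ∇ (chi u ε) x)
        (c := (deriv Ef (Real.log ‖x‖) / ‖x‖ ^ 2) • x) (Xx := X x) (w0 := w x)
        (E0 := Ef (Real.log ‖x‖)) (χ0 := chi u ε x) (Cc := Cc) (B := B) (T := ‖D3 u x‖)
        (s := Real.sqrt (hs2 (D2 u x))) (e := e x) (H.wpos x hxW).le
        (((hBb0 (Real.log ‖x‖)).1).trans hBB) (chi_nonneg _ _ _) (chi_le_one _ _ _) hcn hs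
        (norm_nonneg _) hCc.le (by rw [norm_gradient]; exact hcb) (by rw [hs']; exact e1)
        (by rw [norm_gradient]; exact e2) e3 e4
      refine hrem.trans ?_
      exact mul_le_mul_of_nonneg_left he0 hK0
    · rw [indicator_of_notMem (show x ∉ {y | hs2 (D2 u y) ≤ 2 * ε} from hm)]
      have hz := (hχb u ε hε x (H.diffD2 hxW.1) hxW.2).2 (not_le.1 hm)
      have hg : ∇ (chi u ε) x = 0 := by
        rw [← norm_eq_zero, norm_gradient, hz, norm_zero]
      rw [hg]; simp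

/-- the integrated inequality -/
theorem red_limit (H : RedHyp u w X Lam) (hE : ContDiff ℝ 1 Ef) (hE0 : ∀ s, 0 ≤ Ef s)
    (hR : ∀ s, R < |s| → Ef s = 0) :
    0 ≤ ∫ x in Wn u ∩ Ann d (Real.exp (-R)) (Real.exp R), gg w Ef Lam x := by
  set a := Real.exp (-R) with ha
  set b := Real.exp R with hb
  have ha0 : 0 < a := Real.exp_pos _
  obtain ⟨e, hei, he⟩ := H.energy a b ha0
  obtain ⟨K, hK0, hK⟩ := red_eps H hE hE0 hR hei he
  have hWSm : MeasurableSet (Wn u ∩ Ann d a b) := measurableSet_WS H a b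
  set ε : ℕ → ℝ := fun n => 1 / ((n : ℝ) + 1) with hεdef
  have hεpos : ∀ n, 0 < ε n := fun n => by simp only [hεdef]; positivity
  have hεlim : Tendsto ε atTop (𝓝 0) := tendsto_one_div_add_atTop_nhds_zero_nat
  have hlim : Tendsto (fun n => ∫ x in Wn u ∩ Ann d a b, (chi u (ε n) x ^ 2 * gg w Ef Lam x +
      ({y | hs2 (D2 u y) ≤ 2 * ε n}.indicator (fun y => K * |e y|) x))) atTop
      (𝓝 (∫ x in Wn u ∩ Ann d a b, gg w Ef Lam x)) := by
    refine tendsto_integral_of_dominated_convergence (fun x => |gg w Ef Lam x| + K * |e x|)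
      ?_ ?_ ?_ ?_
    · intro n
      have c5 : ContinuousOn (chi u (ε n)) (Wn u ∩ Ann d a b) :=
        (contDiffOn_chi H.isOpen_Om H.sm (ε n)).continuousOn.mono
          (inter_subset_left.trans (Wn_sub_Om u))
      have c3 : ContinuousOn (fun x => hs2 (D2 u x)) (Om u) :=
        (smooth_m H.isOpen_Om H.sm).continuousOn
      have j1 : AEStronglyMeasurable (fun x => chi u (ε n) x ^ 2 * gg w Ef Lam x)
          (volume.restrict (Wn u ∩ Ann d a b)) :=
        ((c5.pow 2).mul ((gg_cont H hE).mono inter_subset_left)).aestronglyMeasurable hWSm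
      exact j1.add (small_ind H a b (2 * ε n) ((hei.abs).const_mul K)).aestronglyMeasurable
    · exact ((gg_integrable H hE hR).abs).add ((hei.abs).const_mul K)
    · intro n
      rw [ae_restrict_iff' hWSm]
      refine Eventually.of_forall fun x hx => ?_
      rw [Real.norm_eq_abs]
      refine (abs_add_le _ _).trans (add_le_add ?_ ?_)
      · rw [abs_mul, abs_pow, abs_of_nonneg (chi_nonneg _ _ _)]
        have g1 := chi_nonneg u (ε n) x
        have g2 := chi_le_one u (ε n) x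
        calc chi u (ε n) x ^ 2 * |gg w Ef Lam x| ≤ 1 ^ 2 * |gg w Ef Lam x| := by gcongr
          _ = _ := by ring
      · by_cases hxm : x ∈ {y | hs2 (D2 u y) ≤ 2 * ε n}
        · rw [indicator_of_mem hxm, abs_of_nonneg (by positivity)]
        · rw [indicator_of_notMem hxm]; simp; positivity
    · rw [ae_restrict_iff' hWSm]
      refine Eventually.of_forall fun x hx => ?_
      have hm : 0 < hs2 (D2 u x) := hx.1.2
      have hev : ∀ᶠ n in atTop, 2 * ε n < hs2 (D2 u x) := by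
        have h2 : Tendsto (fun n => 2 * ε n) atTop (𝓝 (2 * 0)) := hεlim.const_mul 2
        rw [mul_zero] at h2
        exact h2.eventually (Iio_mem_nhds hm)
      refine tendsto_const_nhds.congr' ?_
      filter_upwards [hev] with n hn
      rw [chi_one (hεpos n) hn.le, indicator_of_notMem (show x ∉ {y | hs2 (D2 u y) ≤ 2 * ε n}
        from not_le.2 hn)]
      ring
  exact ge_of_tendsto' hlim fun n => hK (ε n) (hεpos n)

end Crest.Agent.R097
end

-- ▼ part R097/Red6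

/-!
# Row 97, reduction: homogeneity and the conclusion by scaling
-/

set_option autoImplicit false
open MeasureTheory Metric Set Filter Topology InnerProductSpace
open scoped RealInnerProductSpace NNReal ENNReal Gradient Laplacian Pointwise

set_option synthInstance.maxHeartbeats 400000

namespace Crest.Agent.R097

variable {d : ℕ} {u w : E d → ℝ} {X : E d → E d} {Lam : ℝ}

lemma fderiv_comp_smul_eq {F : Type*} [NormedAddCommGroup F] [NormedSpace ℝ F] {f : E d → F}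
    {t c : ℝ} (ht : 0 < t) (h : ∀ y, f (t • y) = c • f y) (x : E d) :
    fderiv ℝ f (t • x) = (t⁻¹ * c) • fderiv ℝ f x := by
  have h1 : fderiv ℝ (fun y => f (t • y)) x = t • fderiv ℝ f (t • x) := fderiv_comp_smul t
  have h2 : fderiv ℝ (fun y => f (t • y)) x = c • fderiv ℝ f x := by
    have : (fun y => f (t • y)) = fun y => c • f y := funext h
    rw [this]
    exact congrFun (fderiv_const_smul_field (𝕜 := ℝ) (f := f) c) x
  rw [h1] at h2
  rw [mul_smul, ← h2, smul_smul, inv_mul_cancel₀ ht.ne', one_smul]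

lemma hom_fderiv (hh : Hom1 u) {t : ℝ} (ht : 0 < t) (x : E d) :
    fderiv ℝ u (t • x) = fderiv ℝ u x := by
  rw [fderiv_comp_smul_eq ht (c := t) (fun y => by rw [hh t ht y, smul_eq_mul]) x,
    inv_mul_cancel₀ ht.ne', one_smul]

lemma hom_D2 (hh : Hom1 u) {t : ℝ} (ht : 0 < t) (x : E d) : D2 u (t • x) = t⁻¹ • D2 u x := by
  unfold D2
  rw [fderiv_comp_smul_eq ht (c := 1) (fun y => by rw [hom_fderiv hh ht, one_smul]) x, mul_one]


lemma hs2_smul (c : ℝ) (A : Bil d) : hs2 (c • A) = c ^ 2 * hs2 A := by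
  unfold hs2
  simp_rw [Finset.mul_sum, smul_apply, smul_eq_mul, mul_pow]

lemma hom_m (hh : Hom1 u) {t : ℝ} (ht : 0 < t) (x : E d) :
    hs2 (D2 u (t • x)) = (t⁻¹) ^ 2 * hs2 (D2 u x) := by
  rw [hom_D2 hh ht, hs2_smul]

lemma hom_Wn (hh : Hom1 u) {t : ℝ} (ht : 0 < t) {x : E d} : t • x ∈ Wn u ↔ x ∈ Wn u := by
  unfold Wn
  simp only [mem_ofPred_eq]
  rw [hh t ht, hom_m hh ht]
  have : 0 < (t⁻¹) ^ 2 := by positivity
  constructor
  · rintro ⟨h1, h2⟩
    exact ⟨(mul_pos_iff_of_pos_left ht).1 h1, (mul_pos_iff_of_pos_left this).1 h2⟩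
  · rintro ⟨h1, h2⟩
    exact ⟨mul_pos ht h1, mul_pos this h2⟩

/-- half-open annulus in logarithmic coordinates -/
def LA (d : ℕ) (a b : ℝ) : Set (E d) := {x | Real.exp a ≤ ‖x‖ ∧ ‖x‖ < Real.exp b}

lemma measurableSet_LA (a b : ℝ) : MeasurableSet (LA d a b) :=
  (isClosed_le continuous_const continuous_norm).measurableSet.inter
    (isOpen_lt continuous_norm continuous_const).measurableSet

lemma LA_sub_Ann (a b : ℝ) : LA d a b ⊆ Ann d (Real.exp a) (Real.exp b) :=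
  fun _ hx => ⟨hx.1, hx.2.le⟩

/-- the scale invariant density -/
noncomputable def rho (w : E d → ℝ) (x : E d) : ℝ := w x ^ 2 * (‖x‖ ^ d)⁻¹

lemma rho_nonneg (x : E d) : 0 ≤ rho w x := by unfold rho; positivity

lemma rho_integrable (H : RedHyp u w X Lam) {a b : ℝ} (ha : 0 < a) :
    IntegrableOn (rho w) (Wn u ∩ Ann d a b) := by
  obtain ⟨C, hC⟩ := H.wbd a b ha
  have hc : ContinuousOn (rho w) (Wn u ∩ Ann d a b) := by
    unfold rho
    refine ((H.wC.continuousOn.mono inter_subset_left).pow 2).mul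
      (((continuous_norm.pow d).continuousOn).inv₀ fun x hx => ?_)
    exact pow_ne_zero d (norm_ne_zero_iff.2 (H.ne_zero hx.1.1))
  refine integrableOn_of_bdd' (measurableSet_WS H a b) (WS_fin _ _ _) hc
    (C := (max C 0) ^ 2 * (a ^ d)⁻¹) ?_
  intro x hx
  rw [abs_of_nonneg (rho_nonneg x)]
  unfold rho
  have h1 : w x ≤ max C 0 := (hC x hx.1 hx.2).trans (le_max_left _ _)
  have h2 := (H.wpos x hx.1).le
  have h3 := hx.2.1
  gcongr

lemma rho_scale (H : RedHyp u w X Lam) (hh : Hom1 u)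
    (hw : ∀ x ∈ Wn u, ∀ t : ℝ, 0 < t → w (t • x) = w x) (a b c : ℝ) :
    ∫ x in Wn u ∩ LA d (a + c) (b + c), rho w x = ∫ x in Wn u ∩ LA d a b, rho w x := by
  set t := Real.exp c with ht
  have ht0 : 0 < t := Real.exp_pos c
  have hset : t • (Wn u ∩ LA d a b) = Wn u ∩ LA d (a + c) (b + c) := by
    ext x
    rw [mem_smul_set_iff_inv_smul_mem₀ ht0.ne']
    have ht1 : 0 < t⁻¹ := inv_pos.2 ht0
    constructor
    · rintro ⟨h1, h2, h3⟩
      refine ⟨(hom_Wn hh ht1).1 h1, ?_, ?_⟩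
      · rw [norm_smul, Real.norm_of_nonneg ht1.le] at h2
        rw [Real.exp_add]
        have := mul_le_mul_of_nonneg_right h2 ht0.le
        calc Real.exp a * Real.exp c ≤ t⁻¹ * ‖x‖ * t := this
          _ = ‖x‖ := by field_simp
      · rw [norm_smul, Real.norm_of_nonneg ht1.le] at h3
        rw [Real.exp_add]
        have := mul_lt_mul_of_pos_right h3 ht0
        calc ‖x‖ = t⁻¹ * ‖x‖ * t := by field_simp
          _ < Real.exp b * Real.exp c := this
    · rintro ⟨h1, h2, h3⟩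
      refine ⟨(hom_Wn hh ht1).2 h1, ?_, ?_⟩
      · rw [norm_smul, Real.norm_of_nonneg ht1.le, inv_mul_eq_div, le_div_iff₀ ht0, ht,
          ← Real.exp_add]
        exact h2
      · rw [norm_smul, Real.norm_of_nonneg ht1.le, inv_mul_eq_div, div_lt_iff₀ ht0, ht,
          ← Real.exp_add]
        exact h3
  have h1 := Measure.setIntegral_comp_smul_of_pos (μ := (volume : Measure (E d))) (rho w)
    (Wn u ∩ LA d a b) ht0
  rw [hset] at h1
  have h2 : ∫ x in Wn u ∩ LA d a b, rho w (t • x) =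
      (t ^ d)⁻¹ * ∫ x in Wn u ∩ LA d a b, rho w x := by
    rw [← integral_const_mul]
    refine setIntegral_congr_fun (H.isOpen_Wn.measurableSet.inter (measurableSet_LA a b)) ?_
    intro x hx
    simp only [rho]
    rw [hw x hx.1 t ht0, norm_smul, Real.norm_of_nonneg ht0.le, mul_pow, mul_inv]
    ring
  rw [h2] at h1
  have h3 : Module.finrank ℝ (E d) = d := by simp
  rw [h3, smul_eq_mul] at h1
  have h4 : (t ^ d)⁻¹ ≠ 0 := by positivity
  exact (mul_left_cancel₀ h4 h1).symm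

lemma rho_union (H : RedHyp u w X Lam) {a b c : ℝ} (hab : a ≤ b) (hbc : b ≤ c) :
    ∫ x in Wn u ∩ LA d a c, rho w x =
      (∫ x in Wn u ∩ LA d a b, rho w x) + ∫ x in Wn u ∩ LA d b c, rho w x := by
  have hset : Wn u ∩ LA d a c = (Wn u ∩ LA d a b) ∪ (Wn u ∩ LA d b c) := by
    ext x
    constructor
    · rintro ⟨h1, h2, h3⟩
      rcases lt_or_ge ‖x‖ (Real.exp b) with h | h
      · exact Or.inl ⟨h1, h2, h⟩
      · exact Or.inr ⟨h1, h, h3⟩
    · rintro (⟨h1, h2, h3⟩ | ⟨h1, h2, h3⟩)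
      · exact ⟨h1, h2, h3.trans_le (Real.exp_le_exp.2 hbc)⟩
      · exact ⟨h1, (Real.exp_le_exp.2 hab).trans h2, h3⟩
  rw [hset, setIntegral_union]
  · rw [Set.disjoint_left]
    rintro x ⟨_, _, h3⟩ ⟨_, h2, _⟩
    linarith
  · exact H.isOpen_Wn.measurableSet.inter (measurableSet_LA b c)
  · exact (rho_integrable H (Real.exp_pos a)).mono_set (inter_subset_inter_right _ (LA_sub_Ann a b))
  · exact (rho_integrable H (Real.exp_pos b)).mono_set (inter_subset_inter_right _ (LA_sub_Ann b c))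

lemma rho_nat (H : RedHyp u w X Lam) (hh : Hom1 u)
    (hw : ∀ x ∈ Wn u, ∀ t : ℝ, 0 < t → w (t • x) = w x) (a : ℝ) (n : ℕ) :
    ∫ x in Wn u ∩ LA d a (a + n), rho w x = n * ∫ x in Wn u ∩ LA d 0 1, rho w x := by
  induction n with
  | zero =>
      have : LA d a (a + (0 : ℕ)) = ∅ := by
        ext x
        simp only [LA, mem_ofPred_eq, mem_empty_iff_false, iff_false, not_and, not_lt]
        intro h
        simpa using h
      rw [this]; simp
  | succ n ih =>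
      have h1 : a + ((n + 1 : ℕ) : ℝ) = 1 + (a + n) := by push_cast; ring
      rw [rho_union H (a := a) (b := a + n) (c := a + (n + 1 : ℕ)) (by
        have : (0:ℝ) ≤ n := Nat.cast_nonneg n
        linarith) (by push_cast; linarith), ih, h1]
      have h2 := rho_scale H hh hw 0 1 (a + n)
      rw [zero_add] at h2
      rw [h2]; push_cast; ring

/-- the profile `e^{-κ s} ζ_L(s)` -/
noncomputable def prof (κ L s : ℝ) : ℝ :=
  Real.exp (-(κ * s)) * (Real.smoothTransition (s + L + 1) * Real.smoothTransition (L + 1 - s))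

lemma prof_contDiff (κ L : ℝ) : ContDiff ℝ 1 (prof κ L) := by
  unfold prof
  have h : ContDiff ℝ 1 Real.smoothTransition := Real.smoothTransition.contDiff (n := 1)
  refine ContDiff.mul (by fun_prop) (ContDiff.mul (h.comp (by fun_prop)) (h.comp (by fun_prop)))

lemma prof_nonneg (κ L s : ℝ) : 0 ≤ prof κ L s := by
  unfold prof
  exact mul_nonneg (Real.exp_pos _).le (mul_nonneg (Real.smoothTransition.nonneg _)
    (Real.smoothTransition.nonneg _))

lemma prof_zero (κ L : ℝ) : ∀ s, L + 1 < |s| → prof κ L s = 0 := by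
  intro s hs
  unfold prof
  rcases le_or_gt 0 s with h | h
  · rw [abs_of_nonneg h] at hs
    rw [Real.smoothTransition.zero_of_nonpos (x := L + 1 - s) (by linarith)]; simp
  · rw [abs_of_neg h] at hs
    rw [Real.smoothTransition.zero_of_nonpos (x := s + L + 1) (by linarith)]; simp

lemma deriv_prof (κ L s : ℝ) : deriv (prof κ L) s = Real.exp (-(κ * s)) *
    ((deriv Real.smoothTransition (s + L + 1) * Real.smoothTransition (L + 1 - s) -
      Real.smoothTransition (s + L + 1) * deriv Real.smoothTransition (L + 1 - s)) -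
      κ * (Real.smoothTransition (s + L + 1) * Real.smoothTransition (L + 1 - s))) := by
  have hd : ∀ x, HasDerivAt Real.smoothTransition (deriv Real.smoothTransition x) x := fun x =>
    ((Real.smoothTransition.contDiff (n := 1)).differentiable (by simp) x).hasDerivAt
  have h1 : HasDerivAt (fun s => Real.smoothTransition (s + L + 1))
      (deriv Real.smoothTransition (s + L + 1)) s := by
    have := (hd (s + L + 1)).comp s (((hasDerivAt_id s).add_const L).add_const 1)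
    rw [mul_one] at this
    exact this
  have h2 : HasDerivAt (fun s => Real.smoothTransition (L + 1 - s))
      (-deriv Real.smoothTransition (L + 1 - s)) s := by
    have := (hd (L + 1 - s)).comp s ((hasDerivAt_id s).const_sub (L + 1))
    rw [mul_neg_one] at this
    exact this
  have h3 : HasDerivAt (fun s => Real.exp (-(κ * s))) (Real.exp (-(κ * s)) * (-κ)) s := by
    have h := ((hasDerivAt_id s).const_mul κ).neg.exp
    simpa using h
  have h4 : HasDerivAt (prof κ L) _ s := h3.mul (h1.mul h2)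
  rw [h4.deriv]
  ring

set_option maxHeartbeats 2000000 in
/-- **Conclusion of the abstract reduction.** -/
theorem red_conclusion (hd : 0 < d) (H : RedHyp u w X Lam) (hh : Hom1 u)
    (hw : ∀ x ∈ Wn u, ∀ t : ℝ, 0 < t → w (t • x) = w x)
    (hLam : (((d : ℝ) - 2) / 2) ^ 2 < Lam) : Wn u = ∅ := by
  by_contra hne
  obtain ⟨x0, hx0⟩ := nonempty_iff_ne_empty.2 hne
  set κ : ℝ := ((d : ℝ) - 2) / 2 with hκ
  set δ : ℝ := Lam - κ ^ 2 with hδ
  have hδ0 : 0 < δ := by rw [hδ]; linarith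
  have hLam0 : 0 < Lam := lt_of_le_of_lt (sq_nonneg _) hLam
  obtain ⟨C0, hC0, hC⟩ := exists_smoothTransition_bound
  set Cp : ℝ := (2 * C0 + |κ|) ^ 2 with hCp
  have hCp0 : 0 ≤ Cp := sq_nonneg _
  set I : ℝ := ∫ x in Wn u ∩ LA d 0 1, rho w x with hI
  -- positivity of I
  have hIpos : 0 < I := by
    have hm : MeasurableSet (Wn u ∩ LA d 0 1) :=
      H.isOpen_Wn.measurableSet.inter (measurableSet_LA 0 1)
    have hint : IntegrableOn (rho w) (Wn u ∩ LA d 0 1) :=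
      (rho_integrable H (Real.exp_pos 0)).mono_set (inter_subset_inter_right _ (LA_sub_Ann 0 1))
    rw [hI, setIntegral_pos_iff_support_of_nonneg_ae
      (Eventually.of_forall fun x => rho_nonneg x) hint]
    have hopen : IsOpen (Wn u ∩ {x : E d | 1 < ‖x‖ ∧ ‖x‖ < Real.exp 1}) :=
      H.isOpen_Wn.inter ((isOpen_lt continuous_const continuous_norm).inter
        (isOpen_lt continuous_norm continuous_const))
    have hsub : Wn u ∩ {x : E d | 1 < ‖x‖ ∧ ‖x‖ < Real.exp 1} ⊆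
        Function.support (rho w) ∩ (Wn u ∩ LA d 0 1) := by
      rintro x ⟨h1, h2, h3⟩
      refine ⟨?_, h1, by rw [Real.exp_zero]; exact h2.le, h3⟩
      have hx : 0 < ‖x‖ := by linarith
      have hwx := H.wpos x h1
      have : 0 < rho w x := by unfold rho; positivity
      exact this.ne'
    refine lt_of_lt_of_le ?_ (measure_mono hsub)
    refine hopen.measure_pos volume ?_
    have hn0 : 0 < ‖x0‖ := norm_pos_iff.2 (H.ne_zero hx0.1)
    refine ⟨(Real.exp (1 / 2) / ‖x0‖) • x0, (hom_Wn hh (by positivity)).2 hx0, ?_, ?_⟩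
    · rw [norm_smul, Real.norm_of_nonneg (by positivity), div_mul_cancel₀ _ hn0.ne']
      exact Real.one_lt_exp_iff.2 (by norm_num)
    · rw [norm_smul, Real.norm_of_nonneg (by positivity), div_mul_cancel₀ _ hn0.ne']
      exact Real.exp_lt_exp.2 (by norm_num)
  -- choose n
  obtain ⟨n, hn⟩ := exists_nat_gt (4 * Cp / δ)
  have hn0 : (0 : ℝ) ≤ n := Nat.cast_nonneg n
  set L : ℝ := (n : ℝ) with hL
  have key := red_limit H (prof_contDiff κ L) (prof_nonneg κ L) (prof_zero κ L) (R := L + 1)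
  set S : Set (E d) := Ann d (Real.exp (-(L + 1))) (Real.exp (L + 1)) with hS
  -- the density
  have hdens : ∀ x ∈ Wn u ∩ S, gg w (prof κ L) Lam x ≤
      (LA d 0 L).indicator (fun x => -δ * rho w x) x +
      ((LA d L (L + 2)).indicator (fun x => Cp * rho w x) x +
       (LA d (-(L + 1)) (-L + 1)).indicator (fun x => Cp * rho w x) x) := by
    rintro x ⟨hxW, hxS⟩
    have hxn : 0 < ‖x‖ := norm_pos_iff.2 (H.ne_zero hxW.1)
    set s := Real.log ‖x‖ with hs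
    have hes : Real.exp s = ‖x‖ := Real.exp_log hxn
    set ζ := Real.smoothTransition (s + L + 1) * Real.smoothTransition (L + 1 - s) with hζ
    set ζ' := deriv Real.smoothTransition (s + L + 1) * Real.smoothTransition (L + 1 - s) -
      Real.smoothTransition (s + L + 1) * deriv Real.smoothTransition (L + 1 - s) with hζ'
    have hg : gg w (prof κ L) Lam x = rho w x * ((ζ' - κ * ζ) ^ 2 - Lam * ζ ^ 2) := by
      unfold gg rho
      rw [norm_smul, deriv_prof]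
      unfold prof
      rw [← hs, ← hζ, ← hζ', Real.norm_eq_abs, mul_pow, sq_abs, div_pow, mul_pow]
      have e1 : Real.exp (-(κ * s)) ^ 2 = ‖x‖ ^ 2 * (‖x‖ ^ d)⁻¹ := by
        have e2 : Real.exp (-(κ * s)) ^ 2 = Real.exp (2 * s - d * s) := by
          rw [← Real.exp_nat_mul]; congr 1; rw [hκ]; push_cast; ring
        rw [e2, Real.exp_sub]
        have e3 : Real.exp (2 * s) = ‖x‖ ^ 2 := by
          rw [← hes, ← Real.exp_nat_mul]; norm_num
        have e4 : Real.exp (d * s) = ‖x‖ ^ d := by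
          rw [← hes, ← Real.exp_nat_mul]
        rw [e3, e4]; rfl
      rw [mul_pow, e1]
      field_simp
    have hr := rho_nonneg (w := w) x
    have z1 := Real.smoothTransition.nonneg (s + L + 1)
    have z2 := Real.smoothTransition.le_one (s + L + 1)
    have z3 := Real.smoothTransition.nonneg (L + 1 - s)
    have z4 := Real.smoothTransition.le_one (L + 1 - s)
    have hζ0 : 0 ≤ ζ := mul_nonneg z1 z3
    have hζ1 : ζ ≤ 1 := mul_le_one₀ z2 z3 z4
    have hζ'b : |ζ'| ≤ 2 * C0 := by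
      rw [hζ']
      refine (abs_sub _ _).trans ?_
      rw [abs_mul, abs_mul, abs_of_nonneg z1, abs_of_nonneg z3]
      have a1 := hC (s + L + 1)
      have a2 := hC (L + 1 - s)
      nlinarith [abs_nonneg (deriv Real.smoothTransition (s + L + 1)),
        abs_nonneg (deriv Real.smoothTransition (L + 1 - s))]
    have hup : (ζ' - κ * ζ) ^ 2 - Lam * ζ ^ 2 ≤ Cp := by
      have a1 : |ζ' - κ * ζ| ≤ 2 * C0 + |κ| := by
        refine (abs_sub _ _).trans (add_le_add hζ'b ?_)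
        rw [abs_mul, abs_of_nonneg hζ0]
        nlinarith [abs_nonneg κ]
      have a2 : (ζ' - κ * ζ) ^ 2 ≤ Cp := by
        rw [hCp, ← sq_abs]
        exact pow_le_pow_left₀ (abs_nonneg _) a1 2
      nlinarith [mul_nonneg hLam0.le (sq_nonneg ζ)]
    have hinner : |s| < L → (ζ' - κ * ζ) ^ 2 - Lam * ζ ^ 2 = -δ := by
      intro h
      rw [abs_lt] at h
      have a1 : deriv Real.smoothTransition (s + L + 1) = 0 :=
        deriv_smoothTransition_eq_zero (Or.inr (by linarith))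
      have a2 : deriv Real.smoothTransition (L + 1 - s) = 0 :=
        deriv_smoothTransition_eq_zero (Or.inr (by linarith))
      have a3 : Real.smoothTransition (s + L + 1) = 1 :=
        Real.smoothTransition.one_of_one_le (by linarith)
      have a4 : Real.smoothTransition (L + 1 - s) = 1 :=
        Real.smoothTransition.one_of_one_le (by linarith)
      rw [hζ', hζ, a1, a2, a3, a4, hδ]; ring
    rw [hg]
    have hI1 : ∀ A B : ℝ, x ∈ LA d A B ↔ A ≤ s ∧ s < B := by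
      intro A B
      unfold LA
      rw [mem_ofPred_eq, ← hes, Real.exp_le_exp, Real.exp_lt_exp]
    have hsS : -(L + 1) ≤ s ∧ s ≤ L + 1 := by
      have h1 := hxS.1
      have h2 := hxS.2
      rw [← hes, Real.exp_le_exp] at h1 h2
      exact ⟨h1, h2⟩
    have hρC : 0 ≤ Cp * rho w x := by positivity
    by_cases h1 : |s| < L
    · rw [hinner h1]
      rw [abs_lt] at h1
      by_cases h2 : 0 ≤ s
      · rw [indicator_of_mem ((hI1 0 L).2 ⟨h2, h1.2⟩)]
        have a1 : 0 ≤ (LA d L (L + 2)).indicator (fun x => Cp * rho w x) x :=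
          indicator_nonneg (fun y _ => mul_nonneg hCp0 (rho_nonneg y)) x
        have a2 : 0 ≤ (LA d (-(L + 1)) (-L + 1)).indicator (fun x => Cp * rho w x) x :=
          indicator_nonneg (fun y _ => mul_nonneg hCp0 (rho_nonneg y)) x
        linarith
      · rw [indicator_of_notMem (fun h => h2 ((hI1 0 L).1 h).1)]
        have a1 : 0 ≤ (LA d L (L + 2)).indicator (fun x => Cp * rho w x) x :=
          indicator_nonneg (fun y _ => mul_nonneg hCp0 (rho_nonneg y)) x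
        have a2 : 0 ≤ (LA d (-(L + 1)) (-L + 1)).indicator (fun x => Cp * rho w x) x :=
          indicator_nonneg (fun y _ => mul_nonneg hCp0 (rho_nonneg y)) x
        nlinarith
    · have h1' : L ≤ |s| := not_lt.1 h1
      have hle : rho w x * ((ζ' - κ * ζ) ^ 2 - Lam * ζ ^ 2) ≤ Cp * rho w x := by
        rw [mul_comm Cp]; exact mul_le_mul_of_nonneg_left hup hr
      have hnot : x ∉ LA d 0 L := by
        intro h
        obtain ⟨g1, g2⟩ := (hI1 0 L).1 h
        rw [abs_of_nonneg g1] at h1'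
        linarith
      rw [indicator_of_notMem hnot, zero_add]
      rcases le_or_gt 0 s with h2 | h2
      · rw [abs_of_nonneg h2] at h1'
        rw [indicator_of_mem ((hI1 L (L + 2)).2 ⟨h1', by linarith [hsS.2]⟩)]
        have a2 : 0 ≤ (LA d (-(L + 1)) (-L + 1)).indicator (fun x => Cp * rho w x) x :=
          indicator_nonneg (fun y _ => mul_nonneg hCp0 (rho_nonneg y)) x
        linarith
      · rw [abs_of_neg h2] at h1'
        rw [indicator_of_mem ((hI1 (-(L + 1)) (-L + 1)).2 ⟨hsS.1, by linarith⟩)]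
        have a1 : 0 ≤ (LA d L (L + 2)).indicator (fun x => Cp * rho w x) x :=
          indicator_nonneg (fun y _ => mul_nonneg hCp0 (rho_nonneg y)) x
        linarith
  -- integrate
  have hWSm : MeasurableSet (Wn u ∩ S) := measurableSet_WS H _ _
  have hρS : IntegrableOn (rho w) (Wn u ∩ Ann d (Real.exp (-(L + 2))) (Real.exp (L + 2))) :=
    rho_integrable H (Real.exp_pos _)
  have hsubS : Wn u ∩ S ⊆ Wn u ∩ Ann d (Real.exp (-(L + 2))) (Real.exp (L + 2)) := by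
    refine inter_subset_inter_right _ fun x hx => ⟨?_, ?_⟩
    · exact (Real.exp_le_exp.2 (by linarith)).trans hx.1
    · exact hx.2.trans (Real.exp_le_exp.2 (by linarith))
  have hρ1 : IntegrableOn (rho w) (Wn u ∩ S) := hρS.mono_set hsubS
  have j1 : IntegrableOn ((LA d 0 L).indicator (fun x => -δ * rho w x)) (Wn u ∩ S) :=
    (hρ1.const_mul (-δ)).indicator (measurableSet_LA 0 L)
  have j2 : IntegrableOn ((LA d L (L + 2)).indicator (fun x => Cp * rho w x)) (Wn u ∩ S) :=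
    (hρ1.const_mul Cp).indicator (measurableSet_LA L (L + 2))
  have j3 : IntegrableOn ((LA d (-(L + 1)) (-L + 1)).indicator (fun x => Cp * rho w x))
      (Wn u ∩ S) := (hρ1.const_mul Cp).indicator (measurableSet_LA _ _)
  have hle := setIntegral_mono_on (gg_integrable H (prof_contDiff κ L) (prof_zero κ L))
    (j1.add (j2.add j3)) hWSm hdens
  have hadd : ∫ x in Wn u ∩ S, ((LA d 0 L).indicator (fun x => -δ * rho w x) x +
      ((LA d L (L + 2)).indicator (fun x => Cp * rho w x) x +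
       (LA d (-(L + 1)) (-L + 1)).indicator (fun x => Cp * rho w x) x)) =
      (∫ x in Wn u ∩ S, (LA d 0 L).indicator (fun x => -δ * rho w x) x) +
      ((∫ x in Wn u ∩ S, (LA d L (L + 2)).indicator (fun x => Cp * rho w x) x) +
       ∫ x in Wn u ∩ S, (LA d (-(L + 1)) (-L + 1)).indicator (fun x => Cp * rho w x) x) := by
    have j23 : IntegrableOn (fun x => (LA d L (L + 2)).indicator (fun x => Cp * rho w x) x +
       (LA d (-(L + 1)) (-L + 1)).indicator (fun x => Cp * rho w x) x) (Wn u ∩ S) := j2.add j3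
    rw [integral_add j1 j23, integral_add j2 j3]
  have key' := key.trans (hle.trans (le_of_eq hadd))
  rw [setIntegral_indicator (measurableSet_LA _ _), setIntegral_indicator (measurableSet_LA _ _),
    setIntegral_indicator (measurableSet_LA _ _), integral_const_mul, integral_const_mul,
    integral_const_mul] at key'
  have f1 : ∫ x in Wn u ∩ S ∩ LA d 0 L, rho w x = L * I := by
    have hset : Wn u ∩ S ∩ LA d 0 L = Wn u ∩ LA d 0 (0 + n) := by
      ext x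
      constructor
      · rintro ⟨⟨h1, h2⟩, h3⟩
        exact ⟨h1, by rw [zero_add]; exact h3⟩
      · rintro ⟨h1, h2⟩
        rw [zero_add] at h2
        refine ⟨⟨h1, ?_, ?_⟩, h2⟩
        · exact (Real.exp_le_exp.2 (by linarith)).trans h2.1
        · exact h2.2.le.trans (Real.exp_le_exp.2 (by linarith))
    rw [hset, rho_nat H hh hw]
  have f2 : ∫ x in Wn u ∩ S ∩ LA d L (L + 2), rho w x ≤ 2 * I := by
    have h1 : ∫ x in Wn u ∩ LA d L (L + 2), rho w x = 2 * I := by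
      have := rho_nat H hh hw L 2
      simpa using this
    rw [← h1]
    refine setIntegral_mono_set ?_ (Eventually.of_forall fun x => rho_nonneg x)
      (LE.le.eventuallyLE ?_)
    · exact hρS.mono_set (inter_subset_inter_right _ fun x hx =>
        ⟨(Real.exp_le_exp.2 (by linarith)).trans hx.1, hx.2.le⟩)
    · rintro x ⟨⟨h1, h2⟩, h3⟩; exact ⟨h1, h3⟩
  have f3 : ∫ x in Wn u ∩ S ∩ LA d (-(L + 1)) (-L + 1), rho w x ≤ 2 * I := by
    have h1 : ∫ x in Wn u ∩ LA d (-(L + 1)) (-L + 1), rho w x = 2 * I := by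
      have := rho_nat H hh hw (-(L + 1)) 2
      have e : -(L + 1) + ((2 : ℕ) : ℝ) = -L + 1 := by push_cast; ring
      rw [e] at this
      simpa using this
    rw [← h1]
    refine setIntegral_mono_set ?_ (Eventually.of_forall fun x => rho_nonneg x)
      (LE.le.eventuallyLE ?_)
    · exact hρS.mono_set (inter_subset_inter_right _ fun x hx =>
        ⟨(Real.exp_le_exp.2 (by linarith)).trans hx.1,
          hx.2.le.trans (Real.exp_le_exp.2 (by linarith))⟩)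
    · rintro x ⟨⟨h1, h2⟩, h3⟩; exact ⟨h1, h3⟩
  rw [f1] at key'
  have g1 : Cp * (∫ x in Wn u ∩ S ∩ LA d L (L + 2), rho w x) ≤ Cp * (2 * I) :=
    mul_le_mul_of_nonneg_left f2 hCp0
  have g2 : Cp * (∫ x in Wn u ∩ S ∩ LA d (-(L + 1)) (-L + 1), rho w x) ≤ Cp * (2 * I) :=
    mul_le_mul_of_nonneg_left f3 hCp0
  have h5 : 4 * Cp < L * δ := (div_lt_iff₀ hδ0).1 hn
  nlinarith

end Crest.Agent.R097
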