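import Crest.Agent.R097.SStab1
import Crest.Agent.R097.RedKato
import Crest.Agent.R097.SExp
import Crest.Agent.R097.HarmReg

-- ▼ part R097/SStab
section

/-!
# Row 97, S-block: the stability inequality
-/

set_option autoImplicit false
open MeasureTheory Metric Set Filter Topology InnerProductSpace
open scoped RealInnerProductSpace NNReal ENNReal Gradient Laplacian

namespace Crest.Agent.R097

variable {d : ℕ}

/-- the set where the perturbation exhausts `u` -/
def touch (u φ : E d → ℝ) (s : ℝ) : Set (E d) := {x | 0 < u x ∧ u x ≤ s * φ x}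

lemma touch_subset {u φ : E d → ℝ} {s : ℝ} {S : Set (E d)} (hφ0 : ∀ x, x ∉ S → φ x = 0) :
    touch u φ s ⊆ S := by
  intro x hx
  by_contra h
  have h1 := hx.2
  rw [hφ0 x h, mul_zero] at h1
  exact absurd hx.1 (not_lt.2 h1)

lemma touch_subset_Om {u φ : E d → ℝ} {s : ℝ} : touch u φ s ⊆ Om u := fun _ hx => hx.1

lemma measurable_touch {u φ : E d → ℝ} {s : ℝ} (hcu : Continuous u)
    (hφ : ContinuousOn φ (Om u)) : MeasurableSet (touch u φ s) := by
  have hO : IsOpen (Om u) := isOpen_Om hcu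
  have h1 : IsOpen (Om u ∩ (fun x => u x - s * φ x) ⁻¹' Ioi 0) :=
    (hcu.continuousOn.sub (continuousOn_const.mul hφ)).isOpen_inter_preimage hO isOpen_Ioi
  have h2 : touch u φ s = Om u \ (Om u ∩ (fun x => u x - s * φ x) ⁻¹' Ioi 0) := by
    ext x
    constructor
    · rintro ⟨h1, h2⟩
      refine ⟨h1, fun h => ?_⟩
      have h3 : 0 < u x - s * φ x := h.2
      linarith
    · rintro ⟨h1, h2⟩
      refine ⟨h1, not_lt.1 fun h => h2 ⟨h1, ?_⟩⟩
      show 0 < u x - s * φ x
      linarith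
  rw [h2]
  exact hO.measurableSet.diff h1.measurableSet

/-- the first half: minimality against `(u - s φ)⁺` -/
lemma sv1 {u : E d → ℝ} {K : ℝ≥0} (hu : LM u K) (hsm : ContDiffOn ℝ (⊤ : ℕ∞) u (Om u))
    (hha : ∀ x ∈ Om u, (Δ u) x = 0) {S : Set (E d)} (hS : IsCompact S)
    {φ : E d → ℝ} (hφ : ContDiffOn ℝ 1 φ (Om u)) (h0 : ∀ x, 0 ≤ φ x)
    (hφ0 : ∀ x, x ∉ S → φ x = 0) {C : ℝ≥0} (hdφ : ∀ x ∈ Om u, ‖fderiv ℝ φ x‖ ≤ C) (s : ℝ≥0) :
    (volume (touch u φ s)).toReal ≤ ∫ x in Om u, ‖fderiv ℝ (pert u φ s) x‖ ^ 2 := by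
  have hcu : Continuous u := hu.continuous
  have hO : IsOpen (Om u) := isOpen_Om hcu
  set g := pert u φ s with hg
  have hg0 : ∀ x, 0 ≤ g x := pert_nonneg s.coe_nonneg h0
  have hglip : LipschitzWith (K + s * C) g := pert_lip hu.lip hu.nonneg hφ h0 hdφ
  have hgS : ∀ x, x ∉ S → g x = 0 := by
    intro x hx
    rw [hg]; unfold pert
    split_ifs with h
    · rw [hφ0 x hx, mul_zero]; exact min_eq_right h.le
    · rfl
  have hgO : ∀ x, x ∉ Om u → g x = 0 := fun x hx => pert_off hx
  -- the orthogonality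
  have hYd : ContDiffOn ℝ 1 (fun x => ∇ u x) (Om u) :=
    (contDiffOn_gradient hO hsm).of_le (by exact_mod_cast le_top)
  have hdvY : ∀ x ∈ Om u, dv (fun y => ∇ u y) x = 0 := by
    intro x hx
    rw [dv_gradient ((hsm.contDiffAt (hO.mem_nhds hx)).of_le two_le_smooth), hha x hx]
  have hYK : ∀ x, ‖∇ u x‖ ≤ K := fun x => by
    rw [norm_gradient]; exact norm_fderiv_le_of_lip hu.lip x
  have horth : ∫ x in Om u, fderiv ℝ g x (∇ u x) = 0 := by
    have h1 := div0 hO hS hYd hglip hg0 hgS hgO (C := K) (fun x _ _ => hYK x)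
      (fun x hx _ => by rw [hdvY x hx, abs_zero]; exact K.2)
    refine Eq.trans (setIntegral_congr_fun hO.measurableSet fun x hx => ?_) h1
    rw [hdvY x hx, mul_zero, add_zero]
  -- the competitor
  set w : E d → ℝ := fun x => u x - g x with hw
  have hw0 : ∀ x, 0 ≤ w x := fun x => sub_nonneg.2 (pert_le hu.nonneg x)
  have hwlip : LipschitzWith (K + (K + s * C)) w := hu.lip.sub hglip
  obtain ⟨r0, hr0⟩ := hS.isBounded.subset_closedBall (0 : E d)
  set r : ℝ := max r0 1 with hr
  have hrpos : 0 < r := lt_of_lt_of_le one_pos (le_max_right _ _)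
  have hSr : S ⊆ closedBall (0 : E d) r :=
    hr0.trans (closedBall_subset_closedBall (le_max_left _ _))
  set Bl : Set (E d) := ball (0 : E d) (r + 1) with hBl
  have hSB : S ⊆ Bl := hSr.trans (closedBall_subset_ball (by linarith))
  have hmin := hu.min 0 r hrpos w hw0 ⟨_, hwlip⟩ (fun x hx => by
    have : x ∉ S := fun h => hx (hSr h)
    rw [hw]; simp only
    rw [hgS x this, sub_zero])
  have hVB : volume Bl < ⊤ := measure_ball_lt_top
  have hBm : MeasurableSet Bl := measurableSet_ball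
  -- positivity sets
  have hTm : MeasurableSet (touch u φ s) := measurable_touch hcu hφ.continuousOn
  have hTB : touch u φ s ⊆ Bl := (touch_subset hφ0).trans hSB
  have hpos : {x | 0 < u x} ∩ Bl = ({x | 0 < w x} ∩ Bl) ∪ touch u φ s := by
    ext x
    simp only [mem_inter_iff, mem_ofPred_eq, mem_union]
    constructor
    · rintro ⟨h1, h2⟩
      by_cases h3 : u x ≤ s * φ x
      · exact Or.inr ⟨h1, h3⟩
      · refine Or.inl ⟨?_, h2⟩
        rw [hw]; simp only
        rw [hg]; unfold pert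
        rw [if_pos h1, min_eq_right (not_le.1 h3).le]
        linarith [not_le.1 h3]
    · rintro (⟨h1, h2⟩ | h1)
      · refine ⟨?_, h2⟩
        have h3 : w x ≤ u x := sub_le_self _ (hg0 x)
        linarith
      · exact ⟨h1.1, hTB h1⟩
  have hdisj : Disjoint ({x | 0 < w x} ∩ Bl) (touch u φ s) := by
    rw [Set.disjoint_left]
    rintro x ⟨h1, -⟩ h2
    have h3 : w x = 0 := by
      rw [hw]; simp only
      rw [hg]; unfold pert
      rw [if_pos h2.1, min_eq_left h2.2, sub_self]
    have h4 : 0 < w x := h1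
    linarith
  have hvol : (volume ({x | 0 < u x} ∩ Bl)).toReal
      = (volume ({x | 0 < w x} ∩ Bl)).toReal + (volume (touch u φ s)).toReal := by
    rw [hpos, measure_union hdisj hTm, ENNReal.toReal_add]
    · exact ((measure_mono inter_subset_right).trans_lt hVB).ne
    · exact ((measure_mono hTB).trans_lt hVB).ne
  -- the Dirichlet energies
  have hae : ∀ᵐ x ∂(volume.restrict Bl), ‖fderiv ℝ w x‖ ^ 2 - ‖fderiv ℝ u x‖ ^ 2
      = ‖fderiv ℝ g x‖ ^ 2 - 2 * fderiv ℝ g x (∇ u x) := by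
    refine ae_restrict_of_ae ?_
    filter_upwards [hu.lip.ae_differentiableAt, hglip.ae_differentiableAt] with x hx1 hx2
    have h1 := normsq_sub (fderiv ℝ u x) (fderiv ℝ w x) (∇ u x) (inner_gradient u x)
    have h2 : fderiv ℝ u x - fderiv ℝ w x = fderiv ℝ g x := by
      rw [hw, fderiv_fun_sub hx1 hx2]; abel
    rw [h2] at h1
    linarith
  have hiu := integrableOn_normsq hu.lip hVB
  have hiw := integrableOn_normsq hwlip hVB
  have hig := integrableOn_normsq hglip hVB
  have higu : IntegrableOn (fun x => fderiv ℝ g x (∇ u x)) Bl := by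
    refine Measure.integrableOn_of_bounded (M := ((K + s * C : ℝ≥0) : ℝ) * K) hVB.ne ?_ ?_
    · refine aesm_fderiv_apply _ ?_
      have : Measurable (fun x => ∇ u x) := by
        have h1 : Measurable (fderiv ℝ u) := measurable_fderiv ℝ u
        exact ((toDual ℝ (E d)).symm.continuous.measurable).comp h1
      exact this.aestronglyMeasurable
    · refine Eventually.of_forall fun x => ?_
      exact abs_clm_le (norm_fderiv_le_of_lip hglip x) (hYK x)
  have hdiff : (∫ x in Bl, ‖fderiv ℝ w x‖ ^ 2) - ∫ x in Bl, ‖fderiv ℝ u x‖ ^ 2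
      = (∫ x in Bl, ‖fderiv ℝ g x‖ ^ 2) - 2 * ∫ x in Bl, fderiv ℝ g x (∇ u x) := by
    rw [← integral_sub hiw hiu, integral_congr_ae hae, integral_sub hig (higu.const_mul 2),
      integral_const_mul]
  have hgzero : ∀ x, x ∉ S → fderiv ℝ g x = 0 := fun x hx =>
    fderiv_eq_zero_of_nonneg hg0 (hgS x hx)
  have hgzero' : ∀ x, x ∉ Om u → fderiv ℝ g x = 0 := fun x hx =>
    fderiv_eq_zero_of_nonneg hg0 (hgO x hx)
  have e1 : ∫ x in Bl, ‖fderiv ℝ g x‖ ^ 2 = ∫ x in Om u, ‖fderiv ℝ g x‖ ^ 2 := by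
    rw [setIntegral_eq_integral_of_forall_compl_eq_zero, setIntegral_eq_integral_of_forall_compl_eq_zero]
    · intro x hx; rw [hgzero' x hx]; simp
    · intro x hx; rw [hgzero x (fun h => hx (hSB h))]; simp
  have e2 : ∫ x in Bl, fderiv ℝ g x (∇ u x) = ∫ x in Om u, fderiv ℝ g x (∇ u x) := by
    rw [setIntegral_eq_integral_of_forall_compl_eq_zero, setIntegral_eq_integral_of_forall_compl_eq_zero]
    · intro x hx; rw [hgzero' x hx]; simp
    · intro x hx; rw [hgzero x (fun h => hx (hSB h))]; simp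
  rw [e1, e2, horth] at hdiff
  unfold Jr at hmin
  linarith

/-- the second half: the divergence theorem for `D²u ∇u` with the weight `pert²` -/
lemma sv2 {u : E d → ℝ} {K : ℝ≥0} (hu : LM u K) (hsm : ContDiffOn ℝ (⊤ : ℕ∞) u (Om u))
    (hha : ∀ x ∈ Om u, (Δ u) x = 0) {S : Set (E d)} (hS : IsCompact S) {M : ℝ}
    (hM : ∀ x ∈ Om u, x ∈ S → ‖D2 u x‖ ≤ M)
    {φ : E d → ℝ} (hφ : ContDiffOn ℝ 1 φ (Om u)) (h0 : ∀ x, 0 ≤ φ x)
    (hφ0 : ∀ x, x ∉ S → φ x = 0) {C : ℝ≥0} (hφb : ∀ x ∈ Om u, φ x ≤ C)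
    (hdφ : ∀ x ∈ Om u, ‖fderiv ℝ φ x‖ ≤ C) (s : ℝ≥0) :
    ∫ x in Om u, (2 * pert u φ s x * fderiv ℝ (pert u φ s) x (mp u x)
      + pert u φ s x ^ 2 * hs (D2 u x)) = 0 := by
  have hcu : Continuous u := hu.continuous
  have hO : IsOpen (Om u) := isOpen_Om hcu
  set g := pert u φ s with hg
  have hg0 : ∀ x, 0 ≤ g x := pert_nonneg s.coe_nonneg h0
  have hglip : LipschitzWith (K + s * C) g := pert_lip hu.lip hu.nonneg hφ h0 hdφ
  have hgS : ∀ x, x ∉ S → g x = 0 := by
    intro x hx
    rw [hg]; unfold pert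
    split_ifs with h
    · rw [hφ0 x hx, mul_zero]; exact min_eq_right h.le
    · rfl
  have hgO : ∀ x, x ∉ Om u → g x = 0 := fun x hx => pert_off hx
  have hgb : ∀ x, |g x| ≤ ((s * C : ℝ≥0) : ℝ) := by
    intro x
    rw [abs_of_nonneg (hg0 x), hg]; unfold pert
    split_ifs with h
    · refine (min_le_right _ _).trans ?_
      push_cast
      exact mul_le_mul_of_nonneg_left (hφb x h) s.coe_nonneg
    · exact (s * C).coe_nonneg
  have hg2lip := lip_mul hglip hglip hgb hgb
  have hM0 : ∀ x ∈ Om u, x ∈ S → ‖mp u x‖ ≤ |M| * K := by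
    intro x hx hxS
    rw [norm_mp]
    refine ((D2 u x).le_opNorm _).trans ?_
    refine mul_le_mul ((hM x hx hxS).trans (le_abs_self M)) ?_ (norm_nonneg _) (abs_nonneg _)
    rw [norm_gradient]; exact norm_fderiv_le_of_lip hu.lip x
  have hM1 : ∀ x ∈ Om u, x ∈ S → |dv (mp u) x| ≤ (d : ℝ) * (d * |M| ^ 2) := by
    intro x hx hxS
    rw [dv_mp hO hsm hha hx, abs_of_nonneg (hs_nonneg _)]
    refine (hs_le _).trans ?_
    have h1 : ‖D2 u x‖ ^ 2 ≤ |M| ^ 2 :=
      pow_le_pow_left₀ (norm_nonneg _) ((hM x hx hxS).trans (le_abs_self M)) 2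
    have h2 : (0 : ℝ) ≤ d := Nat.cast_nonneg d
    exact mul_le_mul_of_nonneg_left (mul_le_mul_of_nonneg_left h1 h2) h2
  have key := div0 hO hS ((contDiffOn_mp hO hsm).of_le (by exact_mod_cast le_top)) hg2lip
    (fun x => mul_nonneg (hg0 x) (hg0 x)) (fun x hx => by rw [hgS x hx, mul_zero])
    (fun x hx => by rw [hgO x hx, mul_zero])
    (C := max (|M| * K) ((d : ℝ) * (d * |M| ^ 2)))
    (fun x hx hxS => (hM0 x hx hxS).trans (le_max_left _ _))
    (fun x hx hxS => (hM1 x hx hxS).trans (le_max_right _ _))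
  refine Eq.trans (integral_congr_ae ?_) key
  rw [EventuallyEq, ae_restrict_iff' hO.measurableSet]
  filter_upwards [hglip.ae_differentiableAt] with x hx hxO
  rw [fderiv_fun_mul hx hx, dv_mp hO hsm hha hxO]
  simp only [add_apply, smul_apply, smul_eq_mul]
  ring

/-- bound of the Hessian on the compact set -/
lemma bdd_D2 {u : E d → ℝ} (hcu : Continuous u) (hsm : ContDiffOn ℝ (⊤ : ℕ∞) u (Om u))
    {S : Set (E d)} (hS : IsCompact S) (hreg : ∀ y ∈ S, y ∈ frontier (Om u) → RegPt u y) :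
    ∃ M : ℝ, ∀ x ∈ Om u, x ∈ S → ‖D2 u x‖ ≤ M := by
  have hO : IsOpen (Om u) := isOpen_Om hcu
  refine bdd_of_local hS fun y hy hyc => ?_
  by_cases hyO : y ∈ Om u
  · have h1 : ContinuousAt (D2 u) y := ((contDiffOn_D2 hO hsm).contDiffAt (hO.mem_nhds hyO)).continuousAt
    refine ⟨‖D2 u y‖ + 1, ?_⟩
    have h2 : ∀ᶠ x in 𝓝 y, ‖D2 u x‖ < ‖D2 u y‖ + 1 :=
      (h1.norm).eventually (gt_mem_nhds (by linarith))
    exact (h2.filter_mono nhdsWithin_le_nhds).mono fun x hx => hx.le
  · obtain ⟨e, A, B, hj⟩ := hreg y hy (by rw [frontier, hO.interior_eq]; exact ⟨hyc, hyO⟩)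
    refine ⟨‖A‖ + 1, ?_⟩
    exact ((hj.t2.norm).eventually (gt_mem_nhds (by linarith))).mono fun x hx => hx.le

lemma bdd_D3 {u : E d → ℝ} (hcu : Continuous u) (hsm : ContDiffOn ℝ (⊤ : ℕ∞) u (Om u))
    {S : Set (E d)} (hS : IsCompact S) (hreg : ∀ y ∈ S, y ∈ frontier (Om u) → RegPt u y) :
    ∃ M : ℝ, ∀ x ∈ Om u, x ∈ S → ‖D3 u x‖ ≤ M := by
  have hO : IsOpen (Om u) := isOpen_Om hcu
  refine bdd_of_local hS fun y hy hyc => ?_
  by_cases hyO : y ∈ Om u
  · have h0 : ContDiffOn ℝ (⊤ : ℕ∞) (D3 u) (Om u) :=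
      (contDiffOn_D2 hO hsm).fderiv_of_isOpen hO (le_of_eq rfl)
    have h1 : ContinuousAt (D3 u) y := (h0.contDiffAt (hO.mem_nhds hyO)).continuousAt
    refine ⟨‖D3 u y‖ + 1, ?_⟩
    have h2 : ∀ᶠ x in 𝓝 y, ‖D3 u x‖ < ‖D3 u y‖ + 1 :=
      (h1.norm).eventually (gt_mem_nhds (by linarith))
    exact (h2.filter_mono nhdsWithin_le_nhds).mono fun x hx => hx.le
  · obtain ⟨e, A, B, hj⟩ := hreg y hy (by rw [frontier, hO.interior_eq]; exact ⟨hyc, hyO⟩)
    refine ⟨‖B‖ + 1, ?_⟩
    exact ((hj.t3.norm).eventually (gt_mem_nhds (by linarith))).mono fun x hx => hx.le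


/-- STAB: the stability inequality -/
theorem stab {u : E d → ℝ} {K : ℝ≥0} (hu : LM u K) (hsm : ContDiffOn ℝ (⊤ : ℕ∞) u (Om u))
    (hha : ∀ x ∈ Om u, (Δ u) x = 0) {U : Set (E d)} (hU : IsOpen U)
    (hreg : ∀ y ∈ U, y ∈ frontier (Om u) → RegPt u y) {S : Set (E d)} (hS : IsCompact S)
    (hSU : S ⊆ U) {φ : E d → ℝ} (hφ : ContDiffOn ℝ 1 φ (Om u)) (h0 : ∀ x, 0 ≤ φ x)
    (hφ0 : ∀ x, x ∉ S → φ x = 0) {C : ℝ} (hφb : ∀ x ∈ Om u, φ x ≤ C)
    (hdφ : ∀ x ∈ Om u, ‖fderiv ℝ φ x‖ ≤ C) :
    ∫ x in Om u, (φ x ^ 2 * hs (D2 u x) + 2 * φ x * D2 u x (∇ u x) (∇ φ x))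
      ≤ ∫ x in Om u, ‖fderiv ℝ φ x‖ ^ 2 := by
  have hcu : Continuous u := hu.continuous
  have hO : IsOpen (Om u) := isOpen_Om hcu
  have hregS : ∀ y ∈ S, y ∈ frontier (Om u) → RegPt u y := fun y hy => hreg y (hSU hy)
  obtain ⟨M', hM'⟩ := bdd_D2 hcu hsm hS hregS
  set M : ℝ := max M' 0 with hMdef
  have hM0 : 0 ≤ M := le_max_right _ _
  have hM : ∀ x ∈ Om u, x ∈ S → ‖D2 u x‖ ≤ M := fun x hx hxS => (hM' x hx hxS).trans (le_max_left _ _)
  set C' : ℝ≥0 := ⟨max C 0, le_max_right _ _⟩ with hC'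
  have hCC : C ≤ (C' : ℝ) := le_max_left _ _
  have hφb' : ∀ x ∈ Om u, φ x ≤ C' := fun x hx => (hφb x hx).trans hCC
  have hdφ' : ∀ x ∈ Om u, ‖fderiv ℝ φ x‖ ≤ C' := fun x hx => (hdφ x hx).trans hCC
  have hC0 : (0 : ℝ) ≤ C' := C'.coe_nonneg
  have hφcont : ContinuousOn φ (Om u) := hφ.continuousOn
  have hd0 : (0 : ℝ) ≤ d := Nat.cast_nonneg d
  -- measurability
  have mφ : AEStronglyMeasurable φ (volume.restrict (Om u)) :=
    hφcont.aestronglyMeasurable hO.measurableSet
  have mD2 : AEStronglyMeasurable (D2 u) (volume.restrict (Om u)) :=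
    (contDiffOn_D2 hO hsm).continuousOn.aestronglyMeasurable hO.measurableSet
  have mhs : AEStronglyMeasurable (fun x => hs (D2 u x)) (volume.restrict (Om u)) := by
    have h1 : ContinuousOn (fun x => hs (D2 u x)) (Om u) := by
      unfold hs
      refine continuousOn_finsetSum _ fun i _ => continuousOn_finsetSum _ fun j _ => ?_
      exact ((((contDiffOn_D2 hO hsm).continuousOn.clm_apply continuousOn_const).clm_apply
        continuousOn_const).pow 2)
    exact h1.aestronglyMeasurable hO.measurableSet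
  have mMp : AEStronglyMeasurable (mp u) (volume.restrict (Om u)) :=
    (contDiffOn_mp hO hsm).continuousOn.aestronglyMeasurable hO.measurableSet
  have mX : AEStronglyMeasurable (fun x => D2 u x (∇ u x) (∇ φ x)) (volume.restrict (Om u)) := by
    have h1 : (fun x => D2 u x (∇ u x) (∇ φ x)) = fun x => fderiv ℝ φ x (mp u x) := by
      ext x; rw [fderiv_mp]
    rw [h1]
    exact aesm_fderiv_apply _ mMp
  -- pointwise bounds
  have hdφS : ∀ x, x ∉ S → fderiv ℝ φ x = 0 := fun x hx => fderiv_eq_zero_of_nonneg h0 (hφ0 x hx)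
  have bX : ∀ x ∈ Om u, x ∈ S → |D2 u x (∇ u x) (∇ φ x)| ≤ M * K * C' := by
    intro x hx hxS
    refine abs_bil_le (hM x hx hxS) ?_ ?_
    · rw [norm_gradient]; exact norm_fderiv_le_of_lip hu.lip x
    · rw [norm_gradient]; exact hdφ' x hx
  have bhs : ∀ x ∈ Om u, x ∈ S → hs (D2 u x) ≤ d * (d * M ^ 2) := by
    intro x hx hxS
    refine (hs_le _).trans ?_
    have h1 : ‖D2 u x‖ ^ 2 ≤ M ^ 2 := pow_le_pow_left₀ (norm_nonneg _) (hM x hx hxS) 2
    exact mul_le_mul_of_nonneg_left (mul_le_mul_of_nonneg_left h1 hd0) hd0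
  have iconst : ∀ c : ℝ, Integrable (S.indicator fun _ => c) (volume.restrict (Om u)) := by
    intro c
    refine Integrable.restrict ?_
    rw [integrable_indicator_iff hS.measurableSet]
    exact integrableOn_const (hS.measure_lt_top.ne)
  -- the integrand
  set h : E d → ℝ := fun x => ‖fderiv ℝ φ x‖ ^ 2
    - (φ x ^ 2 * hs (D2 u x) + 2 * φ x * D2 u x (∇ u x) (∇ φ x)) with hhdef
  have i1 : Integrable (fun x => ‖fderiv ℝ φ x‖ ^ 2) (volume.restrict (Om u)) := by
    refine Integrable.mono' (iconst ((C' : ℝ) ^ 2)) (measurable_normsq φ).aestronglyMeasurable ?_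
    rw [ae_restrict_iff' hO.measurableSet]
    refine Eventually.of_forall fun x hx => ?_
    by_cases hxS : x ∈ S
    · rw [indicator_of_mem hxS, Real.norm_of_nonneg (by positivity)]
      exact pow_le_pow_left₀ (norm_nonneg _) (hdφ' x hx) 2
    · rw [indicator_of_notMem hxS, hdφS x hxS]; simp
  have b2 : ∀ x ∈ Om u, x ∈ S → |φ x ^ 2 * hs (D2 u x) + 2 * φ x * D2 u x (∇ u x) (∇ φ x)|
      ≤ (C' : ℝ) ^ 2 * (d * (d * M ^ 2)) + 2 * C' * (M * K * C') := by
    intro x hx hxS
    have h1 := bhs x hx hxS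
    have h2 := bX x hx hxS
    have h3 : φ x ^ 2 ≤ (C' : ℝ) ^ 2 := pow_le_pow_left₀ (h0 x) (hφb' x hx) 2
    refine (abs_add_le _ _).trans (add_le_add ?_ ?_)
    · rw [abs_of_nonneg (mul_nonneg (sq_nonneg _) (hs_nonneg _))]
      exact mul_le_mul h3 h1 (hs_nonneg _) (sq_nonneg _)
    · rw [abs_mul, abs_of_nonneg (mul_nonneg zero_le_two (h0 x))]
      exact mul_le_mul (mul_le_mul_of_nonneg_left (hφb' x hx) zero_le_two) h2 (abs_nonneg _)
        (by positivity)
  have i2 : Integrable (fun x => φ x ^ 2 * hs (D2 u x) + 2 * φ x * D2 u x (∇ u x) (∇ φ x))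
      (volume.restrict (Om u)) := by
    refine Integrable.mono' (iconst ((C' : ℝ) ^ 2 * (d * (d * M ^ 2)) + 2 * C' * (M * K * C')))
      (((mφ.pow 2).mul mhs).add ((mφ.const_mul 2).mul mX)) ?_
    rw [ae_restrict_iff' hO.measurableSet]
    refine Eventually.of_forall fun x hx => ?_
    by_cases hxS : x ∈ S
    · rw [indicator_of_mem hxS]; exact b2 x hx hxS
    · rw [indicator_of_notMem hxS, hφ0 x hxS]; simp
  have goal' : 0 ≤ ∫ x in Om u, h x → ∫ x in Om u, (φ x ^ 2 * hs (D2 u x)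
      + 2 * φ x * D2 u x (∇ u x) (∇ φ x)) ≤ ∫ x in Om u, ‖fderiv ℝ φ x‖ ^ 2 := by
    intro hpos
    rw [hhdef, integral_sub i1 i2] at hpos
    linarith
  apply goal'
  -- layers
  obtain ⟨CL, tL, hCL, htL, hlay⟩ := layer hu hsm hha hS (fun y hy hyf => (hregS y hy hyf).half)
  -- the inequality for each ε
  have hineq : ∀ ε : ℝ, 0 < ε → -(ε * (C' * (CL * C'))) ≤ ∫ x in Om u, h x := by
    intro ε hε
    obtain ⟨t1, ht1, hexp⟩ := near_bdry hcu hS
      (fun y hy hyf => expand_near hu hsm hU hreg (hSU hy) hyf hε)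
    set t2 : ℝ := min t1 tL / (C' + 1) with ht2
    have hmin : 0 < min t1 tL := lt_min ht1 htL
    have ht20 : 0 < t2 := by positivity
    -- integrands for each s
    set hsn : ℝ → E d → ℝ := fun s x => (if u x ≤ s * φ x then 0 else
        (‖fderiv ℝ φ x‖ ^ 2 - 2 * φ x * D2 u x (∇ u x) (∇ φ x)))
        - (pert u φ s x / s) ^ 2 * hs (D2 u x) with hhsn
    have hs_bound : ∀ s : ℝ, 0 < s → ∀ x ∈ Om u, |hsn s x| ≤ S.indicator (fun _ =>
        ((C' : ℝ) ^ 2 + 2 * C' * (M * K * C')) + (C' : ℝ) ^ 2 * (d * (d * M ^ 2))) x := by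
      intro s hs0 x hx
      have hux : 0 < u x := hx
      by_cases hxS : x ∈ S
      · rw [indicator_of_mem hxS]
        refine (abs_sub _ _).trans (add_le_add ?_ ?_)
        · split_ifs
          · rw [abs_zero]; positivity
          · refine (abs_sub _ _).trans (add_le_add ?_ ?_)
            · rw [abs_of_nonneg (by positivity)]
              exact pow_le_pow_left₀ (norm_nonneg _) (hdφ' x hx) 2
            · rw [abs_mul, abs_of_nonneg (mul_nonneg zero_le_two (h0 x))]
              exact mul_le_mul (mul_le_mul_of_nonneg_left (hφb' x hx) zero_le_two) (bX x hx hxS)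
                (abs_nonneg _) (by positivity)
        · rw [abs_of_nonneg (mul_nonneg (sq_nonneg _) (hs_nonneg _))]
          refine mul_le_mul ?_ (bhs x hx hxS) (hs_nonneg _) (sq_nonneg _)
          have h1 : 0 ≤ pert u φ s x := pert_nonneg hs0.le h0 x
          have h2 : pert u φ s x ≤ s * φ x := by
            unfold pert
            rw [if_pos hux]; exact min_le_right _ _
          refine pow_le_pow_left₀ (by positivity) ?_ 2
          rw [div_le_iff₀ hs0]
          refine h2.trans ?_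
          rw [mul_comm]
          exact mul_le_mul_of_nonneg_right (hφb' x hx) hs0.le
      · rw [indicator_of_notMem hxS]
        have h1 : pert u φ s x = 0 := by
          unfold pert
          rw [if_pos hux, hφ0 x hxS, mul_zero]; exact min_eq_right hux.le
        have h2 : ¬ (u x ≤ s * φ x) := by rw [hφ0 x hxS, mul_zero]; exact not_le.2 hux
        simp only [hhsn]
        rw [if_neg h2, h1, hdφS x hxS, hφ0 x hxS]
        simp
    have hpertcont : ∀ s : ℝ, 0 < s → Continuous (pert u φ s) := fun s hs0 =>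
      (pert_lip (s := ⟨s, hs0.le⟩) hu.lip hu.nonneg hφ h0 hdφ').continuous
    have hs_meas : ∀ s : ℝ, 0 < s → AEStronglyMeasurable (hsn s) (volume.restrict (Om u)) := by
      intro s hs0
      refine AEStronglyMeasurable.sub ?_ ?_
      · have hT : MeasurableSet (touch u φ s) := measurable_touch hcu hφcont
        have h1 : AEStronglyMeasurable ((touch u φ s)ᶜ.indicator
            (fun x => ‖fderiv ℝ φ x‖ ^ 2 - 2 * φ x * D2 u x (∇ u x) (∇ φ x)))
            (volume.restrict (Om u)) := by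
          refine AEStronglyMeasurable.indicator ?_ hT.compl
          exact (measurable_normsq φ).aestronglyMeasurable.sub ((mφ.const_mul 2).mul mX)
        refine h1.congr ?_
        rw [EventuallyEq, ae_restrict_iff' hO.measurableSet]
        refine Eventually.of_forall fun x hx => ?_
        by_cases h2 : u x ≤ s * φ x
        · rw [if_pos h2, indicator_of_notMem]
          exact fun h3 => h3 ⟨hx, h2⟩
        · rw [if_neg h2, indicator_of_mem]
          exact fun h3 => h2 h3.2
      · exact (((hpertcont s hs0).div_const s).pow 2).aestronglyMeasurable.mul mhs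
    have hkey : ∀ s : ℝ, 0 < s → s < t2 → -(ε * (C' * (CL * C'))) ≤ ∫ x in Om u, hsn s x := by
      intro s hs0 hst
      obtain ⟨s', hcoe⟩ : ∃ s' : ℝ≥0, (s' : ℝ) = s := ⟨⟨s, hs0.le⟩, rfl⟩
      have hsc : s * C' < min t1 tL := by
        have h1 : s * (C' + 1) < min t1 tL := by
          rw [ht2, lt_div_iff₀ (by positivity)] at hst
          exact hst
        nlinarith
      have hT : MeasurableSet (touch u φ s) := measurable_touch hcu hφcont
      have hTS : touch u φ s ⊆ S := touch_subset hφ0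
      have hTO : touch u φ s ⊆ Om u := touch_subset_Om
      have hTf : volume (touch u φ s) < ⊤ := (measure_mono hTS).trans_lt hS.measure_lt_top
      have hTle : ∀ x ∈ touch u φ s, u x ≤ s * C' := fun x hx =>
        hx.2.trans (mul_le_mul_of_nonneg_left (hφb' x (hTO hx)) hs0.le)
      have h1 := sv1 hu hsm hha hS hφ h0 hφ0 hdφ' s'
      have h2 := sv2 hu hsm hha hS hM hφ h0 hφ0 hφb' hdφ' s'
      rw [hcoe] at h1 h2
      -- volume of the touching set
      have h3 : (volume (touch u φ s)).toReal ≤ CL * (s * C') := by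
        by_cases hC1 : (C' : ℝ) = 0
        · have : touch u φ s = ∅ := by
            ext x
            simp only [mem_empty_iff_false, iff_false]
            intro hx
            have h4 := hTle x hx
            rw [hC1, mul_zero] at h4
            have h5 : 0 < u x := hx.1
            linarith
          rw [this]; simp [hC1]
        · have hCpos : (0 : ℝ) < C' := lt_of_le_of_ne hC0 (Ne.symm hC1)
          have h4 := hlay (s * C') (by positivity) (hsc.trans_le (min_le_right _ _))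
          refine le_trans (ENNReal.toReal_mono ?_ (measure_mono ?_)) h4
          · exact ((measure_mono inter_subset_right).trans_lt hS.measure_lt_top).ne
          · exact fun x hx => ⟨⟨hx.1, hTle x hx⟩, hTS hx⟩
      -- the derivative of the perturbation
      have hplip := pert_lip (s := s') hu.lip hu.nonneg hφ h0 hdφ'
      rw [hcoe] at hplip
      have hae : ∀ᵐ x ∂(volume.restrict (Om u)),
          ‖fderiv ℝ (pert u φ s) x‖ ^ 2 - (2 * pert u φ s x * fderiv ℝ (pert u φ s) x (mp u x)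
            + pert u φ s x ^ 2 * hs (D2 u x))
          = s ^ 2 * hsn s x + (touch u φ s).indicator
            (fun x => ‖fderiv ℝ u x‖ ^ 2 - 2 * u x * D2 u x (∇ u x) (∇ u x)) x := by
        rw [ae_restrict_iff' hO.measurableSet]
        filter_upwards [hplip.ae_differentiableAt] with x hx hxO
        have hux : 0 < u x := hxO
        have hdu : DifferentiableAt ℝ u x :=
          ((hsm.contDiffAt (hO.mem_nhds hxO)).differentiableAt (by simp))
        have hsq : s ^ 2 * ((pert u φ s x / s) ^ 2 * hs (D2 u x)) = pert u φ s x ^ 2 * hs (D2 u x) := by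
          field_simp
        by_cases hle : u x ≤ s * φ x
        · rw [fderiv_pert_ge hu.nonneg hxO hle hdu hx]
          rw [indicator_of_mem (show x ∈ touch u φ s from ⟨hxO, hle⟩)]
          simp only [hhsn]
          rw [if_pos hle, zero_sub, mul_neg, hsq, fderiv_mp]
          have h5 : pert u φ s x = u x := by
            unfold pert
            rw [if_pos hux, min_eq_left hle]
          rw [h5]; ring
        · have hlt : s * φ x < u x := not_le.1 hle
          rw [fderiv_pert_lt hcu hφ hxO hlt]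
          rw [indicator_of_notMem (show x ∉ touch u φ s from fun h5 => hle h5.2)]
          simp only [hhsn]
          rw [if_neg hle, mul_sub, hsq, norm_smul, smul_apply, fderiv_mp, smul_eq_mul,
            Real.norm_of_nonneg hs0.le]
          have h5 : pert u φ s x = s * φ x := by
            unfold pert
            rw [if_pos hux, min_eq_right]
            exact (not_le.1 hle).le
          rw [h5]; ring
      have ihsn : Integrable (hsn s) (volume.restrict (Om u)) := by
        refine Integrable.mono' (iconst (((C' : ℝ) ^ 2 + 2 * C' * (M * K * C'))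
          + (C' : ℝ) ^ 2 * (d * (d * M ^ 2)))) (hs_meas s hs0) ?_
        rw [ae_restrict_iff' hO.measurableSet]
        exact Eventually.of_forall fun x hx => hs_bound s hs0 x hx
      have mg : AEStronglyMeasurable
          (fun x => ‖fderiv ℝ u x‖ ^ 2 - 2 * u x * D2 u x (∇ u x) (∇ u x))
          (volume.restrict (Om u)) := by
        refine (measurable_normsq u).aestronglyMeasurable.sub ?_
        refine (hcu.aestronglyMeasurable.const_mul 2).mul ?_
        have h5 : (fun x => D2 u x (∇ u x) (∇ u x)) = fun x => fderiv ℝ u x (mp u x) := by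
          ext x; rw [fderiv_mp]
        rw [h5]
        exact aesm_fderiv_apply _ mMp
      have hgle : ∀ x ∈ touch u φ s,
          |1 - (‖fderiv ℝ u x‖ ^ 2 - 2 * u x * D2 u x (∇ u x) (∇ u x))| ≤ ε * (s * C') := by
        intro x hx
        have h5 : u x < t1 := lt_of_le_of_lt (hTle x hx) (hsc.trans_le (min_le_left _ _))
        have h6 := hexp x (hTS hx) hx.1 h5
        have h7 : ε * u x ≤ ε * (s * C') := mul_le_mul_of_nonneg_left (hTle x hx) hε.le
        have h8 : 1 - (‖fderiv ℝ u x‖ ^ 2 - 2 * u x * D2 u x (∇ u x) (∇ u x))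
          = 1 - ‖fderiv ℝ u x‖ ^ 2 + 2 * u x * D2 u x (∇ u x) (∇ u x) := by ring
        rw [h8]
        exact h6.trans h7
      have ig : Integrable ((touch u φ s).indicator
            (fun x => ‖fderiv ℝ u x‖ ^ 2 - 2 * u x * D2 u x (∇ u x) (∇ u x)))
            (volume.restrict (Om u)) := by
        refine Integrable.mono' (iconst (1 + ε * (s * C'))) (mg.indicator hT) ?_
        refine Eventually.of_forall fun x => ?_
        by_cases hx : x ∈ touch u φ s
        · rw [indicator_of_mem hx, indicator_of_mem (hTS hx)]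
          have h5 := abs_le.1 (hgle x hx)
          rw [Real.norm_eq_abs, abs_le]
          constructor <;> linarith [h5.1, h5.2]
        · rw [indicator_of_notMem hx, norm_zero]
          exact indicator_nonneg (fun _ _ => by positivity) x
      have ip : Integrable (fun x => ‖fderiv ℝ (pert u φ s) x‖ ^ 2) (volume.restrict (Om u)) := by
        refine Integrable.mono' (iconst (((K + s' * C' : ℝ≥0) : ℝ) ^ 2))
          (measurable_normsq _).aestronglyMeasurable ?_
        refine Eventually.of_forall fun x => ?_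
        by_cases hxS : x ∈ S
        · rw [indicator_of_mem hxS, Real.norm_of_nonneg (by positivity)]
          exact pow_le_pow_left₀ (norm_nonneg _) (norm_fderiv_le_of_lip hplip x) 2
        · have h5 : pert u φ s x = 0 := by
            unfold pert
            split_ifs with h6
            · rw [hφ0 x hxS, mul_zero]; exact min_eq_right h6.le
            · rfl
          rw [fderiv_eq_zero_of_nonneg (pert_nonneg hs0.le h0) h5,
            indicator_of_notMem hxS]
          simp
      have iq : Integrable (fun x => 2 * pert u φ s x * fderiv ℝ (pert u φ s) x (mp u x)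
            + pert u φ s x ^ 2 * hs (D2 u x)) (volume.restrict (Om u)) := by
        have h5 := (ihsn.const_mul (s ^ 2)).add ig
        have h6 := ip.sub h5
        refine h6.congr ?_
        filter_upwards [hae] with x hx
        simp only [Pi.sub_apply, Pi.add_apply]
        rw [← hx]; ring
      have h5 : ∫ x in Om u, ‖fderiv ℝ (pert u φ s) x‖ ^ 2
          = s ^ 2 * (∫ x in Om u, hsn s x) + ∫ x in touch u φ s,
            (‖fderiv ℝ u x‖ ^ 2 - 2 * u x * D2 u x (∇ u x) (∇ u x)) := by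
        have h6 : ∫ x in Om u, (‖fderiv ℝ (pert u φ s) x‖ ^ 2
            - (2 * pert u φ s x * fderiv ℝ (pert u φ s) x (mp u x)
            + pert u φ s x ^ 2 * hs (D2 u x))) = ∫ x in Om u, ‖fderiv ℝ (pert u φ s) x‖ ^ 2 := by
          rw [integral_sub ip iq, h2, sub_zero]
        rw [← h6, integral_congr_ae hae, integral_add (ihsn.const_mul (s ^ 2)) ig,
          integral_const_mul, integral_indicator hT, Measure.restrict_restrict hT,
          inter_eq_left.2 hTO]
      have h6 : ∫ x in touch u φ s,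
            (‖fderiv ℝ u x‖ ^ 2 - 2 * u x * D2 u x (∇ u x) (∇ u x))
            ≤ (1 + ε * (s * C')) * (volume (touch u φ s)).toReal := by
        have h7 : ∫ x in touch u φ s,
            (‖fderiv ℝ u x‖ ^ 2 - 2 * u x * D2 u x (∇ u x) (∇ u x))
            ≤ ∫ x in touch u φ s, (1 + ε * (s * C')) := by
          refine setIntegral_mono_on ?_ (integrableOn_const hTf.ne) hT ?_
          · have h8 : IntegrableOn ((touch u φ s).indicator
              (fun x => ‖fderiv ℝ u x‖ ^ 2 - 2 * u x * D2 u x (∇ u x) (∇ u x))) (touch u φ s) :=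
              IntegrableOn.mono_set ig hTO
            refine h8.congr_fun (fun x hx => ?_) hT
            rw [indicator_of_mem hx]
          · intro x hx
            have := (abs_le.1 (hgle x hx)).1
            linarith
        rw [setIntegral_const] at h7
        simp only [smul_eq_mul, Measure.real] at h7
        linarith
      rw [h5] at h1
      have h8 : 0 ≤ s ^ 2 * (∫ x in Om u, hsn s x)
          + ε * (s * C') * (volume (touch u φ s)).toReal := by linarith
      have h9 : ε * (s * C') * (volume (touch u φ s)).toReal ≤ ε * (s * C') * (CL * (s * C')) :=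
        mul_le_mul_of_nonneg_left h3 (by positivity)
      have h10 : 0 ≤ s ^ 2 * ((∫ x in Om u, hsn s x) + ε * (C' * (CL * C'))) := by
        calc 0 ≤ s ^ 2 * (∫ x in Om u, hsn s x) + ε * (s * C') * (CL * (s * C')) := by linarith
          _ = s ^ 2 * ((∫ x in Om u, hsn s x) + ε * (C' * (CL * C'))) := by ring
      have h11 := nonneg_of_mul_nonneg_right h10 (by positivity)
      linarith
    -- the limit s → 0
    set t : ℕ → ℝ := fun n => t2 / 2 * (1 / ((n : ℝ) + 1)) with htdef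
    have ht0 : ∀ n, 0 < t n := fun n => by
      have : (0 : ℝ) < (n : ℝ) + 1 := by positivity
      simp only [htdef]; positivity
    have htlt : ∀ n, t n < t2 := fun n => by
      have h2 : (1 : ℝ) / ((n : ℝ) + 1) ≤ 1 := by
        rw [div_le_one (by positivity)]; linarith [(Nat.cast_nonneg n : (0 : ℝ) ≤ n)]
      simp only [htdef]
      nlinarith
    have htlim : Tendsto t atTop (𝓝 0) := by
      have := (tendsto_one_div_add_atTop_nhds_zero_nat (𝕜 := ℝ)).const_mul (t2 / 2)
      rwa [mul_zero] at this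
    have hlim : Tendsto (fun n => ∫ x in Om u, hsn (t n) x) atTop (𝓝 (∫ x in Om u, h x)) := by
      refine tendsto_integral_of_dominated_convergence (S.indicator (fun _ =>
        ((C' : ℝ) ^ 2 + 2 * C' * (M * K * C')) + (C' : ℝ) ^ 2 * (d * (d * M ^ 2))))
        (fun n => hs_meas _ (ht0 n)) (iconst _) ?_ ?_
      · intro n
        rw [ae_restrict_iff' hO.measurableSet]
        exact Eventually.of_forall fun x hx => hs_bound _ (ht0 n) x hx
      · rw [ae_restrict_iff' hO.measurableSet]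
        refine Eventually.of_forall fun x hx => ?_
        have hux : 0 < u x := hx
        refine tendsto_const_nhds.congr' ?_
        have h2 : Tendsto (fun n => t n * φ x) atTop (𝓝 0) := by
          have := htlim.mul_const (φ x)
          rwa [zero_mul] at this
        filter_upwards [h2.eventually (gt_mem_nhds hux)] with n hn
        have h3 : ¬ (u x ≤ t n * φ x) := not_le.2 hn
        have h4 : pert u φ (t n) x = t n * φ x := by
          unfold pert
          rw [if_pos hux, min_eq_right hn.le]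
        have h5 : t n * φ x / t n = φ x := by
          field_simp [(ht0 n).ne']
        simp only [hhsn, hhdef]
        rw [if_neg h3, h4, h5]
        ring
    exact ge_of_tendsto hlim (Eventually.of_forall fun n => hkey _ (ht0 n) (htlt n))
  -- ε → 0
  refine le_of_forall_pos_le_add fun δ hδ => ?_
  have hc0 : (0 : ℝ) ≤ C' * (CL * C') := by positivity
  have h1 := hineq (δ / (C' * (CL * C') + 1)) (by positivity)
  have h2 : δ / (C' * (CL * C') + 1) * (C' * (CL * C')) ≤ δ := by
    rw [div_mul_eq_mul_div, div_le_iff₀ (by positivity)]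
    nlinarith
  linarith

end Crest.Agent.R097
end

-- ▼ part R097/RedKato1

/-!
# Row 97, reduction: pointwise facts for `|D²u|²` and `|D³u|²`, the cubic boundary identity
-/

set_option autoImplicit false
open MeasureTheory Metric Set Filter Topology InnerProductSpace
open scoped RealInnerProductSpace NNReal ENNReal Gradient Laplacian

namespace Crest.Agent.R097

variable {d : ℕ}

namespace KT

/-- Hilbert–Schmidt norm squared of a trilinear form -/
noncomputable def hs3 (T : Tri d) : ℝ := ∑ k, ∑ i, ∑ j, (T (bv k) (bv i) (bv j)) ^ 2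

/-- the contraction `A : T(v)` -/
noncomputable def mt (A : Bil d) (T : Tri d) (v : E d) : ℝ :=
  ∑ i, ∑ j, A (bv i) (bv j) * T v (bv i) (bv j)

lemma hs3_nonneg (T : Tri d) : 0 ≤ hs3 T :=
  Finset.sum_nonneg fun _ _ => Finset.sum_nonneg fun _ _ => Finset.sum_nonneg fun _ _ => sq_nonneg _


lemma norm_sq_le_hs2 (A : Bil d) : ‖A‖ ^ 2 ≤ hs2 A := by
  have h0 := hs2_nonneg A
  have h1 : ‖A‖ ≤ Real.sqrt (hs2 A) := by
    refine A.opNorm_le_bound (Real.sqrt_nonneg _) fun v => ?_
    have h2 : ‖A v‖ ^ 2 ≤ hs2 A * ‖v‖ ^ 2 := by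
      rw [normsq_eq_sum, EuclideanSpace.norm_sq_eq]
      have h3 : ∀ j : Fin d, (A v (bv j)) ^ 2 ≤ (∑ i, (A (bv i) (bv j)) ^ 2) * ∑ i, v i ^ 2 := by
        intro j
        have h4 : A v (bv j) = ∑ i, A (bv i) (bv j) * v i := by
          have : (A.flip (bv j)) v = ∑ i, v i * (A.flip (bv j)) (bv i) := apply_eq_sum _ v
          rw [ContinuousLinearMap.flip_apply] at this
          rw [this]
          refine Finset.sum_congr rfl fun i _ => ?_
          rw [ContinuousLinearMap.flip_apply]; ring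
        rw [h4]
        exact Finset.sum_mul_sq_le_sq_mul_sq _ _ _
      calc ∑ j, (A v (bv j)) ^ 2 ≤ ∑ j, (∑ i, (A (bv i) (bv j)) ^ 2) * ∑ i, v i ^ 2 :=
            Finset.sum_le_sum fun j _ => h3 j
        _ = (∑ i, ∑ j, (A (bv i) (bv j)) ^ 2) * ∑ i, v i ^ 2 := by
            rw [← Finset.sum_mul, Finset.sum_comm]
        _ = hs2 A * ∑ i, ‖v i‖ ^ 2 := by simp [hs2]
    have h5 : ‖A v‖ ^ 2 ≤ (Real.sqrt (hs2 A) * ‖v‖) ^ 2 := by
      rw [mul_pow, Real.sq_sqrt h0]; exact h2
    exact (abs_le_of_sq_le_sq' h5 (by positivity)).2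
  calc ‖A‖ ^ 2 ≤ (Real.sqrt (hs2 A)) ^ 2 := pow_le_pow_left₀ (norm_nonneg _) h1 2
    _ = hs2 A := Real.sq_sqrt h0

lemma norm_sq_le_hs3 (T : Tri d) : ‖T‖ ^ 2 ≤ hs3 T := by
  have h0 := hs3_nonneg T
  have h1 : ‖T‖ ≤ Real.sqrt (hs3 T) := by
    refine T.opNorm_le_bound (Real.sqrt_nonneg _) fun v => ?_
    have h2 : ‖T v‖ ^ 2 ≤ hs3 T * ‖v‖ ^ 2 := by
      refine (norm_sq_le_hs2 (T v)).trans ?_
      rw [EuclideanSpace.norm_sq_eq]
      have h3 : ∀ i j : Fin d, (T v (bv i) (bv j)) ^ 2 ≤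
          (∑ k, (T (bv k) (bv i) (bv j)) ^ 2) * ∑ k, v k ^ 2 := by
        intro i j
        have h4 : T v (bv i) (bv j) = ∑ k, T (bv k) (bv i) (bv j) * v k := by
          have : ((T.flip (bv i)).flip (bv j)) v = ∑ k, v k * ((T.flip (bv i)).flip (bv j)) (bv k) :=
            apply_eq_sum _ v
          simp only [ContinuousLinearMap.flip_apply] at this
          rw [this]
          refine Finset.sum_congr rfl fun k _ => ?_
          ring
        rw [h4]
        exact Finset.sum_mul_sq_le_sq_mul_sq _ _ _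
      calc hs2 (T v) = ∑ i, ∑ j, (T v (bv i) (bv j)) ^ 2 := rfl
        _ ≤ ∑ i, ∑ j, (∑ k, (T (bv k) (bv i) (bv j)) ^ 2) * ∑ k, v k ^ 2 :=
            Finset.sum_le_sum fun i _ => Finset.sum_le_sum fun j _ => h3 i j
        _ = hs3 T * ∑ k, v k ^ 2 := by
            unfold hs3
            simp_rw [← Finset.sum_mul]
            congr 1
            exact (Finset.sum_congr rfl fun i _ => Finset.sum_comm).trans Finset.sum_comm
        _ = hs3 T * ∑ i, ‖v i‖ ^ 2 := by simp
    have h5 : ‖T v‖ ^ 2 ≤ (Real.sqrt (hs3 T) * ‖v‖) ^ 2 := by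
      rw [mul_pow, Real.sq_sqrt h0]; exact h2
    exact (abs_le_of_sq_le_sq' h5 (by positivity)).2
  calc ‖T‖ ^ 2 ≤ (Real.sqrt (hs3 T)) ^ 2 := pow_le_pow_left₀ (norm_nonneg _) h1 2
    _ = hs3 T := Real.sq_sqrt h0

lemma hs3_le (T : Tri d) : hs3 T ≤ (d : ℝ) ^ 3 * ‖T‖ ^ 2 := by
  have h1 : ∀ k i j : Fin d, (T (bv k) (bv i) (bv j)) ^ 2 ≤ ‖T‖ ^ 2 := by
    intro k i j
    rw [← sq_abs]
    refine pow_le_pow_left₀ (abs_nonneg _) ?_ 2
    have := tri_le T (bv k) i j
    rw [norm_bv, mul_one] at this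
    exact this
  calc hs3 T ≤ ∑ _k : Fin d, ∑ _i : Fin d, ∑ _j : Fin d, ‖T‖ ^ 2 :=
        Finset.sum_le_sum fun k _ => Finset.sum_le_sum fun i _ => Finset.sum_le_sum fun j _ => h1 k i j
    _ = (d : ℝ) ^ 3 * ‖T‖ ^ 2 := by simp; ring

lemma hs2_le' (A : Bil d) : hs2 A ≤ (d : ℝ) ^ 2 * ‖A‖ ^ 2 := by
  have h1 : ∀ i j : Fin d, (A (bv i) (bv j)) ^ 2 ≤ ‖A‖ ^ 2 := by
    intro i j
    rw [← sq_abs]
    refine pow_le_pow_left₀ (abs_nonneg _) ?_ 2
    have := abs_bil_le (A := A) le_rfl (norm_bv i).le (norm_bv j).le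
    linarith
  calc hs2 A ≤ ∑ _i : Fin d, ∑ _j : Fin d, ‖A‖ ^ 2 :=
        Finset.sum_le_sum fun i _ => Finset.sum_le_sum fun j _ => h1 i j
    _ = (d : ℝ) ^ 2 * ‖A‖ ^ 2 := by simp; ring

variable {u : E d → ℝ} {O : Set (E d)}

lemma stf2 (hO : IsOpen O) (hsm : ContDiffOn ℝ (⊤ : ℕ∞) u O) (hha : ∀ x ∈ O, (Δ u) x = 0) {x : E d}
    (hx : x ∈ O) : STF2 (D2 u x) := by
  have ha : ContDiffAt ℝ (⊤ : ℕ∞) u x := hsm.contDiffAt (hO.mem_nhds hx)
  refine ⟨fun a b => Hm.symm2 ha a b, ?_⟩
  have := Hm.lap_F (f := u) (x := x)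
  rw [hha x hx] at this
  exact this.symm

lemma stf3 (hO : IsOpen O) (hsm : ContDiffOn ℝ (⊤ : ℕ∞) u O) (hha : ∀ x ∈ O, (Δ u) x = 0) {x : E d}
    (hx : x ∈ O) : STF3 (D3 u x) := by
  have ha : ContDiffAt ℝ (⊤ : ℕ∞) u x := hsm.contDiffAt (hO.mem_nhds hx)
  have ha1 : ContDiffAt ℝ (⊤ : ℕ∞) (fderiv ℝ u) x := ha.fderiv_right (by simp)
  have s12 : ∀ a b c, D3 u x a b c = D3 u x b a c := by
    intro a b c
    have := Hm.symm2 ha1 a b
    exact congrArg (fun L : E d →L[ℝ] ℝ => L c) this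
  have s23 : ∀ a b c, D3 u x a b c = D3 u x a c b := fun a b c => Hm.symm3 ha a b c
  refine ⟨s12, s23, fun v => ?_⟩
  have h1 := Hm.lap_fderiv hO hsm hha x hx
  rw [Hm.lap_F] at h1
  have h2 := congrArg (fun L : E d →L[ℝ] ℝ => L v) h1
  simp only [sum_apply, _root_.zero_apply] at h2
  rw [← h2]
  refine Finset.sum_congr rfl fun i _ => ?_
  rw [s12 v (bv i) (bv i), s23 (bv i) v (bv i)]
  rfl

/-- the Laplacian of `|D²u|²` -/
lemma lap_m (hO : IsOpen O) (hsm : ContDiffOn ℝ (⊤ : ℕ∞) u O) (hha : ∀ x ∈ O, (Δ u) x = 0) {x : E d}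
    (hx : x ∈ O) : (Δ (fun y => hs2 (D2 u y))) x = 2 * hs3 (D3 u x) := by
  have hnb := hO.mem_nhds hx
  have hm : ContDiffAt ℝ 2 (fun y => hs2 (D2 u y)) x :=
    ((smooth_m hO hsm).contDiffAt hnb).of_le two_le_smooth
  have h2 : HasFDerivAt (D2 u) (D3 u x) x :=
    (((smooth_D2 hO hsm).contDiffAt hnb).differentiableAt (by simp)).hasFDerivAt
  have h3 : HasFDerivAt (D3 u) (fderiv ℝ (D3 u) x) x :=
    (((smooth_D3 hO hsm).contDiffAt hnb).differentiableAt (by simp)).hasFDerivAt
  set T4 := fderiv ℝ (D3 u) x with hT4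
  rw [laplacian_eq_sum hm]
  have e1 : ∀ k : Fin d, fderiv ℝ (fun y => fderiv ℝ (fun z => hs2 (D2 u z)) y (bv k)) x (bv k) =
      ∑ i, ∑ j, (2 * (D3 u x (bv k) (bv i) (bv j)) ^ 2 +
        2 * D2 u x (bv i) (bv j) * T4 (bv k) (bv k) (bv i) (bv j)) := by
    intro k
    have e2 : (fun y => fderiv ℝ (fun z => hs2 (D2 u z)) y (bv k)) =ᶠ[𝓝 x]
        fun y => ∑ i, ∑ j, 2 * D2 u y (bv i) (bv j) * D3 u y (bv k) (bv i) (bv j) := by
      filter_upwards [hnb] with y hy
      exact fderiv_m (((smooth_D2 hO hsm).contDiffAt (hO.mem_nhds hy)).differentiableAt (by simp)) _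
    rw [e2.fderiv_eq]
    have g2 : ∀ i j : Fin d, HasFDerivAt (fun y => D2 u y (bv i) (bv j))
        (((D3 u x).flip (bv i)).flip (bv j)) x := fun i j => Hm.hasFDerivAt_app2 h2 (bv i) (bv j)
    have g3 : ∀ i j : Fin d, HasFDerivAt (fun y => D3 u y (bv k) (bv i) (bv j))
        (((T4.flip (bv k)).flip (bv i)).flip (bv j)) x := fun i j =>
      Hm.hasFDerivAt_app (F := ℝ) (Hm.hasFDerivAt_app2 (F := E d →L[ℝ] ℝ) h3 (bv k) (bv i)) (bv j)
    have g4 : HasFDerivAt (fun y => ∑ i, ∑ j, 2 * D2 u y (bv i) (bv j) * D3 u y (bv k) (bv i) (bv j))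
        (∑ i : Fin d, ∑ j : Fin d, ((2 * D2 u x (bv i) (bv j)) • (((T4.flip (bv k)).flip (bv i)).flip (bv j)) +
          (D3 u x (bv k) (bv i) (bv j)) • ((2 : ℝ) • (((D3 u x).flip (bv i)).flip (bv j))))) x := by
      refine HasFDerivAt.fun_sum fun i _ => HasFDerivAt.fun_sum fun j _ => ?_
      exact ((g2 i j).const_mul 2).mul (g3 i j)
    rw [g4.fderiv]
    simp only [sum_apply, add_apply, smul_apply, ContinuousLinearMap.flip_apply, smul_eq_mul]
    refine Finset.sum_congr rfl fun i _ => Finset.sum_congr rfl fun j _ => ?_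
    ring
  simp_rw [e1, Finset.sum_add_distrib]
  have ha1 : ∀ y ∈ O, (Δ (fderiv ℝ u)) y = 0 := Hm.lap_fderiv hO hsm hha
  have ha2 : (Δ (D2 u)) x = 0 := Hm.lap_fderiv hO (smooth_fderiv hO hsm) ha1 x hx
  rw [Hm.lap_F] at ha2
  have e3 : ∑ k : Fin d, ∑ i : Fin d, ∑ j : Fin d,
      2 * D2 u x (bv i) (bv j) * T4 (bv k) (bv k) (bv i) (bv j) = 0 := by
    rw [Finset.sum_comm]
    refine Finset.sum_eq_zero fun i _ => ?_
    rw [Finset.sum_comm]
    refine Finset.sum_eq_zero fun j _ => ?_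
    rw [← Finset.mul_sum]
    have h4 := congrArg (fun L : Bil d => L (bv i) (bv j)) ha2
    simp only [sum_apply, _root_.zero_apply] at h4
    have h5 : ∑ k : Fin d, T4 (bv k) (bv k) (bv i) (bv j) = 0 := h4
    rw [h5, mul_zero]
  rw [e3, add_zero]
  unfold hs3
  simp only [Finset.mul_sum]

lemma fderiv_m' {x : E d} (h : DifferentiableAt ℝ (D2 u) x) (v : E d) :
    fderiv ℝ (fun x => hs2 (D2 u x)) x v = 2 * mt (D2 u x) (D3 u x) v := by
  rw [fderiv_m h]
  unfold mt
  simp only [Finset.mul_sum]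
  refine Finset.sum_congr rfl fun i _ => Finset.sum_congr rfl fun j _ => ?_
  ring

/-- Kato for `|D²u|²` -/
lemma norm_grad_m (hd : 2 ≤ d) (hO : IsOpen O) (hsm : ContDiffOn ℝ (⊤ : ℕ∞) u O)
    (hha : ∀ x ∈ O, (Δ u) x = 0) {x : E d} (hx : x ∈ O) :
    ‖∇ (fun y => hs2 (D2 u y)) x‖ ^ 2 ≤
      4 * ((d : ℝ) / (d + 2)) * hs2 (D2 u x) * hs3 (D3 u x) := by
  have hdiff : DifferentiableAt ℝ (D2 u) x :=
    ((smooth_D2 hO hsm).contDiffAt (hO.mem_nhds hx)).differentiableAt (by simp)
  rw [norm_gradient, normsq_eq_sum]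
  simp_rw [fderiv_m' hdiff, mul_pow, ← Finset.mul_sum]
  have h := Crest.Agent.R097.kato hd (stf2 hO hsm hha hx) (stf3 hO hsm hha hx)
  unfold mt hs3
  nlinarith

/-- bilinear forms vanishing on the orthogonal complement of `e` -/
lemma bil_decomp {R : Bil d} (hR : ∀ x y, R x y = R y x) {e : E d} (he : ‖e‖ = 1)
    (h0 : ∀ t, ⟪e, t⟫_ℝ = 0 → R t t = 0) (x y : E d) :
    R x y = ⟪e, x⟫_ℝ * R e y + ⟪e, y⟫_ℝ * R x e - ⟪e, x⟫_ℝ * ⟪e, y⟫_ℝ * R e e := by
  have key : ∀ t s, ⟪e, t⟫_ℝ = 0 → ⟪e, s⟫_ℝ = 0 → R t s = 0 := by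
    intro t s ht hs
    have h1 := h0 (t + s) (by rw [inner_add_right, ht, hs, add_zero])
    have h2 := h0 t ht
    have h3 := h0 s hs
    simp only [map_add, add_apply] at h1
    rw [hR s t] at h1
    linarith
  have hx : ⟪e, x - ⟪e, x⟫_ℝ • e⟫_ℝ = 0 := by
    rw [inner_sub_right, inner_smul_right, real_inner_self_eq_norm_sq, he]; ring
  have hy : ⟪e, y - ⟪e, y⟫_ℝ • e⟫_ℝ = 0 := by
    rw [inner_sub_right, inner_smul_right, real_inner_self_eq_norm_sq, he]; ring
  have h1 := key _ _ hx hy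
  simp only [map_sub, map_smul, sub_apply, smul_apply, smul_eq_mul] at h1
  linarith

/-- the square of a bilinear form -/
noncomputable def sqB (A : Bil d) : Bil d := ∑ i : Fin d, (A.flip (bv i)).smulRight (A.flip (bv i))

lemma sqB_apply (A : Bil d) (x y : E d) : sqB A x y = ∑ i, A x (bv i) * A y (bv i) := by
  unfold sqB
  simp [sum_apply]

/-- the contraction at regular free boundary points -/
lemma kk_cubic {e : E d} {A : Bil d} {B : Tri d} (h : KK e A B) :
    mt A B e = 2 * A e e * hs2 A - ∑ i, ∑ j, A (bv i) (bv j) * sqB A (bv i) (bv j) := by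
  set R : Bil d := B e - (A e e) • A + sqB A with hRdef
  have hR : ∀ x y, R x y = B e x y - A e e * A x y + sqB A x y := by
    intro x y; simp [hRdef]
  have hRs : ∀ x y, R x y = R y x := by
    intro x y
    rw [hR, hR, h.stfB.symm23 e x y, h.stfA.symm x y, sqB_apply, sqB_apply]
    congr 1
    exact Finset.sum_congr rfl fun i _ => mul_comm _ _
  have hR0 : ∀ t, ⟪e, t⟫_ℝ = 0 → R t t = 0 := by
    intro t ht
    have h1 := h.bdry t ht
    rw [hR, sqB_apply, h.stfB.symm12 e t t, h.stfB.symm23 t e t, h1]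
    have : ∑ i, A t (bv i) * A t (bv i) = ∑ i, (A t (bv i)) ^ 2 :=
      Finset.sum_congr rfl fun i _ => (sq _).symm
    rw [this]; ring
  have hdec := bil_decomp hRs h.norm_e hR0
  have hin : ∀ i : Fin d, ⟪e, bv i⟫_ℝ = e i := fun i => inner_bv' i e
  have hsum : ∀ L : E d →L[ℝ] ℝ, ∑ i, e i * L (bv i) = L e := fun L => (apply_eq_sum L e).symm
  have hAe : ∀ v, A e v = A e e * ⟪e, v⟫_ℝ := h.A_apply
  have hne : ∑ i, e i * e i = 1 := by
    have h1 := h.norm_e
    have h2 : ‖e‖ ^ 2 = 1 := by rw [h1]; norm_num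
    rw [EuclideanSpace.norm_sq_eq] at h2
    rw [← h2]
    refine Finset.sum_congr rfl fun i _ => ?_
    rw [Real.norm_eq_abs, sq_abs]; ring
  -- trace of R
  have t1 : ∑ i, R (bv i) (bv i) = R e e := by
    have e1 : ∀ i : Fin d, R (bv i) (bv i) = 2 * (e i * R e (bv i)) - (e i * e i) * R e e := by
      intro i; rw [hdec, hin, hRs (bv i) e]; ring
    simp_rw [e1]
    rw [Finset.sum_sub_distrib, ← Finset.mul_sum, hsum (R e), ← Finset.sum_mul, hne]
    ring
  have hsq : ∑ i, sqB A (bv i) (bv i) = hs2 A := by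
    unfold hs2
    refine Finset.sum_congr rfl fun i _ => ?_
    rw [sqB_apply]
    exact Finset.sum_congr rfl fun j _ => (sq _).symm
  have t2 : ∑ i, R (bv i) (bv i) = hs2 A := by
    simp_rw [hR]
    rw [Finset.sum_add_distrib, Finset.sum_sub_distrib, ← Finset.mul_sum, h.stfB.tr e, h.stfA.tr, hsq]
    ring
  -- contraction of A and R
  have t3 : ∑ i, ∑ j, A (bv i) (bv j) * R (bv i) (bv j) = A e e * R e e := by
    have e1 : ∀ i j : Fin d, A (bv i) (bv j) * R (bv i) (bv j) =
        e i * A (bv i) (bv j) * R e (bv j) + A (bv i) (bv j) * e j * R (bv i) e -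
        (e i * A (bv i) (bv j)) * e j * R e e := by
      intro i j; rw [hdec, hin, hin]; ring
    have e2 : ∀ j : Fin d, ∑ i, e i * A (bv i) (bv j) = A e e * e j := by
      intro j
      have := hsum (A.flip (bv j))
      simp only [ContinuousLinearMap.flip_apply] at this
      rw [this, hAe, hin]
    have e3 : ∀ i : Fin d, ∑ j, A (bv i) (bv j) * e j = A e e * e i := by
      intro i
      have := hsum (A (bv i))
      rw [← hin i, ← hAe, h.stfA.symm e (bv i), ← this]
      exact Finset.sum_congr rfl fun j _ => mul_comm _ _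
    simp_rw [e1]
    simp_rw [Finset.sum_sub_distrib, Finset.sum_add_distrib]
    have e4 : ∑ i, ∑ j, e i * A (bv i) (bv j) * R e (bv j) = A e e * R e e := by
      rw [Finset.sum_comm]
      simp_rw [← Finset.sum_mul, e2]
      rw [← hsum (R e), Finset.mul_sum]
      exact Finset.sum_congr rfl fun j _ => by ring
    have e5 : ∑ i, ∑ j, A (bv i) (bv j) * e j * R (bv i) e = A e e * R e e := by
      simp_rw [← Finset.sum_mul, e3]
      have := hsum (R.flip e)
      simp only [ContinuousLinearMap.flip_apply] at this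
      rw [← this, Finset.mul_sum]
      exact Finset.sum_congr rfl fun j _ => by ring
    have e6 : ∑ i, ∑ j, (e i * A (bv i) (bv j)) * e j * R e e = A e e * R e e := by
      rw [Finset.sum_comm]
      simp_rw [← Finset.sum_mul, e2]
      have : ∑ j, A e e * e j * e j = A e e := by
        have e7 : ∀ j : Fin d, A e e * e j * e j = A e e * (e j * e j) := fun j => by ring
        simp_rw [e7, ← Finset.mul_sum, hne, mul_one]
      rw [this]
    rw [e4, e5, e6]; ring
  have t4 : ∑ i, ∑ j, A (bv i) (bv j) * R (bv i) (bv j) = mt A B e - A e e * hs2 A +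
      ∑ i, ∑ j, A (bv i) (bv j) * sqB A (bv i) (bv j) := by
    unfold mt hs2
    simp only [hR, Finset.mul_sum, ← Finset.sum_add_distrib, ← Finset.sum_sub_distrib]
    refine Finset.sum_congr rfl fun i _ => Finset.sum_congr rfl fun j _ => ?_
    ring
  have t5 : R e e = hs2 A := t1.symm.trans t2
  rw [t3, t5] at t4
  linarith

/-- the bound of the contraction at regular free boundary points -/
lemma kk_bound {e : E d} {A : Bil d} {B : Tri d} (h : KK e A B) :
    |mt A B e| ≤ 3 * (Real.sqrt (hs2 A) * hs2 A) := by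
  have hm := hs2_nonneg A
  set s := Real.sqrt (hs2 A) with hs
  have hs0 : 0 ≤ s := Real.sqrt_nonneg _
  have hss : s ^ 2 = hs2 A := Real.sq_sqrt hm
  have h1 : |A e e| ≤ s := by
    have h2 := (A e).le_opNorm e
    have h3 := A.le_opNorm e
    rw [h.norm_e, mul_one] at h2 h3
    have h4 : ‖A‖ ≤ s := by
      have h5 : ‖A‖ ^ 2 ≤ s ^ 2 := by rw [hss]; exact norm_sq_le_hs2 A
      exact (abs_le_of_sq_le_sq' h5 hs0).2
    rw [← Real.norm_eq_abs]
    linarith
  have h2 : |∑ i, ∑ j, A (bv i) (bv j) * sqB A (bv i) (bv j)| ≤ s * hs2 A := by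
    have h3 : (∑ i, ∑ j, A (bv i) (bv j) * sqB A (bv i) (bv j)) ^ 2 ≤
        hs2 A * hs2 (sqB A) := by
      unfold hs2
      have := Finset.sum_mul_sq_le_sq_mul_sq (Finset.univ : Finset (Fin d × Fin d))
        (fun q => A (bv q.1) (bv q.2)) (fun q => sqB A (bv q.1) (bv q.2))
      simpa only [Fintype.sum_prod_type] using this
    have h4 : hs2 (sqB A) ≤ hs2 A * hs2 A := by
      have h5 : ∀ i j : Fin d, (sqB A (bv i) (bv j)) ^ 2 ≤
          (∑ k, (A (bv i) (bv k)) ^ 2) * (∑ k, (A (bv j) (bv k)) ^ 2) := by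
        intro i j
        rw [sqB_apply]
        exact Finset.sum_mul_sq_le_sq_mul_sq _ _ _
      calc hs2 (sqB A) ≤ ∑ i, ∑ j, (∑ k, (A (bv i) (bv k)) ^ 2) * (∑ k, (A (bv j) (bv k)) ^ 2) :=
            Finset.sum_le_sum fun i _ => Finset.sum_le_sum fun j _ => h5 i j
        _ = hs2 A * hs2 A := by
            rw [← Finset.sum_mul_sum]; rfl
    have h6 : (∑ i, ∑ j, A (bv i) (bv j) * sqB A (bv i) (bv j)) ^ 2 ≤ (s * hs2 A) ^ 2 := by
      rw [mul_pow, hss]
      nlinarith
    exact abs_le_of_sq_le_sq h6 (by positivity)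
  rw [kk_cubic h]
  have h7 : |2 * A e e * hs2 A| ≤ 2 * s * hs2 A := by
    rw [abs_mul, abs_mul, abs_two, abs_of_nonneg hm]
    gcongr
  calc _ ≤ |2 * A e e * hs2 A| + |∑ i, ∑ j, A (bv i) (bv j) * sqB A (bv i) (bv j)| := abs_sub _ _
    _ ≤ 2 * s * hs2 A + s * hs2 A := add_le_add h7 h2
    _ = 3 * (s * hs2 A) := by ring

end KT

end Crest.Agent.R097
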