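import Crest.Agent.R097.SC3
import Crest.Agent.R097.CQ2

/-!
# Row 97: certificate data, link dimension `n = 4` (integer coefficients, scale 1)
-/

set_option autoImplicit false

namespace Crest.Agent.R097.V4

open CP SC

def g : Pol := [⟨1211, 0, 0, 0, 0⟩, ⟨-1086, 0, 0, 0, 1⟩, ⟨3000, 0, 0, 0, 2⟩, ⟨-116, 0, 0, 1, 0⟩, ⟨2432, 0, 0, 1, 1⟩, ⟨-2752, 0, 0, 1, 2⟩, ⟨-210, 0, 0, 2, 0⟩, ⟨-1654, 0, 0, 2, 1⟩, ⟨346, 0, 1, 0, 0⟩, ⟨1574, 0, 1, 0, 1⟩, ⟨-501, 0, 1, 0, 2⟩, ⟨-1220, 0, 1, 1, 0⟩, ⟨-732, 0, 1, 1, 1⟩, ⟨423, 0, 1, 2, 0⟩, ⟨981, 1, 0, 0, 0⟩, ⟨123, 1, 0, 0, 1⟩, ⟨48, 1, 0, 0, 2⟩, ⟨-1096, 1, 0, 1, 0⟩, ⟨1560, 1, 0, 1,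 1⟩, ⟨172, 1, 0, 2, 0⟩, ⟨603, 1, 1, 0, 0⟩, ⟨-379, 1, 1, 0, 1⟩, ⟨-678, 1, 1, 1, 0⟩]

def p0A : Pol := [⟨-326, 0, 0, 0, 0⟩, ⟨3000, 0, 0, 0, 1⟩, ⟨60, 0, 0, 0, 2⟩, ⟨1227, 0, 0, 1, 0⟩, ⟨-2999, 0, 0, 1, 1⟩, ⟨-1442, 0, 0, 1, 2⟩, ⟨-364, 0, 0, 2, 0⟩, ⟨518, 0, 0, 2, 1⟩, ⟨897, 1, 0, 0, 0⟩, ⟨-2957, 1, 0, 0, 1⟩, ⟨1177, 1, 0, 0, 2⟩, ⟨-19, 1, 0, 1, 0⟩, ⟨2999, 1, 0, 1, 1⟩, ⟨-1392, 1, 0, 2, 0⟩]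

def p0B : Pol := [⟨-665, 0, 1, 0, 0⟩, ⟨2442, 0, 1, 0, 1⟩, ⟨401, 0, 1, 0, 2⟩, ⟨2999, 0, 1, 1, 0⟩, ⟨-3000, 0, 1, 1, 1⟩, ⟨-2514, 0, 1, 2, 0⟩, ⟨1102, 1, 1, 0, 0⟩, ⟨-201, 1, 1, 0, 1⟩, ⟨-82, 1, 1, 1, 0⟩]

def p1A : Pol := [⟨-1417, 0, 0, 0, 1⟩, ⟨2407, 0, 0, 0, 2⟩, ⟨3000, 0, 0, 1, 1⟩, ⟨3000, 0, 0, 1, 2⟩, ⟨241, 0, 0, 2, 1⟩, ⟨-2251, 1, 0, 0, 1⟩, ⟨901, 1, 0, 0, 2⟩, ⟨3000, 1, 0, 1, 1⟩]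

def p1B : Pol := [⟨1270, 0, 0, 0, 0⟩, ⟨-2615, 0, 0, 1, 0⟩, ⟨2151, 0, 0, 2, 0⟩, ⟨-378, 0, 1, 0, 0⟩, ⟨-3000, 0, 1, 0, 1⟩, ⟨-2877, 0, 1, 0, 2⟩, ⟨-283, 0, 1, 1, 0⟩, ⟨1068, 0, 1, 1, 1⟩, ⟨-437, 0, 1, 2, 0⟩, ⟨-1991, 1, 0, 0, 0⟩, ⟨2643, 1, 0, 1, 0⟩, ⟨-1460, 1, 0, 2, 0⟩, ⟨-1467, 1, 1, 0, 0⟩, ⟨1518, 1, 1, 0, 1⟩, ⟨1180, 1, 1, 1, 0⟩]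


def p2B : Pol := [⟨-130, 0, 0, 0, 0⟩, ⟨2462, 0, 0, 0, 1⟩, ⟨880, 0, 0, 0, 2⟩, ⟨867, 0, 0, 1, 0⟩, ⟨-678, 0, 0, 1, 1⟩, ⟨1836, 0, 0, 1, 2⟩, ⟨-184, 0, 0, 2, 0⟩, ⟨-1140, 0, 0, 2, 1⟩, ⟨-2331, 0, 1, 0, 0⟩, ⟨2999, 0, 1, 0, 1⟩, ⟨-1496, 0, 1, 0, 2⟩, ⟨2764, 0, 1, 1, 0⟩, ⟨-2999, 0, 1, 1, 1⟩, ⟨-644, 0, 1, 2, 0⟩, ⟨-555, 1, 0, 0, 0⟩, ⟨666, 1, 0, 0, 1⟩, ⟨-2057, 1, 0, 0, 2⟩, ⟨944, 1, 0, 1, 0⟩, ⟨-3000, 1, 0, 1, 1⟩, ⟨-63, 1, 0, 2, 0⟩, ⟨-205, 1, 1, 0, 0⟩, ⟨3000, 1, 1, 0, 1⟩, ⟨314, 1, 1, 1, 0⟩]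

def ZA : Pol := [⟨1618, 0, 0, 0, 0⟩, ⟨-1158, 0, 0, 0, 1⟩, ⟨583, 0, 0, 0, 2⟩, ⟨47, 0, 0, 1, 0⟩, ⟨2964, 0, 0, 1, 1⟩, ⟨-772, 0, 0, 1, 2⟩, ⟨-217, 0, 0, 2, 0⟩, ⟨-1922, 0, 0, 2, 1⟩, ⟨1165, 1, 0, 0, 0⟩, ⟨-846, 1, 0, 0, 1⟩, ⟨472, 1, 0, 0, 2⟩, ⟨-3000, 1, 0, 1, 0⟩, ⟨2997, 1, 0, 1, 1⟩, ⟨1733, 1, 0, 2, 0⟩]

def ZB : Pol := [⟨899, 0, 1, 0, 0⟩, ⟨-916, 0, 1, 0, 1⟩, ⟨329, 0, 1, 0, 2⟩, ⟨-3000, 0, 1, 1, 0⟩, ⟨1607, 0, 1, 1, 1⟩, ⟨1448, 0, 1, 2, 0⟩, ⟨-2040, 1, 1, 0, 0⟩, ⟨-364, 1, 1, 0, 1⟩, ⟨2701, 1, 1, 1, 0⟩]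

def p1 : Pol := oneSub p1A ++ p1B
def p2 : Pol := p2B

/-- the certificate data -/
def D : Dat where
  g := g
  p0 := oneSub p0A ++ p0B
  p1 := p1
  p2 := p2
  p3 := []
  Z := oneSub ZA ++ ZB

/-- parameters: `n`, `A₀ = 3/1`, `Lam = 113/50`, `N4` -/
def P : CQ.Par := ⟨4, 3, 1, 113, 50, 54⟩

end Crest.Agent.R097.V4
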