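import Crest.Agent.R097.SC3
import Crest.Agent.R097.CQ2

/-!
# Row 97: certificate data, link dimension `n = 5` (integer coefficients, scale 1)
-/

set_option autoImplicit false

namespace Crest.Agent.R097.V5

open CP SC

def g : Pol := [⟨4420, 0, 0, 0, 0⟩, ⟨-56, 0, 0, 0, 1⟩, ⟨13588, 0, 0, 0, 2⟩, ⟨38400, 0, 0, 0, 3⟩, ⟨-5350, 0, 0, 1, 0⟩, ⟨-8723, 0, 0, 1, 1⟩, ⟨-21834, 0, 0, 1, 2⟩, ⟨-26087, 0, 0, 1, 3⟩, ⟨6546, 0, 0, 2, 0⟩, ⟨19660, 0, 0, 2, 1⟩, ⟨9561, 0, 0, 2, 2⟩, ⟨-3017, 0, 0, 3, 0⟩, ⟨-12363, 0, 0, 3, 1⟩, ⟨834, 0, 1, 0, 0⟩, ⟨17423, 0, 1, 0, 1⟩, ⟨-18711, 0, 1, 0, 2⟩, ⟨8218, 0, 1, 0, 3⟩, ⟨-11259,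 0, 1, 1, 0⟩, ⟨-25149, 0, 1, 1, 1⟩, ⟨16600, 0, 1, 1, 2⟩, ⟨15591, 0, 1, 2, 0⟩, ⟨12827, 0, 1, 2, 1⟩, ⟨-7299, 0, 1, 3, 0⟩, ⟨-644, 0, 2, 0, 0⟩, ⟨5229, 0, 2, 0, 1⟩, ⟨-13061, 0, 2, 0, 2⟩, ⟨5037, 0, 2, 1, 0⟩, ⟨-6414, 0, 2, 1, 1⟩, ⟨-3257, 0, 2, 2, 0⟩, ⟨-3987, 1, 0, 0, 0⟩, ⟨-228, 1, 0, 0, 1⟩, ⟨38399, 1, 0, 0, 2⟩, ⟨635, 1, 0, 0, 3⟩, ⟨11004, 1, 0, 1, 0⟩, ⟨24258, 1, 0, 1, 1⟩, ⟨-37518, 1, 0, 1, 2⟩, ⟨-3113, 1, 0, 2, 0⟩, ⟨-29986, 1, 0, 2, 1⟩, ⟨-3605, 1, 0, 3, 0⟩, ⟨2494, 1, 1, 0, 0⟩, ⟨25396, 1, 1, 0, 1⟩, ⟨-4871, 1, 1, 0, 2⟩, ⟨-14819, 1, 1, 1, 0⟩, ⟨-9366, 1, 1, 1, 1⟩, ⟨8833, 1, 1, 2, 0⟩, ⟨13965, 1, 2,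 0, 0⟩, ⟨-16054, 1, 2, 0, 1⟩, ⟨-10836, 1, 2, 1, 0⟩, ⟨8682, 2, 0, 0, 0⟩, ⟨9970, 2, 0, 0, 1⟩, ⟨351, 2, 0, 0, 2⟩, ⟨-17974, 2, 0, 1, 0⟩, ⟨-764, 2, 0, 1, 1⟩, ⟨9011, 2, 0, 2, 0⟩, ⟨4707, 2, 1, 0, 0⟩, ⟨-11240, 2, 1, 0, 1⟩, ⟨-7888, 2, 1, 1, 0⟩, ⟨3131, 2, 2, 0, 0⟩]

def p0A : Pol := [⟨-10338, 0, 0, 0, 0⟩, ⟨15891, 0, 0, 0, 1⟩, ⟨16267, 0, 0, 0, 2⟩, ⟨38399, 0, 0, 0, 3⟩, ⟨11065, 0, 0, 1, 0⟩, ⟨-3474, 0, 0, 1, 1⟩, ⟨-38397, 0, 0, 1, 2⟩, ⟨-8756, 0, 0, 1, 3⟩, ⟨6294, 0, 0, 2, 0⟩, ⟨-19844, 0, 0, 2, 1⟩, ⟨38400, 0, 0, 2, 2⟩, ⟨-5770, 0, 0, 3, 0⟩, ⟨12755, 0, 0, 3, 1⟩, ⟨-8181, 1, 0, 0, 0⟩, ⟨38397, 1, 0, 0, 1⟩,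 ⟨38399, 1, 0, 0, 2⟩, ⟨-37296, 1, 0, 0, 3⟩, ⟨-9419, 1, 0, 1, 0⟩, ⟨-38400, 1, 0, 1, 1⟩, ⟨-38400, 1, 0, 1, 2⟩, ⟨38399, 1, 0, 2, 0⟩, ⟨4408, 1, 0, 2, 1⟩, ⟨-21273, 1, 0, 3, 0⟩, ⟨4751, 2, 0, 0, 0⟩, ⟨26268, 2, 0, 0, 1⟩, ⟨-15609, 2, 0, 0, 2⟩, ⟨12940, 2, 0, 1, 0⟩, ⟨-34561, 2, 0, 1, 1⟩, ⟨-18443, 2, 0, 2, 0⟩]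

def p0B : Pol := [⟨-8770, 0, 1, 0, 0⟩, ⟨35135, 0, 1, 0, 1⟩, ⟨12165, 0, 1, 0, 2⟩, ⟨-24598, 0, 1, 0, 3⟩, ⟨1974, 0, 1, 1, 0⟩, ⟨-38400, 0, 1, 1, 1⟩, ⟨-38399, 0, 1, 1, 2⟩, ⟨38400, 0, 1, 2, 0⟩, ⟨-5748, 0, 1, 2, 1⟩, ⟨-32289, 0, 1, 3, 0⟩, ⟨1972, 0, 2, 0, 0⟩, ⟨28219, 0, 2, 0, 1⟩, ⟨-19990, 0, 2, 0, 2⟩, ⟨-13308, 0, 2, 1, 0⟩, ⟨-16615, 0, 2, 1, 1⟩, ⟨12842, 0, 2, 2, 0⟩, ⟨6402, 1, 1, 0, 0⟩, ⟨38399, 1, 1, 0, 1⟩, ⟨22486, 1, 1, 0, 2⟩, ⟨-38400, 1, 1, 1, 0⟩, ⟨-6725, 1, 1, 1, 1⟩, ⟨29298, 1, 1, 2, 0⟩, ⟨16170, 1, 2, 0, 0⟩, ⟨5914, 1, 2, 0, 1⟩, ⟨-14632, 1, 2, 1, 0⟩, ⟨13248, 2, 1, 0, 0⟩, ⟨-19693, 2, 1, 0, 1⟩,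 ⟨-7322, 2, 1, 1, 0⟩, ⟨281, 2, 2, 0, 0⟩]

def p1A : Pol := [⟨-22668, 0, 0, 0, 1⟩, ⟨34018, 0, 0, 0, 2⟩, ⟨25140, 0, 0, 0, 3⟩, ⟨-27234, 0, 0, 1, 1⟩, ⟨38397, 0, 0, 1, 2⟩, ⟨23042, 0, 0, 1, 3⟩, ⟨38399, 0, 0, 2, 1⟩, ⟨-2931, 0, 0, 2, 2⟩, ⟨17224, 0, 0, 3, 1⟩, ⟨-38027, 1, 0, 0, 1⟩, ⟨38399, 1, 0, 0, 2⟩, ⟨4760, 1, 0, 0, 3⟩, ⟨38399, 1, 0, 1, 1⟩, ⟨38400, 1, 0, 1, 2⟩, ⟨22823, 1, 0, 2, 1⟩, ⟨-17025, 2, 0, 0, 1⟩, ⟨24260, 2, 0, 0, 2⟩, ⟨38400, 2, 0, 1, 1⟩]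

def p1B : Pol := [⟨8405, 0, 0, 0, 0⟩, ⟨4975, 0, 0, 1, 0⟩, ⟨-29863, 0, 0, 2, 0⟩, ⟨20054, 0, 0, 3, 0⟩, ⟨-2658, 0, 1, 0, 0⟩, ⟨-34378, 0, 1, 0, 1⟩, ⟨-36130, 0, 1, 0, 2⟩, ⟨38393, 0, 1, 0, 3⟩, ⟨18931, 0, 1, 1, 0⟩, ⟨38389, 0, 1, 1, 1⟩, ⟨29241, 0, 1, 1, 2⟩, ⟨-38399, 0, 1, 2, 0⟩, ⟨3528, 0, 1, 2, 1⟩, ⟨15335, 0, 1, 3, 0⟩, ⟨3785, 0, 2, 0, 0⟩, ⟨-10036, 0, 2, 0, 1⟩, ⟨21444, 0, 2, 0, 2⟩, ⟨-24915, 0, 2, 1, 0⟩, ⟨3519, 0, 2, 1, 1⟩, ⟨23053, 0, 2, 2, 0⟩, ⟨-38398, 1, 0, 0, 0⟩, ⟨13507, 1, 0, 1, 0⟩, ⟨11964, 1, 0, 2, 0⟩, ⟨6439, 1, 0, 3, 0⟩, ⟨-38351, 1, 1, 0, 0⟩, ⟨33321, 1, 1, 0, 1⟩, ⟨-3302, 1, 1, 0, 2⟩, ⟨38400,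 1, 1, 1, 0⟩, ⟨38399, 1, 1, 1, 1⟩, ⟨-7827, 1, 1, 2, 0⟩, ⟨-11894, 1, 2, 0, 0⟩, ⟨38370, 1, 2, 0, 1⟩, ⟨13145, 1, 2, 1, 0⟩, ⟨19960, 2, 0, 0, 0⟩, ⟨8946, 2, 0, 1, 0⟩, ⟨-25992, 2, 0, 2, 0⟩, ⟨2827, 2, 1, 0, 0⟩, ⟨289, 2, 1, 0, 1⟩, ⟨6437, 2, 1, 1, 0⟩, ⟨16892, 2, 2, 0, 0⟩]


def p2B : Pol := [⟨18426, 0, 0, 0, 0⟩, ⟨5962, 0, 0, 0, 1⟩, ⟨-38400, 0, 0, 0, 2⟩, ⟨38399, 0, 0, 0, 3⟩, ⟨-38399, 0, 0, 1, 0⟩, ⟨9405, 0, 0, 1, 1⟩, ⟨-38399, 0, 0, 1, 2⟩, ⟨25140, 0, 0, 1, 3⟩, ⟨33318, 0, 0, 2, 0⟩, ⟨-8083, 0, 0, 2, 1⟩, ⟨14834, 0, 0, 2, 2⟩, ⟨-10345, 0, 0, 3, 0⟩, ⟨-10510, 0, 0, 3, 1⟩, ⟨2096, 0, 1, 0, 0⟩, ⟨-15957, 0, 1,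 0, 1⟩, ⟨-36945, 0, 1, 0, 2⟩, ⟨11530, 0, 1, 0, 3⟩, ⟨7983, 0, 1, 1, 0⟩, ⟨38397, 0, 1, 1, 1⟩, ⟨38399, 0, 1, 1, 2⟩, ⟨-38367, 0, 1, 2, 0⟩, ⟨-3129, 0, 1, 2, 1⟩, ⟨23549, 0, 1, 3, 0⟩, ⟨-2461, 0, 2, 0, 0⟩, ⟨11715, 0, 2, 0, 1⟩, ⟨-740, 0, 2, 0, 2⟩, ⟨-5888, 0, 2, 1, 0⟩, ⟨-17240, 0, 2, 1, 1⟩, ⟨8536, 0, 2, 2, 0⟩, ⟨-38400, 1, 0, 0, 0⟩, ⟨38399, 1, 0, 0, 1⟩, ⟨38400, 1, 0, 0, 2⟩, ⟨38400, 1, 0, 0, 3⟩, ⟨38399, 1, 0, 1, 0⟩, ⟨-25756, 1, 0, 1, 1⟩, ⟨-38396, 1, 0, 1, 2⟩, ⟨76, 1, 0, 2, 0⟩, ⟨-38399, 1, 0, 2, 1⟩, ⟨-2247, 1, 0, 3, 0⟩, ⟨23093, 1, 1, 0, 0⟩, ⟨38387, 1, 1, 0, 1⟩, ⟨-38376, 1, 1, 0, 2⟩, ⟨-38399, 1, 1,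 1, 0⟩, ⟨-1752, 1, 1, 1, 1⟩, ⟨10900, 1, 1, 2, 0⟩, ⟨15634, 1, 2, 0, 0⟩, ⟨-7594, 1, 2, 0, 1⟩, ⟨-22822, 1, 2, 1, 0⟩, ⟨17251, 2, 0, 0, 0⟩, ⟨38400, 2, 0, 0, 1⟩, ⟨38400, 2, 0, 0, 2⟩, ⟨-34312, 2, 0, 1, 0⟩, ⟨-15690, 2, 0, 1, 1⟩, ⟨16896, 2, 0, 2, 0⟩, ⟨22562, 2, 1, 0, 0⟩, ⟨5639, 2, 1, 0, 1⟩, ⟨-25654, 2, 1, 1, 0⟩, ⟨10363, 2, 2, 0, 0⟩]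

def ZA : Pol := [⟨4769, 0, 0, 0, 0⟩, ⟨-7231, 0, 0, 0, 1⟩, ⟨36294, 0, 0, 0, 2⟩, ⟨-38400, 0, 0, 0, 3⟩, ⟨-2395, 0, 0, 1, 0⟩, ⟨22833, 0, 0, 1, 1⟩, ⟨-27702, 0, 0, 1, 2⟩, ⟨2217, 0, 0, 1, 3⟩, ⟨8410, 0, 0, 2, 0⟩, ⟨-31090, 0, 0, 2, 1⟩, ⟨-121, 0, 0, 2, 2⟩, ⟨-5883, 0, 0, 3, 0⟩, ⟨12065, 0, 0, 3, 1⟩, ⟨-12499, 1, 0, 0, 0⟩, ⟨25107, 1, 0, 0, 1⟩, ⟨-38316, 1, 0, 0, 2⟩, ⟨38399, 1, 0, 0, 3⟩, ⟨32616, 1, 0, 1, 0⟩, ⟨-32324, 1, 0, 1, 1⟩, ⟨38398, 1, 0, 1, 2⟩, ⟨-30514, 1, 0, 2, 0⟩, ⟨7595, 1, 0, 2, 1⟩, ⟨8261, 1, 0, 3, 0⟩, ⟨16435, 2, 0, 0, 0⟩, ⟨-17952, 2, 0, 0, 1⟩, ⟨-6218, 2, 0, 0, 2⟩, ⟨-30635, 2, 0, 1, 0⟩, ⟨21805,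 2, 0, 1, 1⟩, ⟨14974, 2, 0, 2, 0⟩]

def ZB : Pol := [⟨1472, 0, 1, 0, 0⟩, ⟨4998, 0, 1, 0, 1⟩, ⟨-24806, 0, 1, 0, 2⟩, ⟨21763, 0, 1, 0, 3⟩, ⟨-9920, 0, 1, 1, 0⟩, ⟨7652, 0, 1, 1, 1⟩, ⟨13409, 0, 1, 1, 2⟩, ⟨4909, 0, 1, 2, 0⟩, ⟨-2512, 0, 1, 2, 1⟩, ⟨638, 0, 1, 3, 0⟩, ⟨-2737, 0, 2, 0, 0⟩, ⟨-277, 0, 2, 0, 1⟩, ⟨-4726, 0, 2, 0, 2⟩, ⟨4898, 0, 2, 1, 0⟩, ⟨-3854, 0, 2, 1, 1⟩, ⟨-3138, 0, 2, 2, 0⟩, ⟨-1277, 1, 1, 0, 0⟩, ⟨-12209, 1, 1, 0, 1⟩, ⟨10302, 1, 1, 0, 2⟩, ⟨4240, 1, 1, 1, 0⟩, ⟨7346, 1, 1, 1, 1⟩, ⟨-5791, 1, 1, 2, 0⟩, ⟨15905, 1, 2, 0, 0⟩, ⟨-16161, 1, 2, 0, 1⟩, ⟨-12247, 1, 2, 1, 0⟩, ⟨-2268, 2, 1, 0, 0⟩,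 ⟨-9876, 2, 1, 0, 1⟩, ⟨7807, 2, 1, 1, 0⟩, ⟨-5930, 2, 2, 0, 0⟩]

def p1 : Pol := oneSub p1A ++ p1B
def p2 : Pol := p2B

/-- the certificate data -/
def D : Dat where
  g := g
  p0 := oneSub p0A ++ p0B
  p1 := p1
  p2 := p2
  p3 := []
  Z := oneSub ZA ++ ZB

/-- parameters: `n`, `A₀ = 1/1`, `Lam = 401/100`, `N4` -/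
def P : CQ.Par := ⟨5, 1, 1, 401, 100, 192⟩

end Crest.Agent.R097.V5
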